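import Vale.Agent.P338.Prim

/-! A calculus of linear time bounds with polynomial overhead on small parameters. -/

namespace Vale.Agent.P338

open Function Vale.Agent.Common.TreeTM Enc

/-- `K (z + 1) + n (l + 2) ^ K`: linear in the data size `z`, plus `n` computations of
polynomial cost in `l`. -/
def wt (K z n l : ℕ) : ℕ := K * (z + 1) + n * (l + 2) ^ K

theorem wt_mono {K K' : ℕ} (h : K ≤ K') (z n l : ℕ) : wt K z n l ≤ wt K' z n l :=
  Nat.add_le_add (Nat.mul_le_mul_right _ h)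
    (Nat.mul_le_mul_left _ (Nat.pow_le_pow_right (by omega) h))

/-- An ambient domain with its cost scale. -/
structure Amb (α : Type) [Enc α] where
  D : α → Prop
  z : α → ℕ
  n : α → ℕ
  l : α → ℕ
  ok : ∃ K, ∀ a, D a → sz a ≤ wt K (z a) (n a) (l a)

variable {α β γ δ σ ω β₁ β₂ π : Type} [Enc α] [Enc β] [Enc γ] [Enc δ] [Enc σ] [Enc ω] [Enc β₁]
  [Enc β₂] [Enc π]

def Amb.wt (𝒜 : Amb α) (K : ℕ) (a : α) : ℕ := P338.wt K (𝒜.z a) (𝒜.n a) (𝒜.l a)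

/-- The linear ambient. -/
def lin (α : Type) [Enc α] : Amb α :=
  ⟨fun _ => True, sz, fun _ => 0, fun _ => 0, 1, fun a _ => by simp [wt]⟩

/-- Restriction of the domain. -/
def Amb.sub (𝒜 : Amb α) (p : α → Prop) : Amb α :=
  ⟨fun a => 𝒜.D a ∧ p a, 𝒜.z, 𝒜.n, 𝒜.l, 𝒜.ok.imp fun _ h a ha => h a ha.1⟩

/-- `x` is bounded by the cost scale. -/
def Bnd (𝒜 : Amb α) (x : α → ℕ) : Prop := ∃ K, ∀ a, 𝒜.D a → x a ≤ 𝒜.wt K a

/-- The family `x K` is bounded by the cost scale. -/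
def Dom (𝒜 : Amb α) (x : ℕ → α → ℕ) : Prop := ∀ K, Bnd 𝒜 (x K)

/-- `f` is computed within the cost scale, plus `u` for the recursive calls to `g`, and its
values have size within the cost scale. -/
def Oc (g : γ → δ) (𝒜 : Amb α) (u : (γ → ℕ∞) → α → ℕ∞) (f : α → β) : Prop :=
  (∃ K, At g 𝒜.D f (𝒜.wt K) u) ∧ Bnd 𝒜 fun a => sz (f a)

/-- The function type as a constant, so that `fun_prop` looks at the last argument of `Cl`. -/
def Fun (γ δ : Type) : Type := γ → δ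

/-- No recursive calls. -/
@[fun_prop] def Cl (g : Fun γ δ) (𝒜 : Amb α) (f : α → β) : Prop := Oc g 𝒜 u0 f

/-- A small parameter. -/
def Sm (g : γ → δ) (𝒜 : Amb α) (f : α → β) : Prop :=
  Cl g 𝒜 f ∧ ∃ c, ∀ a, 𝒜.D a → 1 ≤ 𝒜.n a ∧ sz (f a) ≤ (𝒜.l a + 2) ^ c

/-- `N` steps, each of linear cost in `P` and polynomial cost in small parameters, are within
the cost scale. -/
def Fit (𝒜 : Amb α) (N P : α → ℕ) : Prop :=
  ∃ c, ∀ a, 𝒜.D a → (N a + 1) * (P a + 1) ≤ c * (𝒜.z a + 1) ∧ N a + 1 ≤ c * 𝒜.n a ∧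
    N a < 2 ^ (𝒜.l a + 2) ^ c

variable {g : γ → δ} {𝒜 : Amb α} {𝓑 : Amb β}

/-! ### Bounds -/

namespace AmbAux

theorem pw_add (l a b : ℕ) : (l + 2) ^ a + (l + 2) ^ b ≤ (l + 2) ^ (a + b + 1) := by
  have h1 : (l + 2) ^ a ≤ (l + 2) ^ (a + b) := Nat.pow_le_pow_right (by omega) (by omega)
  have h2 : (l + 2) ^ b ≤ (l + 2) ^ (a + b) := Nat.pow_le_pow_right (by omega) (by omega)
  have h3 : (l + 2) ^ (a + b) * 2 ≤ (l + 2) ^ (a + b) * (l + 2) :=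
    Nat.mul_le_mul_left _ (by omega)
  rw [pow_succ]
  omega

theorem le_pw (l c : ℕ) : c ≤ (l + 2) ^ c :=
  Nat.lt_two_pow_self.le.trans (Nat.pow_le_pow_left (by omega) _)

theorem pw_mono (l : ℕ) {a b : ℕ} (h : a ≤ b) : (l + 2) ^ a ≤ (l + 2) ^ b :=
  Nat.pow_le_pow_right (by omega) h

theorem pw_pw {y l c : ℕ} (h : y ≤ (l + 2) ^ c) (K : ℕ) :
    (y + 2) ^ K ≤ (l + 2) ^ ((c + 3) * K) := by
  rw [pow_mul]
  exact Nat.pow_le_pow_left ((Nat.add_le_add h (le_pw l 2)).trans (pw_add l c 2)) _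

theorem bd_poly {m : α → ℕ} (h : Bd 0 m) : ∃ k, ∀ a, m a ≤ (sz a + 2) ^ k := by
  obtain ⟨k, hk⟩ := h
  refine ⟨2 * k, fun a => (hk a).trans ?_⟩
  rw [zero_add, pow_one, mul_comm k, pow_mul, pow_mul]
  refine Nat.pow_le_pow_left ?_ _
  have := Nat.pow_log_le_self 2 (show sz a ≠ 0 by have := one_le_sz a; omega)
  rw [ell, pow_add]
  nlinarith

theorem at_indep {γ' δ' : Type} [Enc γ'] [Enc δ'] {D : α → Prop} {f : α → β} {c}
    (h : At g D f c u0) (g' : γ' → δ') : At g' D f c u0 :=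
  h.imp fun _ h E _ _ a ha hu => h E (fun _ => ⊤) (fun _ h => absurd rfl h) a ha hu

theorem sz_rev (l l' : List α) : sz (l.reverse ++ l') ≤ sz l + sz l' := by
  induction l generalizing l' with
  | nil => simp
  | cons x l ih =>
    have := ih (x :: l')
    rw [List.reverse_cons, List.append_assoc, List.singleton_append]
    simp only [sz_lcons] at this ⊢
    omega

theorem sz_grp (l : List (Option β)) (s : List β × List (List β)) :
    sz (l.foldl grpStep s) ≤ sz l + sz s := by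
  induction l generalizing s with
  | nil => simp
  | cons x l ih =>
    refine (ih _).trans ?_
    cases x with
    | none =>
      have : sz (none : Option β) = 1 := rfl
      simp only [grpStep, sz_prod, sz_lcons, sz_lnil]
      omega
    | some x =>
      have : sz (some x) = sz x + 2 := sz_lcons x []
      simp only [grpStep, sz_prod, sz_lcons]
      omega

omit [Enc σ] [Enc ω] [Enc β₁] [Enc β₂] in
theorem str_det {M : SM β₁ β₂ σ ω} {l1 l2 s out r ss t1 t2} (h : STr M l1 l2 s out r ss t1 t2) :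
    ∀ {r' ss' t1' t2'}, STr M l1 l2 s out r' ss' t1' t2' →
      (r', ss', t1', t2') = (r, ss, t1, t2) := by
  induction h with
  | stop h =>
    intro _ _ _ _ h'
    cases h' with
    | stop => rfl
    | one h' => rw [h] at h'; cases h'
    | two h' => rw [h] at h'; cases h'
  | one h hw _ ih =>
    intro _ _ _ _ h'
    cases h' with
    | stop h' => rw [h] at h'; cases h'
    | one _ _ h' => cases ih h'; rfl
    | two _ h' => rw [hw] at h'; cases h'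
  | two h hw _ ih =>
    intro _ _ _ _ h'
    cases h' with
    | stop h' => rw [h] at h'; cases h'
    | one _ h' => rw [hw] at h'; cases h'
    | two _ _ h' => cases ih h'; rfl

omit [Enc β₁] [Enc β₂] in
theorem str_sz {M : SM β₁ β₂ σ ω} {l1 l2 s out r ss t1 t2} (h : STr M l1 l2 s out r ss t1 t2) :
    sz r ≤ sz out + ((ss.map fun s => sz s + 1).sum + (t1.map fun p => sz (M.up1 p)).sum +
      (t2.map fun p => sz (M.up2 p)).sum) := by
  induction h with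
  | stop h => simp [sz_prod, add_assoc]
  | @one l1 _ s out _ _ _ _ _ _ _ ih =>
    have := sz_rev (M.up1 (l1.take 1, s)).1 out
    have := sz_prod (M.up1 (l1.take 1, s))
    simp only [List.map_cons, List.sum_cons]
    omega
  | @two _ l2 s out _ _ _ _ _ _ _ ih =>
    have := sz_rev (M.up2 (l2.take 1, s)).1 out
    have := sz_prod (M.up2 (l2.take 1, s))
    simp only [List.map_cons, List.sum_cons]
    omega

open Classical in
/-- The trace of a stream machine. -/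
noncomputable def trc (M : SM β₁ β₂ σ ω) (y : List β₁ × List β₂ × σ) :
    (List ω × σ) × List σ × List (List β₁ × σ) × List (List β₂ × σ) :=
  if h : ∃ z : (List ω × σ) × List σ × List (List β₁ × σ) × List (List β₂ × σ),
    STr M y.1 y.2.1 y.2.2 [] z.1 z.2.1 z.2.2.1 z.2.2.2 then h.choose else (([], y.2.2), [], [], [])

omit [Enc σ] [Enc ω] [Enc β₁] [Enc β₂] in
theorem trc_eq {M : SM β₁ β₂ σ ω} {y : List β₁ × List β₂ × σ} {r ss t1 t2}
    (h : STr M y.1 y.2.1 y.2.2 [] r ss t1 t2) : trc M y = (r, ss, t1, t2) := by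
  have h' : ∃ z : (List ω × σ) × List σ × List (List β₁ × σ) × List (List β₂ × σ),
    STr M y.1 y.2.1 y.2.2 [] z.1 z.2.1 z.2.2.1 z.2.2.2 := ⟨(r, ss, t1, t2), h⟩
  rw [trc, dif_pos h']
  exact str_det h h'.choose_spec

end AmbAux

open AmbAux

theorem Bnd.mono {x y : α → ℕ} (h : Bnd 𝒜 y) (hxy : ∀ a, 𝒜.D a → x a ≤ y a) : Bnd 𝒜 x :=
  h.imp fun _ h a ha => (hxy a ha).trans (h a ha)

theorem Bnd.add {x y : α → ℕ} (h : Bnd 𝒜 x) (h' : Bnd 𝒜 y) : Bnd 𝒜 fun a => x a + y a := by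
  obtain ⟨K, h⟩ := h
  obtain ⟨K', h'⟩ := h'
  refine ⟨K + K' + 1, fun a ha => (Nat.add_le_add (h a ha) (h' a ha)).trans ?_⟩
  have := Nat.mul_le_mul_left (𝒜.n a) (pw_add (𝒜.l a) K K')
  simp only [Amb.wt, wt, add_mul, mul_add] at this ⊢
  omega

theorem Bnd.const (c : ℕ) : Bnd 𝒜 fun _ => c := by
  exact ⟨c, fun a _ => le_add_right (Nat.le_mul_of_pos_right _ (by omega))⟩

theorem Bnd.mul {x : α → ℕ} (c : ℕ) (h : Bnd 𝒜 x) : Bnd 𝒜 fun a => c * x a := by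
  induction c with
  | zero => exact (Bnd.const 0).mono fun _ _ => by simp
  | succ c ih => exact (ih.add h).mono fun _ _ => (Nat.succ_mul _ _).le

theorem Bnd.z : Bnd 𝒜 𝒜.z := by
  exact ⟨1, fun a _ => le_add_right (by omega)⟩

theorem bnd_sz : Bnd 𝒜 fun a => sz a := 𝒜.ok

theorem bnd_wt (K : ℕ) : Bnd 𝒜 (𝒜.wt K) := ⟨K, fun _ _ => le_rfl⟩

theorem Bnd.poly {m y : α → ℕ} (c K : ℕ)
    (h : ∀ a, 𝒜.D a → m a ≤ c * 𝒜.n a ∧ y a ≤ (𝒜.l a + 2) ^ c) :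
    Bnd 𝒜 fun a => m a * (y a + 2) ^ K := by
  refine ⟨c + (c + 3) * K, fun a ha => le_add_left ?_⟩
  rw [pow_add, ← mul_assoc, mul_comm (𝒜.n a)]
  exact Nat.mul_le_mul ((h a ha).1.trans (Nat.mul_le_mul_right _ (le_pw _ _))) (pw_pw (h a ha).2 K)

theorem Dom.of {z n l : α → ℕ} (hz : Bnd 𝒜 z) (c : ℕ)
    (h : ∀ a, 𝒜.D a → n a ≤ c * 𝒜.n a ∧ l a ≤ (𝒜.l a + 2) ^ c) :
    Dom 𝒜 fun K a => wt K (z a) (n a) (l a) := by
  exact fun K => (Bnd.mul K (hz.add (Bnd.const 1))).add (Bnd.poly c K h)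

/-- Sums of costs over a list. -/
theorem Dom.sum {ι : Type} {L : α → List ι} {z n l : ι → ℕ}
    (hz : Bnd 𝒜 fun a => ((L a).map fun p => z p + 1).sum) (c : ℕ)
    (h : ∀ a, 𝒜.D a → ((L a).map n).sum ≤ c * 𝒜.n a ∧ ∀ p ∈ L a, l p ≤ (𝒜.l a + 2) ^ c) :
    Dom 𝒜 fun K a => ((L a).map fun p => wt K (z p) (n p) (l p)).sum := by
  refine fun K => ((Bnd.mul K hz).add (Bnd.poly (y := fun a => (𝒜.l a + 2) ^ c) c K
    fun a ha => ⟨(h a ha).1, le_rfl⟩)).mono fun a ha => ?_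
  rw [← List.sum_map_mul_left, ← List.sum_map_mul_right, ← List.sum_map_add]
  exact List.sum_le_sum fun p hp => Nat.add_le_add_left (Nat.mul_le_mul_left _
    (Nat.pow_le_pow_left (Nat.add_le_add_right ((h a ha).2 p hp) 2) _)) _

theorem Fit.mono {N P N' P' : α → ℕ} (h : Fit 𝒜 N P) (c : ℕ)
    (h' : ∀ a, 𝒜.D a → N' a ≤ c * (N a + 1) ∧ P' a ≤ c * (P a + 1)) : Fit 𝒜 N' P' := by
  obtain ⟨k, h⟩ := h
  refine ⟨(c + 1) * (c + 1) * k + (c + k + 1), fun a ha => ?_⟩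
  obtain ⟨h1, h2, h3⟩ := h a ha
  have h4 : N' a + 1 ≤ (c + 1) * (N a + 1) := by have := (h' a ha).1; rw [add_mul]; omega
  have h5 : P' a + 1 ≤ (c + 1) * (P a + 1) := by have := (h' a ha).2; rw [add_mul]; omega
  refine ⟨(Nat.mul_le_mul h4 h5).trans ?_, h4.trans ?_, h4.trans ?_⟩
  · rw [mul_mul_mul_comm, add_mul _ (c + k + 1), mul_assoc _ k]
    exact le_add_right (Nat.mul_le_mul_left _ h1)
  · rw [add_mul _ (c + k + 1), mul_assoc _ k]
    exact le_add_right (Nat.mul_le_mul (Nat.le_mul_self _) h2)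
  · refine (Nat.mul_le_mul Nat.lt_two_pow_self h3).trans ?_
    rw [← pow_add]
    exact Nat.pow_le_pow_right (by omega) (((Nat.add_le_add_right (le_pw _ c) _).trans
      (pw_add _ c k)).trans (pw_mono _ (by omega)))

theorem Fit.sub {N P : α → ℕ} (h : Fit 𝒜 N P) (p : α → Prop) : Fit (𝒜.sub p) N P :=
  h.imp fun _ h a ha => h a ha.1

theorem Fit.bnd {N P : α → ℕ} (h : Fit 𝒜 N P) : Bnd 𝒜 fun a => (N a + 1) * (P a + 1) := by
  exact h.imp fun c h a ha => le_add_right (h a ha).1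

/-- Under `Fit`, `N` costs on a scale with data size `P` and small parameter are bounded. -/
theorem Fit.dom {N P l : α → ℕ} (h : Fit 𝒜 N P) (c : ℕ)
    (hl : ∀ a, 𝒜.D a → l a ≤ (𝒜.l a + 2) ^ c) :
    Dom 𝒜 fun K a => (N a + 1) * wt K (P a) 1 (l a) := by
  intro K
  obtain ⟨k, hk⟩ := id h
  refine ((Bnd.mul K h.bnd).add (Bnd.poly (m := fun a => N a + 1) (k + c) K fun a ha =>
    ⟨(hk a ha).2.1.trans (Nat.mul_le_mul_right _ (by omega)),
      (hl a ha).trans (pw_mono _ (by omega))⟩)).mono fun a _ => le_of_eq ?_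
  simp only [wt]
  ring

/-! ### Structural rules -/

theorem Oc.of_at {f : α → β} {c u} (h : At g 𝒜.D f c u) (hc : Bnd 𝒜 c)
    (hs : Bnd 𝒜 fun a => sz (f a)) : Oc g 𝒜 u f := by
  obtain ⟨K, hK⟩ := hc
  exact ⟨⟨K, h.mono (fun _ h => h) (fun _ _ => rfl) fun T a ha =>
    add_le_add (by exact_mod_cast hK a ha) le_rfl⟩, hs⟩

theorem Oc.mono {f : α → β} {u u'} (h : Oc g 𝒜 u f) (hu : ∀ T a, 𝒜.D a → u T a ≤ u' T a) :
    Oc g 𝒜 u' f := by
  exact ⟨h.1.imp fun K h => h.mono (fun _ h => h) (fun _ _ => rfl) fun T a ha =>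
    add_le_add le_rfl (hu T a ha), h.2⟩

theorem Oc.of_enc {f : α → β} {f' : α → σ} {u} (h : Oc g 𝒜 u f)
    (hf : ∀ a, 𝒜.D a → enc (f' a) = enc (f a)) : Oc g 𝒜 u f' := by
  exact ⟨h.1.imp fun K h => h.imp fun P h E T hE a ha hu => hf a ha ▸ h E T hE a ha hu,
    h.2.mono fun a ha => le_of_eq (congrArg Tr.sz (hf a ha))⟩

theorem Oc.congr {f f' : α → β} {u} (h : Oc g 𝒜 u f) (hf : ∀ a, 𝒜.D a → f' a = f a) :
    Oc g 𝒜 u f' := h.of_enc fun a ha => by rw [hf a ha]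

theorem Cl.congr {f f' : α → β} (h : Cl g 𝒜 f) (hf : ∀ a, 𝒜.D a → f' a = f a) : Cl g 𝒜 f' :=
  Oc.congr h hf

/-- Change of ambient. -/
theorem Oc.change {𝒜' : Amb α} {f : α → β} {u} (h : Oc g 𝒜 u f) (hD : ∀ a, 𝒜'.D a → 𝒜.D a)
    (hd : Dom 𝒜' 𝒜.wt) : Oc g 𝒜' u f := by
  obtain ⟨⟨K, h⟩, K', h'⟩ := h
  exact Oc.of_at (h.mono hD (fun _ _ => rfl) fun _ _ _ => le_rfl) (hd K)
    ((hd K').mono fun a ha => h' a (hD a ha))

theorem Oc.sub {f : α → β} {u} (h : Oc g 𝒜 u f) (p : α → Prop) : Oc g (𝒜.sub p) u f :=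
  h.change (fun _ h => h.1) fun K => ⟨K, fun _ _ => le_rfl⟩

theorem Cl.sub {f : α → β} (h : Cl g 𝒜 f) (p : α → Prop) : Cl g (𝒜.sub p) f := Oc.sub h p

theorem Sm.sub {f : α → β} (h : Sm g 𝒜 f) (p : α → Prop) : Sm g (𝒜.sub p) f :=
  ⟨h.1.sub p, h.2.imp fun _ h a ha => h a ha.1⟩

theorem Oc.app {F : β → σ} {f : α → β} {u u'} (hF : Oc g 𝓑 u' F) (hf : Oc g 𝒜 u f)
    (hD : ∀ a, 𝒜.D a → 𝓑.D (f a)) (hd : Dom 𝒜 fun K a => 𝓑.wt K (f a)) :
    Oc g 𝒜 (fun T a => u T a + u' T (f a)) fun a => F (f a) := by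
  obtain ⟨⟨K, h⟩, K', h'⟩ := hF
  obtain ⟨⟨L, h1⟩, -⟩ := hf
  exact Oc.of_at (h.comp h1 hD) (((bnd_wt L).add (hd K)).add (Bnd.const 2))
    ((hd K').mono fun a ha => h' _ (hD a ha))

theorem Oc.appc {F : β → σ} {f : α → β} {u} (hF : Cl g 𝓑 F) (hf : Oc g 𝒜 u f)
    (hD : ∀ a, 𝒜.D a → 𝓑.D (f a)) (hd : Dom 𝒜 fun K a => 𝓑.wt K (f a)) :
    Oc g 𝒜 u fun a => F (f a) :=
  (Oc.app hF hf hD hd).mono fun _ _ _ => by simp

theorem oc_lin {F : β → σ} {f : α → β} {u} (hF : Cl g (lin β) F) (hf : Oc g 𝒜 u f) :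
    Oc g 𝒜 u fun a => F (f a) := by
  exact Oc.appc hF hf (fun _ _ => trivial)
    (Dom.of hf.2 0 fun _ _ => ⟨Nat.zero_le _, Nat.zero_le _⟩)

theorem Oc.pair {f : α → β} {f' : α → σ} {u u'} (hf : Oc g 𝒜 u f) (hf' : Oc g 𝒜 u' f') :
    Oc g 𝒜 (fun T a => u T a + u' T a) fun a => (f a, f' a) := by
  obtain ⟨⟨K, h⟩, h1⟩ := hf
  obtain ⟨⟨K', h'⟩, h1'⟩ := hf'
  exact Oc.of_at (h.pair h') (((bnd_wt K).add (bnd_wt K')).add
    (Bnd.mul 100 ((bnd_sz.add h1').add (Bnd.const 1))))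
    (((h1.add h1').add (Bnd.const 1)).mono fun a _ => (sz_pair _ _).le)

@[fun_prop] theorem Cl.id : Cl g 𝒜 fun a => a := by
  exact Oc.of_at (At.id.mono (fun _ _ => trivial) (fun _ _ => rfl) fun _ _ _ => le_rfl)
    (Bnd.const 1) bnd_sz

namespace AmbAux

theorem of_lin {f : α → β} {k : ℕ} (h : At g (fun _ => True) f (fun a => k * (sz a + 1)) u0)
    (c : ℕ) (hs : ∀ a, sz (f a) ≤ sz a + c) : Cl g 𝒜 f :=
  Oc.of_at (h.mono (fun _ _ => trivial) (fun _ _ => rfl) fun _ _ _ => le_rfl)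
    (Bnd.mul k (bnd_sz.add (Bnd.const 1))) ((bnd_sz.add (Bnd.const c)).mono fun a _ => hs a)

theorem cl_fst {𝒜 : Amb (α × β)} : Cl g 𝒜 fun p => p.1 :=
  of_lin At.fst 0 fun p => by have := sz_prod p; omega

theorem cl_snd {𝒜 : Amb (α × β)} : Cl g 𝒜 fun p => p.2 :=
  of_lin At.snd 0 fun p => by have := sz_prod p; omega

end AmbAux

/-- The ambient extended by an already computed value. -/
def Amb.ext (𝒜 : Amb α) (f : α → β) (h : Bnd 𝒜 fun a => sz (f a)) : Amb (α × β) :=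
  ⟨fun p => 𝒜.D p.1 ∧ p.2 = f p.1, fun p => 𝒜.z p.1, fun p => 𝒜.n p.1, fun p => 𝒜.l p.1, by
    obtain ⟨K, hK⟩ := (bnd_sz.add h).add (Bnd.const 1)
    refine ⟨K, fun p hp => ?_⟩
    rw [sz_prod, hp.2]
    exact hK p.1 hp.1⟩

theorem Oc.bind {f : α → β} {u u'} (hf : Oc g 𝒜 u f) {F : α × β → σ}
    (hF : Oc g (𝒜.ext f hf.2) u' F) :
    Oc g 𝒜 (fun T a => u T a + u' T (a, f a)) fun a => F (a, f a) := by
  exact (Oc.app hF (Oc.pair Cl.id hf) (fun _ h => ⟨h, rfl⟩) bnd_wt).mono fun _ _ _ => by simp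

/-- Anything computable from `a` is computable in the extended ambient. -/
theorem Oc.ext {f : α → β} {h} {f' : α → σ} {u} (hf' : Oc g 𝒜 u f') :
    Oc g (𝒜.ext f h) (fun T p => u T p.1) fun p => f' p.1 := by
  exact (Oc.app (𝒜 := 𝒜.ext f h) hf' cl_fst (fun _ h => h.1) bnd_wt).mono fun _ _ _ => by simp

theorem Sm.ext {f : α → β} {h} {f' : α → σ} (hf' : Sm g 𝒜 f') :
    Sm g (𝒜.ext f h) fun p => f' p.1 :=
  ⟨Oc.ext hf'.1, hf'.2.imp fun _ h p hp => h p.1 hp.1⟩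

theorem Fit.ext {f : α → β} {h} {N P : α → ℕ} (hF : Fit 𝒜 N P) :
    Fit (𝒜.ext f h) (fun p => N p.1) fun p => P p.1 :=
  hF.imp fun _ h p hp => h p.1 hp.1

theorem Oc.cond {p : α → Bool} {f f' : α → β} {u u'} (hp : Cl g 𝒜 p)
    (hf : Oc g (𝒜.sub fun a => p a = true) u f) (hf' : Oc g (𝒜.sub fun a => p a = false) u' f') :
    Oc g 𝒜 (fun T a => bif p a then u T a else u' T a) fun a => bif p a then f a else f' a := by
  obtain ⟨⟨K₀, h₀⟩, -⟩ := hp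
  obtain ⟨⟨K, h⟩, L, h1⟩ := hf
  obtain ⟨⟨K', h'⟩, L', h1'⟩ := hf'
  refine Oc.of_at (h₀.cond h h') (((bnd_wt K₀).add (((bnd_wt K).add (bnd_wt K')).mono
    fun a _ => ?_)).add (Bnd.mul 100 (bnd_sz.add (Bnd.const 1))))
    (((bnd_wt L).add (bnd_wt L')).mono fun a ha => ?_)
  · cases p a
    · exact le_add_self
    · exact le_self_add
  · cases hp : p a
    · exact le_add_left (h1' a ⟨ha, hp⟩)
    · exact le_add_right (h1 a ⟨ha, hp⟩)

theorem Oc.call {f : α → γ} {u} (hf : Oc g 𝒜 u f) (hs : Bnd 𝒜 fun a => sz (g (f a))) :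
    Oc g 𝒜 (fun T a => u T a + T (f a)) fun a => g (f a) := by
  obtain ⟨⟨K, h⟩, -⟩ := hf
  exact Oc.of_at (At.call.comp h fun _ _ => trivial)
    (((bnd_wt K).add (Bnd.const 1)).add (Bnd.const 2)) hs

@[fun_prop] theorem Cl.const (b : β) : Cl g 𝒜 fun _ => b := by
  obtain ⟨k, h⟩ := At.const (g := g) (α := α) b
  exact of_lin h (sz b) fun _ => le_add_self

@[fun_prop] theorem Cl.pair {f : α → β} {f' : α → σ} (hf : Cl g 𝒜 f) (hf' : Cl g 𝒜 f') :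
    Cl g 𝒜 fun a => (f a, f' a) := (Oc.pair hf hf').mono fun _ _ _ => by simp

@[fun_prop] theorem Cl.fst {f : α → β × σ} (hf : Cl g 𝒜 f) : Cl g 𝒜 fun a => (f a).1 := by
  exact oc_lin cl_fst hf

@[fun_prop] theorem Cl.snd {f : α → β × σ} (hf : Cl g 𝒜 f) : Cl g 𝒜 fun a => (f a).2 := by
  exact oc_lin cl_snd hf

@[fun_prop] theorem Cl.cons {f : α → β} {f' : α → List β} (hf : Cl g 𝒜 f) (hf' : Cl g 𝒜 f') :
    Cl g 𝒜 fun a => f a :: f' a := Oc.of_enc (Cl.pair hf hf') fun _ _ => rfl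

@[fun_prop] theorem Cl.cond {p : α → Bool} {f f' : α → β} (hp : Cl g 𝒜 p) (hf : Cl g 𝒜 f)
    (hf' : Cl g 𝒜 f') : Cl g 𝒜 fun a => bif p a then f a else f' a :=
  (Oc.cond hp (hf.sub _) (hf'.sub _)).mono fun _ a _ => by cases p a <;> simp

@[fun_prop] theorem cl_isCons {f : α → List β} (hf : Cl g 𝒜 f) :
    Cl g 𝒜 fun a => isCons (f a) := by
  exact oc_lin (of_lin at_isCons 3 fun _ => le_add_left (sz_bool _)) hf

@[fun_prop] theorem Cl.tail {f : α → List β} (hf : Cl g 𝒜 f) : Cl g 𝒜 fun a => (f a).tail := by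
  have h : Cl g (𝒜.sub fun a => isCons (f a) = true)
      fun a => ((P337.toL (enc (f a))).headD .nil, (f a).tail) :=
    Oc.of_enc (hf.sub _) fun a ha => by
      have : isCons (f a) = true := ha.2
      cases h : f a with
      | nil => rw [h] at this; cases this
      | cons => rfl
  refine Oc.congr ((Oc.cond (cl_isCons hf) h.snd (Cl.const [])).mono (u' := u0) fun _ a _ => ?_)
    fun a _ => ?_
  · cases isCons (f a) <;> rfl
  · cases f a <;> rfl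

@[fun_prop] theorem Cl.headD {f : α → List β} {d : α → β} (hf : Cl g 𝒜 f) (hd : Cl g 𝒜 d) :
    Cl g 𝒜 fun a => (f a).headD (d a) := by
  have h : Cl g (𝒜.sub fun a => isCons (f a) = true) fun a => ((f a).headD (d a), (f a).tail) :=
    Oc.of_enc (hf.sub _) fun a ha => by
      have : isCons (f a) = true := ha.2
      cases h : f a with
      | nil => rw [h] at this; cases this
      | cons => rfl
  refine Oc.congr ((Oc.cond (cl_isCons hf) h.fst (hd.sub _)).mono (u' := u0) fun _ a _ => ?_)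
    fun a _ => ?_
  · cases isCons (f a) <;> rfl
  · cases f a <;> rfl

@[fun_prop] theorem Cl.some {f : α → β} (hf : Cl g 𝒜 f) : Cl g 𝒜 fun a => some (f a) :=
  Oc.of_enc (Cl.cons hf (Cl.const [])) fun _ _ => rfl

@[fun_prop] theorem Cl.not {f : α → Bool} (hf : Cl g 𝒜 f) : Cl g 𝒜 fun a => !(f a) :=
  (Cl.cond hf (Cl.const false) (Cl.const true)).congr fun a _ => by cases f a <;> rfl

@[fun_prop] theorem Cl.and {f f' : α → Bool} (hf : Cl g 𝒜 f) (hf' : Cl g 𝒜 f') :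
    Cl g 𝒜 fun a => (f a && f' a) :=
  (Cl.cond hf hf' (Cl.const false)).congr fun a _ => by cases f a <;> rfl

@[fun_prop] theorem Cl.or {f f' : α → Bool} (hf : Cl g 𝒜 f) (hf' : Cl g 𝒜 f') :
    Cl g 𝒜 fun a => (f a || f' a) :=
  (Cl.cond hf (Cl.const true) hf').congr fun a _ => by cases f a <;> rfl

@[fun_prop] theorem Cl.xor {f f' : α → Bool} (hf : Cl g 𝒜 f) (hf' : Cl g 𝒜 f') :
    Cl g 𝒜 fun a => (f a ^^ f' a) :=
  (Cl.cond hf (Cl.not hf') hf').congr fun a _ => by cases f a <;> simp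

@[fun_prop] theorem cl_grp {f : α → List (Option β)} (hf : Cl g 𝒜 f) :
    Cl g 𝒜 fun a => grp (f a) := by
  exact oc_lin (of_lin at_grp 3 fun l => sz_grp l _) hf

/-! ### Small parameters -/

/-- A polynomial time function whose cost is absorbed by the data size. -/
theorem exists_tc_exp {F : β → σ} (hF : TC 0 F) : ∃ e, ∀ {α γ δ : Type} [Enc α] [Enc γ] [Enc δ]
    (g : γ → δ) (𝒜 : Amb α) (f : α → β) (u), Oc g 𝒜 u f → (Bnd 𝒜 fun a => (sz (f a) + 2) ^ e) →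
      Oc g 𝒜 u fun a => F (f a) := by
  obtain ⟨k, h⟩ := At.tc (g := fun b : Bool => b) hF
  obtain ⟨k', h'⟩ := bd_poly hF.bd
  refine ⟨k + k', fun g 𝒜 f u ⟨⟨K, hf⟩, _⟩ hb => ?_⟩
  exact (Oc.of_at ((at_indep h g).comp hf fun _ _ => trivial) (((bnd_wt K).add
    (hb.mono fun a _ => pw_mono _ (by omega))).add (Bnd.const 2))
    (hb.mono fun a _ => (h' _).trans (pw_mono _ (by omega)))).mono fun _ _ _ => by simp

theorem Sm.tc {F : β → σ} {f : α → β} (hF : TC 0 F) (hf : Sm g 𝒜 f) :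
    Sm g 𝒜 fun a => F (f a) := by
  obtain ⟨e, h⟩ := exists_tc_exp hF
  obtain ⟨k', h'⟩ := bd_poly hF.bd
  obtain ⟨hf, c, hc⟩ := hf
  refine ⟨h g 𝒜 f _ hf ((Bnd.poly (m := fun _ => 1) (c + 1) e fun a ha =>
    ⟨Nat.mul_le_mul (by omega : 1 ≤ c + 1) (hc a ha).1,
      (hc a ha).2.trans (pw_mono _ (by omega))⟩).mono fun a _ => (one_mul _).ge),
    _, fun a ha => ⟨(hc a ha).1, (h' _).trans (pw_pw (hc a ha).2 _)⟩⟩

theorem Sm.pair {f : α → β} {f' : α → σ} (hf : Sm g 𝒜 f) (hf' : Sm g 𝒜 f') :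
    Sm g 𝒜 fun a => (f a, f' a) := by
  obtain ⟨hf, c, hc⟩ := hf
  obtain ⟨hf', c', hc'⟩ := hf'
  refine ⟨hf.pair hf', c + c' + 1 + 0 + 1, fun a ha => ⟨(hc a ha).1, ?_⟩⟩
  rw [sz_pair]
  exact (Nat.add_le_add ((Nat.add_le_add (hc a ha).2 (hc' a ha).2).trans (pw_add _ _ _))
    (pow_zero _).ge).trans (pw_add _ _ _)

theorem Sm.congr {f f' : α → β} (h : Sm g 𝒜 f) (hf : ∀ a, 𝒜.D a → f' a = f a) : Sm g 𝒜 f' := by
  exact ⟨h.1.congr hf, h.2.imp fun c h a ha => hf a ha ▸ h a ha⟩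

/-- A closed natural number below the scale of a `Fit` is small. -/
theorem Sm.of_fit {N P f : α → ℕ} (hF : Fit 𝒜 N P) (hf : Cl g 𝒜 f)
    (h : ∀ a, 𝒜.D a → f a ≤ N a) : Sm g 𝒜 f := by
  obtain ⟨c, hc⟩ := hF
  refine ⟨hf, 4 + c + 0 + 1, fun a ha => ⟨?_, (sz_nat_le ((h a ha).trans_lt (hc a ha).2.2)).trans
    ((Nat.add_le_add ?_ (pow_zero _).ge).trans (pw_add _ _ _))⟩⟩
  · have := (hc a ha).2.1
    exact Nat.pos_of_ne_zero fun h => by simp [h] at this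
  · rw [pow_add]
    exact Nat.mul_le_mul_right _ (le_pw _ _)

/-! ### Recursion and streams -/

/-- Recursion: the constant `K` of the body may be used in the bound. -/
theorem Oc.mu {f : α → β} {u} (h : Oc f 𝒜 u f) {𝒜' : Amb α} (hD : ∀ a, 𝒜'.D a → 𝒜.D a)
    (μ : α → ℕ) (B : ℕ → α → ℕ) (hd : Dom 𝒜' B)
    (hB : ∀ K, ∃ K', ∀ a, 𝒜.D a → ∀ T : α → ℕ∞, (∀ x, 𝒜.D x → μ x < μ a → T x = B K' x) →
      𝒜.wt K a + u T a ≤ B K' a) (hs : Bnd 𝒜' fun a => sz (f a)) : Cl g 𝒜' f := by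
  obtain ⟨⟨K, h⟩, -⟩ := h
  obtain ⟨K', hK⟩ := hB K
  exact Oc.of_at ((h.mu μ (B K') hK).mono hD (fun _ _ => rfl) fun _ _ _ => le_rfl)
    ((hd K').add (Bnd.const 1)) hs

theorem Oc.stream (M : SM β₁ β₂ σ ω) {𝓢 : Amb σ} {𝓑₁ : Amb (List β₁ × σ)}
    {𝓑₂ : Amb (List β₂ × σ)} {u1 u2} {u u' : (γ → ℕ∞) → α → ℕ∞} (hc : Cl g 𝓢 M.cont) (hw : Cl g 𝓢 M.wh)
    (h1 : Oc g 𝓑₁ u1 M.up1) (h2 : Oc g 𝓑₂ u2 M.up2) {x : α → List β₁ × List β₂ × σ}
    (hx : Oc g 𝒜 u x) {F : α → List ω × σ} {Φ : ℕ → α → ℕ} (hΦ : Dom 𝒜 Φ)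
    (h : ∀ a, 𝒜.D a → ∃ ss t1 t2, STr M (x a).1 (x a).2.1 (x a).2.2 [] (F a) ss t1 t2 ∧
      (∀ s ∈ ss, 𝓢.D s) ∧ (∀ p ∈ t1, 𝓑₁.D p) ∧ (∀ p ∈ t2, 𝓑₂.D p) ∧
      (∀ K, (ss.map (𝓢.wt K)).sum + (t1.map (𝓑₁.wt K)).sum + (t2.map (𝓑₂.wt K)).sum ≤ Φ K a) ∧
      ∀ T, (t1.map (u1 T)).sum + (t2.map (u2 T)).sum ≤ u' T a) :
    Oc g 𝒜 (fun T a => u T a + u' T a) F := by
  obtain ⟨⟨Kc, hc⟩, -⟩ := hc
  obtain ⟨⟨Kw, hw⟩, -⟩ := hw
  obtain ⟨⟨K1, h1⟩, s1⟩ := h1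
  obtain ⟨⟨K2, h2⟩, s2⟩ := h2
  obtain ⟨⟨Kx, hx⟩, sx⟩ := hx
  obtain ⟨L0, b0⟩ := ((bnd_wt (𝒜 := 𝓢) Kc).add (bnd_wt Kw)).add
    (Bnd.mul 100 (bnd_sz.add (Bnd.const 1)))
  obtain ⟨L1, b1⟩ := (bnd_wt K1).add (Bnd.mul 100 ((bnd_sz.add s1).add (Bnd.const 1)))
  obtain ⟨L2, b2⟩ := (bnd_wt K2).add (Bnd.mul 100 ((bnd_sz.add s2).add (Bnd.const 1)))
  let S : List β₁ × List β₂ × σ → ℕ := fun y =>
    ((trc M y).2.1.map fun s => 𝓢.wt Kc s + 𝓢.wt Kw s + 100 * (sz s + 1)).sum +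
      ((trc M y).2.2.1.map fun p => 𝓑₁.wt K1 p + 100 * (sz p + sz (M.up1 p) + 1)).sum +
      ((trc M y).2.2.2.map fun p => 𝓑₂.wt K2 p + 100 * (sz p + sz (M.up2 p) + 1)).sum
  have key := At.stream M hc hw h1 h2 (D := fun y => ∃ a, 𝒜.D a ∧ x a = y)
    (F := fun y => (trc M y).1) (c := fun y => S y + 100 * (sz y + sz (trc M y).1 + 1))
    (u := fun T y => ((trc M y).2.2.1.map (u1 T)).sum + ((trc M y).2.2.2.map (u2 T)).sum) (by
      rintro _ ⟨a, ha, rfl⟩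
      obtain ⟨ss, t1, t2, a1, a2, a3, a4, -⟩ := h a ha
      simp only [S, trc_eq a1]
      exact ⟨ss, t1, t2, a1, a2, a3, a4, le_rfl, fun _ => le_rfl⟩)
  have hS : Bnd 𝒜 fun a => S (x a) := (hΦ (L0 + L1 + L2)).mono fun a ha => by
    obtain ⟨ss, t1, t2, a1, a2, a3, a4, a5, -⟩ := h a ha
    simp only [S, trc_eq a1]
    exact (Nat.add_le_add (Nat.add_le_add
      (List.sum_le_sum fun s hs => (b0 s (a2 s hs)).trans (wt_mono (by omega) _ _ _))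
      (List.sum_le_sum fun s hs => (b1 s (a3 s hs)).trans (wt_mono (by omega) _ _ _)))
      (List.sum_le_sum fun s hs => (b2 s (a4 s hs)).trans (wt_mono (by omega) _ _ _))).trans (a5 _)
  have hF : Bnd 𝒜 fun a => sz (trc M (x a)).1 := ((Bnd.const 1).add hS).mono fun a ha => by
    obtain ⟨ss, t1, t2, a1, -⟩ := h a ha
    simp only [S, trc_eq a1]
    exact (str_sz a1).trans (Nat.add_le_add_left (Nat.add_le_add (Nat.add_le_add
      (List.sum_le_sum fun s _ => by omega) (List.sum_le_sum fun s _ => by omega))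
      (List.sum_le_sum fun s _ => by omega)) _)
  refine ((Oc.of_at (key.comp hx fun a ha => ⟨a, ha, rfl⟩) (((bnd_wt Kx).add (hS.add
    (Bnd.mul 100 ((sx.add hF).add (Bnd.const 1))))).add (Bnd.const 2)) hF).congr
    fun a ha => ?_).mono fun T a ha => ?_
  · obtain ⟨ss, t1, t2, a1, -⟩ := h a ha
    rw [trc_eq a1]
  · obtain ⟨ss, t1, t2, a1, -, -, -, -, a6⟩ := h a ha
    simp only [trc_eq a1]
    exact add_le_add le_rfl (a6 T)

end Vale.Agent.P338
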