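import Vale.Agent.P337.TCx
import Mathlib.Analysis.SpecialFunctions.Complex.Arctan
import Mathlib.Analysis.SpecialFunctions.Trigonometric.Arctan
import Mathlib.Analysis.SpecialFunctions.Trigonometric.Bounds
import Mathlib.Analysis.SpecialFunctions.Exponential
import Mathlib.Analysis.Complex.ExponentialBounds

/-! Polynomial time approximation of sums of roots of unity. -/

namespace Vale.Agent.P338

open Vale.Agent.Common.TreeTM

/-- `e θ = exp (2 π i θ)`. -/
noncomputable def ee (θ : ℝ) : ℂ := Complex.exp (2 * Real.pi * Complex.I * θ)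

theorem ee_add (a b : ℝ) : ee (a + b) = ee a * ee b := by
  simp [ee, mul_add, Complex.exp_add]

@[simp] theorem ee_zero : ee 0 = 1 := by simp [ee]

theorem ee_int (k : ℤ) : ee k = 1 := by
  have := Complex.exp_int_mul_two_pi_mul_I k
  rw [ee, ← this]
  congr 1
  push_cast
  ring

@[simp] theorem norm_ee (θ : ℝ) : ‖ee θ‖ = 1 := by
  have := Complex.norm_exp_ofReal_mul_I (2 * Real.pi * θ)
  rw [ee, ← this]
  congr 2
  push_cast
  ring

/-- The exact weight `σ / q * ∑ e (θ)`. -/
noncomputable def wval (p : ℤ × ℕ × List (ℤ × ℕ)) : ℂ :=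
  (p.1 : ℂ) / (p.2.1 : ℂ) * (p.2.2.map fun θ => ee ((θ.1 : ℝ) / (θ.2 : ℝ))).sum

namespace RootAux
open Vale.Agent.P337 Finset

variable {α β : Type} [Enc α] [Enc β] {e : ℕ}

@[fun_prop] theorem tc_isum {l : α → List ℤ} (hl : TC e l) : TC e fun a => (l a).sum := by
  have : TC e fun a => ((((l a).map fun z => z.toNat).sum : ℕ) : ℤ) -
      (((l a).map fun z => (-z).toNat).sum : ℕ) := by fun_prop
  refine this.of_eq fun a => ?_
  induction l a with
  | nil => simp
  | cons z l ih =>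
    simp only [List.sum_cons, List.map_cons, ih]
    push_cast
    omega

/-- Factorial of the length. -/
def fac (l : List β) : ℕ := l.length.factorial

@[fun_prop] theorem tc_fac {l : α → List β} (hl : TC e l) : TC e fun a => fac (l a) := by
  refine (TC.foldl_inv (f := fun _ acc (x : ℕ) => acc * (x + 1)) (i := fun _ => 1)
    (l := fun a => idx (l a)) (by fun_prop) (by fun_prop) (by fun_prop)
    (S := fun a => 4 * (sz (l a) * sz (l a) + 1) + 1)
    (((Bd.const _ _).mul ((hl.bd.mul hl.bd).add (Bd.const _ _))).add (Bd.const _ _))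
    (fun a k s => s ≤ (2 ^ sz (l a)) ^ k) (fun _ => by simp) (fun a k s x hx h => ?_)
    fun a k s hk h => ?_).of_eq fun a => ?_
  · rw [pow_succ]
    refine Nat.mul_le_mul h ?_
    have h1 : x < (l a).length := by simpa [idx] using hx
    have := length_le_sz (l a)
    have : sz (l a) < 2 ^ sz (l a) := Nat.lt_two_pow_self
    omega
  · refine sz_nat_le (h.trans_lt ?_)
    rw [← pow_mul]
    have h1 : k ≤ sz (l a) := le_trans (by simpa [idx] using hk) (length_le_sz _)
    exact Nat.pow_lt_pow_right (by norm_num) (Nat.lt_succ_of_le (Nat.mul_le_mul_left _ h1))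
  · unfold fac idx
    induction (l a).length with
    | zero => rfl
    | succ n ih => rw [List.range_succ, List.foldl_append, ← ih, Nat.factorial_succ, mul_comm]; rfl

/-- Real part of a power of `i`. -/
def cs (k : ℕ) : ℤ := bif neq (k % 4) 0 then 1 else bif neq (k % 4) 2 then -1 else 0

/-- Imaginary part of a power of `i`. -/
def sn (k : ℕ) : ℤ := cs (k + 3)

@[fun_prop] theorem tc_cs {f : α → ℕ} (hf : TC e f) : TC e fun a => cs (f a) := by
  unfold cs; fun_prop

@[fun_prop] theorem tc_sn {f : α → ℕ} (hf : TC e f) : TC e fun a => sn (f a) := by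
  unfold sn; fun_prop

theorem cs_sn (k : ℕ) : (cs k : ℂ) + sn k * Complex.I = Complex.I ^ k := by
  rw [Complex.I_pow_eq_pow_mod]
  have : k % 4 = 0 ∨ k % 4 = 1 ∨ k % 4 = 2 ∨ k % 4 = 3 := by omega
  rcases this with h | h | h | h <;> simp [sn, cs, neq, Nat.add_mod, h, pow_succ]

theorem cs_two (k : ℕ) : (cs (k + k) : ℝ) = (-1) ^ k := by
  have := congrArg Complex.re (cs_sn (k + k))
  rw [← two_mul, pow_mul, Complex.I_sq] at this
  rw [← Complex.ofReal_one, ← Complex.ofReal_neg, ← Complex.ofReal_pow, Complex.ofReal_re] at this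
  simpa [two_mul] using this

theorem div_near (a b : ℕ) : |((a / b : ℕ) : ℝ) - a / b| ≤ 1 := by
  rcases b.eq_zero_or_pos with rfl | hb
  · simp
  have hb' : (0 : ℝ) < b := by exact_mod_cast hb
  have h1 : (a : ℝ) < ((a / b : ℕ) + 1) * b := by
    have := Nat.lt_mul_div_succ a hb
    rw [mul_comm] at this
    exact_mod_cast this
  rw [← div_lt_iff₀ hb'] at h1
  have h2 : ((a / b : ℕ) : ℝ) ≤ a / b := Nat.cast_div_le
  rw [abs_le]
  constructor <;> linarith

omit [Enc β] in
theorem sum_idx {R : Type} [AddCommMonoid R] (u : List β) (f : ℕ → R) :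
    ((idx u).map f).sum = ∑ k ∈ range u.length, f k := by
  rw [idx, ← List.sum_toFinset _ List.nodup_range, List.toFinset_range]

/-- Approximation of an arctangent. -/
def atn (u : List Bool) (b : ℕ) : ℤ := ((idx u).map fun k => cs (k + k) *
  (2 ^ u.length / ((k + k + 1) * (b * (b * b) ^ (u.take k).length)) : ℕ)).sum

@[fun_prop] theorem tc_atn {u : α → List Bool} {b : α → ℕ} (hu : TC e u) (hb : TC e b) :
    TC e fun a => atn (u a) (b a) := by
  unfold atn; fun_prop

theorem atn_near (u : List Bool) {b : ℕ} (hb : 2 ≤ b) :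
    |(atn u b : ℝ) - 2 ^ u.length * Real.arctan (b : ℝ)⁻¹| ≤ u.length + 1 := by
  have hb' : (2 : ℝ) ≤ b := by exact_mod_cast hb
  have h0 : (b : ℝ)⁻¹ ≤ 2⁻¹ := inv_anti₀ two_pos hb'
  have h0' : 0 ≤ (b : ℝ)⁻¹ := by positivity
  have h1 := norm_sub_le_of_geometric_bound_of_hasSum (C := 2⁻¹) (r := 2⁻¹) (by norm_num)
    (fun n => by
      rw [norm_div, norm_mul, norm_pow, norm_pow, norm_neg, norm_one, one_pow, one_mul,
        Real.norm_of_nonneg h0', Real.norm_natCast, ← pow_succ']
      refine (div_le_self (by positivity) (by norm_cast; omega)).trans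
        ((pow_le_pow_left₀ h0' h0 _).trans (pow_le_pow_of_le_one (by norm_num) (by norm_num)
          (by omega))))
    (Real.hasSum_arctan (x := (b : ℝ)⁻¹) (by rw [Real.norm_of_nonneg h0']; linarith)) u.length
  have h2 : |(atn u b : ℝ) - 2 ^ u.length * ∑ n ∈ range u.length,
      (-1) ^ n * (b : ℝ)⁻¹ ^ (2 * n + 1) / ((2 * n + 1 : ℕ) : ℝ)| ≤ u.length := by
    rw [atn, sum_idx, Int.cast_sum, mul_sum, ← sum_sub_distrib]
    refine (abs_sum_le_sum_abs _ _).trans ((sum_le_card_nsmul _ _ 1 fun k hk => ?_).trans (by simp))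
    rw [List.length_take_of_le (mem_range.mp hk).le, Int.cast_mul, cs_two, Int.cast_natCast]
    refine le_of_eq_of_le ?_ (div_near (2 ^ u.length) ((k + k + 1) * (b * (b * b) ^ k)))
    have h5 : ∀ y : ℝ, |(-1) ^ k * y| = |y| := fun y => by rw [abs_mul, abs_neg_one_pow, one_mul]
    refine Eq.trans ?_ (h5 _)
    congr 1
    generalize 2 ^ u.length / ((k + k + 1) * (b * (b * b) ^ k)) = w
    rw [inv_pow]
    push_cast
    field_simp
    ring
  rw [Real.norm_eq_abs] at h1
  have h3 := mul_le_mul_of_nonneg_left h1 (show (0 : ℝ) ≤ 2 ^ u.length by positivity)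
  rw [← abs_of_pos (show (0 : ℝ) < 2 ^ u.length by positivity), ← abs_mul, mul_sub,
    abs_of_pos (show (0 : ℝ) < 2 ^ u.length by positivity)] at h3
  have h4 : (2 : ℝ) ^ u.length * (2⁻¹ * 2⁻¹ ^ u.length / (1 - 2⁻¹)) = 1 := by
    rw [inv_pow]; field_simp; norm_num
  rw [h4] at h3
  exact (abs_sub_le _ _ _).trans (add_le_add h2 h3)

/-- Approximation of `π / 4`. -/
def pi4 (u : List Bool) : ℕ := (atn u 2 + atn u 3).natAbs

@[fun_prop] theorem tc_pi4 {u : α → List Bool} (hu : TC e u) : TC e fun a => pi4 (u a) := by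
  unfold pi4; fun_prop

theorem pi4_near (u : List Bool) :
    |(pi4 u : ℝ) - 2 ^ u.length * (Real.pi / 4)| ≤ 2 * u.length + 2 := by
  have h1 := atn_near u (b := 2) le_rfl
  have h2 := atn_near u (b := 3) (by norm_num)
  have h3 := abs_abs_sub_abs_le ((atn u 2 + atn u 3 : ℤ) : ℝ) (2 ^ u.length * (Real.pi / 4))
  rw [abs_of_pos (a := 2 ^ u.length * (Real.pi / 4)) (by positivity)] at h3
  rw [pi4, Nat.cast_natAbs, Int.cast_abs]
  refine h3.trans ?_
  rw [← Real.arctan_inv_2_add_arctan_inv_3]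
  push_cast at h1 h2 ⊢
  rw [abs_le] at h1 h2 ⊢
  constructor <;> linarith [h1.1, h1.2, h2.1, h2.2]

/-- Terms of the exponential series. -/
def tm (u : List Bool) (X D k : ℕ) : ℕ :=
  2 ^ u.length * X ^ (u.take k).length / (D ^ (u.take k).length * fac (u.take k))

/-- Approximation of `exp (i X / D)`. -/
def ex (u : List Bool) (X D : ℕ) : ℤ × ℤ :=
  (((idx u).map fun k => cs k * tm u X D k).sum, ((idx u).map fun k => sn k * tm u X D k).sum)

@[fun_prop] theorem tc_ex {u : α → List Bool} {X D : α → ℕ} (hu : TC e u) (hX : TC e X)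
    (hD : TC e D) : TC e fun a => ex (u a) (X a) (D a) := by
  unfold ex tm; fun_prop

/-- A Gaussian integer as a complex number. -/
noncomputable def gz (z : ℤ × ℤ) : ℂ := z.1 + z.2 * Complex.I

theorem ex_near (u : List Bool) (X D : ℕ) (h : (X : ℝ) / D ≤ 24) :
    ‖gz (ex u X D) - 2 ^ u.length * Complex.exp (Complex.I * ((X : ℝ) / D : ℝ))‖ ≤
      u.length + 2 ^ 97 := by
  set x : ℝ := X / D with hx
  have h0 : 0 ≤ x := by positivity
  have h1 := norm_sub_le_of_geometric_bound_of_hasSum (C := 2 ^ 96) (r := 2⁻¹) (by norm_num)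
    (fun n => by
      rw [norm_div, norm_pow, norm_mul, Complex.norm_I, one_mul, Complex.norm_real,
        Real.norm_of_nonneg h0, Complex.norm_natCast]
      have h2 := Real.pow_div_factorial_le_exp (2 * x) (by positivity) n
      have h3 : Real.exp (2 * x) ≤ 2 ^ 96 := by
        refine (Real.exp_le_exp.mpr (show 2 * x ≤ (48 : ℕ) * 1 by push_cast; linarith)).trans ?_
        rw [Real.exp_nat_mul, show (2 : ℝ) ^ 96 = 4 ^ 48 by norm_num]
        exact pow_le_pow_left₀ (Real.exp_pos _).le (by linarith [Real.exp_one_lt_three]) _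
      rw [inv_pow, ← div_eq_mul_inv, le_div_iff₀ (by positivity)]
      refine le_trans (le_of_eq ?_) (h2.trans h3)
      rw [mul_pow]; ring)
    (NormedSpace.expSeries_div_hasSum_exp (Complex.I * x)) u.length
  rw [← Complex.exp_eq_exp_ℂ] at h1
  have h2 : ‖gz (ex u X D) - 2 ^ u.length * ∑ n ∈ range u.length,
      (Complex.I * x) ^ n / (n.factorial : ℂ)‖ ≤ u.length := by
    simp only [gz, ex, sum_idx, Int.cast_sum, mul_sum, sum_mul, ← sum_add_distrib,
      ← sum_sub_distrib]
    refine (norm_sum_le _ _).trans ((sum_le_card_nsmul _ _ 1 fun k hk => ?_).trans (by simp))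
    have h3 := div_near (2 ^ u.length * X ^ k) (D ^ k * k.factorial)
    rw [← Real.norm_eq_abs, ← Complex.norm_real, ← one_mul ‖_‖, ← one_pow k, ← Complex.norm_I,
      ← norm_pow, ← norm_mul] at h3
    refine (congrArg norm ?_).trans_le (h3.trans_eq (by simp))
    simp only [tm, fac, List.length_take_of_le (mem_range.mp hk).le]
    rw [mul_pow, ← cs_sn, hx]
    generalize 2 ^ u.length * X ^ k / (D ^ k * k.factorial) = w
    push_cast
    ring
  have h3 := mul_le_mul_of_nonneg_left h1 (show (0 : ℝ) ≤ ‖(2 : ℂ) ^ u.length‖ by positivity)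
  rw [← norm_mul, mul_sub] at h3
  have h4 : ‖(2 : ℂ) ^ u.length‖ * (2 ^ 96 * 2⁻¹ ^ u.length / (1 - 2⁻¹)) = 2 ^ 97 := by
    rw [inv_pow, norm_pow, Complex.norm_two]; field_simp; norm_num
  rw [h4] at h3
  exact (norm_sub_le_norm_sub_add_norm_sub _ _ _).trans (add_le_add h2 h3)

/-- Approximation of a root of unity. -/
def rt (u : List Bool) (θ : ℤ × ℕ) : ℤ × ℤ :=
  ex u (8 * pi4 u * ((θ.1 + (θ.2 * θ.1.natAbs : ℕ)).toNat % θ.2)) (2 ^ u.length * θ.2)

@[fun_prop] theorem tc_rt {u : α → List Bool} {θ : α → ℤ × ℕ} (hu : TC e u) (hθ : TC e θ) :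
    TC e fun a => rt (u a) (θ a) := by
  unfold rt; fun_prop

theorem rt_near (u : List Bool) (θ : ℤ × ℕ) (h : 0 < θ.2) :
    ‖gz (rt u θ) - 2 ^ u.length * ee (θ.1 / θ.2)‖ ≤ 17 * u.length + 2 ^ 98 := by
  obtain ⟨a, b⟩ := θ
  dsimp only at h ⊢
  set c := (a + (b * a.natAbs : ℕ)).toNat with hc
  have hc' : (c : ℤ) = a + b * a.natAbs := by
    rw [hc, Int.toNat_of_nonneg]
    · push_cast; rfl
    · have : a.natAbs ≤ b * a.natAbs := Nat.le_mul_of_pos_left _ h
      omega
  have hb : (0 : ℝ) < b := by exact_mod_cast h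
  have h1 : ee (a / b) = ee ((c % b : ℕ) / b) := by
    have h2 : (a : ℝ) = (c % b : ℕ) + b * ((c / b : ℕ) - a.natAbs : ℤ) := by
      have := Nat.mod_add_div c b
      have h3 : a = (c % b : ℕ) + b * ((c / b : ℕ) - a.natAbs : ℤ) := by
        rw [mul_sub, ← add_sub_assoc, ← Nat.cast_mul, ← Nat.cast_add, this, hc']; ring
      rw [congrArg (Int.cast (R := ℝ)) h3, Int.cast_add, Int.cast_mul, Int.cast_natCast,
        Int.cast_natCast]
    rw [h2, add_div, mul_div_cancel_left₀ _ hb.ne', ee_add, ee_int, mul_one]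
  set r : ℝ := (c % b : ℕ) / b with hr
  have hr0 : 0 ≤ r := by positivity
  have hr1 : r ≤ 1 := div_le_one_of_le₀ (by exact_mod_cast (Nat.mod_lt c h).le) hb.le
  have hM : (0 : ℝ) < 2 ^ u.length := by positivity
  have hM' : (u.length : ℝ) + 1 ≤ 2 ^ u.length := by exact_mod_cast Nat.lt_two_pow_self
  set x : ℝ := (8 * pi4 u * (c % b) : ℕ) / (2 ^ u.length * b : ℕ) with hx
  have h2 : 2 ^ u.length * |x - 2 * Real.pi * r| ≤ 8 * (2 * u.length + 2) := by
    have : 2 ^ u.length * (x - 2 * Real.pi * r) =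
        8 * r * (pi4 u - 2 ^ u.length * (Real.pi / 4)) := by
      rw [hx, hr]; push_cast; field_simp; ring
    rw [← abs_of_pos hM, ← abs_mul, this, abs_mul, abs_of_nonneg (by positivity)]
    exact mul_le_mul (by linarith) (pi4_near u) (abs_nonneg _) (by norm_num)
  have h3 : |x - 2 * Real.pi * r| ≤ 16 := le_of_mul_le_mul_left (by linarith) hM
  have h4 := ex_near u _ _ (show x ≤ 24 by
    nlinarith [(abs_le.mp h3).2, Real.pi_le_four, Real.pi_pos])
  have h5 : ‖Complex.exp (Complex.I * x) - ee r‖ ≤ |x - 2 * Real.pi * r| := by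
    have := Real.norm_exp_I_mul_ofReal_sub_one_le (x := x - 2 * Real.pi * r)
    rw [← mul_one ‖_ - _‖, ← norm_ee r, ← norm_mul, sub_mul, one_mul] at this
    refine (congrArg norm ?_).trans_le this
    congr 1
    rw [ee, ← Complex.exp_add]
    congr 1
    push_cast
    ring
  have h6 := mul_le_mul_of_nonneg_left h5 (show (0 : ℝ) ≤ ‖(2 : ℂ) ^ u.length‖ by positivity)
  rw [← norm_mul, mul_sub, norm_pow, Complex.norm_two] at h6
  rw [h1]
  refine (norm_sub_le_norm_sub_add_norm_sub _ _ _).trans ((add_le_add h4 (h6.trans h2)).trans ?_)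
  norm_num
  linarith

/-- Truncating division. -/
def idv (z : ℤ) (d : ℕ) : ℤ := (z.toNat / d : ℕ) - ((-z).toNat / d : ℕ)

@[fun_prop] theorem tc_idv {z : α → ℤ} {d : α → ℕ} (hz : TC e z) (hd : TC e d) :
    TC e fun a => idv (z a) (d a) := by
  unfold idv; fun_prop

theorem idv_near (z : ℤ) (d : ℕ) : |(idv z d : ℝ) - z / d| ≤ 1 := by
  obtain ⟨n, rfl | rfl⟩ := z.eq_nat_or_neg
  · simpa [idv, -Int.natCast_ediv] using div_near n d
  · have := div_near n d
    rw [← abs_neg] at this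
    convert this using 2
    simp [idv, -Int.natCast_ediv]
    ring

/-- Approximation of a sum of roots of unity. -/
def sm (u : List Bool) (l : List (ℤ × ℕ)) : ℤ × ℤ :=
  (((l.map (rt u)).map Prod.fst).sum, ((l.map (rt u)).map Prod.snd).sum)

theorem tc_sm {u : α → List Bool} {l : α → List (ℤ × ℕ)} (hu : TC e u) (hl : TC e l) :
    TC e fun a => sm (u a) (l a) := by
  have : TC e fun a => (l a).map fun θ => rt (u a) θ := by fun_prop
  exact TC.comp (f := fun l : List (ℤ × ℤ) => ((l.map fun p => p.1).sum, (l.map fun p => p.2).sum))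
    (by fun_prop) this

theorem sum_near (u : List Bool) (l : List (ℤ × ℕ)) (h : ∀ θ ∈ l, 0 < θ.2) :
    ‖gz (sm u l) -
      2 ^ u.length * (l.map fun θ => ee ((θ.1 : ℝ) / (θ.2 : ℝ))).sum‖ ≤
      l.length * (17 * u.length + 2 ^ 98) := by
  induction l with
  | nil => simp [gz, sm]
  | cons θ l ih =>
    have := (norm_add_le _ _).trans (add_le_add (rt_near u θ (h θ (by simp)))
      (ih fun θ hθ => h θ (by simp [hθ])))
    refine (congrArg norm ?_).trans_le (this.trans_eq ?_)
    · simp only [gz, List.map_cons, List.sum_cons, sm]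
      push_cast
      ring
    · simp only [List.length_cons]
      push_cast
      ring

/-- The working precision. -/
def pr (a : (ℤ × ℕ × List (ℤ × ℕ)) × List Bool) : List Bool :=
  (a.2 ++ code a.1 ++ code a.1 ++ List.replicate 100 true) ++
    (a.2 ++ code a.1 ++ code a.1 ++ List.replicate 100 true)

theorem tc_pr : TC 0 pr := by unfold pr; fun_prop

theorem length_pr (p : ℤ × ℕ × List (ℤ × ℕ)) (t : List Bool) :
    (pr (p, t)).length = 2 * (t.length + 2 * sz p + 100) := by
  simp only [pr, List.length_append, length_code, List.length_replicate]; ring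

/-- Final scaling. -/
def fin (b : ((ℤ × ℕ × List (ℤ × ℕ)) × List Bool) × List Bool × ℤ × ℤ) : ℤ × ℤ :=
  (idv (b.1.1.1 * (2 ^ b.1.2.length : ℕ) * b.2.2.1) (b.1.1.2.1 * 2 ^ b.2.1.length),
    idv (b.1.1.1 * (2 ^ b.1.2.length : ℕ) * b.2.2.2) (b.1.1.2.1 * 2 ^ b.2.1.length))

theorem tc_fin : TC 0 fin := by unfold fin; fun_prop

end RootAux

open RootAux Vale.Agent.P337 in
theorem exists_wApx : ∃ w : (ℤ × ℕ × List (ℤ × ℕ)) × List Bool → ℤ × ℤ, TC 0 w ∧
    ∀ p t, 0 < p.2.1 → (∀ θ ∈ p.2.2, 0 < θ.2) →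
      ‖(((w (p, t)).1 : ℂ) + (w (p, t)).2 * Complex.I) / 2 ^ t.length - wval p‖ ≤
        3 / 2 ^ t.length := by
  refine ⟨fun a => fin (a, pr a, sm (pr a) a.1.2.2), TC.comp tc_fin
    (TC.pair TC.id (TC.pair tc_pr (tc_sm tc_pr (by fun_prop)))), fun p t hq hθ => ?_⟩
  have h1 := sum_near (pr (p, t)) p.2.2 hθ
  have hM := length_pr p t
  dsimp only [fin]
  generalize sm (pr (p, t)) p.2.2 = z at h1 ⊢
  obtain ⟨A, B⟩ := z
  dsimp only
  generalize (pr (p, t)).length = M at h1 hM ⊢
  have hq' : (1 : ℝ) ≤ p.2.1 := by exact_mod_cast hq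
  have h2 : |(p.1 : ℝ)| * 2 ^ t.length * (p.2.2.length * (17 * M + 2 ^ 98)) ≤ 2 ^ M := by
    have e1 : p.1.natAbs ≤ 2 ^ sz p := by
      have := int_lt_two_pow_sz p.1
      have h3 : 2 ^ sz p.1 ≤ 2 ^ sz p := Nat.pow_le_pow_right two_pos (by rw [sz_prod p]; omega)
      zify at h3 ⊢
      rw [abs_le]
      omega
    have e2 : p.2.2.length ≤ 2 ^ sz p := by
      have := length_le_sz p.2.2
      have : sz p < 2 ^ sz p := Nat.lt_two_pow_self
      have := sz_prod p
      have := sz_prod p.2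
      omega
    have e3 : 17 * M + 2 ^ 98 ≤ 2 ^ 100 * 2 ^ (t.length + 2 * sz p + 100) := by
      have : t.length + 2 * sz p + 100 < 2 ^ (t.length + 2 * sz p + 100) := Nat.lt_two_pow_self
      omega
    have e4 : p.1.natAbs * 2 ^ t.length * (p.2.2.length * (17 * M + 2 ^ 98)) ≤ 2 ^ M :=
      (Nat.mul_le_mul (Nat.mul_le_mul_right _ e1) (Nat.mul_le_mul e2 e3)).trans (by
        rw [hM]; simp only [← pow_add]; exact le_of_eq (congrArg _ (by ring)))
    have := (Nat.cast_le (α := ℝ)).mpr e4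
    push_cast [Nat.cast_natAbs] at this
    refine le_of_eq_of_le ?_ this
    norm_num
  have h3 := idv_near (p.1 * (2 ^ t.length : ℕ) * A) (p.2.1 * 2 ^ M)
  have h4 := idv_near (p.1 * (2 ^ t.length : ℕ) * B) (p.2.1 * 2 ^ M)
  rw [← Real.norm_eq_abs, ← Complex.norm_real] at h3 h4
  rw [← mul_one ‖_‖, ← Complex.norm_I, ← norm_mul] at h4
  have h5 : ‖(p.1 : ℂ) * 2 ^ t.length / (p.2.1 * 2 ^ M) * (gz (A, B) -
      2 ^ M * (p.2.2.map fun θ => ee ((θ.1 : ℝ) / (θ.2 : ℝ))).sum)‖ ≤ 1 := by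
    rw [norm_mul, norm_div, norm_mul, norm_mul, norm_pow, norm_pow, Complex.norm_two,
      Complex.norm_intCast, Complex.norm_natCast, div_mul_eq_mul_div,
      div_le_one (by positivity)]
    refine ((mul_le_mul_of_nonneg_left h1 (by positivity)).trans h2).trans ?_
    exact le_mul_of_one_le_left (by positivity) hq'
  have h6 := (norm_add₃_le).trans (add_le_add (add_le_add h3 (h4.trans_eq Complex.norm_I)) h5)
  rw [le_div_iff₀ (by positivity), ← Complex.norm_two, ← norm_pow, ← norm_mul]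
  refine (congrArg norm ?_).trans_le (h6.trans_eq ?_)
  · have : (p.2.1 : ℂ) ≠ 0 := by exact_mod_cast hq.ne'
    simp only [wval, gz]
    push_cast
    field_simp
    ring
  · norm_num

end Vale.Agent.P338
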