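import Vale.Agent.P338.Lay
import Vale.Agent.P338.Root

/-! The straight line program computing a multidimensional Fourier transform of arbitrary
lengths inside a box with power of two sides. -/

namespace Vale.Agent.P338

open Vale.Agent.P344

/-- A step: kind, number of the shear, parity of the twisted circulant, level or axis. -/
abbrev Stp : Type := ℕ × ℕ × ℕ × ℕ

/-- Description of a weight, see `wval`. -/
abbrev WP : Type := ℤ × ℕ × List (ℤ × ℕ)

/-- The list of steps. -/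
def shear (a d u ε : ℕ) : List Stp :=
  [(1, u, ε, 0)] ++ ((List.range a).reverse.flatMap fun j => [(2, u, ε, j), (3, u, ε, j)]) ++
    ((List.range d).map fun j => (4, u, ε, j)) ++
    ((List.range a).flatMap fun j => [(5, u, ε, j), (6, u, ε, j)]) ++ [(7, u, ε, 0)]

def prog (a d : ℕ) : List Stp :=
  [(0, 0, 0, 0)] ++ shear a d 0 0 ++ shear a d 0 1 ++ shear a d 1 0 ++ shear a d 1 1 ++
    shear a d 2 0 ++ shear a d 2 1 ++ ((List.range d).map fun j => (8, 0, 0, j)) ++
    ((List.range d).map fun j => (9, 0, 0, j))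

theorem length_prog (a d : ℕ) : (prog a d).length = 24 * a + 8 * d + 13 := by
  simp [prog, shear, List.length_flatMap]
  ring

/-- The sign of the exponent in the shear `u`. -/
def sgn (inv : Bool) (u : ℕ) : ℤ := (if inv then -1 else 1) * if u = 1 then -1 else 1

/-- The copy that is changed by the shear `u`. -/
def tgt (u : ℕ) : ℕ := if u = 1 then 0 else 1

/-- The part of the angle with denominator `4 * 2 ^ a`. -/
def ang1 (a : ℕ) (st : Stp) (x : ℕ) : ℤ :=
  if st.1 = 1 then -(2 * st.2.2.1 * x)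
  else if st.1 = 7 then 2 * st.2.2.1 * x
  else if st.1 = 2 then (x / 2 ^ st.2.2.2 % 2 : ℕ) * 2 ^ a
  else if st.1 = 3 then
    (x / 2 ^ st.2.2.2 % 2 : ℕ) * (2 ^ a + (x % 2 ^ st.2.2.2 : ℕ) * 2 ^ (a + 1 - st.2.2.2))
  else if st.1 = 5 then
    (x / 2 ^ st.2.2.2 % 2 : ℕ) * (2 ^ a - (x % 2 ^ st.2.2.2 : ℕ) * 2 ^ (a + 1 - st.2.2.2))
  else if st.1 = 6 then (x / 2 ^ st.2.2.2 % 2 : ℕ) * 2 ^ a - 2 ^ a
  else 0

/-- The part of the angle with denominator `2 * s`. -/
def ang2 (inv : Bool) (st : Stp) (x c : ℕ) : ℤ :=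
  if st.1 = 0 then (if c = 1 then -(2 * sgn inv 0 * x) else 0)
  else if st.1 = 1 then
    (if c = tgt st.2.1 then -(sgn inv st.2.1 * (x * (x - 1))) else sgn inv st.2.1 * ((x + 1) * x))
  else if st.1 = 7 then
    (if c = tgt st.2.1 then sgn inv st.2.1 * (x * (x - 1)) else -(sgn inv st.2.1 * ((x + 1) * x)))
  else 0

/-- Bit reversal. -/
def rev (a x : ℕ) : ℕ := ((List.range a).map fun j => x / 2 ^ j % 2 * 2 ^ (a - 1 - j)).sum

/-- The angles of the eigenvalue of a twisted circulant. -/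
def lam (inv : Bool) (a s u ε x : ℕ) : List (ℤ × ℕ) :=
  (List.range (2 ^ a)).flatMap fun n : ℕ =>
    [(-(sgn inv u * (n * (n - 1)) * 2 ^ a) - ε * n * s + 2 * n * rev a x * s, 2 * 2 ^ a * s),
     (-(sgn inv u * ((n - 2 ^ a) * (n - 2 ^ a - 1)) * 2 ^ a) - ε * n * s + 2 * n * rev a x * s +
        ε * 2 ^ a * s, 2 * 2 ^ a * s)]

/-- The second weight of a step acting on one axis with value `x` and additional bit `c`. -/
def axW2 (inv : Bool) (a s : ℕ) (st : Stp) (x c : ℕ) : WP :=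
  if st.1 = 4 then
    (if c = tgt st.2.1 then (if st.2.1 = 1 then -1 else 1) else 0,
      if st.2.1 = 1 then 2 * s else 2, lam inv a s st.2.1 st.2.2.1 x)
  else if st.1 = 8 then (if c = 0 ∧ x < s then -s else 0, 1, [(0, 1)])
  else if st.1 = 9 then (1, 1, [(0, 1)])
  else (0, 1, [])

/-- The value of the axis `ι` and its additional bit. -/
def xv (a ν ι p : ℕ) : ℕ := p / 2 ^ (ν + a * ι) % 2 ^ a
def cb (γ ι p : ℕ) : ℕ := p / 2 ^ (γ + ι) % 2

/-- The first weight at the position `p`. -/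
def wp1 (inv : Bool) (a ν γ : ℕ) (ss : List ℕ) (st : Stp) (p : ℕ) : WP :=
  if st.1 = 4 then (1, 1, [(0, 1)])
  else if st.1 = 8 then (cb γ st.2.2.2 p, 1, [(0, 1)])
  else if st.1 = 9 then (0, 1, [])
  else
    (if (st.1 = 0 ∨ st.1 = 7) ∧ ∃ ι < ss.length, ss.getD ι 1 ≤ xv a ν ι p then 0 else 1,
      if st.1 = 0 ∧ inv then ss.prod else 1,
      [(((List.range ss.length).map fun ι => ang1 a st (xv a ν ι p) * ss.prod +
          ang2 inv st (xv a ν ι p) (cb γ ι p) * (2 * 2 ^ a * (ss.prod / ss.getD ι 1) : ℕ)).sum,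
        4 * 2 ^ a * ss.prod)])

/-- The second weight at the position `p`. -/
def wp2 (inv : Bool) (a ν γ : ℕ) (ss : List ℕ) (st : Stp) (p : ℕ) : WP :=
  axW2 inv a (ss.getD st.2.2.2 1) st (xv a ν st.2.2.2 p) (cb γ st.2.2.2 p)

/-- The reflection used by a step. -/
def rf (a ν γ : ℕ) (ss : List ℕ) (st : Stp) : ℕ × ℕ × ℕ :=
  if st.1 = 4 ∨ st.1 = 9 then (2 ^ (γ + st.2.2.2), 2, 1)
  else if st.1 = 8 then (2 ^ (ν + a * st.2.2.2), 2 ^ a, ss.getD st.2.2.2 1 - 1)
  else (1, 1, 0)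

/-- The number of butterfly layers of a step. -/
def hk (d : ℕ) (st : Stp) : ℕ := if st.1 = 2 ∨ st.1 = 5 then d else 0

noncomputable def stepOp (inv : Bool) (a ν γ : ℕ) (ss : List ℕ) (st : Stp) (v : ℕ → ℂ) : ℕ → ℂ :=
  hd (ν + st.2.2.2) a (hk ss.length st) fun p => wval (wp1 inv a ν γ ss st p) * v p +
    wval (wp2 inv a ν γ ss st p) *
      v (reflIx (rf a ν γ ss st).1 (rf a ν γ ss st).2.1 (rf a ν γ ss st).2.2 p)

/-- The Fourier matrix of order `s` (normalised inverse if `inv`), extended by zero. -/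
noncomputable def Fm (inv : Bool) (s x y : ℕ) : ℂ :=
  if x < s ∧ y < s then (if inv then (s : ℂ)⁻¹ else 1) * ee (sgn inv 0 * (x * y : ℝ) / s) else 0

/-- The transform along the axes of a box. -/
noncomputable def boxF (inv : Bool) (a ν : ℕ) (ss : List ℕ) : (ℕ → ℂ) →ₗ[ℂ] (ℕ → ℂ) :=
  lft (K := 2 ^ a) (fun ι : Fin ss.length => 2 ^ ν * (2 ^ a) ^ (ι : ℕ))
    (tprod fun ι => Matrix.of fun x y => Fm inv (ss.getD ι 1) x.val y.val)

/-- The diagonal entry of a step acting on all axes. -/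
noncomputable def axD (inv : Bool) (a s : ℕ) (st : Stp) (x c : ℕ) : ℂ :=
  (if (st.1 = 0 ∨ st.1 = 7) ∧ s ≤ x then 0 else 1) * (if st.1 = 0 ∧ inv then (s : ℂ)⁻¹ else 1) *
    ee ((ang1 a st x : ℝ) / (4 * 2 ^ a) + (ang2 inv st x c : ℝ) / (2 * s))

/-- The matrix of a step on the axis `ι`. -/
noncomputable def axM (inv : Bool) (a s ι : ℕ) (st : Stp) :
    Matrix (Option (Fin a) → ZMod 2) (Option (Fin a) → ZMod 2) ℂ :=
  if st.1 = 4 ∨ st.1 = 9 then
    (if st.2.2.2 = ι then Matrix.of fun x y =>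
      (if y = x then (if st.1 = 4 then 1 else 0) else 0) +
      (if y = Function.update x none (x none + 1) then
        wval (axW2 inv a s st (axv x) (x none).val) else 0) else 1)
  else if st.1 = 8 then
    (if st.2.2.2 = ι then Matrix.of fun x y =>
      (if y = x then ((x none).val : ℂ) else 0) +
      (if y none = x none ∧ axv y = (s - 1 + (2 ^ a - axv x)) % 2 ^ a then
        wval (axW2 inv a s st (axv x) (x none).val) else 0) else 1)
  else
    (if h : (st.1 = 2 ∨ st.1 = 5) ∧ st.2.2.2 < a then cAt (some ⟨st.2.2.2, h.2⟩) else 1) *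
      Matrix.diagonal fun x => axD inv a s st (axv x) (x none).val

end Vale.Agent.P338
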