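import Vale.Agent.P338.CRep
import Vale.Agent.P338.Prog

/-! Approximations by Gaussian integers; blockwise products. -/

namespace Vale.Agent.P338

open Vale.Agent.Common.TreeTM Complex

/-- The Gaussian integers `z` approximate `v` within `2 ^ D`, and `v` is bounded by `2 ^ B`. -/
def Apx (N B D : ℕ) (z v : ℕ → ℂ) : Prop :=
  ∀ i < N, (∃ x y : ℤ, z i = x + y * I) ∧ ‖v i‖ ≤ 2 ^ B ∧ ‖z i - v i‖ ≤ 2 ^ D

theorem Apx.comp {N N' B D : ℕ} {z v : ℕ → ℂ} (h : Apx N B D z v) {ψ : ℕ → ℕ}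
    (hψ : ∀ i < N', ψ i < N) : Apx N' B D (fun i => z (ψ i)) fun i => v (ψ i) :=
  fun i hi => h _ (hψ i hi)

theorem Apx.comp' {N B D : ℕ} {z v : ℕ → ℂ} (h : Apx N B D z v) (N' : ℕ) (ψ : ℕ → ℕ) :
    Apx N' B D (fun i => if ψ i < N then z (ψ i) else 0) fun i => if ψ i < N then v (ψ i) else 0 := by
  intro i _
  by_cases hi : ψ i < N
  · simpa [hi] using h _ hi
  · simp only [hi, if_false]
    exact ⟨⟨0, 0, by simp⟩, by simp, by simp⟩

/-- Truncated convolution inside blocks of length `R`, scaled by `c`. -/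
noncomputable def blk (R : ℕ) (c : ℂ) (v v' : ℕ → ℂ) (o : ℕ) : ℂ :=
  c * ∑ p ∈ Finset.HasAntidiagonal.antidiagonal (o % R), v (o / R * R + p.1) * v' (o / R * R + p.2)

/-- Growth of the bounds during one transform. -/
def grw (a d : ℕ) : ℕ := (24 * a + 8 * d + 13) * (a + d + 4)

end Vale.Agent.P338
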