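import Mathlib.Algebra.BigOperators.Intervals
import Mathlib.Algebra.Order.BigOperators.Group.Finset
import Mathlib.Tactic.Ring
import Mathlib.Tactic.Linarith

/-! Index maps acting on one digit of a mixed radix position. -/

namespace Vale.Agent.P338

/-- The position `(h * X + x) * w + c` is sent to `(h * X' + φ h x) * w + c`. -/
def digIx (w X X' : ℕ) (φ : ℕ → ℕ → ℕ) (i : ℕ) : ℕ :=
  (i / (w * X) * X' + φ (i / (w * X)) (i / w % X)) * w + i % w

theorem ix_parts {w X h x c : ℕ} (hx : x < X) (hc : c < w) :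
    ((h * X + x) * w + c) / (w * X) = h ∧ ((h * X + x) * w + c) / w % X = x ∧
      ((h * X + x) * w + c) % w = c := by
  have hw : 0 < w := by omega
  have hX : 0 < X := by omega
  have h1 : ((h * X + x) * w + c) / w = h * X + x := by
    rw [mul_comm _ w, Nat.mul_add_div hw, Nat.div_eq_of_lt hc, add_zero]
  refine ⟨?_, ?_, ?_⟩
  · rw [← Nat.div_div_eq_div_mul, h1, mul_comm h X, Nat.mul_add_div hX, Nat.div_eq_of_lt hx,
      add_zero]
  · rw [h1, mul_comm h X, Nat.mul_add_mod, Nat.mod_eq_of_lt hx]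
  · rw [mul_comm _ w, Nat.mul_add_mod, Nat.mod_eq_of_lt hc]

theorem ix_eq (w X i : ℕ) : i = (i / (w * X) * X + i / w % X) * w + i % w := by
  rw [← Nat.div_div_eq_div_mul, Nat.div_add_mod', Nat.div_add_mod']

theorem digIx_mk {w X X' h x c : ℕ} (φ : ℕ → ℕ → ℕ) (hx : x < X) (hc : c < w) :
    digIx w X X' φ ((h * X + x) * w + c) = (h * X' + φ h x) * w + c := by
  obtain ⟨h1, h2, h3⟩ := ix_parts (h := h) hx hc
  rw [digIx, h1, h2, h3]

theorem ix_lt {w X H h x c : ℕ} (hh : h < H) (hx : x < X) (hc : c < w) :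
    (h * X + x) * w + c < H * X * w := by
  have h1 : h * X + x + 1 ≤ H * X := by nlinarith
  nlinarith

/-- Rotation of a digit by an amount depending on the higher digits. -/
def rotIx (w X : ℕ) (r : ℕ → ℕ) : ℕ → ℕ := digIx w X X fun h x => (x + r h) % X

/-- The reflection `x ↦ c - x` modulo `X` of a digit. -/
def reflIx (w X c : ℕ) : ℕ → ℕ := digIx w X X fun _ x => (c + (X - x)) % X

/-- Exchange of the two digits of size `K` in a layout with sizes `A, K, B, K, C`. -/
def swapIx (K B C i : ℕ) : ℕ :=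
  (((i / (C * K * B * K) * K + i / C % K) * B + i / (C * K) % B) * K + i / (C * K * B) % K) * C +
    i % C

theorem swapIx_mk {K B C a x b y c : ℕ} (hx : x < K) (hb : b < B) (hy : y < K) (hc : c < C) :
    swapIx K B C ((((a * K + x) * B + b) * K + y) * C + c) =
      (((a * K + y) * B + b) * K + x) * C + c := by
  obtain ⟨h1, h2, h3⟩ := ix_parts (h := (a * K + x) * B + b) hy hc
  have h4 := ix_parts (h := a) hx hb
  have h5 : ((a * K + x) * B + b) % B = b := h4.2.2
  have h6 : ((a * K + x) * B + b) / B % K = x := h4.2.1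
  have h7 : ((a * K + x) * B + b) / (B * K) = a := h4.1
  rw [swapIx, h2, h3, h1, h5, mul_assoc (C * K), ← Nat.div_div_eq_div_mul _ (C * K), h1, h7,
    ← Nat.div_div_eq_div_mul _ (C * K), h1, h6]

/-- The `k` bits at the positions `q + a * j` are flipped; if `fl` holds, only those whose
control bit at the position `cq + a * j` is set. -/
def xorIx (q a k : ℕ) (fl : Bool) (cq i : ℕ) : ℕ :=
  Int.toNat (i + ∑ j ∈ Finset.range k, (if fl then ((i / 2 ^ (cq + a * j) % 2 : ℕ) : ℤ) else 1) *
    (1 - 2 * ((i / 2 ^ (q + a * j) % 2 : ℕ) : ℤ)) * 2 ^ (q + a * j))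

end Vale.Agent.P338
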