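import Vale.Agent.P338.Lists
import Vale.Agent.P338.Ix

/-! Rearrangements of arrays of bit strings of equal length. -/

namespace Vale.Agent.P338

open Function Vale.Agent.Common.TreeTM Enc

abbrev Arr : Type := List (List Bool)

/-- All entries have length `P`. -/
def Wf (P : ℕ) (l : Arr) : Prop := ∀ x ∈ l, x.length = P

/-- The zero entry. -/
def zer (l : Arr) : List Bool := (l.headD []).map fun _ => false

/-- The array of length `n` whose entry `o` is the entry `ψ o` of `l` (zero if out of range). -/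
def pull (n : ℕ) (ψ : ℕ → ℕ) (l : Arr) : Arr := arr n fun o => l.getD (ψ o) (zer l)

theorem Wf.zer_eq {P : ℕ} {l : Arr} (h : Wf P l) (hl : l ≠ []) :
    zer l = List.replicate P false := by
  cases l with
  | nil => exact absurd rfl hl
  | cons x l =>
    have := h x (by simp)
    simp [zer, ← this]

theorem Wf.sz_le {P : ℕ} {l : Arr} (h : Wf P l) : sz l ≤ l.length * (4 * P + 2) + 1 := by
  exact sz_list_le (b := 4 * P + 1) fun x hx => h x hx ▸ Vale.Agent.P337.sz_bools x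

theorem wf_arr {P N : ℕ} {f : ℕ → List Bool} (h : ∀ i < N, (f i).length = P) :
    Wf P (arr N f) := by
  intro x hx
  obtain ⟨i, hi, rfl⟩ := List.mem_map.1 hx
  exact h i (List.mem_range.1 hi)

@[simp] theorem length_pull (n : ℕ) (ψ : ℕ → ℕ) (l : Arr) : (pull n ψ l).length = n := by
  simp [pull]

theorem Wf.getD {P : ℕ} {l : Arr} (h : Wf P l) (hl : l ≠ []) (i : ℕ) :
    (l.getD i (zer l)).length = P := by
  by_cases hi : i < l.length
  · rw [List.getD_eq_getElem _ _ hi]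
    exact h _ (List.getElem_mem hi)
  · rw [List.getD_eq_default _ _ (not_lt.1 hi), h.zer_eq hl, List.length_replicate]

theorem wf_pull {P : ℕ} {l : Arr} (h : Wf P l) (hl : l ≠ []) (n : ℕ) (ψ : ℕ → ℕ) :
    Wf P (pull n ψ l) := by
  exact wf_arr fun i _ => h.getD hl _

theorem pull_congr {n : ℕ} {ψ ψ' : ℕ → ℕ} {l : Arr}
    (h : ∀ o < n, ψ o = ψ' o ∨ (l.length ≤ ψ o ∧ l.length ≤ ψ' o)) :
    pull n ψ l = pull n ψ' l := by
  refine arr_congr fun o ho => ?_
  rcases h o ho with h | ⟨h1, h2⟩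
  · rw [h]
  · rw [List.getD_eq_default _ _ h1, List.getD_eq_default _ _ h2]

theorem pull_arr {n N : ℕ} {ψ : ℕ → ℕ} (f : ℕ → List Bool) (h : ∀ o < n, ψ o < N) :
    pull n ψ (arr N f) = arr n fun o => f (ψ o) := by
  exact arr_congr fun o ho => getD_arr f _ (h o ho)

theorem pull_arr' {n N P : ℕ} (ψ : ℕ → ℕ) {f : ℕ → List Bool} (hN : 0 < N)
    (h : ∀ i < N, (f i).length = P) : pull n ψ (arr N f) =
      arr n fun o => if ψ o < N then f (ψ o) else List.replicate P false := by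
  refine arr_congr fun o _ => ?_
  split_ifs with ho
  · exact getD_arr f _ ho
  · rw [List.getD_eq_default _ _ (by simpa using ho)]
    refine (wf_arr h).zer_eq fun h0 => ?_
    have := congrArg List.length h0
    simp at this
    omega

theorem pull_pull {n n' : ℕ} {ψ ψ' : ℕ → ℕ} (l : Arr) (h : ∀ o < n, ψ o < n') :
    pull n ψ (pull n' ψ' l) = pull n (fun o => ψ' (ψ o)) l := by
  exact pull_arr _ h

theorem pull_id (l : Arr) : pull l.length (fun o => o) l = l := by
  exact (eq_arr l (zer l)).symm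

variable {α γ δ π : Type} [Enc α] [Enc γ] [Enc δ] [Enc π]
  {g : γ → δ} {𝒜 : Amb α} {u : (γ → ℕ∞) → α → ℕ∞}

@[fun_prop] theorem cl_zer {l : α → Arr} (hl : Cl g 𝒜 l) : Cl g 𝒜 fun a => zer (l a) := by
  exact Cl.map (Cl.const false) (Cl.headD hl (Cl.const []))

namespace ArrAux

theorem oc_wrap {β σ : Type} [Enc β] [Enc σ] {l : α → β} (hl : Oc g 𝒜 u l) {F : α × β → σ}
    (hF : Cl g (𝒜.ext l hl.2) F) : Oc g 𝒜 u fun a => F (a, l a) :=
  (Oc.bind hl hF).mono fun _ _ _ => by simp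

/-- The machine replacing the entries of class `k`. -/
def patchM (n : π → ℕ) (ψ κ : π → ℕ → ℕ) (k : ℕ) :
    SM (List Bool) (List Bool) (π × ℕ × ℕ) (List Bool) where
  cont s := nlt s.2.1 (n s.1)
  wh s := Vale.Agent.P337.neq (κ s.1 s.2.1) k && nlt s.2.2 (ψ s.1 s.2.1 + 1)
  up1 q := (bif Vale.Agent.P337.neq (κ q.2.1 q.2.2.1) k then [] else q.1,
    (q.2.1, q.2.2.1 + 1, q.2.2.2))
  up2 q := (bif Vale.Agent.P337.neq q.2.2.2 (ψ q.2.1 q.2.2.1) then q.1 else [],
    (q.2.1, q.2.2.1, q.2.2.2 + 1))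

def Good {σ : Type} [Enc σ] (B L m : ℕ) (ss : List σ) (t1 t2 : List (Arr × σ)) : Prop :=
  ss.length + t1.length + t2.length ≤ m ∧ (∀ s ∈ ss, sz s ≤ L) ∧
    (∀ q ∈ t1, sz q.1 ≤ B ∧ sz q.2 ≤ L) ∧ ∀ q ∈ t2, sz q.1 ≤ B ∧ sz q.2 ≤ L

theorem sz_take1 {P : ℕ} {l : Arr} (h : Wf P l) (i : ℕ) : sz ((l.drop i).take 1) ≤ 4 * P + 3 := by
  have h1 : Wf P ((l.drop i).take 1) := fun x hx =>
    h x (List.mem_of_mem_drop (List.mem_of_mem_take hx))
  have h2 := h1.sz_le
  have h3 : ((l.drop i).take 1).length ≤ 1 := List.length_take_le _ _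
  have h4 := Nat.mul_le_mul_right (4 * P + 2) h3
  omega

theorem take1 (l : Arr) (d : List Bool) {i : ℕ} (hi : i < l.length) :
    (l.drop i).take 1 = [l.getD i d] := by
  rw [List.getD_eq_getElem _ _ hi, List.drop_eq_getElem_cons hi]
  rfl

section run

variable {n : π → ℕ} {ψ κ : π → ℕ → ℕ} {k : ℕ} {p : π} {l cur : Arr} {P N L : ℕ}

theorem skip (hl : Wf P l) (hN : l.length ≤ N) (hL : ∀ i j, i ≤ N → j ≤ N → sz (p, i, j) ≤ L)
    {o : ℕ} (ho : o < n p) (hn : n p ≤ N) (hk : κ p o = k) (hψ : ψ p o < l.length)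
    (d : List Bool) {l1 out r ss t1 t2 m}
    (h : STr (patchM n ψ κ k) l1 (l.drop (ψ p o + 1)) (p, o, ψ p o + 1)
      (l.getD (ψ p o) d :: out) r ss t1 t2) (hg : Good (4 * P + 3) L m ss t1 t2) :
    ∀ e pos, pos + e = ψ p o → ∃ ss' t2', STr (patchM n ψ κ k) l1 (l.drop pos) (p, o, pos) out r
      ss' t1 t2' ∧ Good (4 * P + 3) L (m + 2 * (e + 1)) ss' t1 t2' := by
  have key : ∀ pos out m ss t2, pos ≤ ψ p o →
      STr (patchM n ψ κ k) l1 (l.drop (pos + 1)) (p, o, pos + 1)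
        ((if pos = ψ p o then [l.getD (ψ p o) d] else []) ++ out) r ss t1 t2 →
      Good (4 * P + 3) L m ss t1 t2 →
      ∃ ss' t2', STr (patchM n ψ κ k) l1 (l.drop pos) (p, o, pos) out r ss' t1 t2' ∧
        Good (4 * P + 3) L (m + 2) ss' t1 t2' := by
    intro pos out m ss t2 hpos h hg
    have hs := hL o pos (by omega) (by omega)
    refine ⟨_, _, STr.two ?_ ?_ (?_ : STr _ _ _ _ _ _ ss _ t2), ?_, ?_, hg.2.2.1, ?_⟩
    · simp [patchM, nlt, ho]
    · simp [patchM, nlt, Vale.Agent.P337.neq, hk, Nat.lt_succ_iff, hpos]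
    · have e1 : ((patchM n ψ κ k).up2 ((l.drop pos).take 1, p, o, pos)).1.reverse =
          if pos = ψ p o then [l.getD (ψ p o) d] else [] := by
        by_cases he : pos = ψ p o
        · simp only [patchM, Vale.Agent.P337.neq, he, decide_true, cond_true, if_true]
          rw [take1 l d hψ]; rfl
        · simp [patchM, Vale.Agent.P337.neq, he]
      rw [List.tail_drop, e1]
      exact h
    · have := hg.1
      simp only [List.length_cons]
      omega
    · intro s hs'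
      rcases List.mem_cons.1 hs' with rfl | hs'
      · exact hs
      · exact hg.2.1 s hs'
    · intro q hq
      rcases List.mem_cons.1 hq with rfl | hq
      · exact ⟨sz_take1 hl _, hs⟩
      · exact hg.2.2.2 q hq
  intro e
  induction e with
  | zero =>
    intro pos hpos
    obtain rfl : pos = ψ p o := hpos
    exact key _ out m ss t2 le_rfl (by simpa using h) hg
  | succ e ih =>
    intro pos hpos
    obtain ⟨ss', t2', h1, h2⟩ := ih (pos + 1) (by omega)
    exact key pos out _ ss' t2' (by omega) (by rw [if_neg (by omega)]; exact h1) h2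

theorem run (hl : Wf P l) (hc : Wf P cur) (hN : l.length ≤ N)
    (hL : ∀ i j, i ≤ N → j ≤ N → sz (p, i, j) ≤ L) (hn : n p ≤ N) (hcur : cur.length = n p)
    (hψ : ∀ o < n p, κ p o = k → ψ p o < l.length)
    (hm : ∀ o o', o < o' → o' < n p → κ p o = k → κ p o' = k → ψ p o < ψ p o') (d : List Bool) :
    ∀ e o pos out, o + e = n p → pos ≤ l.length →
      (∀ o', o ≤ o' → o' < n p → κ p o' = k → pos ≤ ψ p o') →
      ∃ fin ss t1 t2, STr (patchM n ψ κ k) (cur.drop o) (l.drop pos) (p, o, pos) out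
        (((List.range' o e).map fun i =>
          if κ p i = k then l.getD (ψ p i) d else cur.getD i d).reverse ++ out, fin) ss t1 t2 ∧
        Good (4 * P + 3) L (2 * (e + (l.length - pos)) + 1) ss t1 t2 := by
  intro e
  induction e with
  | zero =>
    intro o pos out ho hpos _
    refine ⟨_, _, _, _, STr.stop (by simp [patchM, nlt]; omega), by simp, ?_, by simp, by simp⟩
    intro s hs
    rw [List.mem_singleton.1 hs]
    exact hL o pos (by omega) (by omega)
  | succ e ih =>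
    intro o pos out ho hpos hinv
    have key : ∀ pos out r m ss t1 t2, pos ≤ l.length → (κ p o = k → ψ p o < pos) →
        STr (patchM n ψ κ k) (cur.drop (o + 1)) (l.drop pos) (p, o + 1, pos)
          ((if κ p o = k then [] else [cur.getD o d]) ++ out) r ss t1 t2 →
        Good (4 * P + 3) L m ss t1 t2 →
        ∃ ss' t1', STr (patchM n ψ κ k) (cur.drop o) (l.drop pos) (p, o, pos) out r ss' t1' t2 ∧
          Good (4 * P + 3) L (m + 2) ss' t1' t2 := by
      intro pos out r m ss t1 t2 hpos hk h hg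
      have hs := hL o pos (by omega) (by omega)
      refine ⟨_, _, STr.one ?_ ?_ (?_ : STr _ _ _ _ _ _ ss t1 _), ?_, ?_, ?_, hg.2.2.2⟩
      · simp [patchM, nlt]; omega
      · simp only [patchM, nlt, Vale.Agent.P337.neq, Bool.and_eq_false_imp, decide_eq_true_eq,
          decide_eq_false_iff_not]
        intro h
        have := hk h
        omega
      · have e1 : ((patchM n ψ κ k).up1 ((cur.drop o).take 1, p, o, pos)).1.reverse =
            if κ p o = k then [] else [cur.getD o d] := by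
          by_cases he : κ p o = k
          · simp [patchM, Vale.Agent.P337.neq, he]
          · simp only [patchM, Vale.Agent.P337.neq, he, decide_false, cond_false, if_false]
            rw [take1 cur d (by omega)]; rfl
        rw [List.tail_drop, e1]
        exact h
      · have := hg.1
        simp only [List.length_cons]
        omega
      · intro s hs'
        rcases List.mem_cons.1 hs' with rfl | hs'
        · exact hs
        · exact hg.2.1 s hs'
      · intro q hq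
        rcases List.mem_cons.1 hq with rfl | hq
        · exact ⟨sz_take1 hc _, hs⟩
        · exact hg.2.2.1 q hq
    rw [List.range'_succ, List.map_cons, List.reverse_cons, List.append_assoc]
    by_cases hk : κ p o = k
    · have h1 := hψ o (by omega) hk
      have h2 := hinv o le_rfl (by omega) hk
      obtain ⟨fin, ss, t1, t2, h3, h4⟩ := ih (o + 1) (ψ p o + 1) (l.getD (ψ p o) d :: out)
        (by omega) h1 fun o' h5 h6 h7 => hm o o' h5 h6 hk h7
      obtain ⟨ss', t1', h5, h6⟩ := key (ψ p o + 1) (l.getD (ψ p o) d :: out) _ _ ss t1 t2 h1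
        (fun _ => Nat.lt_succ_self _) (by rw [if_pos hk]; exact h3) h4
      obtain ⟨ss'', t2', h7, h8⟩ := skip hl hN hL (by omega) hn hk h1 d h5 h6 (ψ p o - pos) pos
        (by omega)
      refine ⟨fin, ss'', t1', t2', by rw [if_pos hk]; exact h7, ?_, h8.2⟩
      have := h8.1
      omega
    · obtain ⟨fin, ss, t1, t2, h3, h4⟩ := ih (o + 1) pos (cur.getD o d :: out)
        (by omega) hpos fun o' h5 h6 h7 => hinv o' (by omega) h6 h7
      obtain ⟨ss', t1', h5, h6⟩ := key pos out _ _ ss t1 t2 hpos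
        (fun h => absurd h hk) (by rw [if_neg hk]; exact h3) h4
      refine ⟨fin, ss', t1', t2, by rw [if_neg hk]; exact h5, ?_, h6.2⟩
      have := h6.1
      omega

end run

/-- The ambient of small states. -/
def ambS (σ : Type) [Enc σ] : Amb σ :=
  ⟨fun _ => True, fun _ => 0, fun _ => 1, sz, 1, fun a _ => by simp [wt]; omega⟩

/-- The ambient of an element with a small state. -/
def ambB (β σ : Type) [Enc β] [Enc σ] : Amb (β × σ) :=
  ⟨fun _ => True, fun q => sz q.1, fun _ => 1, fun q => sz q.2, 1, fun a _ => by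
    rw [sz_prod]; simp [wt]; omega⟩

theorem smS {σ : Type} [Enc σ] : Sm g (ambS σ) fun s => s :=
  ⟨Cl.id, 1, fun a _ => ⟨le_rfl, by simp [ambS]⟩⟩

theorem smB {β σ : Type} [Enc β] [Enc σ] : Sm g (ambB β σ) fun q => q.2 :=
  ⟨Cl.snd Cl.id, 1, fun a _ => ⟨le_rfl, by simp [ambB]⟩⟩

theorem wt_le {K z z' l l' : ℕ} (hz : z ≤ z') (hl : l ≤ l') : wt K z 1 l ≤ wt K z' 1 l' :=
  Nat.add_le_add (Nat.mul_le_mul_left _ (by omega))
    (Nat.mul_le_mul_left _ (Nat.pow_le_pow_left (by omega) _))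

theorem sum_le {ι : Type} {L : List ι} {f : ι → ℕ} {b : ℕ} (h : ∀ x ∈ L, f x ≤ b) :
    (L.map f).sum ≤ L.length * b := by
  induction L with
  | nil => simp
  | cons x L ih =>
    have h1 := h x (by simp)
    have h2 := ih fun y hy => h y (by simp [hy])
    rw [List.map_cons, List.sum_cons, List.length_cons, Nat.succ_mul]
    omega

theorem cl_patch {l cur : α → Arr} {p : α → π} {n : π → ℕ} {ψ κ : π → ℕ → ℕ} (k : ℕ)
    (hl : Cl g 𝒜 l) (hc : Cl g 𝒜 cur) (hp : Sm g 𝒜 p) (hn : TC 0 n)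
    (hψ : TC 0 fun q : π × ℕ => ψ q.1 q.2) (hκ : TC 0 fun q : π × ℕ => κ q.1 q.2)
    {N P : α → ℕ} (hF : Fit 𝒜 N P)
    (h : ∀ a, 𝒜.D a → Wf (P a) (l a) ∧ Wf (P a) (cur a) ∧ (l a).length ≤ N a ∧ n (p a) ≤ N a ∧
      (cur a).length = n (p a) ∧ (∀ o < n (p a), κ (p a) o = k → ψ (p a) o < (l a).length) ∧
      ∀ o o', o < o' → o' < n (p a) → κ (p a) o = k → κ (p a) o' = k → ψ (p a) o < ψ (p a) o')
    (d : α → List Bool) :
    Cl g 𝒜 fun a => arr (n (p a)) fun i =>
      if κ (p a) i = k then (l a).getD (ψ (p a) i) (d a) else (cur a).getD i (d a) := by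
  obtain ⟨c1, hc1⟩ := hp.2
  obtain ⟨c2, hc2⟩ := id hF
  have hL : ∀ a, 𝒜.D a → ∀ i j, i ≤ N a → j ≤ N a →
      sz (p a, i, j) ≤ (𝒜.l a + 2) ^ (c1 + c2 + 4) := by
    intro a ha i j hi hj
    have h1 := (hc1 a ha).2
    have h2 := sz_nat_le (hi.trans_lt (hc2 a ha).2.2)
    have h3 := sz_nat_le (hj.trans_lt (hc2 a ha).2.2)
    have h4 : (𝒜.l a + 2) ^ c1 ≤ (𝒜.l a + 2) ^ (c1 + c2) :=
      Nat.pow_le_pow_right (by omega) (by omega)
    have h5 : (𝒜.l a + 2) ^ c2 ≤ (𝒜.l a + 2) ^ (c1 + c2) :=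
      Nat.pow_le_pow_right (by omega) (by omega)
    have h6 : 1 ≤ (𝒜.l a + 2) ^ (c1 + c2) := Nat.one_le_pow _ _ (by omega)
    have h7 : 2 ^ 4 ≤ (𝒜.l a + 2) ^ 4 := Nat.pow_le_pow_left (by omega) _
    have h8 := Nat.mul_le_mul_left ((𝒜.l a + 2) ^ (c1 + c2)) h7
    rw [sz_pair, sz_pair, pow_add _ (c1 + c2)]
    omega
  have hrun := fun a (ha : 𝒜.D a) => run (k := k) (h a ha).1 (h a ha).2.1 (h a ha).2.2.1 (hL a ha)
    (h a ha).2.2.2.1 (h a ha).2.2.2.2.1 (h a ha).2.2.2.2.2.1 (h a ha).2.2.2.2.2.2 (d a)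
    (n (p a)) 0 0 [] (zero_add _) (Nat.zero_le _) fun _ _ _ _ => Nat.zero_le _
  have hrun' : ∀ a, ∃ fin : π × ℕ × ℕ, 𝒜.D a → ∃ ss t1 t2, _ ∧ _ := fun a => by
    by_cases ha : 𝒜.D a
    · obtain ⟨fin, hfin⟩ := hrun a ha
      exact ⟨fin, fun _ => hfin⟩
    · exact ⟨(p a, 0, 0), fun h => absurd h ha⟩
  choose fin hfin using hrun'
  have hκ' : TC 0 fun s : π × ℕ × ℕ => κ s.1 s.2.1 :=
    TC.comp (g := fun s : π × ℕ × ℕ => (s.1, s.2.1)) hκ (by fun_prop)
  have hψ' : TC 0 fun s : π × ℕ × ℕ => ψ s.1 s.2.1 :=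
    TC.comp (g := fun s : π × ℕ × ℕ => (s.1, s.2.1)) hψ (by fun_prop)
  have hF' : Fit 𝒜 (fun a => 4 * N a) fun a => 4 * P a + 3 :=
    hF.mono 4 fun a _ => ⟨by omega, by omega⟩
  have hs := Oc.stream (g := g) (patchM n ψ κ k) (𝓢 := ambS _) (𝓑₁ := ambB _ _) (𝓑₂ := ambB _ _)
    (u1 := u0) (u2 := u0) (u := u0) (u' := u0)
    (Sm.tc (F := fun s : π × ℕ × ℕ => nlt s.2.1 (n s.1)) (by fun_prop) smS).1
    (Sm.tc (F := fun s : π × ℕ × ℕ =>
      Vale.Agent.P337.neq (κ s.1 s.2.1) k && nlt s.2.2 (ψ s.1 s.2.1 + 1)) (by fun_prop) smS).1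
    (Cl.pair (Cl.cond (Sm.tc (F := fun s : π × ℕ × ℕ => Vale.Agent.P337.neq (κ s.1 s.2.1) k)
        (by fun_prop) smB).1 (Cl.const []) (Cl.fst Cl.id))
      (Sm.tc (F := fun s : π × ℕ × ℕ => (s.1, s.2.1 + 1, s.2.2)) (by fun_prop) smB).1)
    (Cl.pair (Cl.cond (Sm.tc (F := fun s : π × ℕ × ℕ => Vale.Agent.P337.neq s.2.2 (ψ s.1 s.2.1))
        (by fun_prop) smB).1 (Cl.fst Cl.id) (Cl.const []))
      (Sm.tc (F := fun s : π × ℕ × ℕ => (s.1, s.2.1, s.2.2 + 1)) (by fun_prop) smB).1)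
    (x := fun a => (cur a, l a, (p a, 0, 0)))
    (Cl.pair hc (Cl.pair hl (Cl.pair hp.1 (Cl.const _))))
    (F := fun a => (((List.range' 0 (n (p a))).map fun i =>
      if κ (p a) i = k then (l a).getD (ψ (p a) i) (d a) else (cur a).getD i (d a)).reverse ++ [],
      fin a))
    (hF'.dom (l := fun a => (𝒜.l a + 2) ^ (c1 + c2 + 4)) _ fun _ _ => le_rfl) ?_
  · refine Cl.congr (Cl.reverse (Cl.fst (hs.mono fun _ _ _ => by simp))) fun a _ => ?_
    simp [arr, List.range_eq_range']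
  · intro a ha
    obtain ⟨ss, t1, t2, h1, h2⟩ := hfin a ha
    refine ⟨ss, t1, t2, h1, fun _ _ => trivial, fun _ _ => trivial, fun _ _ => trivial,
      fun K => ?_, fun T => ?_⟩
    · set b := wt K (4 * P a + 3) 1 ((𝒜.l a + 2) ^ (c1 + c2 + 4))
      have e1 : (ss.map ((ambS _).wt K)).sum ≤ ss.length * b :=
        sum_le fun s hs => wt_le (Nat.zero_le _) (h2.2.1 s hs)
      have e2 : (t1.map ((ambB _ _).wt K)).sum ≤ t1.length * b :=
        sum_le fun s hs => wt_le (h2.2.2.1 s hs).1 (h2.2.2.1 s hs).2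
      have e3 : (t2.map ((ambB _ _).wt K)).sum ≤ t2.length * b :=
        sum_le fun s hs => wt_le (h2.2.2.2 s hs).1 (h2.2.2.2 s hs).2
      have e4 : ss.length + t1.length + t2.length ≤ 4 * N a + 1 := by
        have := h2.1
        have := (h a ha).2.2.1
        have := (h a ha).2.2.2.1
        omega
      have e5 := Nat.mul_le_mul_right b e4
      rw [add_mul, add_mul] at e5
      omega
    · have : ∀ t : List (Arr × π × ℕ × ℕ), (t.map (u0 T)).sum = 0 := fun t => by
        induction t with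
        | nil => rfl
        | cons x t ih => simp [ih]
      simp [this]

theorem cl_pull {l : α → Arr} {p : α → π} {n : π → ℕ} {ψ κ : π → ℕ → ℕ} (c : ℕ)
    (hl : Cl g 𝒜 l) (hp : Sm g 𝒜 p) (hn : TC 0 n) (hψ : TC 0 fun q : π × ℕ => ψ q.1 q.2)
    (hκ : TC 0 fun q : π × ℕ => κ q.1 q.2) {N P : α → ℕ} (hF : Fit 𝒜 N P)
    (h : ∀ a, 𝒜.D a → Wf (P a) (l a) ∧ l a ≠ [] ∧ (l a).length ≤ N a ∧ n (p a) ≤ N a ∧
      (∀ o < n (p a), if κ (p a) o < c then ψ (p a) o < (l a).length
        else (l a).length ≤ ψ (p a) o) ∧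
      ∀ o o', o < o' → o' < n (p a) → κ (p a) o = κ (p a) o' → κ (p a) o < c →
        ψ (p a) o < ψ (p a) o') :
    Cl g 𝒜 fun a => pull (n (p a)) (ψ (p a)) (l a) := by
  have hz : ∀ a, 𝒜.D a → (zer (l a)).length = P a := fun a ha => by
    rw [(h a ha).1.zer_eq (h a ha).2.1, List.length_replicate]
  have key : ∀ j ≤ c, Cl g 𝒜 fun a => arr (n (p a)) fun o =>
      if κ (p a) o < j then (l a).getD (ψ (p a) o) (zer (l a)) else zer (l a) := by
    intro j
    induction j with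
    | zero =>
      intro _
      refine Cl.congr (Oc.replicate (cl_zer hl) (Sm.tc hn hp) (hF.mono 4 fun a ha => ⟨?_, ?_⟩))
        fun a _ => ?_
      · have := (h a ha).2.2.2.1
        omega
      · have := Vale.Agent.P337.sz_bools (zer (l a))
        rw [hz a ha] at this
        omega
      · simp [arr]
    | succ j ih =>
      intro hj
      refine Cl.congr (cl_patch j hl (ih (by omega)) hp hn hψ hκ hF (fun a ha => ?_)
        fun a => zer (l a)) fun a _ => arr_congr fun o ho => ?_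
      · obtain ⟨h1, h2, h3, h4, h5, h6⟩ := h a ha
        refine ⟨h1, wf_arr fun i _ => ?_, h3, h4, length_arr _ _, fun o ho hk => ?_,
          fun o o' h7 h8 h9 h10 => h6 o o' h7 h8 (h9.trans h10.symm) (by omega)⟩
        · split_ifs
          · exact h1.getD h2 _
          · exact hz a ha
        · have := h5 o ho
          rwa [if_pos (by omega)] at this
      · rw [getD_arr _ _ ho]
        split_ifs <;> first | rfl | omega
  refine (key c le_rfl).congr fun a ha => arr_congr fun o ho => ?_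
  have := (h a ha).2.2.2.2.1 o ho
  split_ifs at this ⊢
  · rfl
  · exact List.getD_eq_default _ _ this

theorem parts_lt {H X w o : ℕ} (ho : o < H * X * w) :
    o / (w * X) < H ∧ o / w % X < X ∧ o % w < w := by
  have hw : 0 < w := Nat.pos_of_ne_zero fun h => by simp [h] at ho
  have hX : 0 < X := Nat.pos_of_ne_zero fun h => by simp [h] at ho
  refine ⟨Nat.div_lt_of_lt_mul ?_, Nat.mod_lt _ hX, Nat.mod_lt _ hw⟩
  calc o < H * X * w := ho
    _ = w * X * H := by ring

theorem ix_lt_iff {w X h x c h' x' c' : ℕ} (hx : x < X) (hc : c < w) (hx' : x' < X)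
    (hc' : c' < w) : (h * X + x) * w + c < (h' * X + x') * w + c' ↔
      h < h' ∨ (h = h' ∧ (x < x' ∨ (x = x' ∧ c < c'))) := by
  have key : ∀ {B a b a' b' : ℕ}, b < B → b' < B →
      (a * B + b < a' * B + b' ↔ a < a' ∨ (a = a' ∧ b < b')) := by
    intro B a b a' b' hb hb'
    rcases lt_trichotomy a a' with h | h | h
    · have := Nat.mul_le_mul_right B (show a + 1 ≤ a' from h)
      rw [Nat.succ_mul] at this
      omega
    · subst h; omega
    · have := Nat.mul_le_mul_right B (show a' + 1 ≤ a from h)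
      rw [Nat.succ_mul] at this
      omega
  have h1 := key (a := h) (a' := h') hx hx'
  have h2 := key (a := h') (a' := h) hx' hx
  rw [key hc hc']
  omega

theorem reverse_arr {β : Type} (m : ℕ) (F : ℕ → β) :
    (arr m F).reverse = arr m fun j => F (m - 1 - j) := by
  refine List.ext_getElem (by simp) fun i h1 h2 => ?_
  simp [arr]

/-- Reversal of the order of the blocks of length `S`. -/
def brev {β : Type} (S : ℕ) (l : List β) : List β := (chunks S l).reverse.flatten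

theorem brev_arr {β : Type} {S : ℕ} (hS : 0 < S) (m : ℕ) (f : ℕ → β) :
    brev S (arr (m * S) f) = arr (m * S) fun i => f ((m - 1 - i / S) * S + i % S) := by
  rw [brev, chunks_arr hS, reverse_arr, flatten_arr hS]

theorem oc_brev {β : Type} [Enc β] {l : α → List β} {S : α → ℕ} (hl : Oc g 𝒜 u l)
    (hS : Sm g 𝒜 S) {P : α → ℕ} (hF : Fit 𝒜 (fun a => (l a).length) P)
    (h : ∀ a, 𝒜.D a → 0 < S a ∧ S a ∣ (l a).length) : Oc g 𝒜 u fun a => brev (S a) (l a) :=
  oc_lin (F := fun L : List (List β) => L.reverse.flatten) (Cl.flatten (Cl.reverse Cl.id))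
    (oc_chunks hl hS hF h)

theorem cl_ofFn {β : Type} [Enc β] : ∀ {W : ℕ} {F : Fin W → α → β}, (∀ w, Cl g 𝒜 (F w)) →
    Cl g 𝒜 fun a => List.ofFn fun w => F w a
  | 0, _, _ => (Cl.const []).congr fun _ _ => List.ofFn_zero
  | _ + 1, _, h => (Cl.cons (h 0) (cl_ofFn fun w => h w.succ)).congr fun _ _ => List.ofFn_succ

end ArrAux

open ArrAux

/-- A rearrangement that is increasing on each of `c` classes. -/
theorem oc_pull {l : α → Arr} {p : α → π} {n : π → ℕ} {ψ κ : π → ℕ → ℕ} (c : ℕ)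
    (hl : Oc g 𝒜 u l) (hp : Sm g 𝒜 p) (hn : TC 0 n) (hψ : TC 0 fun q : π × ℕ => ψ q.1 q.2)
    (hκ : TC 0 fun q : π × ℕ => κ q.1 q.2) {N P : α → ℕ} (hF : Fit 𝒜 N P)
    (h : ∀ a, 𝒜.D a → Wf (P a) (l a) ∧ l a ≠ [] ∧ (l a).length ≤ N a ∧ n (p a) ≤ N a ∧
      (∀ o < n (p a), if κ (p a) o < c then ψ (p a) o < (l a).length
        else (l a).length ≤ ψ (p a) o) ∧
      ∀ o o', o < o' → o' < n (p a) → κ (p a) o = κ (p a) o' → κ (p a) o < c →
        ψ (p a) o < ψ (p a) o') :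
    Oc g 𝒜 u fun a => pull (n (p a)) (ψ (p a)) (l a) := by
  refine oc_wrap hl (F := fun q => pull (n (p q.1)) (ψ (p q.1)) q.2)
    (cl_pull c (Cl.snd Cl.id) hp.ext hn hψ hκ hF.ext fun q hq => ?_)
  rw [hq.2]
  exact h q.1 hq.1

/-- A rearrangement of one digit, with padding: digits of class at least `c` are filled with
zero entries. -/
theorem oc_dig {l : α → Arr} {p : α → π} {H w X X' : π → ℕ} {φ κ : π → ℕ → ℕ → ℕ} (c : ℕ)
    (hl : Oc g 𝒜 u l) (hp : Sm g 𝒜 p) (hH : TC 0 H) (hw : TC 0 w) (hX : TC 0 X) (hX' : TC 0 X')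
    (hφ : TC 0 fun q : π × ℕ × ℕ => φ q.1 q.2.1 q.2.2)
    (hκ : TC 0 fun q : π × ℕ × ℕ => κ q.1 q.2.1 q.2.2) {N P : α → ℕ} (hF : Fit 𝒜 N P)
    (h : ∀ a, 𝒜.D a → Wf (P a) (l a) ∧ l a ≠ [] ∧ (l a).length ≤ N a ∧
      (l a).length = H (p a) * X' (p a) * w (p a) ∧ H (p a) * X (p a) * w (p a) ≤ N a ∧
      ∀ h < H (p a), (∀ x < X (p a), κ (p a) h x < c → φ (p a) h x < X' (p a)) ∧
        ∀ x x', x < x' → x' < X (p a) → κ (p a) h x = κ (p a) h x' → κ (p a) h x < c →
          φ (p a) h x < φ (p a) h x') :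
    Oc g 𝒜 u fun a => pull (H (p a) * X (p a) * w (p a))
      (fun i => if κ (p a) (i / (w (p a) * X (p a))) (i / w (p a) % X (p a)) < c then
        digIx (w (p a)) (X (p a)) (X' (p a)) (φ (p a)) i else (l a).length) (l a) := by
  have hκ' : TC 0 fun q : π × ℕ => κ q.1 (q.2 / (w q.1 * X q.1)) (q.2 / w q.1 % X q.1) :=
    TC.comp (g := fun q : π × ℕ => (q.1, q.2 / (w q.1 * X q.1), q.2 / w q.1 % X q.1)) hκ
      (by fun_prop)
  have hφ' : TC 0 fun q : π × ℕ => φ q.1 (q.2 / (w q.1 * X q.1)) (q.2 / w q.1 % X q.1) :=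
    TC.comp (g := fun q : π × ℕ => (q.1, q.2 / (w q.1 * X q.1), q.2 / w q.1 % X q.1)) hφ
      (by fun_prop)
  have hψ : TC 0 fun q : π × ℕ =>
      bif nlt (κ q.1 (q.2 / (w q.1 * X q.1)) (q.2 / w q.1 % X q.1)) c then
        (q.2 / (w q.1 * X q.1) * X' q.1 + φ q.1 (q.2 / (w q.1 * X q.1)) (q.2 / w q.1 % X q.1)) *
          w q.1 + q.2 % w q.1
      else H q.1 * X' q.1 * w q.1 :=
    TC.cond (TC.nlt hκ' (TC.const c))
      (TC.add (TC.mul (TC.add (by fun_prop) hφ') (by fun_prop)) (by fun_prop)) (by fun_prop)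
  refine (oc_pull (n := fun p => H p * X p * w p)
    (ψ := fun p i => if κ p (i / (w p * X p)) (i / w p % X p) < c then
      digIx (w p) (X p) (X' p) (φ p) i else H p * X' p * w p)
    (κ := fun p i => κ p (i / (w p * X p)) (i / w p % X p)) c hl hp (by fun_prop)
    (hψ.of_eq fun q => ?_) hκ' hF fun a ha => ?_).congr fun a ha => by rw [(h a ha).2.2.2.1]
  · simp only [nlt, digIx, Bool.cond_decide]
  · obtain ⟨h1, h2, h3, h4, h5, h6⟩ := h a ha
    refine ⟨h1, h2, h3, h5, fun o ho => ?_, fun o o' h7 h8 h9 h10 => ?_⟩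
    · obtain ⟨e1, e2, e3⟩ := parts_lt ho
      split_ifs with hc
      · rw [h4]
        exact ix_lt e1 ((h6 _ e1).1 _ e2 hc) e3
      · exact h4.le
    · obtain ⟨e1, e2, e3⟩ := parts_lt (h7.trans h8)
      obtain ⟨e1', e2', e3'⟩ := parts_lt h8
      rw [if_pos h10, if_pos (h9 ▸ h10), digIx, digIx,
        ix_lt_iff ((h6 _ e1).1 _ e2 h10) e3 ((h6 _ e1').1 _ e2' (h9 ▸ h10)) e3']
      rw [ix_eq (w (p a)) (X (p a)) o, ix_eq (w (p a)) (X (p a)) o',
        ix_lt_iff e2 e3 e2' e3'] at h7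
      rcases h7 with h7 | ⟨h7, h11 | ⟨h11, h12⟩⟩
      · exact Or.inl h7
      · refine Or.inr ⟨h7, Or.inl ?_⟩
        rw [← h7] at h9 ⊢
        exact (h6 _ e1).2 _ _ h11 e2' h9 h10
      · exact Or.inr ⟨h7, Or.inr ⟨by rw [h7, h11], h12⟩⟩

theorem oc_rot {l : α → Arr} {p : α → π} {w X : π → ℕ} {r : π → ℕ → ℕ}
    (hl : Oc g 𝒜 u l) (hp : Sm g 𝒜 p) (hw : TC 0 w) (hX : TC 0 X)
    (hr : TC 0 fun q : π × ℕ => r q.1 q.2) {N P : α → ℕ} (hF : Fit 𝒜 N P)
    (h : ∀ a, 𝒜.D a → Wf (P a) (l a) ∧ l a ≠ [] ∧ (l a).length ≤ N a ∧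
      w (p a) * X (p a) ∣ (l a).length) :
    Oc g 𝒜 u fun a => pull (l a).length (rotIx (w (p a)) (X (p a)) (r (p a))) (l a) := by
  have hr' : TC 0 fun q : (π × ℕ) × ℕ × ℕ => r q.1.1 q.2.1 :=
    TC.comp (g := fun q : (π × ℕ) × ℕ × ℕ => (q.1.1, q.2.1)) hr (by fun_prop)
  have hκ : TC 0 fun q : (π × ℕ) × ℕ × ℕ =>
      bif nlt (q.2.2 + r q.1.1 q.2.1 % X q.1.1) (X q.1.1) then 0 else 1 := by fun_prop
  have hlen : ∀ a, 𝒜.D a → (l a).length / (w (p a) * X (p a)) * X (p a) * w (p a) =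
      (l a).length := fun a ha => by
    rw [mul_assoc, mul_comm (X (p a)), Nat.div_mul_cancel (h a ha).2.2.2]
  refine oc_wrap hl (F := fun q => pull q.2.length (rotIx (w (p q.1)) (X (p q.1)) (r (p q.1))) q.2)
    (Oc.congr (oc_dig (p := fun q : α × Arr => (p q.1, q.2.length))
      (H := fun s => s.2 / (w s.1 * X s.1)) (w := fun s => w s.1) (X := fun s => X s.1)
      (X' := fun s => X s.1) (φ := fun s h x => (x + r s.1 h) % X s.1)
      (κ := fun s h x => if x + r s.1 h % X s.1 < X s.1 then 0 else 1) 2 (Cl.snd Cl.id)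
      (hp.ext.pair (Sm.of_fit hF.ext (Cl.length (Cl.snd Cl.id)) fun q hq => ?_))
      (by fun_prop) (by fun_prop) (by fun_prop) (by fun_prop) (by fun_prop)
      (hκ.of_eq fun q => by simp only [nlt, Bool.cond_decide]) hF.ext fun q hq => ?_)
      fun q hq => ?_)
  · rw [hq.2]; exact (h q.1 hq.1).2.2.1
  · obtain ⟨h1, h2, h3, h4⟩ := h q.1 hq.1
    simp only [hq.2, hlen q.1 hq.1]
    refine ⟨h1, h2, h3, trivial, h3, fun k _ => ⟨fun x hx _ => Nat.mod_lt _ (by omega),
      fun x x' h5 h6 h7 _ => ?_⟩⟩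
    have e0 : r (p q.1) k % X (p q.1) < X (p q.1) := Nat.mod_lt _ (by omega)
    rw [← Nat.add_mod_mod x, ← Nat.add_mod_mod x']
    generalize r (p q.1) k % X (p q.1) = t at *
    by_cases e1 : x + t < X (p q.1) <;> by_cases e2 : x' + t < X (p q.1)
    · rw [Nat.mod_eq_of_lt e1, Nat.mod_eq_of_lt e2]; omega
    · simp [e1, e2] at h7
    · simp [e1, e2] at h7
    · rw [Nat.mod_eq_sub_mod (not_lt.1 e1), Nat.mod_eq_sub_mod (not_lt.1 e2),
        Nat.mod_eq_of_lt (by omega), Nat.mod_eq_of_lt (by omega)]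
      omega
  · simp only [hq.2, hlen q.1 hq.1]
    refine pull_congr fun o _ => Or.inl ?_
    rw [if_pos (by split_ifs <;> omega)]
    rfl

theorem oc_refl {l : α → Arr} {w X c : α → ℕ} (hl : Oc g 𝒜 u l) (hw : Sm g 𝒜 w) (hX : Sm g 𝒜 X)
    (hc : Sm g 𝒜 c) {N P : α → ℕ} (hF : Fit 𝒜 N P)
    (h : ∀ a, 𝒜.D a → Wf (P a) (l a) ∧ l a ≠ [] ∧ (l a).length ≤ N a ∧
      w a * X a ∣ (l a).length) :
    Oc g 𝒜 u fun a => pull (l a).length (reflIx (w a) (X a) (c a)) (l a) := by
  have hpos : ∀ a, 𝒜.D a → 0 < w a ∧ 0 < X a := fun a ha => by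
    obtain ⟨-, h2, -, h4⟩ := h a ha
    have h5 : 0 < w a * X a := Nat.pos_of_dvd_of_pos h4 (List.length_pos_iff.2 h2)
    exact ⟨Nat.pos_of_mul_pos_right h5, Nat.pos_of_mul_pos_left h5⟩
  have h1 := oc_rot (p := fun a => (w a, X a, c a)) (w := fun s => s.1) (X := fun s => s.2.1)
    (r := fun s _ => s.2.2 + 1) hl (hw.pair (hX.pair hc)) (by fun_prop) (by fun_prop)
    (by fun_prop) hF h
  have hF' : Fit 𝒜 (fun a => (l a).length) P :=
    hF.mono 1 fun a ha => ⟨by have := (h a ha).2.2.1; omega, by omega⟩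
  have h2 := oc_brev h1 hw (P := P) (by simpa only [length_pull] using hF') fun a ha =>
    ⟨(hpos a ha).1, by rw [length_pull]; exact (Dvd.intro _ rfl).trans (h a ha).2.2.2⟩
  have key : ∀ a, 𝒜.D a → ∀ f : ℕ → List Bool, ∃ H, (l a).length = H * X a * w a ∧
      brev (w a) (arr (l a).length f) = arr (H * (w a * X a))
        fun i => f ((H * X a - 1 - i / w a) * w a + i % w a) := by
    intro a ha f
    obtain ⟨H, hH⟩ := (h a ha).2.2.2
    have e : (l a).length = H * X a * w a := by rw [hH]; ring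
    refine ⟨H, e, ?_⟩
    rw [e, brev_arr (hpos a ha).1]
    congr 1
    ring
  have hlen : ∀ a, 𝒜.D a → ∀ f : ℕ → List Bool,
      (brev (w a) (arr (l a).length f)).length = (l a).length := by
    intro a ha f
    obtain ⟨H, e1, e2⟩ := key a ha f
    rw [e2, length_arr, e1]
    ring
  have h3 := oc_brev h2 (Sm.tc (F := fun s : ℕ × ℕ => s.1 * s.2) (by fun_prop) (hw.pair hX))
    (P := P) (hF'.mono 1 fun a ha => ⟨by rw [pull, hlen a ha]; omega, by omega⟩) fun a ha =>
    ⟨Nat.mul_pos (hpos a ha).1 (hpos a ha).2, by rw [pull, hlen a ha]; exact (h a ha).2.2.2⟩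
  refine h3.congr fun a ha => ?_
  obtain ⟨H, e1, e2⟩ := key a ha fun o =>
    (l a).getD (rotIx (w a) (X a) (fun _ => c a + 1) o) (zer (l a))
  simp only [pull]
  rw [e2, brev_arr (Nat.mul_pos (hpos a ha).1 (hpos a ha).2), e1,
    show H * X a * w a = H * (w a * X a) by ring]
  refine arr_congr fun i hi => ?_
  obtain ⟨f1, f2, f3⟩ := parts_lt (H := H) (X := X a) (w := w a) (o := i)
    (by rw [mul_assoc, mul_comm (X a)]; exact hi)
  congr 1
  have g1 : i % (w a * X a) = i / w a % X a * w a + i % w a := by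
    rw [Nat.mod_mul, mul_comm, add_comm]
  rw [reflIx, digIx, g1]
  generalize i / (w a * X a) = t at *
  generalize i / w a % X a = x at *
  generalize i % w a = y at *
  obtain ⟨s, rfl⟩ : ∃ s, H = t + 1 + s := ⟨H - (t + 1), by omega⟩
  have g2 : (t + 1 + s - 1 - t) * (w a * X a) + (x * w a + y) = (s * X a + x) * w a + y := by
    rw [show t + 1 + s - 1 - t = s by omega]; ring
  have g3 : ((s * X a + x) * w a + y) / w a = s * X a + x := by
    rw [mul_comm _ (w a), Nat.mul_add_div (by omega), Nat.div_eq_of_lt f3, add_zero]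
  have g4 : (t + 1 + s) * X a - 1 - (s * X a + x) = t * X a + (X a - 1 - x) := by
    rw [add_mul, add_mul, one_mul]; omega
  rw [g2, g3, (ix_parts f2 f3).2.2, g4, rotIx, digIx_mk _ (by omega) f3]
  congr 4
  omega

/-- Distribution of an array over `W` registers by the lowest digit. -/
def demux (W : ℕ) (l : Arr) : List Arr :=
  List.ofFn fun w : Fin W => pull (l.length / W) (fun i => i * W + w) l

/-- The inverse of `demux`. -/
def mux (W : ℕ) (L : List Arr) : Arr :=
  pull L.flatten.length (fun i => i % W * (L.flatten.length / W) + i / W) L.flatten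

theorem demux_arr {W N : ℕ} (hW : 0 < W) (f : ℕ → List Bool) :
    demux W (arr (N * W) f) = List.ofFn fun w : Fin W => arr N fun i => f (i * W + w) := by
  rw [demux, length_arr, Nat.mul_div_cancel _ hW]
  congr 1
  funext w
  refine pull_arr f fun o ho => ?_
  have := Nat.mul_le_mul_right W (show o + 1 ≤ N from ho)
  have := w.2
  rw [Nat.succ_mul] at *
  omega

theorem mux_arr {W N : ℕ} (hW : 0 < W) (f : ℕ → ℕ → List Bool) :
    mux W (List.ofFn fun w : Fin W => arr N (f w)) = arr (N * W) fun i => f (i % W) (i / W) := by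
  have e : (List.ofFn fun w : Fin W => arr N (f w)) = arr W fun w => arr N (f w) := by
    refine List.ext_getElem (by simp) fun i h1 h2 => ?_
    simp [arr]
  rcases Nat.eq_zero_or_pos N with rfl | hN
  · have : (arr W fun w => arr 0 (f w)).flatten = [] := by simp [arr]
    rw [mux, e, this]
    simp [pull, arr]
  rw [mux, e, flatten_arr hN, length_arr, Nat.mul_div_cancel_left _ hW, pull_arr, mul_comm W N]
  · refine arr_congr fun i hi => ?_
    have h1 : i / W < N := Nat.div_lt_of_lt_mul (by rwa [mul_comm])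
    rw [mul_comm (i % W), Nat.mul_add_div hN, Nat.div_eq_of_lt h1, add_zero, Nat.mul_add_mod,
      Nat.mod_eq_of_lt h1]
  · intro o ho
    have h1 : o / W < N := Nat.div_lt_of_lt_mul ho
    have := Nat.mul_le_mul_right N (show o % W + 1 ≤ W from Nat.mod_lt _ hW)
    rw [Nat.succ_mul] at this
    omega

theorem oc_demux (W : ℕ) (hW : 0 < W) {l : α → Arr} (hl : Oc g 𝒜 u l) {N P : α → ℕ}
    (hF : Fit 𝒜 N P)
    (h : ∀ a, 𝒜.D a → Wf (P a) (l a) ∧ l a ≠ [] ∧ (l a).length ≤ N a) :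
    Oc g 𝒜 u fun a => demux W (l a) := by
  refine oc_wrap hl (F := fun q => demux W q.2) (cl_ofFn fun w => ?_)
  refine cl_pull (p := fun q : α × Arr => q.2.length) (n := fun s => s / W)
    (ψ := fun _ i => i * W + w) (κ := fun _ _ => 0) 1 (Cl.snd Cl.id)
    (Sm.of_fit hF.ext (Cl.length (Cl.snd Cl.id)) fun q hq => ?_) (by fun_prop) (by fun_prop)
    (by fun_prop) hF.ext fun q hq => ?_
  · rw [hq.2]; exact (h q.1 hq.1).2.2
  · obtain ⟨h1, h2, h3⟩ := h q.1 hq.1
    rw [hq.2]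
    refine ⟨h1, h2, h3, (Nat.div_le_self _ _).trans h3, fun o ho => ?_, fun o o' h4 _ _ _ => ?_⟩
    · rw [if_pos Nat.one_pos]
      have := Nat.mul_le_mul_right W (show o + 1 ≤ _ from ho)
      have := Nat.div_mul_le_self (l q.1).length W
      have := w.2
      rw [Nat.succ_mul] at *
      omega
    · exact Nat.add_lt_add_right (Nat.mul_lt_mul_of_pos_right h4 hW) _

theorem oc_mux (W : ℕ) (hW : 0 < W) {L : α → List Arr} (hL : Oc g 𝒜 u L) {N P : α → ℕ}
    (hF : Fit 𝒜 N P) (h : ∀ a, 𝒜.D a → Wf (P a) (L a).flatten ∧ (L a).flatten ≠ [] ∧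
      (L a).flatten.length ≤ N a ∧ W ∣ (L a).flatten.length) :
    Oc g 𝒜 u fun a => mux W (L a) := by
  have hl : Oc g 𝒜 u fun a => (L a).flatten :=
    oc_lin (F := fun L : List Arr => L.flatten) (Cl.flatten Cl.id) hL
  refine oc_wrap hl
    (F := fun q => pull q.2.length (fun i => i % W * (q.2.length / W) + i / W) q.2) ?_
  refine cl_pull (p := fun q : α × Arr => q.2.length) (n := fun s => s)
    (ψ := fun s i => i % W * (s / W) + i / W) (κ := fun _ i => i % W) W (Cl.snd Cl.id)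
    (Sm.of_fit hF.ext (Cl.length (Cl.snd Cl.id)) fun q hq => ?_) (by fun_prop) (by fun_prop)
    (by fun_prop) hF.ext fun q hq => ?_
  · rw [hq.2]; exact (h q.1 hq.1).2.2.1
  · obtain ⟨h1, h2, h3, m, h4⟩ := h q.1 hq.1
    rw [hq.2]
    refine ⟨h1, h2, h3, h3, fun o ho => ?_, fun o o' h5 _ h6 _ => ?_⟩
    · rw [if_pos (Nat.mod_lt _ hW), h4, Nat.mul_div_cancel_left _ hW]
      have h7 : o / W < m := Nat.div_lt_of_lt_mul (h4 ▸ ho)
      have := Nat.mul_le_mul_right m (show o % W + 1 ≤ W from Nat.mod_lt _ hW)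
      rw [Nat.succ_mul] at this
      omega
    · rw [h6]
      refine Nat.add_lt_add_left (Nat.lt_of_mul_lt_mul_left (a := W) ?_) _
      have := Nat.div_add_mod o W
      have := Nat.div_add_mod o' W
      omega

end Vale.Agent.P338
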