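import Vale.Agent.P338.Arr
import Mathlib.Algebra.BigOperators.NatAntidiagonal
import Mathlib.Algebra.Order.Ring.Int
import Mathlib.Algebra.BigOperators.ModEq
import Mathlib.Tactic.LinearCombination

/-! Fixed length binary arithmetic in linear time, and products by Kronecker substitution. -/

namespace Vale.Agent.P338

open Function Vale.Agent.Common.TreeTM Enc Vale.Agent.P337

/-- The `P` lowest bits of the two's complement expansion, least significant first. -/
def toBits : ℕ → ℤ → List Bool
  | 0, _ => []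
  | P + 1, z => decide (z % 2 = 1) :: toBits P (z / 2)

/-- The signed value. -/
def sval (u : List Bool) : ℤ := (ofBits u : ℤ) - if u.getLastD false then 2 ^ u.length else 0

/-- The product of two bit strings, least significant bit first. -/
def mulB (p : List Bool × List Bool) : List Bool :=
  toBits (p.1.length + p.2.length) ((ofBits p.1 * ofBits p.2 : ℕ) : ℤ)

@[simp] theorem length_toBits (P : ℕ) (z : ℤ) : (toBits P z).length = P := by
  induction P generalizing z with
  | zero => rfl
  | succ P ih => simp [toBits, ih]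

theorem toBits_zero (P : ℕ) : toBits P 0 = List.replicate P false := by
  induction P with
  | zero => rfl
  | succ P ih => simp [toBits, ih, List.replicate_succ]

theorem toBits_congr {P : ℕ} {x y : ℤ} (h : x ≡ y [ZMOD 2 ^ P]) : toBits P x = toBits P y := by
  induction P generalizing x y with
  | zero => rfl
  | succ P ih =>
    obtain ⟨k, hk⟩ := h.dvd
    have h1 : y = x + 2 * (2 ^ P * k) := by rw [pow_succ] at hk; linear_combination hk
    have h2 : y / 2 = x / 2 + 2 ^ P * k := by omega
    rw [toBits, toBits, ih (x := x / 2) (y := y / 2) (Int.modEq_iff_dvd.2 ⟨k, by omega⟩),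
      show y % 2 = x % 2 by omega]

namespace BitsAux

theorem emod_eq {z r m q : ℤ} (h0 : 0 ≤ r) (h1 : r < m) (h : z = r + m * q) : z % m = r := by
  rw [h, Int.add_mul_emod_self_left, Int.emod_eq_of_lt h0 h1]

theorem ediv_eq {z r m q : ℤ} (h0 : 0 ≤ r) (h1 : r < m) (h : z = r + m * q) : z / m = q := by
  rw [h, Int.add_mul_ediv_left _ _ (by omega), Int.ediv_eq_zero_of_lt h0 h1, zero_add]

theorem ofBits_consZ (b : Bool) (l : List Bool) :
    (ofBits (b :: l) : ℤ) = 2 * ofBits l + if b then 1 else 0 := by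
  rw [ofBits_cons, Nat.bit_val]
  cases b <;> simp

end BitsAux

theorem ofBits_toBits (P : ℕ) (z : ℤ) : (ofBits (toBits P z) : ℤ) = z % 2 ^ P := by
  induction P generalizing z with
  | zero => simp [toBits, ofBits, Int.emod_one]
  | succ P ih =>
    have h1 := Int.emod_nonneg (z / 2) (b := 2 ^ P) (by positivity)
    have h2 := Int.emod_lt_of_pos (z / 2) (b := 2 ^ P) (by positivity)
    have h3 := Int.emod_add_mul_ediv (z / 2) (2 ^ P)
    rw [toBits, BitsAux.ofBits_consZ, ih]
    refine (BitsAux.emod_eq (q := z / 2 / 2 ^ P) (by split_ifs <;> omega)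
      (by rw [pow_succ]; split_ifs <;> omega) ?_).symm
    rw [pow_succ, mul_right_comm]
    rcases Int.emod_two_eq_zero_or_one z with h | h <;> simp only [h, decide_eq_true_eq] <;>
      split_ifs <;> omega

theorem toBits_ofBits (u : List Bool) : toBits u.length (ofBits u) = u := by
  induction u with
  | nil => rfl
  | cons b u ih =>
    rw [List.length_cons, toBits, BitsAux.ofBits_consZ]
    congr 1
    · cases b <;> simp
    · rw [show ((2 * ofBits u + if b then 1 else 0 : ℤ)) / 2 = ofBits u by
        split_ifs <;> omega, ih]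

theorem ofBits_append (u v : List Bool) : ofBits (u ++ v) = ofBits u + 2 ^ u.length * ofBits v := by
  induction u with
  | nil => simp [ofBits]
  | cons b u ih =>
    rw [List.cons_append, ofBits_cons, ofBits_cons, ih, Nat.bit_val, Nat.bit_val,
      List.length_cons]
    ring

theorem take_toBits {a P : ℕ} (h : a ≤ P) (z : ℤ) : (toBits P z).take a = toBits a z := by
  induction a generalizing P z with
  | zero => rfl
  | succ a ih =>
    obtain ⟨P, rfl⟩ : ∃ Q, P = Q + 1 := ⟨P - 1, by omega⟩
    rw [toBits, toBits, List.take_succ_cons, ih (by omega)]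

theorem drop_toBits (a P : ℕ) (z : ℤ) : (toBits P z).drop a = toBits (P - a) (z / 2 ^ a) := by
  induction a generalizing P z with
  | zero => simp
  | succ a ih =>
    cases P with
    | zero => simp [toBits]
    | succ P =>
      rw [toBits, List.drop_succ_cons, ih, Int.ediv_ediv_of_nonneg (by norm_num), pow_succ',
        Nat.add_sub_add_right]

theorem toBits_append (a b : ℕ) (x y : ℤ) :
    toBits a x ++ toBits b y = toBits (a + b) (x % 2 ^ a + 2 ^ a * y) := by
  rw [← List.take_append_drop a (toBits (a + b) _), take_toBits (Nat.le_add_right _ _),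
    drop_toBits, Nat.add_sub_cancel_left, BitsAux.ediv_eq (Int.emod_nonneg x (by positivity))
      (Int.emod_lt_of_pos x (by positivity)) rfl]
  congr 1
  exact toBits_congr ((Int.mod_modEq _ _).symm.trans (Int.modEq_iff_dvd.2 ⟨y, by ring⟩))

namespace BitsAux

theorem emod_sign {P : ℕ} {x : ℤ} (h : |x| * 2 < 2 ^ P) :
    x % 2 ^ P = if x < 0 then x + 2 ^ P else x := by
  have := abs_nonneg x
  have := le_abs_self x
  have := neg_abs_le x
  split_ifs
  · exact emod_eq (q := -1) (by omega) (by omega) (by ring)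
  · exact emod_eq (q := 0) (by omega) (by omega) (by ring)

theorem toBits_succ' (P : ℕ) (z : ℤ) :
    toBits (P + 1) z = toBits P z ++ [decide (z / 2 ^ P % 2 = 1)] := by
  rw [← List.take_append_drop P (toBits (P + 1) z), take_toBits (Nat.le_succ _), drop_toBits,
    Nat.add_sub_cancel_left]
  rfl

theorem last_toBits {P : ℕ} {x : ℤ} (h : |x| * 2 < 2 ^ P) :
    (toBits P x).getLastD false = decide (x < 0) := by
  have := abs_nonneg x
  have := le_abs_self x
  have := neg_abs_le x
  cases P with
  | zero => simp only [pow_zero] at h; simp [toBits]; omega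
  | succ P =>
    rw [pow_succ] at h
    rw [toBits_succ', List.getLastD_concat]
    by_cases hx : x < 0
    · rw [ediv_eq (r := x + 2 ^ P) (q := -1) (by omega) (by omega) (by ring)]
      simp [hx]
    · rw [ediv_eq (r := x) (q := 0) (by omega) (by omega) (by ring)]
      simp [hx]

theorem toBits_neg_one (P : ℕ) : toBits P (-1) = List.replicate P true := by
  induction P with
  | zero => rfl
  | succ P ih => simp [toBits, ih, List.replicate_succ]

theorem toBits_ext {P : ℕ} {x : ℤ} (h : |x| * 2 < 2 ^ P) (k : ℕ) :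
    toBits P x ++ List.replicate k (decide (x < 0)) = toBits (P + k) x := by
  by_cases hx : x < 0
  · simp only [hx, decide_true]
    rw [← toBits_neg_one, toBits_append, emod_sign h, if_pos hx]
    congr 1; ring
  · simp only [hx, decide_false]
    rw [← toBits_zero, toBits_append, emod_sign h, if_neg hx]
    congr 1; ring

theorem toBits_pad (u : List Bool) (k : ℕ) :
    u ++ List.replicate k false = toBits (u.length + k) (ofBits u) := by
  have := ofBits_lt u
  conv_lhs => rw [← toBits_ofBits u, ← toBits_zero, toBits_append]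
  rw [mul_zero, add_zero, Int.emod_eq_of_lt (by positivity) (by exact_mod_cast this)]

theorem toBits_nat (k z : ℕ) : toBits k z = List.ofFn fun j : Fin k => z.testBit j := by
  induction k generalizing z with
  | zero => rfl
  | succ k ih =>
    rw [toBits, List.ofFn_succ, show (z : ℤ) / 2 = (z / 2 : ℕ) by push_cast; rfl, ih]
    congr 1
    · simp only [Fin.val_zero, Nat.testBit_zero, decide_eq_decide]; omega
    · simp [Nat.testBit_succ]

end BitsAux

theorem sval_toBits {P : ℕ} {x : ℤ} (h : |x| * 2 < 2 ^ P) : sval (toBits P x) = x := by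
  rw [sval, BitsAux.last_toBits h, ofBits_toBits, length_toBits, BitsAux.emod_sign h]
  by_cases hx : x < 0 <;> simp [hx]

theorem reverse_toBits (k z : ℕ) : (toBits k z).reverse = bin k z := by
  rw [BitsAux.toBits_nat, bin]
  refine List.ext_getElem (by simp) fun i h1 h2 => ?_
  simp

theorem ofBits_reverse (x : List Bool) : ofBits x.reverse = val x := by
  simp [ofBits, val, Nat.bit_val]

def addStep (p : (Bool × Bool) × Bool) : List Bool × Bool :=
  ([(p.1.1 ^^ p.1.2) ^^ p.2], (p.1.1 && p.1.2) || (p.2 && (p.1.1 ^^ p.1.2)))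

def addB (u v : List Bool) : List Bool := (scan addStep (u.zip v) false).1

def negB (u : List Bool) : List Bool :=
  (scan addStep (u.map fun b => (!b, false)) true).1

def halfB (u : List Bool) : List Bool := u.tail ++ [u.getLastD false]

def xorB (u v : List Bool) : List Bool := (u.zip v).map fun q => q.1 ^^ q.2

theorem BitsAux.scan_add (P : ℕ) (x y : ℤ) (c : Bool) :
    (scan addStep ((toBits P x).zip (toBits P y)) c).1 =
      toBits P (x + y + if c then 1 else 0) := by
  induction P generalizing x y c with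
  | zero => rfl
  | succ P ih =>
    rw [toBits, toBits, List.zip_cons_cons, scan, toBits, ih]
    rcases Int.emod_two_eq_zero_or_one x with hx | hx <;>
      rcases Int.emod_two_eq_zero_or_one y with hy | hy <;> cases c <;>
      simp only [addStep, hx, hy] <;> simp <;> refine ⟨by omega, ?_⟩ <;> congr 1 <;> omega

theorem addB_toBits (P : ℕ) (x y : ℤ) : addB (toBits P x) (toBits P y) = toBits P (x + y) := by
  simpa [addB] using BitsAux.scan_add P x y false

theorem negB_toBits (P : ℕ) (x : ℤ) : negB (toBits P x) = toBits P (-x) := by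
  have h : ∀ x : ℤ, (toBits P x).map (fun b => (!b, false)) =
      (toBits P (-x - 1)).zip (toBits P 0) := by
    induction P with
    | zero => intro; rfl
    | succ P ih =>
      intro x
      rw [toBits, toBits, toBits, List.map_cons, List.zip_cons_cons, ih,
        show (-x - 1) / 2 = -(x / 2) - 1 by omega]
      congr 2
      rcases Int.emod_two_eq_zero_or_one x with hx | hx <;> simp [hx] <;> omega
  rw [negB, h, BitsAux.scan_add]
  simp

theorem halfB_toBits {P : ℕ} {x : ℤ} (hP : 0 < P) (h : |x| * 2 < 2 ^ P) :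
    halfB (toBits P x) = toBits P (x / 2) := by
  obtain ⟨P, rfl⟩ : ∃ Q, P = Q + 1 := ⟨P - 1, by omega⟩
  have h2 : |x / 2| * 2 < 2 ^ (P + 1) := by
    rcases abs_cases x with h1 | h1 <;> rcases abs_cases (x / 2) with h2 | h2 <;> omega
  have h3 := BitsAux.last_toBits h2
  rw [BitsAux.toBits_succ', List.getLastD_concat] at h3
  rw [halfB, BitsAux.last_toBits h, BitsAux.toBits_succ' P (x / 2), h3, toBits, List.tail_cons]
  congr 2
  simp only [decide_eq_decide]
  omega

variable {α γ δ : Type} [Enc α] [Enc γ] [Enc δ] {g : γ → δ} {𝒜 : Amb α}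

@[fun_prop] theorem cl_addB {u v : α → List Bool} (hu : Cl g 𝒜 u) (hv : Cl g 𝒜 v) :
    Cl g 𝒜 fun a => addB (u a) (v a) :=
  Cl.fst (cl_scan_fin (F := addStep) (by unfold addStep; fun_prop) 3 (fun _ => sz_bool _)
    (Cl.zip hu hv) false)

@[fun_prop] theorem cl_negB {u : α → List Bool} (hu : Cl g 𝒜 u) :
    Cl g 𝒜 fun a => negB (u a) :=
  Cl.fst (cl_scan_fin (F := addStep) (by unfold addStep; fun_prop) 3 (fun _ => sz_bool _)
    (Cl.map (F := fun b => (!b, false)) (by fun_prop) hu) true)

@[fun_prop] theorem cl_halfB {u : α → List Bool} (hu : Cl g 𝒜 u) :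
    Cl g 𝒜 fun a => halfB (u a) := by
  unfold halfB
  fun_prop

@[fun_prop] theorem cl_xorB {u v : α → List Bool} (hu : Cl g 𝒜 u) (hv : Cl g 𝒜 v) :
    Cl g 𝒜 fun a => xorB (u a) (v a) :=
  Cl.map (F := fun q : Bool × Bool => q.1 ^^ q.2) (by fun_prop) (Cl.zip hu hv)

@[fun_prop] theorem tc_toBits {e : ℕ} {t : α → List Bool} {z : α → ℤ} (ht : TC e t) (hz : TC e z) :
    TC e fun a => toBits (t a).length (z a) := by
  have h : TC e fun a => (((z a).toNat + (2 ^ (t a).length - 1) * (-z a).toNat).bits ++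
      (t a).map fun _ => false).take (t a).length := by fun_prop
  refine h.of_eq fun a => ?_
  rw [List.map_const', BitsAux.toBits_pad, take_toBits (Nat.le_add_left _ _), ofBits_bits]
  refine toBits_congr (Int.modEq_iff_dvd.2 ⟨(-z a).toNat, ?_⟩)
  have : 1 ≤ 2 ^ (t a).length := Nat.one_le_two_pow
  push_cast [Nat.cast_sub this]
  have := Int.toNat_sub_toNat_neg (z a)
  linear_combination this

theorem tc_mulB : TC 0 mulB :=
  (tc_toBits (t := fun p : List Bool × List Bool => p.1 ++ p.2)
    (z := fun p => ((ofBits p.1 * ofBits p.2 : ℕ) : ℤ)) (by fun_prop) (by fun_prop)).of_eq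
      fun p => by rw [mulB, List.length_append]

/-- Entrywise operations on arrays. -/
def addA (u v : Arr) : Arr := (u.zip v).map fun q => addB q.1 q.2
def negA (u : Arr) : Arr := u.map negB
def halfA (u : Arr) : Arr := u.map halfB
def xorA (u v : Arr) : Arr := (u.zip v).map fun q => xorB q.1 q.2

@[fun_prop] theorem cl_addA {u v : α → Arr} (hu : Cl g 𝒜 u) (hv : Cl g 𝒜 v) :
    Cl g 𝒜 fun a => addA (u a) (v a) :=
  Cl.map (F := fun q : List Bool × List Bool => addB q.1 q.2) (by fun_prop) (Cl.zip hu hv)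

@[fun_prop] theorem cl_negA {u : α → Arr} (hu : Cl g 𝒜 u) : Cl g 𝒜 fun a => negA (u a) :=
  Cl.map (F := negB) (cl_negB Cl.id) hu

@[fun_prop] theorem cl_halfA {u : α → Arr} (hu : Cl g 𝒜 u) : Cl g 𝒜 fun a => halfA (u a) :=
  Cl.map (F := halfB) (cl_halfB Cl.id) hu

@[fun_prop] theorem cl_xorA {u v : α → Arr} (hu : Cl g 𝒜 u) (hv : Cl g 𝒜 v) :
    Cl g 𝒜 fun a => xorA (u a) (v a) :=
  Cl.map (F := fun q : List Bool × List Bool => xorB q.1 q.2) (by fun_prop) (Cl.zip hu hv)

/-- An integer array in two's complement. -/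
def encA (N P : ℕ) (x : ℕ → ℤ) : Arr := arr N fun i => toBits P (x i)

theorem wf_encA (N P : ℕ) (x : ℕ → ℤ) : Wf P (encA N P x) := wf_arr fun _ _ => length_toBits _ _

@[simp] theorem length_encA (N P : ℕ) (x : ℕ → ℤ) : (encA N P x).length = N := length_arr _ _

theorem addA_encA (N P : ℕ) (x y : ℕ → ℤ) :
    addA (encA N P x) (encA N P y) = encA N P fun i => x i + y i := by
  simp only [addA, encA, zip_arr, map_arr, addB_toBits]

theorem negA_encA (N P : ℕ) (x : ℕ → ℤ) : negA (encA N P x) = encA N P fun i => -x i := by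
  simp only [negA, encA, map_arr, negB_toBits]

theorem halfA_encA {N P : ℕ} {x : ℕ → ℤ} (hP : 0 < P) (h : ∀ i < N, |x i| * 2 < 2 ^ P) :
    halfA (encA N P x) = encA N P fun i => x i / 2 := by
  simp only [halfA, encA, map_arr]
  exact arr_congr fun i hi => halfB_toBits hP (h i hi)

/-- Real and imaginary parts. -/
abbrev CArr : Type := Arr × Arr

/-- The worst case cost of a recursive product of two strings of length `L`. -/
noncomputable def That (T : List Bool × List Bool → ℕ∞) (L : ℕ) : ℕ∞ :=
  ⨆ p : {p : List Bool × List Bool // p.1.length = L ∧ p.2.length = L}, T p.1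

/-- Sign extension to twice the length, then zero padding to five times the length. -/
def pack (u : List Bool) : List Bool :=
  u ++ (u.map fun _ => u.getLastD false) ++ (u ++ u ++ u).map fun _ => false

/-- Truncated convolution of two integer arrays, modulo `2 ^ (2 P)`. -/
def convB (us vs : Arr) : Arr :=
  (takeL us (chunksF ((us ++ us).map fun u => true :: ((pack u).tail.map fun _ => false)).flatten
    (mulB ((us.map pack).flatten, (vs.map pack).flatten)))).map
      fun w => takeL (zer us ++ zer us) w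

/-- Rounding: drop the template `t.1`, insert as many zeros as `t.2` has elements. -/
def rndB (t : List Bool × List Bool) (us ws : Arr) : Arr :=
  ws.map fun w => takeL (zer us) ((t.2.map fun _ => false) ++ dropL t.1 w)

/-- Truncated convolution of Gaussian integer arrays, with rounding. -/
def cmul (p : (List Bool × List Bool) × CArr × CArr) : CArr :=
  (rndB p.1 p.2.1.1 (addA (convB p.2.1.1 p.2.2.1) (negA (convB p.2.1.2 p.2.2.2))),
   rndB p.1 p.2.1.1 (addA (convB p.2.1.1 p.2.2.2) (convB p.2.1.2 p.2.2.1)))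

def cv (x y : ℕ → ℤ) (c : ℕ) : ℤ := ∑ p ∈ Finset.antidiagonal c, x p.1 * y p.2

namespace BitsAux

open Finset

theorem arr_succ {β : Type} (N : ℕ) (f : ℕ → β) :
    arr (N + 1) f = f 0 :: arr N fun i => f (i + 1) := by
  simp [arr, List.range_succ_eq_map, Function.comp_def]

theorem zer_encA {R : ℕ} (hR : 0 < R) (P : ℕ) (x : ℕ → ℤ) :
    zer (encA R P x) = List.replicate P false :=
  (wf_encA R P x).zer_eq (List.length_pos_iff.1 (by rwa [length_encA]))

theorem flatten_encA (S m : ℕ) (z : ℕ → ℤ) (hz : ∀ i < m, 0 ≤ z i ∧ z i < 2 ^ S) :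
    (encA m S z).flatten = toBits (S * m) (∑ i ∈ range m, z i * (2 ^ S) ^ i) := by
  induction m generalizing z with
  | zero => rfl
  | succ m ih =>
    have h := ih (fun i => z (i + 1)) fun i hi => hz _ (by omega)
    rw [encA] at h
    rw [encA, arr_succ, List.flatten_cons, h, toBits_append, sum_range_succ',
      Int.emod_eq_of_lt (hz 0 (by omega)).1 (hz 0 (by omega)).2, mul_sum]
    congr 1
    · ring
    · rw [add_comm, pow_zero, mul_one]
      congr 1
      exact sum_congr rfl fun i _ => by ring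

theorem digits_lt {B : ℤ} (m : ℕ) (z : ℕ → ℤ) (hz : ∀ i < m, 0 ≤ z i ∧ z i < B) :
    0 ≤ ∑ i ∈ range m, z i * B ^ i ∧ ∑ i ∈ range m, z i * B ^ i < B ^ m := by
  induction m with
  | zero => simp
  | succ m ih =>
    obtain ⟨h1, h2⟩ := ih fun i hi => hz i (by omega)
    obtain ⟨h3, h4⟩ := hz m (by omega)
    have h5 : 0 ≤ B ^ m := by omega
    have h6 := mul_nonneg h3 h5
    have h7 := mul_le_mul_of_nonneg_right (show z m + 1 ≤ B from h4) h5
    rw [sum_range_succ, pow_succ]
    constructor <;> nlinarith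

theorem trunc (B : ℤ) (z : ℕ → ℤ) {n R : ℕ} (h : n ≤ R) :
    ∑ i ∈ range R, z i * B ^ i ≡ ∑ i ∈ range n, z i * B ^ i [ZMOD B ^ n] := by
  induction R, h using Nat.le_induction with
  | base => rfl
  | succ R h ih =>
    rw [sum_range_succ]
    simpa using ih.add (Int.modEq_zero_iff_dvd.2 ((pow_dvd_pow B h).mul_left (z R)))

theorem prod_trunc (B : ℤ) (x y : ℕ → ℤ) {n R : ℕ} (h : n ≤ R) :
    (∑ i ∈ range R, x i * B ^ i) * (∑ i ∈ range R, y i * B ^ i) ≡
      ∑ c ∈ range n, cv x y c * B ^ c [ZMOD B ^ n] := by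
  have h1 : ∑ c ∈ range n, cv x y c * B ^ c =
      ∑ m ∈ range n, ∑ k ∈ range (n - m), x m * B ^ m * (y k * B ^ k) := by
    rw [← sum_range_diag_flip n fun m k => x m * B ^ m * (y k * B ^ k)]
    refine sum_congr rfl fun c _ => ?_
    rw [cv, Nat.sum_antidiagonal_eq_sum_range_succ (fun i j => x i * y j), sum_mul]
    refine sum_congr rfl fun k hk => ?_
    have : c = k + (c - k) := by have := mem_range.1 hk; omega
    conv_lhs => rw [this, pow_add, ← this]
    ring
  refine ((trunc B x h).mul_right _).trans ?_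
  rw [h1, sum_mul]
  refine Int.ModEq.sum fun m hm => ?_
  have hm' := mem_range.1 hm
  rw [← mul_sum]
  obtain ⟨q, hq⟩ := (trunc B y (n := n - m) (R := R) (by omega)).dvd
  refine Int.modEq_iff_dvd.2 ⟨x m * q, ?_⟩
  have : B ^ n = B ^ m * B ^ (n - m) := by rw [← pow_add]; congr 1; omega
  rw [← mul_sub, hq, this]
  ring

theorem cv_bound {M : ℤ} {x y : ℕ → ℤ} (hx : ∀ i, 0 ≤ x i ∧ x i < M) (hy : ∀ i, 0 ≤ y i ∧ y i < M)
    (c : ℕ) : 0 ≤ cv x y c ∧ cv x y c < (c + 1) * (M * M) := by
  refine ⟨sum_nonneg fun p _ => mul_nonneg (hx _).1 (hy _).1, ?_⟩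
  have h := sum_le_card_nsmul (antidiagonal c) (fun p => x p.1 * y p.2) (M * M - 1) fun p _ => by
    have := mul_lt_mul'' (hx p.1).2 (hy p.2).2 (hx _).1 (hy _).1
    omega
  rw [Nat.card_antidiagonal, nsmul_eq_mul] at h
  push_cast at h
  rw [cv]
  nlinarith [Int.natCast_nonneg c]

theorem chunks_toBits {S : ℕ} (hS : 0 < S) (m : ℕ) (z : ℤ) :
    chunks S (toBits (m * S) z) = arr m fun j => toBits S (z / (2 ^ S) ^ j) := by
  rw [chunks, length_toBits, Nat.mul_div_cancel _ hS]
  refine arr_congr fun j hj => ?_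
  have := Nat.mul_le_mul_right S (show j + 1 ≤ m from hj)
  rw [Nat.succ_mul] at this
  rw [drop_toBits, take_toBits (by omega), ← pow_mul, mul_comm S]

theorem length_pack (u : List Bool) : (pack u).length = 5 * u.length := by
  simp [pack]; ring

theorem pack_toBits {P : ℕ} {x : ℤ} (h : |x| * 2 < 2 ^ P) :
    pack (toBits P x) = toBits (5 * P) (x % 2 ^ (2 * P)) := by
  rw [pack, last_toBits h, List.map_const', List.map_const', length_toBits, toBits_ext h,
    ← toBits_zero, toBits_append]
  simp only [List.length_append, length_toBits, mul_zero, add_zero]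
  congr 1
  · ring
  · rw [two_mul]

theorem flags {P : ℕ} {us : Arr} (h : Wf P us) :
    ((us ++ us).map fun u => true :: ((pack u).tail.map fun _ => false)) =
      List.replicate (2 * us.length) (true :: List.replicate (5 * P - 1) false) := by
  rw [List.eq_replicate_iff]
  refine ⟨by simp; ring, fun b hb => ?_⟩
  obtain ⟨u, hu, rfl⟩ := List.mem_map.1 hb
  rw [List.map_const', List.length_tail, length_pack, h u (by simpa using hu)]

theorem take_arr {β : Type} {m N : ℕ} (h : m ≤ N) (f : ℕ → β) : (arr N f).take m = arr m f := by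
  rw [arr, ← List.map_take, List.take_range, min_eq_left h, arr]

theorem convB_encA {R P : ℕ} {x y : ℕ → ℤ} (hR : 0 < R) (hP : 0 < P) (hRP : R ≤ 2 ^ P)
    (hx : ∀ i < R, |x i| * 2 < 2 ^ P) (hy : ∀ i < R, |y i| * 2 < 2 ^ P) :
    convB (encA R P x) (encA R P y) = encA R (2 * P) (cv x y) := by
  have hM : (0 : ℤ) < 2 ^ (2 * P) := by positivity
  have hMB : (2 : ℤ) ^ (5 * P) = 2 ^ P * (2 ^ (2 * P) * 2 ^ (2 * P)) := by ring
  have hb : ∀ z : ℤ, 0 ≤ z % 2 ^ (2 * P) ∧ z % 2 ^ (2 * P) < 2 ^ (2 * P) := fun z =>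
    ⟨Int.emod_nonneg _ hM.ne', Int.emod_lt_of_pos _ hM⟩
  have hb' : ∀ z : ℤ, 0 ≤ z % 2 ^ (2 * P) ∧ z % 2 ^ (2 * P) < 2 ^ (5 * P) := fun z =>
    ⟨(hb z).1, (hb z).2.trans_le (pow_le_pow_right₀ (by norm_num) (by omega))⟩
  have hp : ∀ x : ℕ → ℤ, (∀ i < R, |x i| * 2 < 2 ^ P) → ((encA R P x).map pack).flatten =
      toBits (5 * P * R) (∑ i ∈ range R, x i % 2 ^ (2 * P) * (2 ^ (5 * P)) ^ i) := by
    intro x hx
    rw [← flatten_encA _ _ _ fun i _ => hb' (x i), encA, map_arr, encA]
    exact congrArg _ (arr_congr fun i hi => pack_toBits (hx i hi))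
  have hv : ∀ x : ℕ → ℤ, (ofBits (toBits (5 * P * R)
      (∑ i ∈ range R, x i % 2 ^ (2 * P) * (2 ^ (5 * P)) ^ i)) : ℤ) =
      ∑ i ∈ range R, x i % 2 ^ (2 * P) * (2 ^ (5 * P)) ^ i := by
    intro x
    have := digits_lt R _ fun i _ => hb' (x i)
    rw [ofBits_toBits, pow_mul _ (5 * P), Int.emod_eq_of_lt this.1 this.2]
  rw [convB, flags (wf_encA R P x), hp x hx, hp y hy, length_encA, mulB]
  simp only [length_toBits]
  push_cast
  rw [hv, hv, show 5 * P * R + 5 * P * R = 2 * R * (5 * P) by ring,
    chunksF_replicate (by omega) (length_toBits _ _), chunks_toBits (by omega), takeL, length_encA,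
    take_arr (by omega), map_arr, zer_encA hR, encA]
  refine arr_congr fun j hj => ?_
  rw [takeL, List.length_append, List.length_replicate, ← two_mul, take_toBits (by omega)]
  refine toBits_congr ?_
  obtain ⟨q, hq⟩ := (prod_trunc (2 ^ (5 * P)) (fun i => x i % 2 ^ (2 * P))
    (fun i => y i % 2 ^ (2 * P)) (show j + 1 ≤ R from hj)).symm.dvd
  have hd := digits_lt (B := 2 ^ (5 * P)) j
    (cv (fun i => x i % 2 ^ (2 * P)) fun i => y i % 2 ^ (2 * P)) fun c hc => by
      have h1 := cv_bound (fun i => hb (x i)) (fun i => hb (y i)) c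
      have h2 : (c : ℤ) + 1 ≤ 2 ^ P := by exact_mod_cast (show c + 1 ≤ 2 ^ P by omega)
      exact ⟨h1.1, h1.2.trans_le (hMB ▸ mul_le_mul_of_nonneg_right h2 (by positivity))⟩
  rw [ediv_eq (q := cv (fun i => x i % 2 ^ (2 * P)) (fun i => y i % 2 ^ (2 * P)) j +
    2 ^ (5 * P) * q) hd.1 hd.2 (by rw [sum_range_succ, pow_succ] at hq; linear_combination hq)]
  have h1 : cv (fun i => x i % 2 ^ (2 * P)) (fun i => y i % 2 ^ (2 * P)) j ≡ cv x y j
      [ZMOD 2 ^ (2 * P)] :=
    Int.ModEq.sum fun p _ => (Int.mod_modEq _ _).mul (Int.mod_modEq _ _)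
  simpa using h1.add (Int.modEq_zero_iff_dvd.2
    ((pow_dvd_pow (2 : ℤ) (show 2 * P ≤ 5 * P by omega)).mul_right q))

theorem rndB_encA {R P : ℕ} {t : List Bool × List Bool} (hR : 0 < R)
    (ht : t.1.length ≤ P + t.2.length) (x v : ℕ → ℤ) :
    rndB t (encA R P x) (encA R (2 * P) v) =
      encA R P fun c => v c / 2 ^ t.1.length * 2 ^ t.2.length := by
  rw [rndB, zer_encA hR, encA, map_arr, encA]
  refine arr_congr fun c _ => ?_
  rw [takeL, dropL, List.map_const', ← toBits_zero, ← toBits_zero, drop_toBits, toBits_append,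
    length_toBits, take_toBits (by omega), Int.zero_emod, zero_add, mul_comm]

end BitsAux

theorem cmul_encA {R P : ℕ} {t : List Bool × List Bool} {x y x' y' : ℕ → ℤ} (hR : 0 < R)
    (hP : 0 < P) (hRP : R ≤ 2 ^ P) (ht : t.1.length ≤ P + t.2.length)
    (hx : ∀ i < R, |x i| * 2 < 2 ^ P ∧ |y i| * 2 < 2 ^ P ∧ |x' i| * 2 < 2 ^ P ∧
      |y' i| * 2 < 2 ^ P) :
    cmul (t, (encA R P x, encA R P y), (encA R P x', encA R P y')) =
      (encA R P fun c => (cv x x' c - cv y y' c) / 2 ^ t.1.length * 2 ^ t.2.length,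
       encA R P fun c => (cv x y' c + cv y x' c) / 2 ^ t.1.length * 2 ^ t.2.length) := by
  simp only [cmul, BitsAux.convB_encA hR hP hRP (fun i hi => (hx i hi).1) fun i hi => (hx i hi).2.2.1,
    BitsAux.convB_encA hR hP hRP (fun i hi => (hx i hi).1) fun i hi => (hx i hi).2.2.2,
    BitsAux.convB_encA hR hP hRP (fun i hi => (hx i hi).2.1) fun i hi => (hx i hi).2.2.1,
    BitsAux.convB_encA hR hP hRP (fun i hi => (hx i hi).2.1) fun i hi => (hx i hi).2.2.2,
    negA_encA, addA_encA, BitsAux.rndB_encA hR ht, sub_eq_add_neg]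

/-- The domain of `cmul`. -/
def cmulPre (R P : ℕ) (p : (List Bool × List Bool) × CArr × CArr) : Prop :=
  0 < R ∧ p.1.1.length ≤ 2 * P ∧ p.1.2.length ≤ P ∧ p.2.1.1.length = R ∧ p.2.1.2.length = R ∧
    p.2.2.1.length = R ∧ p.2.2.2.length = R ∧ Wf P p.2.1.1 ∧ Wf P p.2.1.2 ∧ Wf P p.2.2.1 ∧
      Wf P p.2.2.2

namespace BitsAux

theorem le_sz {P : ℕ} {l : Arr} (h : Wf P l) : l.length * (P + 1) ≤ sz l := by
  induction l with
  | nil => simp
  | cons x l ih =>
    have h1 := ih fun y hy => h y (List.mem_cons_of_mem _ hy)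
    have h2 := length_le_sz x
    rw [h x List.mem_cons_self] at h2
    rw [List.length_cons, sz_lcons, Nat.succ_mul]
    omega

theorem zer_le {P : ℕ} {l : Arr} (h : Wf P l) : (zer l).length ≤ P := by
  cases l with
  | nil => simp [zer]
  | cons x l => simp [zer, h x List.mem_cons_self]

theorem oc_lin_sub {β σ : Type} [Enc β] [Enc σ] {F : β → σ} {p : β → Prop} {f : α → β} {u}
    (hF : Cl g ((lin β).sub p) F) (hf : Oc g 𝒜 u f) (h : ∀ a, 𝒜.D a → p (f a)) :
    Oc g 𝒜 u fun a => F (f a) :=
  Oc.appc hF hf (fun a ha => ⟨trivial, h a ha⟩)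
    (Dom.of (n := fun _ => 0) (l := fun _ => 0) hf.2 0 fun _ _ => ⟨by simp, by simp⟩)

@[fun_prop] theorem cl_pack {u : α → List Bool} (hu : Cl g 𝒜 u) :
    Cl g 𝒜 fun a => pack (u a) := by
  have h : Cl g 𝒜 fun a => (u a).map fun _ => (u a).getLastD false :=
    Cl.mapP (F := fun q : Bool × Bool => q.2) (by fun_prop) hu (hu.getLastD (Cl.const false))
      ((hu.2.mul 3).mono fun a _ => by
        rw [mul_comm 3]
        exact Nat.mul_le_mul (length_le_sz _) (sz_bool _))
  exact (hu.append h).append (Cl.map (Cl.const false) (by fun_prop))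

theorem length_flat {P : ℕ} {us : Arr} (h : Wf P us) :
    (us.map pack).flatten.length = 5 * P * us.length := by
  induction us with
  | nil => rfl
  | cons x l ih =>
    rw [List.map_cons, List.flatten_cons, List.length_append, length_pack, h x List.mem_cons_self,
      ih fun y hy => h y (List.mem_cons_of_mem _ hy), List.length_cons]
    ring

theorem oc_convB {𝒜 : Amb α} {us vs : α → Arr} {L : α → ℕ} (hu : Cl mulB 𝒜 us) (hv : Cl mulB 𝒜 vs)
    (h : ∀ a, 𝒜.D a → ∃ P, Wf P (us a) ∧ Wf P (vs a) ∧ (vs a).length = (us a).length ∧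
      L a = 5 * P * (us a).length) :
    Oc mulB 𝒜 (fun T a => That T (L a)) fun a => convB (us a) (vs a) := by
  have h1 : Cl mulB 𝒜 fun a => (((us a).map pack).flatten, ((vs a).map pack).flatten) :=
    Cl.pair (Cl.flatten (Cl.map (cl_pack Cl.id) hu)) (Cl.flatten (Cl.map (cl_pack Cl.id) hv))
  have h2 := Oc.call h1 (((h1.2.mul 4).add (Bnd.const 1)).mono fun a _ => by
    have e1 := sz_bools (mulB (((us a).map pack).flatten, ((vs a).map pack).flatten))
    have e2 := length_le_sz ((us a).map pack).flatten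
    have e3 := length_le_sz ((vs a).map pack).flatten
    rw [mulB, length_toBits] at e1
    rw [mulB, sz_pair]
    dsimp only at e1 ⊢
    omega)
  have h3 : Cl mulB ((lin (Arr × List Bool)).sub fun q => ∃ P, Wf P q.1) fun q =>
      (takeL q.1 (chunksF ((q.1 ++ q.1).map fun u =>
        true :: ((pack u).tail.map fun _ => false)).flatten q.2)).map
          fun w => takeL (zer q.1 ++ zer q.1) w := by
    refine Cl.mapP (F := fun r : List Bool × List Bool => takeL r.2 r.1) (by fun_prop)
      (cl_takeL (by fun_prop) (cl_chunksF (Cl.flatten (Cl.map (Cl.cons (Cl.const true)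
        (Cl.map (Cl.const false) (by fun_prop))) (by fun_prop))) (by fun_prop))) (by fun_prop)
      ((bnd_sz.mul 8).mono fun q hq => ?_)
    obtain ⟨P, hP⟩ := hq.2
    have e1 := le_sz hP
    have e2 := zer_le hP
    have e3 := sz_bools (zer q.1 ++ zer q.1)
    rw [List.length_append] at e3
    have e4 := Nat.mul_le_mul (List.length_take_le q.1.length (chunksF ((q.1 ++ q.1).map fun u =>
      true :: ((pack u).tail.map fun _ => false)).flatten q.2))
      (show sz (zer q.1 ++ zer q.1) ≤ 8 * (P + 1) by omega)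
    rw [sz_prod q, takeL]
    rw [mul_left_comm] at e4
    omega
  refine (oc_lin_sub h3 (Oc.pair hu h2) fun a ha => (h a ha).imp fun _ h => h.1).mono
    fun T a ha => ?_
  obtain ⟨P, e1, e2, e3, e4⟩ := h a ha
  simp only [u0_apply, zero_add]
  exact le_iSup (fun p : {p : List Bool × List Bool // p.1.length = L a ∧ p.2.length = L a} =>
    T p.1) ⟨(_, _), by rw [e4, length_flat e1], by rw [e4, length_flat e2, e3]⟩

theorem cl_rndB : Cl g ((lin (((List Bool × List Bool) × Arr) × Arr)).sub fun q =>
    ∃ P, Wf P q.1.2 ∧ q.1.1.1.length ≤ 2 * P ∧ q.1.1.2.length ≤ P ∧ q.2.length ≤ q.1.2.length)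
      fun q => rndB q.1.1 q.1.2 q.2 := by
  have hF : Cl g (lin _) fun r : List Bool × List Bool × List Bool × List Bool =>
      takeL r.2.1 ((r.2.2.2.map fun _ => false) ++ dropL r.2.2.1 r.1) :=
    cl_takeL (by fun_prop) (Cl.append (Cl.map (Cl.const false) (by fun_prop)) (by fun_prop))
  refine (Cl.mapP hF (p := fun q => (zer q.1.2, q.1.1)) (l := fun q => q.2) ?_ ?_
    ((bnd_sz.mul 16).mono fun q hq => ?_)).congr fun _ _ => rfl
  · fun_prop
  · fun_prop
  obtain ⟨P, hP, h1, h2, h3⟩ := hq.2
  have e1 := le_sz hP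
  have e2 := zer_le hP
  have e3 := sz_bools (zer q.1.2)
  have e4 := sz_bools q.1.1.1
  have e5 := sz_bools q.1.1.2
  have e6 := Nat.mul_le_mul h3 (show sz (zer q.1.2, q.1.1) ≤ 16 * (P + 1) by
    rw [sz_pair, sz_prod q.1.1]; omega)
  rw [sz_prod q, sz_prod q.1]
  rw [mul_left_comm] at e6
  omega

end BitsAux

theorem oc_cmul : Oc mulB ((lin _).sub fun p => ∃ R P, cmulPre R P p)
    (fun T p => 4 * That T (5 * (zer p.2.1.1).length * p.2.1.1.length)) cmul := by
  have hc : ∀ (f f' : (List Bool × List Bool) × CArr × CArr → Arr),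
      Cl mulB ((lin _).sub fun p => ∃ R P, cmulPre R P p) f →
      Cl mulB ((lin _).sub fun p => ∃ R P, cmulPre R P p) f' →
      (∀ R P p, cmulPre R P p → (f p).length = R ∧ (f' p).length = R ∧ Wf P (f p) ∧ Wf P (f' p)) →
      Oc mulB ((lin _).sub fun p => ∃ R P, cmulPre R P p)
        (fun T p => That T (5 * (zer p.2.1.1).length * p.2.1.1.length))
        fun p => convB (f p) (f' p) := by
    intro f f' hf hf' h
    refine BitsAux.oc_convB hf hf' fun p hp => ?_
    obtain ⟨R, P, hp⟩ := hp.2
    obtain ⟨h1, h2, h3, h4⟩ := h R P p hp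
    refine ⟨P, h3, h4, by rw [h1, h2], ?_⟩
    obtain ⟨h0, -, -, h5, -, -, -, h6, -⟩ := hp
    rw [h6.zer_eq (List.length_pos_iff.1 (by omega)), List.length_replicate, h5, h1]
  have h11 := hc (fun p => p.2.1.1) (fun p => p.2.2.1) (by fun_prop) (by fun_prop)
    fun R P p h => by unfold cmulPre at h; tauto
  have h22 := hc (fun p => p.2.1.2) (fun p => p.2.2.2) (by fun_prop) (by fun_prop)
    fun R P p h => by unfold cmulPre at h; tauto
  have h12 := hc (fun p => p.2.1.1) (fun p => p.2.2.2) (by fun_prop) (by fun_prop)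
    fun R P p h => by unfold cmulPre at h; tauto
  have h21 := hc (fun p => p.2.1.2) (fun p => p.2.2.1) (by fun_prop) (by fun_prop)
    fun R P p h => by unfold cmulPre at h; tauto
  have hr : ∀ {u} {w : (List Bool × List Bool) × CArr × CArr → Arr},
      Oc mulB ((lin _).sub fun p => ∃ R P, cmulPre R P p) u w →
      (∀ p, (w p).length ≤ p.2.1.1.length) →
      Oc mulB ((lin _).sub fun p => ∃ R P, cmulPre R P p) u fun p => rndB p.1 p.2.1.1 (w p) := by
    intro u w hw h
    have h0 : Cl mulB ((lin _).sub fun p => ∃ R P, cmulPre R P p) fun p => (p.1, p.2.1.1) := by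
      fun_prop
    refine (BitsAux.oc_lin_sub BitsAux.cl_rndB (Oc.pair h0 hw) fun p hp => ?_).mono
      fun _ _ _ => by simp
    obtain ⟨R, P, hp⟩ := hp.2
    exact ⟨P, by unfold cmulPre at hp; tauto, hp.2.1, hp.2.2.1, h p⟩
  have hl : ∀ us vs ws : Arr, (addA (convB us vs) ws).length ≤ us.length := fun us vs ws => by
    simp only [addA, convB, takeL, List.length_map, List.length_zip, List.length_take]
    omega
  refine (Oc.pair (hr (oc_lin (F := fun q : Arr × Arr => addA q.1 (negA q.2)) (by fun_prop)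
    (Oc.pair h11 h22)) fun p => hl _ _ _) (hr (oc_lin (F := fun q : Arr × Arr => addA q.1 q.2)
      (by fun_prop) (Oc.pair h12 h21)) fun p => hl _ _ _)).mono fun T p _ => le_of_eq ?_
  ring

def carryStep (p : List Bool × List Bool × List Bool) : List Bool × List Bool × List Bool :=
  (takeL p.2.1 (addB p.1 p.2.2), p.2.1,
    dropL p.2.1 (addB p.1 p.2.2) ++ p.2.1.map fun _ => false)

/-- The sum of the entries, the entry `i` shifted by `i` times the length of the template. -/
def carry (t : List Bool) (zs : Arr) : List Bool := (scan carryStep zs (t, zer zs)).1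

theorem carry_encA {t : List Bool} {m P : ℕ} {z : ℕ → ℤ} (h0 : 0 < t.length) (ht : t.length ≤ P)
    (hz : ∀ i < m, 0 ≤ z i ∧ z i * 2 < 2 ^ P) :
    carry t (encA m P z) =
      toBits (t.length * m) (∑ i ∈ Finset.range m, z i * 2 ^ (t.length * i)) := by
  rcases Nat.eq_zero_or_pos m with rfl | hm
  · rfl
  have key : ∀ (m : ℕ) (z : ℕ → ℤ) (c : ℤ), (∀ i < m, 0 ≤ z i ∧ z i * 2 < 2 ^ P) → 0 ≤ c →
      c * 2 < 2 ^ P → (scan carryStep (encA m P z) (t, toBits P c)).1 =
        toBits (t.length * m) (c + ∑ i ∈ Finset.range m, z i * 2 ^ (t.length * i)) := by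
    intro m
    induction m with
    | zero => intro _ _ _ _ _; rfl
    | succ m ih =>
      intro z c hz hc hc'
      obtain ⟨h1, h2⟩ := hz 0 (by omega)
      have hs : (2 : ℤ) ≤ 2 ^ t.length := le_self_pow₀ (by norm_num) (by omega)
      have h3 : 0 ≤ (z 0 + c) / 2 ^ t.length := Int.ediv_nonneg (by omega) (by omega)
      have h4 := Int.emod_add_mul_ediv (z 0 + c) (2 ^ t.length)
      have h5 := Int.emod_nonneg (z 0 + c) (b := 2 ^ t.length) (by omega)
      have h6 := mul_le_mul_of_nonneg_right hs h3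
      have h7 : (z 0 + c) / 2 ^ t.length < 2 ^ (P - t.length) := by
        refine Int.ediv_lt_of_lt_mul (by omega) ?_
        rw [← pow_add, Nat.sub_add_cancel ht]
        omega
      have h8 := ih (fun i => z (i + 1)) _ (fun i hi => hz _ (by omega)) h3 (by omega)
      rw [encA] at h8
      rw [encA, BitsAux.arr_succ, scan]
      simp only [carryStep, addB_toBits, takeL, dropL, take_toBits ht, drop_toBits,
        List.map_const', ← toBits_zero, toBits_append, Nat.sub_add_cancel ht, mul_zero, add_zero,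
        Int.emod_eq_of_lt h3 h7, h8]
      rw [Finset.sum_range_succ', mul_add, Finset.mul_sum]
      congr 1
      · ring
      · rw [← add_assoc, h4, mul_zero, pow_zero, mul_one,
          Finset.sum_congr rfl fun i _ => show 2 ^ t.length * (z (i + 1) * 2 ^ (t.length * i)) =
            z (i + 1) * 2 ^ (t.length * (i + 1)) by ring]
        ring
  rw [carry, BitsAux.zer_encA hm, ← toBits_zero, key m z 0 hz le_rfl (by positivity), zero_add]

theorem cl_carry {t : α → List Bool} {zs : α → Arr} (ht : Cl g 𝒜 t) (hz : Cl g 𝒜 zs)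
    (h : ∀ a, 𝒜.D a → ∃ P, Wf P (zs a) ∧ (t a).length ≤ P) :
    Cl g 𝒜 fun a => carry (t a) (zs a) := by
  have hF : Cl g (lin _) carryStep := by
    unfold carryStep
    exact Cl.pair (by fun_prop) (Cl.pair (by fun_prop)
      (Cl.append (by fun_prop) (Cl.map (Cl.const false) (by fun_prop))))
  have hs : ∀ (l : List (Bool × Bool)) c, (scan addStep l c).1.length = l.length := by
    intro l
    induction l with
    | nil => intro; rfl
    | cons x l ih => intro c; simp [scan, ih, addStep]
  have key : ∀ P (t : List Bool), t.length ≤ P → ∀ (zs : Arr) (c : List Bool), Wf P zs →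
      c.length ≤ P → ((trace carryStep zs (t, c)).map fun p => sz p + 1).sum ≤
        zs.length * (12 * (P + 1)) := by
    intro P t ht zs
    induction zs with
    | nil => intro _ _ _; simp [trace]
    | cons x l ih =>
      intro c hz hc
      have e0 := hz x List.mem_cons_self
      have e1 := ih (carryStep (x, t, c)).2.2 (fun y hy => hz y (List.mem_cons_of_mem _ hy)) (by
        simp only [carryStep, dropL, addB, List.length_append, List.length_drop, hs,
          List.length_zip, List.length_map]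
        omega)
      have e2 := sz_bools x
      have e3 := sz_bools t
      have e4 := sz_bools c
      rw [trace, List.map_cons, List.sum_cons, List.length_cons, Nat.succ_mul, sz_pair, sz_pair]
      change _ + ((trace carryStep l (t, (carryStep (x, t, c)).2.2)).map _).sum ≤ _
      omega
  refine Cl.fst ((oc_scan hF (x := fun a => (zs a, t a, zer (zs a)))
    (by fun_prop : Cl g 𝒜 _) (fun _ _ _ _ => trivial)
    (Dom.sum (z := sz) (n := fun _ => 0) (l := fun _ => 0) ((hz.2.mul 12).mono fun a ha => ?_) 0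
      fun a _ => ⟨by simp, by simp⟩)).mono fun T a _ => ?_)
  · obtain ⟨P, h1, h2⟩ := h a ha
    have e1 := key P _ h2 _ _ h1 (BitsAux.zer_le h1)
    have e2 := BitsAux.le_sz h1
    rw [mul_left_comm] at e1
    dsimp only
    omega
  · rw [List.sum_eq_zero fun x hx => by obtain ⟨_, _, rfl⟩ := List.mem_map.1 hx; rfl]
    simp

end Vale.Agent.P338
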