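import Vale.Agent.P338.Ix
import Vale.Agent.P344.Phase

/-! Digits of positions, and matrices acting on chosen digits of the position. -/

namespace Vale.Agent.P338

open Function Finset Vale.Agent.P344

/-- The weights `w j` are the weights of disjoint digits of size `K`. -/
def Sep {J : Type} (K : ℕ) (w : J → ℕ) : Prop :=
  (∀ j, 0 < w j) ∧ ∀ i j, i ≠ j → w i * K ∣ w j ∨ w j * K ∣ w i

/-- The digits of the position `p`. -/
def dX {J : Type} (K : ℕ) (w : J → ℕ) (p : ℕ) : J → ZMod K := fun j => ((p / w j : ℕ) : ZMod K)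

/-- The position `p` with its digits replaced by `Y`. -/
def upd {J : Type} [Fintype J] {K : ℕ} (w : J → ℕ) (p : ℕ) (Y : J → ZMod K) : ℕ :=
  Int.toNat (p + ∑ j, (((Y j).val : ℤ) - ((dX K w p j).val : ℤ)) * w j)

section basic
variable {J : Type} [Fintype J] [DecidableEq J] {K : ℕ} [NeZero K] {w : J → ℕ}

omit [Fintype J] [DecidableEq J] in
theorem dX_val (p : ℕ) (j : J) : (dX K w p j).val = p / w j % K := ZMod.val_natCast _ _

namespace LayAux

theorem digIx_cast (w K : ℕ) (φ : ℕ → ℕ → ℕ) (p : ℕ) : (digIx w K K φ p : ℤ) =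
    p + ((φ (p / (w * K)) (p / w % K) : ℤ) - (p / w % K : ℕ)) * w := by
  have := congrArg (Nat.cast : ℕ → ℤ) (ix_eq w K p)
  rw [digIx]
  simp only [Nat.cast_add, Nat.cast_mul] at this ⊢
  linear_combination -this

theorem swapIx_cast (K B C p : ℕ) : (swapIx K B C p : ℤ) =
    p + ((p / C % K : ℕ) - (p / (C * K * B) % K : ℕ) : ℤ) * (C * K * B : ℕ) +
      ((p / (C * K * B) % K : ℕ) - (p / C % K : ℕ) : ℤ) * C := by
  have h1 := congrArg (Nat.cast : ℕ → ℤ) (ix_eq C K p)
  have h2 := congrArg (Nat.cast : ℕ → ℤ) (ix_eq B K (p / (C * K)))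
  rw [Nat.div_div_eq_div_mul, Nat.div_div_eq_div_mul, ← mul_assoc] at h2
  rw [swapIx]
  simp only [Nat.cast_add, Nat.cast_mul] at h1 h2 ⊢
  linear_combination -h1 - K * C * h2

theorem dig_facts {w K y : ℕ} (hw : 0 < w) (hy : y < K) (p : ℕ) :
    digIx w K K (fun _ _ => y) p / (w * K) = p / (w * K) ∧
      digIx w K K (fun _ _ => y) p / w % K = y ∧ digIx w K K (fun _ _ => y) p % w = p % w :=
  ix_parts hy (Nat.mod_lt _ hw)

theorem div_of_dvd {p q n N : ℕ} (h : p / n = q / n) (hN : n ∣ N) : p / N = q / N := by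
  obtain ⟨c, rfl⟩ := hN
  rw [← Nat.div_div_eq_div_mul, ← Nat.div_div_eq_div_mul, h]

theorem dig_of_dvd {p q n w K : ℕ} (h : p % n = q % n) (hN : w * K ∣ n) :
    p / w % K = q / w % K := by
  rw [← Nat.mod_mul_right_div_self, ← Nat.mod_mul_right_div_self, ← Nat.mod_mod_of_dvd p hN, h,
    Nat.mod_mod_of_dvd q hN]

theorem key (h : Sep K w) (p : ℕ) (Y : J → ZMod K) (s : Finset J) : ∃ q : ℕ,
    (q : ℤ) = p + ∑ j ∈ s, (((Y j).val : ℤ) - ((dX K w p j).val : ℤ)) * w j ∧
    (∀ j, dX K w q j = if j ∈ s then Y j else dX K w p j) ∧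
    ∀ N, (∀ j, w j * K ∣ N) → q / N = p / N := by
  induction s using Finset.induction_on with
  | empty => exact ⟨p, by simp, by simp, fun _ _ => rfl⟩
  | insert i s hi ih =>
    obtain ⟨q, h1, h2, h3⟩ := ih
    obtain ⟨a1, a2, a3⟩ := dig_facts (h.1 i) (ZMod.val_lt (Y i)) q
    refine ⟨digIx (w i) K K (fun _ _ => (Y i).val) q, ?_, fun j => ?_,
      fun N hN => (div_of_dvd a1 (hN i)).trans (h3 N hN)⟩
    · rw [digIx_cast, sum_insert hi, h1, ← dX_val, h2, if_neg hi]
      ring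
    · apply ZMod.val_injective
      by_cases hj : j = i
      · subst hj
        rw [dX_val, a2, if_pos (mem_insert_self _ _)]
      · simp only [mem_insert, hj, false_or]
        rw [← h2, dX_val, dX_val]
        rcases h.2 j i hj with h4 | h4
        · exact dig_of_dvd a3 h4
        · rw [div_of_dvd a1 h4]

omit [Fintype J] [DecidableEq J] in
theorem sep_pow {C : ℕ} (hC : 0 < C) {e : J → ℕ} (he : Injective e) :
    Sep K fun j => C * K ^ e j := by
  have h1 : ∀ i j, e i < e j → C * K ^ e i * K ∣ C * K ^ e j := fun i j h => by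
    rw [mul_assoc, ← pow_succ]
    exact mul_dvd_mul_left _ (pow_dvd_pow _ h)
  exact ⟨fun j => mul_pos hC (pow_pos (NeZero.pos K) _),
    fun i j hij => (lt_or_gt_of_ne (he.ne hij)).imp (h1 i j) (h1 j i)⟩

theorem val_flip (x : ZMod 2) : (x + 1).val = (1 + (2 - x.val)) % 2 := by revert x; decide

end LayAux

theorem upd_cast (h : Sep K w) (p : ℕ) (Y : J → ZMod K) :
    (upd w p Y : ℤ) = p + ∑ j, (((Y j).val : ℤ) - ((dX K w p j).val : ℤ)) * w j := by
  obtain ⟨q, h1, -⟩ := LayAux.key h p Y univ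
  rw [upd, ← h1]
  simp

theorem dX_upd (h : Sep K w) (p : ℕ) (Y : J → ZMod K) : dX K w (upd w p Y) = Y := by
  obtain ⟨q, h1, h2, -⟩ := LayAux.key h p Y univ
  rw [upd, ← h1, Int.toNat_natCast]
  exact funext fun j => by simpa using h2 j

omit [DecidableEq J] [NeZero K] in
theorem upd_dX (p : ℕ) : upd w p (dX K w p) = p := by simp [upd]

theorem upd_upd (h : Sep K w) (p : ℕ) (Y Z : J → ZMod K) : upd w (upd w p Y) Z = upd w p Z := by
  rw [upd, upd_cast h, dX_upd h, upd, add_assoc, ← sum_add_distrib]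
  congr 2
  exact sum_congr rfl fun j _ => by ring

/-- Higher parts are not changed. -/
theorem upd_div (h : Sep K w) {N : ℕ} (hN : ∀ j, w j * K ∣ N) (p : ℕ) (Y : J → ZMod K) :
    upd w p Y / N = p / N := by
  obtain ⟨q, h1, -, h3⟩ := LayAux.key h p Y univ
  rw [upd, ← h1, Int.toNat_natCast]
  exact h3 N hN

theorem upd_lt (h : Sep K w) {N p : ℕ} (hN : ∀ j, w j * K ∣ N) (hp : p < N) (Y : J → ZMod K) :
    upd w p Y < N := by
  have := upd_div h hN p Y
  rw [Nat.div_eq_of_lt hp] at this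
  exact (Nat.div_eq_zero_iff_lt (by omega)).1 this

/-- Positions written as high part, digits and low part. -/
theorem upd_mk {d C a c : ℕ} (hc : c < C) (x : Fin d → ZMod K) (Y : Fin d → ZMod K) :
    dX K (fun j : Fin d => C * K ^ (j : ℕ)) ((a * K ^ d + ∑ j, (x j).val * K ^ (j : ℕ)) * C + c) = x ∧
    upd (fun j : Fin d => C * K ^ (j : ℕ)) ((a * K ^ d + ∑ j, (x j).val * K ^ (j : ℕ)) * C + c) Y =
      (a * K ^ d + ∑ j, (Y j).val * K ^ (j : ℕ)) * C + c := by
  have hs : Sep K fun j : Fin d => C * K ^ (j : ℕ) := LayAux.sep_pow (by omega) Fin.val_injective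
  have h0 : ∀ Z : Fin d → ZMod K, upd (fun j : Fin d => C * K ^ (j : ℕ)) (a * K ^ d * C + c) Z =
      (a * K ^ d + ∑ j, (Z j).val * K ^ (j : ℕ)) * C + c := by
    intro Z
    have h1 : ∀ j : Fin d, (dX K (fun j : Fin d => C * K ^ (j : ℕ)) (a * K ^ d * C + c) j).val = 0 := by
      intro j
      rw [dX_val, ← Nat.div_div_eq_div_mul, mul_comm _ C, Nat.mul_add_div (by omega),
        Nat.div_eq_of_lt hc, add_zero, show K ^ d = K ^ (d - j - 1 + 1) * K ^ (j : ℕ) by
          rw [← pow_add]; congr 1; omega, ← mul_assoc,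
        Nat.mul_div_cancel _ (pow_pos (NeZero.pos K) _), pow_succ, ← mul_assoc, Nat.mul_mod_left]
    apply Int.natCast_inj.1
    rw [upd_cast hs]
    simp only [h1]
    push_cast
    rw [add_mul, sum_mul, add_right_comm]
    congr 2
    exact sum_congr rfl fun j _ => by ring
  rw [← h0, ← h0, dX_upd hs, upd_upd hs]
  exact ⟨rfl, rfl⟩

theorem sep_pow {C : ℕ} (hC : 0 < C) {e : J → ℕ} (he : Injective e) :
    Sep K fun j => C * K ^ e j := by
  exact LayAux.sep_pow hC he

omit [Fintype J] [DecidableEq J] in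
theorem sep_two {e : J → ℕ} (he : Injective e) : Sep 2 fun j => 2 ^ e j := by
  simpa using LayAux.sep_pow (K := 2) one_pos he

/-- A field is the sum of its digits. -/
theorem field_digits (C r p : ℕ) :
    p / C % K ^ r = ∑ e ∈ range r, p / (C * K ^ e) % K * K ^ e := by
  induction r with
  | zero => simp [Nat.mod_one]
  | succ r ih => rw [Nat.mod_pow_succ, ih, sum_range_succ, Nat.div_div_eq_div_mul, mul_comm (K ^ r)]

theorem upd_single (h : Sep K w) (p : ℕ) (i : J) (y : ZMod K) :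
    upd w p (update (dX K w p) i y) = digIx (w i) K K (fun _ _ => y.val) p := by
  apply Int.natCast_inj.1
  rw [upd_cast h, LayAux.digIx_cast, sum_eq_single i (fun j _ hj => by simp [update_of_ne hj])
    (by simp), update_self, dX_val]

theorem upd_swap (h : Sep K w) (p : ℕ) {i j : J} {B : ℕ} (hB : w i = w j * K * B) :
    upd w p (dX K w p ∘ Equiv.swap i j) = swapIx K B (w j) p := by
  apply Int.natCast_inj.1
  rw [LayAux.swapIx_cast, ← hB]
  by_cases hij : i = j
  · subst hij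
    simp [upd_dX]
  · rw [upd_cast h, Fintype.sum_eq_add i j hij fun k hk => by
      simp [Equiv.swap_apply_of_ne_of_ne hk.1 hk.2]]
    simp only [comp_apply, Equiv.swap_apply_left, Equiv.swap_apply_right, dX_val]
    ring

/-- Exchange of two fields of `r` digits. -/
theorem upd_fields {ι : Type} [Fintype ι] [DecidableEq ι] {r B C : ℕ} (e : ι ≃ Fin r) (hB : 0 < B)
    (hC : 0 < C) (p : ℕ) :
    Sep K (Sum.elim (fun i => C * K ^ r * B * K ^ (e i : ℕ)) fun i => C * K ^ (e i : ℕ)) ∧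
    upd (Sum.elim (fun i => C * K ^ r * B * K ^ (e i : ℕ)) fun i => C * K ^ (e i : ℕ)) p
      (dX K (Sum.elim (fun i => C * K ^ r * B * K ^ (e i : ℕ)) fun i => C * K ^ (e i : ℕ)) p ∘
        Sum.swap) = swapIx (K ^ r) B C p := by
  have hK := NeZero.pos K
  have he : Injective fun i => (e i : ℕ) := Fin.val_injective.comp e.injective
  have hs : Sep K (Sum.elim (fun i => C * K ^ r * B * K ^ (e i : ℕ)) fun i => C * K ^ (e i : ℕ)) := by
    have h1 := LayAux.sep_pow (K := K) (C := C * K ^ r * B) (by positivity) he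
    have h2 := LayAux.sep_pow (K := K) hC he
    have h3 : ∀ i j : ι, C * K ^ (e i : ℕ) * K ∣ C * K ^ r * B * K ^ (e j : ℕ) := fun i j => by
      rw [mul_assoc, ← pow_succ]
      exact ((mul_dvd_mul_left C (pow_dvd_pow K (e i).2)).mul_right _).mul_right _
    refine ⟨by rintro (i | i); exacts [h1.1 i, h2.1 i], ?_⟩
    rintro (i | i) (j | j) hij
    · exact h1.2 i j fun h => hij (congrArg _ h)
    · exact Or.inr (h3 j i)
    · exact Or.inl (h3 i j)
    · exact h2.2 i j fun h => hij (congrArg _ h)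
  refine ⟨hs, Int.natCast_inj.1 ?_⟩
  have h4 : ∀ D : ℕ, ((p / D % K ^ r : ℕ) : ℤ) =
      ∑ i, ((p / (D * K ^ (e i : ℕ)) % K : ℕ) : ℤ) * K ^ (e i : ℕ) := fun D => by
    rw [field_digits, ← Fin.sum_univ_eq_sum_range (fun e => p / (D * K ^ e) % K * K ^ e),
      ← e.sum_comp]
    simp only [Nat.cast_sum, Nat.cast_mul, Nat.cast_pow]
  rw [upd_cast hs, LayAux.swapIx_cast, h4, h4, Fintype.sum_sum_type, add_assoc, ← sum_sub_distrib,
    ← sum_sub_distrib, sum_mul, sum_mul]
  simp only [comp_apply, Sum.swap_inl, Sum.swap_inr, dX_val, Sum.elim_inl, Sum.elim_inr,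
    Nat.cast_mul, Nat.cast_pow]
  congr 2 <;> exact sum_congr rfl fun i _ => by ring

/-- Splitting off a lowest digit of size `W`. -/
theorem upd_demux (h : Sep K w) {W r : ℕ} (hr : r < W) (p : ℕ) (Y : J → ZMod K) :
    dX K (fun j => w j * W) (p * W + r) = dX K w p ∧
      upd (fun j => w j * W) (p * W + r) Y = upd w p Y * W + r := by
  have h1 : dX K (fun j => w j * W) (p * W + r) = dX K w p := by
    funext j
    rw [dX, dX, mul_comm (w j), ← Nat.div_div_eq_div_mul, mul_comm p, Nat.mul_add_div (by omega),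
      Nat.div_eq_of_lt hr, add_zero]
  refine ⟨h1, ?_⟩
  rw [upd, h1, ← Int.toNat_natCast (upd w p Y * W + r)]
  congr 1
  push_cast
  rw [upd_cast h, add_mul, sum_mul, add_right_comm]
  congr 2
  exact sum_congr rfl fun j _ => by ring

/-- Flipping the bits `t j`, possibly controlled by the bits `c j`. -/
theorem upd_xor {w : J → ℕ} (h : Sep 2 w) {q a k cq : ℕ} (fl : Bool) {t c : Fin k → J}
    (ht : Injective t) (hwt : ∀ j, w (t j) = 2 ^ (q + a * j))
    (hwc : fl = true → ∀ j, w (c j) = 2 ^ (cq + a * j)) (p : ℕ) {Y : J → ZMod 2}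
    (hY : ∀ j, Y (t j) = dX 2 w p (t j) + if fl then dX 2 w p (c j) else 1)
    (hY' : ∀ i, i ∉ Set.range t → Y i = dX 2 w p i) : upd w p Y = xorIx q a k fl cq p := by
  have h2 : ∀ x y : ZMod 2, ((x + y).val : ℤ) - x.val = y.val * (1 - 2 * x.val) := by decide
  rw [upd, xorIx, ← Fin.sum_univ_eq_sum_range (fun j => (if fl then ((p / 2 ^ (cq + a * j) % 2 : ℕ) : ℤ)
    else 1) * (1 - 2 * ((p / 2 ^ (q + a * j) % 2 : ℕ) : ℤ)) * 2 ^ (q + a * j))]
  congr 2
  refine (Fintype.sum_of_injective t ht _ _ (fun i hi => by simp [hY' i hi]) fun j => ?_).symm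
  rw [hY, h2, dX_val, hwt]
  cases fl
  · simp [show (1 : ZMod 2).val = 1 from rfl]
  · simp only [if_true, dX_val, hwc rfl, Nat.cast_pow, Nat.cast_ofNat]

end basic

/-- The matrix `M` acting on the digits with weights `w` of the position. -/
noncomputable def lft {J : Type} [Fintype J] [DecidableEq J] {K : ℕ} [NeZero K] (w : J → ℕ)
    (M : Matrix (J → ZMod K) (J → ZMod K) ℂ) : (ℕ → ℂ) →ₗ[ℂ] (ℕ → ℂ) where
  toFun v p := ∑ Y, M (dX K w p) Y * v (upd w p Y)
  map_add' u v := by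
    funext p
    simp [mul_add, Finset.sum_add_distrib]
  map_smul' c v := by
    funext p
    simp [Finset.mul_sum, mul_left_comm]

section lft
variable {J : Type} [Fintype J] [DecidableEq J] {K : ℕ} [NeZero K] {w : J → ℕ}

theorem lft_apply (M : Matrix (J → ZMod K) (J → ZMod K) ℂ) (v : ℕ → ℂ) (p : ℕ) :
    lft w M v p = ∑ Y, M (dX K w p) Y * v (upd w p Y) := rfl

theorem lft_mul (h : Sep K w) (M M' : Matrix (J → ZMod K) (J → ZMod K) ℂ) (v : ℕ → ℂ) :
    lft w (M * M') v = lft w M (lft w M' v) := by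
  funext p
  simp only [lft_apply, Matrix.mul_apply, dX_upd h, upd_upd h, sum_mul, mul_sum, mul_assoc]
  exact sum_comm

theorem lft_one (v : ℕ → ℂ) : lft w (1 : Matrix (J → ZMod K) (J → ZMod K) ℂ) v = v := by
  funext p
  simp [lft_apply, Matrix.one_apply, upd_dX]

theorem lft_add (M M' : Matrix (J → ZMod K) (J → ZMod K) ℂ) (v : ℕ → ℂ) :
    lft w (M + M') v = lft w M v + lft w M' v := by
  funext p
  simp [lft_apply, add_mul, sum_add_distrib]

/-- Monomial matrices. -/
theorem lft_mono (φ : (J → ZMod K) → J → ZMod K) (D : (J → ZMod K) → ℂ) (v : ℕ → ℂ) (p : ℕ) :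
    lft w (Matrix.of fun x y => if y = φ x then D x else 0) v p =
      D (dX K w p) * v (upd w p (φ (dX K w p))) := by
  simp [lft_apply]

theorem lft_diagonal (D : (J → ZMod K) → ℂ) (v : ℕ → ℂ) (p : ℕ) :
    lft w (Matrix.diagonal D) v p = D (dX K w p) * v p := by
  simp [lft_apply, Matrix.diagonal_apply, upd_dX]

theorem lft_congr (h : Sep K w) {N p : ℕ} (hN : ∀ j, w j * K ∣ N) (hp : p < N)
    (M : Matrix (J → ZMod K) (J → ZMod K) ℂ) {v v' : ℕ → ℂ} (hv : ∀ i < N, v i = v' i) :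
    lft w M v p = lft w M v' p := by
  simp only [lft_apply, hv _ (upd_lt h hN hp _)]

/-- A matrix acting only on the digits in the range of `e`. -/
theorem lft_sub {J' : Type} [Fintype J'] [DecidableEq J'] (h : Sep K w) {e : J' → J}
    (he : Injective e) {M : Matrix (J → ZMod K) (J → ZMod K) ℂ}
    {M' : Matrix (J' → ZMod K) (J' → ZMod K) ℂ}
    (h1 : ∀ x y, (∀ j, j ∉ Set.range e → x j = y j) → M x y = M' (x ∘ e) (y ∘ e))
    (h2 : ∀ x y j, j ∉ Set.range e → x j ≠ y j → M x y = 0) : lft w M = lft (w ∘ e) M' := by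
  classical
  ext1 v
  funext p
  rw [lft_apply, lft_apply]
  refine (Fintype.sum_of_injective (fun y => extend e y (dX K w p))
    (fun y y' hy => by simpa [extend_comp he] using congrArg (· ∘ e) hy) _ _ (fun Y hY => ?_)
    fun y => ?_).symm
  · by_contra h0
    refine hY ⟨Y ∘ e, funext fun j => ?_⟩
    by_cases hj : j ∈ Set.range e
    · obtain ⟨j, rfl⟩ := hj
      exact he.extend_apply _ _ _
    · show extend e _ _ j = _
      rw [extend_apply' _ _ _ hj]
      by_contra h3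
      exact h0 (by rw [h2 _ _ j hj h3, zero_mul])
  · rw [h1 _ _ fun j hj => (extend_apply' _ _ _ hj).symm, extend_comp he]
    congr 2
    rw [upd, upd]
    congr 2
    exact Fintype.sum_of_injective e he _ _ (fun j hj => by simp [extend_apply' _ _ _ hj])
      fun j => by rw [he.extend_apply]; rfl

theorem lft_demux (h : Sep K w) {W r : ℕ} (hr : r < W) (M : Matrix (J → ZMod K) (J → ZMod K) ℂ)
    (v : ℕ → ℂ) (p : ℕ) :
    lft (fun j => w j * W) M v (p * W + r) = lft w M (fun i => v (i * W + r)) p := by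
  simp only [lft_apply, (upd_demux h hr p _).2, (upd_demux h hr p 0).1]

theorem norm_lft_le (h : Sep K w) {N p : ℕ} (hN : ∀ j, w j * K ∣ N) (hp : p < N)
    {M : Matrix (J → ZMod K) (J → ZMod K) ℂ} {c b : ℝ} (hM : ∀ x, ∑ y, ‖M x y‖ ≤ c)
    {v : ℕ → ℂ} (hb : 0 ≤ b) (hv : ∀ i < N, ‖v i‖ ≤ b) : ‖lft w M v p‖ ≤ c * b := by
  refine (norm_sum_le _ _).trans (le_trans (sum_le_sum fun Y _ => ?_)
    ((sum_mul _ _ _).ge.trans (mul_le_mul_of_nonneg_right (hM (dX K w p)) hb)))
  rw [norm_mul]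
  exact mul_le_mul_of_nonneg_left (hv _ (upd_lt h hN hp _)) (norm_nonneg _)

end lft

/-- The same for doubly indexed digits. -/
noncomputable def lft2 {A I : Type} [Fintype A] [DecidableEq A] [Fintype I] [DecidableEq I]
    (w : A → I → ℕ) (M : Matrix (A → I → ZMod 2) (A → I → ZMod 2) ℂ) : (ℕ → ℂ) →ₗ[ℂ] (ℕ → ℂ) :=
  lft (uncurry w) (M.submatrix curry curry)

theorem lft2_mul {A I : Type} [Fintype A] [DecidableEq A] [Fintype I] [DecidableEq I]
    {w : A → I → ℕ} (h : Sep 2 (uncurry w)) (M M' : Matrix (A → I → ZMod 2) (A → I → ZMod 2) ℂ)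
    (v : ℕ → ℂ) : lft2 w (M * M') v = lft2 w M (lft2 w M' v) := by
  rw [lft2, lft2, lft2, ← lft_mul h]
  exact congrArg (fun X => lft (uncurry w) X v)
    (Matrix.submatrix_mul_equiv M M' curry (Equiv.curry A I (ZMod 2)) curry).symm

theorem lft2_one {A I : Type} [Fintype A] [DecidableEq A] [Fintype I] [DecidableEq I]
    (w : A → I → ℕ) (v : ℕ → ℂ) : lft2 w 1 v = v := by
  rw [lft2, Matrix.submatrix_one _ curry_injective, lft_one]

/-- The matrix `C2` on the coordinate `i` only. -/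
noncomputable def cAt {I : Type} [Fintype I] [DecidableEq I] (i : I) :
    Matrix (I → ZMod 2) (I → ZMod 2) ℂ := tprod fun j => if j = i then C2 else 1

/-- `C2` on the `k` bits at the positions `q + a j`. -/
noncomputable def hd (q a k : ℕ) : (ℕ → ℂ) →ₗ[ℂ] (ℕ → ℂ) :=
  lft (fun j : Fin k => 2 ^ (q + a * j)) (tpow k C2)

/-- `C2` on the bit at the position `q`. -/
noncomputable def cbit (q : ℕ) (v : ℕ → ℂ) (p : ℕ) : ℂ :=
  (1 + Complex.I) / 2 * v p + (1 - Complex.I) / 2 * v (reflIx (2 ^ q) 2 1 p)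

namespace LayAux

theorem lft_tprod {J J' : Type} [Fintype J] [DecidableEq J] [Fintype J'] [DecidableEq J'] {K : ℕ}
    [NeZero K] {w : J → ℕ} (h : Sep K w) {e : J' → J} (he : Injective e)
    {A : J → Matrix (ZMod K) (ZMod K) ℂ} (hA : ∀ j, j ∉ Set.range e → A j = 1) :
    lft w (tprod A) = lft (w ∘ e) (tprod fun j => A (e j)) :=
  lft_sub h he (fun x y hxy => (Fintype.prod_of_injective e he _ _
      (fun j hj => by rw [hA j hj, hxy j hj, Matrix.one_apply_eq]) fun _ => rfl).symm)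
    fun x y j hj hxy => prod_eq_zero (mem_univ j) (by rw [hA j hj, Matrix.one_apply_ne hxy])

theorem lft2_tprod {A I : Type} [Fintype A] [DecidableEq A] [Fintype I] [DecidableEq I]
    (w : A → I → ℕ) (M : A → I → Matrix (ZMod 2) (ZMod 2) ℂ) :
    lft2 w (tprod fun a => tprod (M a)) = lft (uncurry w) (tprod fun j => M j.1 j.2) := by
  rw [lft2]
  congr 1
  ext x y
  exact (Fintype.prod_prod_type fun j : A × I => M j.1 j.2 (x j) (y j)).symm

theorem sep_hd (q : ℕ) {a : ℕ} (ha : 0 < a) (k : ℕ) : Sep 2 fun j : Fin k => 2 ^ (q + a * j) :=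
  sep_two fun _ _ h => Fin.ext (Nat.eq_of_mul_eq_mul_left ha (Nat.add_left_cancel h))

theorem lft_cbit (q : ℕ) (v : ℕ → ℂ) :
    lft (fun _ : Unit => 2 ^ q) (tprod fun _ => C2) v = cbit q v := by
  funext p
  have hs : Sep 2 fun _ : Unit => 2 ^ q := sep_two (e := fun _ => q) (injective_of_subsingleton _)
  have h1 : ∀ (f : ZMod 2 → ℂ) x, ∑ y, f y = f x + f (x + 1) := fun f x => by
    rw [sum_zmod2]
    rcases zmod2_cases x with rfl | rfl
    · rw [zero_add]
    · exact add_comm _ _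
  have h2 : ∀ x : ZMod 2, x ≠ x + 1 := by decide
  rw [lft_apply, ← (Equiv.funUnique Unit (ZMod 2)).symm.sum_comp,
    h1 _ (dX 2 (fun _ : Unit => 2 ^ q) p ()), cbit]
  congr 2
  · simp [P344.tprod_apply, C2]
  · exact congrArg v (upd_dX p)
  · simp [P344.tprod_apply, C2, h2]
  · refine congrArg v (Eq.trans ?_ ((upd_single hs p () (dX 2 (fun _ : Unit => 2 ^ q) p () + 1)).trans
      ?_))
    · exact congrArg (upd _ p) (funext fun _ => by simp)
    · rw [val_flip, dX_val]; rfl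

end LayAux

theorem hd_zero (q a : ℕ) (v : ℕ → ℂ) : hd q a 0 v = v := by
  rw [hd, show tpow 0 C2 = 1 by
    ext x y; rw [Subsingleton.elim x y]; simp [tpow, P344.tprod_apply], lft_one]

theorem hd_succ (q : ℕ) {a : ℕ} (ha : 0 < a) (k : ℕ) (v : ℕ → ℂ) :
    hd q a (k + 1) v = cbit (q + a * k) (hd q a k v) ∧
      hd q a (k + 1) v = hd q a k (cbit (q + a * k) v) := by
  have hs : Sep 2 fun j : Fin (k + 1) => 2 ^ (q + a * j) := LayAux.sep_hd q ha _
  have h1 : ∀ v, lft (fun j : Fin (k + 1) => 2 ^ (q + a * j)) (cAt (Fin.last k)) v =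
      cbit (q + a * k) v := fun v => by
    rw [cAt, LayAux.lft_tprod hs (e := fun _ : Unit => Fin.last k) (injective_of_subsingleton _)
      fun j hj => if_neg fun h => hj ⟨(), h.symm⟩]
    simp only [if_true]
    exact LayAux.lft_cbit _ v
  have h2 : lft (fun j : Fin (k + 1) => 2 ^ (q + a * j))
      (tprod fun j => if j = Fin.last k then 1 else C2) = hd q a k := by
    rw [LayAux.lft_tprod hs (Fin.castSucc_injective k) fun j hj => if_pos (by
      rcases j.eq_castSucc_or_eq_last with ⟨j, rfl⟩ | h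
      exacts [absurd ⟨j, rfl⟩ hj, h])]
    simp only [if_neg (Fin.castSucc_ne_last _)]
    rfl
  rw [← h1, ← h1, ← h2, ← lft_mul hs, ← lft_mul hs, cAt, tprod_mul, tprod_mul, hd, tpow]
  constructor <;> congr 3 <;> funext j <;> split_ifs <;> simp

theorem lft2_cAt {I : Type} [Fintype I] [DecidableEq I] {k : ℕ} {w : Fin k → I → ℕ}
    (h : Sep 2 (uncurry w)) {i : I} {q a : ℕ} (hw : ∀ j, w j i = 2 ^ (q + a * j)) :
    lft2 w (tpow k (cAt i)) = hd q a k := by
  rw [tpow, cAt, LayAux.lft2_tprod, LayAux.lft_tprod h (e := fun j => (j, i))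
    (fun _ _ h => congrArg Prod.fst h) fun j hj => if_neg fun h => hj ⟨j.1, Prod.ext rfl h.symm⟩]
  simp only [if_true]
  rw [show uncurry w ∘ (fun j => (j, i)) = fun j : Fin k => 2 ^ (q + a * j) from funext hw]
  rfl

theorem lft2_all {I : Type} [Fintype I] [DecidableEq I] {r : ℕ} (e : I ≃ Fin r) (q : ℕ) {a : ℕ}
    (ha : 0 < a) (k : ℕ) :
    Sep 2 (uncurry fun (j : Fin k) (i : I) => 2 ^ (q + a * (e i + r * j))) ∧
    lft2 (fun (j : Fin k) (i : I) => 2 ^ (q + a * (e i + r * j))) (tpow k (tprod fun _ => C2)) =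
      hd q a (r * k) := by
  let E : Fin k × I ≃ Fin (r * k) := ((Equiv.refl _).prodCongr e).trans
    (finProdFinEquiv.trans (finCongr (mul_comm k r)))
  have hs := LayAux.sep_hd q ha (r * k)
  refine ⟨⟨fun j => hs.1 (E j), fun i j hij => hs.2 (E i) (E j) (E.injective.ne hij)⟩, ?_⟩
  rw [tpow, LayAux.lft2_tprod, hd, tpow, LayAux.lft_tprod hs E.injective
    fun j hj => absurd (E.surjective j) hj]
  rfl

theorem norm_hd_le {q a k m p : ℕ} (ha : 0 < a) (hm : ∀ j < k, q + a * j < m) (hp : p < 2 ^ m)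
    {v : ℕ → ℂ} {b : ℝ} (hb : 0 ≤ b) (hv : ∀ i < 2 ^ m, ‖v i‖ ≤ b) :
    ‖hd q a k v p‖ ≤ 2 ^ k * b := by
  refine norm_lft_le (LayAux.sep_hd q ha k) (fun j => ?_) hp (fun x => ?_) hb hv
  · rw [← pow_succ]; exact pow_dvd_pow _ (hm j j.2)
  · refine (sum_le_card_nsmul _ _ 1 fun y _ => ?_).trans (by simp)
    rw [tpow, P344.tprod_apply, norm_prod]
    refine prod_le_one (fun _ _ => norm_nonneg _) fun j _ => ?_
    have h1 := norm_add_le (1 : ℂ) Complex.I
    have h2 := norm_sub_le (1 : ℂ) Complex.I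
    rw [norm_one, Complex.norm_I] at h1 h2
    rw [C2, Matrix.of_apply]
    split_ifs <;> rw [norm_div, Complex.norm_ofNat] <;> linarith

theorem hd_congr {q a k m p : ℕ} (ha : 0 < a) (hm : ∀ j < k, q + a * j < m) (hp : p < 2 ^ m)
    {v v' : ℕ → ℂ} (hv : ∀ i < 2 ^ m, v i = v' i) : hd q a k v p = hd q a k v' p := by
  refine lft_congr (LayAux.sep_hd q ha k) (fun j => ?_) hp _ hv
  rw [← pow_succ]; exact pow_dvd_pow _ (hm j j.2)

/-- The value of the bits of an axis; the coordinate `none` is an additional bit. -/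
def axv {a : ℕ} (x : Option (Fin a) → ZMod 2) : ℕ := ∑ j : Fin a, (x (some j)).val * 2 ^ (j : ℕ)

namespace LayAux

theorem axv_bit {a : ℕ} (x : Option (Fin a) → ZMod 2) (j : Fin a) :
    axv x / 2 ^ (j : ℕ) % 2 = (x (some j)).val := by
  have := congrArg (fun y => (y j).val) (upd_mk (K := 2) (a := 0) one_pos (x ∘ some) 0).1
  simpa [dX_val, axv] using this

def ofAx {a : ℕ} (c : ZMod 2) (n : ℕ) : Option (Fin a) → ZMod 2
  | none => c
  | some j => (n / 2 ^ (j : ℕ) : ℕ)

theorem axv_ofAx {a n : ℕ} (c : ZMod 2) (hn : n < 2 ^ a) : axv (ofAx (a := a) c n) = n := by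
  have := field_digits (K := 2) 1 a n
  rw [Nat.div_one, Nat.mod_eq_of_lt hn] at this
  rw [axv]
  conv_rhs => rw [this, ← Fin.sum_univ_eq_sum_range (fun e => n / (1 * 2 ^ e) % 2 * 2 ^ e)]
  exact sum_congr rfl fun j _ => by rw [ofAx, ZMod.val_natCast, one_mul]

end LayAux

theorem axv_lt {a : ℕ} (x : Option (Fin a) → ZMod 2) : axv x < 2 ^ a := by
  have h1 := (upd_mk (K := 2) (a := 0) one_pos (0 : Fin a → ZMod 2) (x ∘ some)).2
  have h2 := upd_lt (K := 2) (sep_pow one_pos Fin.val_injective) (N := 2 ^ a) (p := 0)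
    (fun j : Fin a => by rw [one_mul, ← pow_succ]; exact pow_dvd_pow _ j.2) (by positivity)
    (x ∘ some)
  simp only [Pi.zero_apply, ZMod.val_zero, zero_mul, sum_const_zero, add_zero, zero_add,
    mul_one] at h1
  rwa [h1] at h2

theorem axv_inj {a : ℕ} {x y : Option (Fin a) → ZMod 2} (h0 : x none = y none)
    (h : axv x = axv y) : x = y := by
  funext j
  cases j with
  | none => exact h0
  | some j => exact ZMod.val_injective 2 (by rw [← LayAux.axv_bit, ← LayAux.axv_bit, h])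

theorem axv_bit {a : ℕ} (x : Option (Fin a) → ZMod 2) (j : Fin a) :
    axv x / 2 ^ (j : ℕ) % 2 = (x (some j)).val := by
  exact LayAux.axv_bit x j

/-- Summation over an axis with its additional bit. -/
theorem sum_axis {a : ℕ} (f : ZMod 2 → ℕ → ℂ) :
    ∑ x : Option (Fin a) → ZMod 2, f (x none) (axv x) = ∑ c, ∑ n ∈ range (2 ^ a), f c n := by
  rw [← sum_product']
  refine sum_nbij' (fun x => (x none, axv x)) (fun z => LayAux.ofAx z.1 z.2)
    (fun x _ => by simp [axv_lt]) (by simp) (fun x _ => axv_inj rfl ?_) (fun z hz => ?_)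
    fun _ _ => rfl
  · exact LayAux.axv_ofAx _ (axv_lt x)
  · exact Prod.ext rfl (LayAux.axv_ofAx _ (by simpa using hz))

/-- The weights of the bits of `d` axes of `a` bits above `ν` low bits, with additional bits at
the positions `γ + ι`. -/
def axw (d a ν γ : ℕ) (ι : Fin d) : Option (Fin a) → ℕ
  | none => 2 ^ (γ + ι)
  | some j => 2 ^ (ν + a * ι + j)

theorem LayAux.sum_ax {d a ν γ : ℕ} (X Y : Fin d × Option (Fin a) → ZMod 2) :
    ∑ j, (((Y j).val : ℤ) - (X j).val) * uncurry (axw d a ν γ) j =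
      ∑ ι, ((((Y (ι, none)).val : ℤ) - (X (ι, none)).val) * (2 ^ (γ + ι) : ℕ) +
        ((axv (curry Y ι) : ℤ) - axv (curry X ι)) * (2 ^ (ν + a * ι) : ℕ)) := by
  rw [Fintype.sum_prod_type]
  refine sum_congr rfl fun ι _ => ?_
  rw [Fintype.sum_option, axv, axv, Nat.cast_sum, Nat.cast_sum, ← sum_sub_distrib, sum_mul]
  congr 1
  refine sum_congr rfl fun j _ => ?_
  simp only [uncurry_apply_pair, axw, curry_apply]
  push_cast
  ring

theorem sep_axw {d a ν γ : ℕ} (h : γ + d ≤ ν) : Sep 2 (uncurry (axw d a ν γ)) := by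
  have := sep_two (J := Fin d × Option (Fin a))
    (e := fun j => j.2.elim (γ + j.1) fun i => ν + a * j.1 + i) (by
      rintro ⟨i, _ | x⟩ ⟨j, _ | y⟩ hij <;> simp only [Option.elim] at hij
      · rw [Fin.ext (show (i : ℕ) = j by omega)]
      · omega
      · omega
      · have h1 : (a * i + x) / a = (a * j + y) / a := congrArg (· / a) (by omega)
        rw [Nat.mul_add_div x.pos, Nat.mul_add_div x.pos, Nat.div_eq_of_lt x.2,
          Nat.div_eq_of_lt y.2] at h1
        obtain rfl : i = j := Fin.ext h1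
        rw [Fin.ext (show (x : ℕ) = y by omega)])
  convert this using 1
  funext ⟨i, x⟩
  cases x <;> rfl

theorem axv_dX (d a ν γ p : ℕ) (ι : Fin d) :
    axv (curry (dX 2 (uncurry (axw d a ν γ)) p) ι) = p / 2 ^ (ν + a * ι) % 2 ^ a := by
  rw [field_digits, axv, ← Fin.sum_univ_eq_sum_range
    (fun e => p / (2 ^ (ν + a * ι) * 2 ^ e) % 2 * 2 ^ e)]
  exact sum_congr rfl fun j _ => by rw [curry_apply, dX_val, ← pow_add]; rfl

/-- From bits to digits. -/
theorem lft2_field {d a ν γ : ℕ} (h : γ + d ≤ ν) (M : Fin d → ℕ → ℕ → ℂ) :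
    lft2 (axw d a ν γ) (tprod fun ι => Matrix.of fun x y =>
      if x none = y none then M ι (axv x) (axv y) else 0) =
    lft (K := 2 ^ a) (fun ι : Fin d => 2 ^ ν * (2 ^ a) ^ (ι : ℕ))
      (tprod fun ι => Matrix.of fun x y => M ι x.val y.val) := by
  ext1 v
  funext p
  have hw : ∀ ι : Fin d, 2 ^ ν * (2 ^ a) ^ (ι : ℕ) = 2 ^ (ν + a * ι) := fun ι => by
    rw [← pow_mul, pow_add]
  rw [lft2, lft_apply, lft_apply]
  set x := dX 2 (uncurry (axw d a ν γ)) p with hx
  have h1 : ∀ (Z : Fin d → ZMod (2 ^ a)) ι,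
      axv (LayAux.ofAx (a := a) (x (ι, none)) (Z ι).val) = (Z ι).val :=
    fun Z ι => LayAux.axv_ofAx _ (ZMod.val_lt _)
  refine (Fintype.sum_of_injective
    (fun Z : Fin d → ZMod (2 ^ a) => uncurry fun ι => LayAux.ofAx (x (ι, none)) (Z ι).val)
    (fun Z Z' hZ => funext fun ι => ZMod.val_injective _ ?_) _ _ (fun Y hY => ?_) fun Z => ?_).symm
  · rw [← h1 Z, ← h1 Z', congrFun (uncurry_injective hZ) ι]
  · by_contra h0
    refine hY ⟨fun ι => (axv (curry Y ι) : ZMod (2 ^ a)), curry_injective (funext fun ι => ?_)⟩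
    rw [curry_uncurry]
    refine axv_inj ?_ ((h1 (fun ι => (axv (curry Y ι) : ZMod (2 ^ a))) ι).trans
      (ZMod.val_cast_of_lt (axv_lt _)))
    by_contra h3
    exact h0 (mul_eq_zero_of_left (prod_eq_zero (mem_univ ι) (if_neg h3)) _)
  · congr 1
    · rw [Matrix.submatrix_apply, P344.tprod_apply, P344.tprod_apply]
      refine prod_congr rfl fun ι _ => ?_
      refine Eq.trans ?_ (if_pos rfl).symm
      rw [Matrix.of_apply, curry_uncurry, h1, hx, axv_dX, dX_val, hw]
    · rw [upd, upd, LayAux.sum_ax]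
      congr 3
      refine sum_congr rfl fun ι _ => ?_
      rw [curry_uncurry, h1, axv_dX, dX_val, hw]
      exact (zero_add _).symm.trans (by
        congr 1
        exact (mul_eq_zero_of_left (sub_self _) _).symm)

/-- Updating a whole axis, or an additional bit. -/
theorem upd_axis {d a ν γ : ℕ} (h : γ + d ≤ ν) (p : ℕ) (ι : Fin d)
    {Y : Fin d × Option (Fin a) → ZMod 2}
    (hY : ∀ j, j.1 ≠ ι → Y j = dX 2 (uncurry (axw d a ν γ)) p j) :
    (Y (ι, none) = dX 2 (uncurry (axw d a ν γ)) p (ι, none) →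
      upd (uncurry (axw d a ν γ)) p Y =
        digIx (2 ^ (ν + a * ι)) (2 ^ a) (2 ^ a) (fun _ _ => axv (curry Y ι)) p) ∧
    ((∀ j, Y (ι, some j) = dX 2 (uncurry (axw d a ν γ)) p (ι, some j)) →
      Y (ι, none) = dX 2 (uncurry (axw d a ν γ)) p (ι, none) + 1 →
      upd (uncurry (axw d a ν γ)) p Y = reflIx (2 ^ (γ + ι)) 2 1 p) := by
  have h0 : (upd (uncurry (axw d a ν γ)) p Y : ℤ) = _ := (upd_cast (sep_axw h) p Y).trans (by
    rw [LayAux.sum_ax, sum_eq_single ι (fun i _ hi => by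
      rw [hY (i, none) hi, show curry Y i = curry (dX 2 (uncurry (axw d a ν γ)) p) i from
        funext fun j => hY (i, j) hi]; simp) (by simp)])
  refine ⟨fun h1 => Int.natCast_inj.1 ?_, fun h1 h2 => Int.natCast_inj.1 ?_⟩
  · rw [h0, LayAux.digIx_cast, h1, axv_dX]
    simp
  · have h3 : axv (curry Y ι) = axv (curry (dX 2 (uncurry (axw d a ν γ)) p) ι) :=
      sum_congr rfl fun j _ => by rw [curry_apply, h1]; rfl
    rw [h0, reflIx, LayAux.digIx_cast, h3, h2, LayAux.val_flip, dX_val]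
    simp [axw]

end Vale.Agent.P338
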