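import Vale.Agent.P338.Arr

/-! The specification of the fast exchange of two digits. -/

namespace Vale.Agent.P338

open Vale.Agent.Common.TreeTM

/-- Two digits of size `K` can be exchanged at the cost of `τ (size K)` passes. -/
def SwapOK (w1 : ℕ) (τ : ℕ → ℕ) : Prop :=
  ∀ {α γ δ : Type} [Enc α] [Enc γ] [Enc δ] {g : γ → δ} {𝒜 : Amb α} {u : (γ → ℕ∞) → α → ℕ∞}
    {l : α → Arr} {K B C N P : α → ℕ}, Oc g 𝒜 u l → Sm g 𝒜 K → Sm g 𝒜 B → Sm g 𝒜 C →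
    Fit 𝒜 (fun a => N a * τ (K a).size) P →
    (∀ a, 𝒜.D a → Wf (P a) (l a) ∧ l a ≠ [] ∧ (l a).length ≤ N a ∧
      K a * B a * K a * C a ∣ (l a).length ∧ 2 ^ (w1 * (K a).size.size) ∣ C a) →
    Oc g 𝒜 u fun a => pull (l a).length (swapIx (K a) (B a) (C a)) (l a)

end Vale.Agent.P338
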