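import Vale.Agent.P338.Bits
import Vale.Agent.P338.Lay
import Vale.Agent.P338.SwapD

/-! Arrays of Gaussian integers. -/

namespace Vale.Agent.P338

open Vale.Agent.Common.TreeTM Complex

/-- The encoding of an array of Gaussian integers. -/
noncomputable def encC (N P : ℕ) (v : ℕ → ℂ) : CArr :=
  (encA N P fun i => ⌊(v i).re⌋, encA N P fun i => ⌊(v i).im⌋)

/-- The decoded array. -/
def decC (x : CArr) (i : ℕ) : ℂ := ⟨sval (x.1.getD i []), sval (x.2.getD i [])⟩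

/-- The entries are Gaussian integers divisible by `2 ^ j`, with `j` spare bits at the top. -/
def RepC (N P j : ℕ) (v : ℕ → ℂ) : Prop :=
  0 < P ∧ ∀ i < N, (∃ x y : ℤ, v i = 2 ^ j * (x + y * I)) ∧ ‖v i‖ * 2 ^ (j + 1) < 2 ^ P

theorem encC_int {N P : ℕ} {v : ℕ → ℂ} {x y : ℕ → ℤ} (h : ∀ i < N, v i = x i + y i * I) :
    encC N P v = (encA N P x, encA N P y) := by
  refine Prod.ext (arr_congr fun i hi => ?_) (arr_congr fun i hi => ?_) <;> simp [h i hi]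

theorem encC_congr {N P : ℕ} {v v' : ℕ → ℂ} (h : ∀ i < N, v i = v' i) :
    encC N P v = encC N P v' := by
  refine Prod.ext (arr_congr fun i hi => ?_) (arr_congr fun i hi => ?_) <;> simp only [h i hi]

theorem RepC.congr {N P j : ℕ} {v v' : ℕ → ℂ} (h : RepC N P j v) (h' : ∀ i < N, v' i = v i) :
    RepC N P j v' := ⟨h.1, fun i hi => by rw [h' i hi]; exact h.2 i hi⟩

theorem RepC.mono {N P j j' : ℕ} {v : ℕ → ℂ} (h : RepC N P j v) (hj : j' ≤ j) : RepC N P j' v := by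
  refine ⟨h.1, fun i hi => ?_⟩
  obtain ⟨⟨x, y, h1⟩, h2⟩ := h.2 i hi
  obtain ⟨d, rfl⟩ := Nat.exists_eq_add_of_le hj
  refine ⟨⟨2 ^ d * x, 2 ^ d * y, by rw [h1]; push_cast; ring⟩, lt_of_le_of_lt ?_ h2⟩
  exact mul_le_mul_of_nonneg_left (pow_le_pow_right₀ one_le_two (by omega)) (norm_nonneg _)

theorem RepC.ints {N P j : ℕ} {v : ℕ → ℂ} (h : RepC N P j v) : ∃ x y : ℕ → ℤ, ∀ i < N,
    v i = x i + y i * I ∧ |x i| * 2 < 2 ^ P ∧ |y i| * 2 < 2 ^ P := by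
  choose! x y h1 using fun i hi => ((h.mono (Nat.zero_le j)).2 i hi).1
  refine ⟨x, y, fun i hi => ?_⟩
  have h2 := ((h.mono (Nat.zero_le j)).2 i hi).2
  have h3 := abs_re_le_norm (v i)
  have h4 := abs_im_le_norm (v i)
  have h5 := h1 i hi
  rw [pow_zero, one_mul] at h5
  rw [h5] at h3 h4
  simp only [add_re, intCast_re, mul_re, I_re, mul_zero, intCast_im, I_im, mul_one, sub_self,
    add_zero, add_im, mul_im, zero_add] at h3 h4
  rw [← h5] at h3 h4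
  rw [zero_add, pow_one] at h2
  refine ⟨h5, ?_, ?_⟩ <;> rw [← Int.cast_lt (R := ℝ)] <;> push_cast <;> linarith

theorem RepC.decC {N P j : ℕ} {v : ℕ → ℂ} (h : RepC N P j v) {i : ℕ} (hi : i < N) :
    decC (encC N P v) i = v i := by
  obtain ⟨x, y, h1⟩ := h.ints
  obtain ⟨a1, a2, a3⟩ := h1 i hi
  rw [encC_int fun i hi => (h1 i hi).1, a1, P338.decC, encA, encA, getD_arr _ _ hi,
    getD_arr _ _ hi, sval_toBits a2, sval_toBits a3]
  exact Complex.ext (by simp) (by simp)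

theorem RepC.comp {N N' P j : ℕ} {v : ℕ → ℂ} (h : RepC N P j v) {ψ : ℕ → ℕ}
    (hψ : ∀ i < N', ψ i < N) : RepC N' P j fun i => v (ψ i) :=
  ⟨h.1, fun i hi => h.2 _ (hψ i hi)⟩

theorem pull_encC {N N' P : ℕ} (v : ℕ → ℂ) {ψ : ℕ → ℕ} (hψ : ∀ i < N', ψ i < N) :
    (pull N' ψ (encC N P v).1, pull N' ψ (encC N P v).2) = encC N' P fun i => v (ψ i) := by
  exact Prod.ext (pull_arr _ hψ) (pull_arr _ hψ)

theorem pull_encC' {N N' P : ℕ} (hN : 0 < N) (v : ℕ → ℂ) (ψ : ℕ → ℕ) :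
    (pull N' ψ (encC N P v).1, pull N' ψ (encC N P v).2) =
      encC N' P fun i => if ψ i < N then v (ψ i) else 0 := by
  refine Prod.ext ((pull_arr' ψ hN fun _ _ => length_toBits _ _).trans (arr_congr fun i _ => ?_))
    ((pull_arr' ψ hN fun _ _ => length_toBits _ _).trans (arr_congr fun i _ => ?_)) <;>
  by_cases h : ψ i < N <;> simp [toBits_zero, h]

theorem RepC.add {N P j : ℕ} {v v' : ℕ → ℂ} (h : RepC N P (j + 1) v) (h' : RepC N P (j + 1) v') :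
    RepC N P j (v + v') := by
  refine ⟨h.1, fun i hi => ?_⟩
  obtain ⟨⟨x, y, h1⟩, h2⟩ := h.2 i hi
  obtain ⟨⟨x', y', h1'⟩, h2'⟩ := h'.2 i hi
  refine ⟨⟨2 * (x + x'), 2 * (y + y'), by rw [Pi.add_apply, h1, h1']; push_cast; ring⟩, ?_⟩
  have := mul_le_mul_of_nonneg_right (norm_add_le (v i) (v' i))
    (show (0 : ℝ) ≤ 2 ^ (j + 1) by positivity)
  rw [pow_succ _ (j + 1)] at h2 h2'
  rw [Pi.add_apply]
  linarith

theorem RepC.neg {N P j : ℕ} {v : ℕ → ℂ} (h : RepC N P j v) : RepC N P j (-v) := by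
  refine ⟨h.1, fun i hi => ?_⟩
  obtain ⟨⟨x, y, h1⟩, h2⟩ := h.2 i hi
  exact ⟨⟨-x, -y, by rw [Pi.neg_apply, h1]; push_cast; ring⟩, by rwa [Pi.neg_apply, norm_neg]⟩

theorem RepC.half {N P j : ℕ} {v : ℕ → ℂ} (h : RepC N P (j + 1) v) :
    RepC N P j ((1 / 2 : ℂ) • v) := by
  refine ⟨h.1, fun i hi => ?_⟩
  obtain ⟨⟨x, y, h1⟩, h2⟩ := h.2 i hi
  refine ⟨⟨x, y, by rw [Pi.smul_apply, h1, smul_eq_mul]; ring⟩, lt_of_le_of_lt ?_ h2⟩
  rw [Pi.smul_apply, norm_smul, pow_succ _ (j + 1)]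
  have : 0 ≤ ‖v i‖ * 2 ^ (j + 1) := by positivity
  simp only [one_div, norm_inv, Complex.norm_ofNat]
  linarith

theorem RepC.encC_add {N P j j' : ℕ} {v v' : ℕ → ℂ} (h : RepC N P j v) (h' : RepC N P j' v') :
    (addA (encC N P v).1 (encC N P v').1, addA (encC N P v).2 (encC N P v').2) =
      encC N P (v + v') := by
  obtain ⟨x, y, h1⟩ := h.ints
  obtain ⟨x', y', h1'⟩ := h'.ints
  rw [encC_int fun i hi => (h1 i hi).1, encC_int fun i hi => (h1' i hi).1, addA_encA, addA_encA]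
  refine (encC_int fun i hi => ?_).symm
  rw [Pi.add_apply, (h1 i hi).1, (h1' i hi).1]
  push_cast
  ring

theorem RepC.encC_neg {N P j : ℕ} {v : ℕ → ℂ} (h : RepC N P j v) :
    (negA (encC N P v).1, negA (encC N P v).2) = encC N P (-v) := by
  obtain ⟨x, y, h1⟩ := h.ints
  rw [encC_int fun i hi => (h1 i hi).1, negA_encA, negA_encA]
  refine (encC_int fun i hi => ?_).symm
  rw [Pi.neg_apply, (h1 i hi).1]
  push_cast
  ring

theorem RepC.encC_half {N P j : ℕ} {v : ℕ → ℂ} (h : RepC N P (j + 1) v) :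
    (halfA (encC N P v).1, halfA (encC N P v).2) = encC N P ((1 / 2 : ℂ) • v) := by
  obtain ⟨x, y, h1⟩ := h.half.ints
  obtain ⟨x', y', h2⟩ := h.ints
  have h3 : ∀ i < N, x' i = 2 * x i ∧ y' i = 2 * y i := fun i hi => by
    have := (h1 i hi).1
    rw [Pi.smul_apply, (h2 i hi).1, smul_eq_mul] at this
    have h4 := congrArg re this
    have h5 := congrArg im this
    simp at h4 h5
    constructor <;> apply Int.cast_injective (α := ℝ) <;> push_cast <;> linarith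
  rw [encC_int fun i hi => (h1 i hi).1, encC_int fun i hi => (h2 i hi).1,
    halfA_encA h.1 fun i hi => (h2 i hi).2.1, halfA_encA h.1 fun i hi => (h2 i hi).2.2]
  refine Prod.ext (arr_congr fun i hi => ?_) (arr_congr fun i hi => ?_) <;>
    simp [(h3 i hi).1, (h3 i hi).2]

theorem reflIx_bit_lt {m q i : ℕ} (hq : q < m) (hi : i < 2 ^ m) :
    reflIx (2 ^ q) 2 1 i < 2 ^ m := by
  obtain ⟨d, rfl⟩ := Nat.exists_eq_add_of_lt hq
  have e : 2 ^ (q + d + 1) = 2 ^ d * 2 * 2 ^ q := by ring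
  rw [e] at hi ⊢
  refine ix_lt (Nat.div_lt_of_lt_mul ?_) (Nat.mod_lt _ two_pos) (Nat.mod_lt _ (by positivity))
  linarith

theorem RepC.mulI {N P j : ℕ} {v : ℕ → ℂ} (h : RepC N P j v) : RepC N P j (I • v) := by
  refine ⟨h.1, fun i hi => ?_⟩
  obtain ⟨⟨x, y, h1⟩, h2⟩ := h.2 i hi
  refine ⟨⟨-y, x, ?_⟩, by rwa [Pi.smul_apply, norm_smul, norm_I, one_mul]⟩
  rw [Pi.smul_apply, h1, smul_eq_mul]
  push_cast
  linear_combination 2 ^ j * (y : ℂ) * I_sq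

theorem RepC.encC_mulI {N P j : ℕ} {v : ℕ → ℂ} (h : RepC N P j v) :
    (negA (encC N P v).2, (encC N P v).1) = encC N P (I • v) := by
  obtain ⟨x, y, h1⟩ := h.ints
  rw [encC_int fun i hi => (h1 i hi).1, negA_encA]
  refine (encC_int fun i hi => ?_).symm
  rw [Pi.smul_apply, (h1 i hi).1, smul_eq_mul]
  push_cast
  linear_combination (y i : ℂ) * I_sq

/-- The butterfly `(x + y) / 2 + I (x - y) / 2`. -/
def bfly (z : CArr × CArr) : CArr :=
  (halfA (addA (addA z.1.1 z.2.1) (negA (addA z.1.2 (negA z.2.2)))),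
    halfA (addA (addA z.1.2 z.2.2) (addA z.1.1 (negA z.2.1))))

theorem bfly_encC {N P : ℕ} {v v' : ℕ → ℂ} (h : RepC N P 3 v) (h' : RepC N P 3 v') :
    bfly (encC N P v, encC N P v') =
      encC N P fun i => (1 + I) / 2 * v i + (1 - I) / 2 * v' i := by
  have a1 := Prod.ext_iff.1 (h.encC_add h')
  have a2 := Prod.ext_iff.1 h'.encC_neg
  have a3 := Prod.ext_iff.1 (h.encC_add h'.neg)
  have a4 := Prod.ext_iff.1 (h.add h'.neg).encC_mulI
  have a5 := Prod.ext_iff.1 ((h.add h').encC_add (h.add h'.neg).mulI)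
  simp only at a1 a2 a3 a4 a5
  simp only [bfly]
  rw [a1.1, a1.2, a2.1, a2.2, a3.1, a3.2, a4.1, a4.2, a5.1, a5.2,
    ((h.add h').add (h.add h'.neg).mulI).encC_half]
  refine encC_congr fun i _ => ?_
  simp only [Pi.smul_apply, Pi.add_apply, Pi.neg_apply, smul_eq_mul]
  ring

theorem RepC.cbit {m P j q : ℕ} {v : ℕ → ℂ} (h : RepC (2 ^ m) P (j + 1) v) (hq : q < m) :
    RepC (2 ^ m) P j (cbit q v) := by
  refine ⟨h.1, fun i hi => ?_⟩
  obtain ⟨⟨x, y, h1⟩, h2⟩ := h.2 i hi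
  obtain ⟨⟨x', y', h1'⟩, h2'⟩ := h.2 _ (reflIx_bit_lt hq hi)
  refine ⟨⟨x - y + x' + y', x + y - x' + y', ?_⟩, ?_⟩
  · rw [P338.cbit, h1, h1']
    push_cast
    linear_combination 2 ^ j * ((y : ℂ) - y') * I_sq
  · have a1 := norm_add_le (1 : ℂ) I
    have a2 := norm_sub_le (1 : ℂ) I
    rw [norm_one, norm_I] at a1 a2
    have a3 : ‖P338.cbit q v i‖ ≤ ‖v i‖ + ‖v (reflIx (2 ^ q) 2 1 i)‖ := by
      refine (norm_add_le _ _).trans (add_le_add ?_ ?_) <;>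
      · rw [norm_mul, norm_div, Complex.norm_ofNat]
        exact mul_le_of_le_one_left (norm_nonneg _) (by linarith)
    have := mul_le_mul_of_nonneg_right a3 (show (0 : ℝ) ≤ 2 ^ (j + 1) by positivity)
    rw [pow_succ _ (j + 1)] at h2 h2'
    linarith

theorem RepC.hd {m P j q a k : ℕ} {v : ℕ → ℂ} (h : RepC (2 ^ m) P (j + k) v) (ha : 0 < a)
    (hm : ∀ i < k, q + a * i < m) : RepC (2 ^ m) P j (hd q a k v) := by
  induction k generalizing j with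
  | zero => rwa [hd_zero]
  | succ k ih =>
    rw [(hd_succ q ha k v).1]
    exact (ih (j := j + 1) (by rwa [add_right_comm]) fun i hi => hm i (by omega)).cbit
      (hm k (by omega))

/-- Geometry of the bits on which a tensor power of `C2` acts. -/
def HadPre (w1 m q s k e : ℕ) : Prop :=
  0 < s ∧ 0 < e ∧ k ≤ 2 ^ s ∧ k ≤ 2 ^ e ∧ (∀ j < k, q + s * j + k * e < m) ∧
    k * e + 2 + w1 * (k * e + 3).size ≤ q

/-- The tensor power of `C2` on `k` bits costs `τ (k e + 2)` passes. -/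
def HadOK (w1 E0 : ℕ) (τ : ℕ → ℕ) : Prop :=
  ∀ {α γ δ : Type} [Enc α] [Enc γ] [Enc δ] {g : γ → δ} {𝒜 : Amb α} {u : (γ → ℕ∞) → α → ℕ∞}
    {x : α → CArr} {v : α → ℕ → ℂ} {m q s k e N P : α → ℕ}, Oc g 𝒜 u x → Sm g 𝒜 m →
    Sm g 𝒜 q → Sm g 𝒜 s → Sm g 𝒜 k → Sm g 𝒜 e → Fit 𝒜 (fun a => N a * τ (k a * e a + 2)) P →
    (∀ a, 𝒜.D a → 2 ^ m a ≤ N a ∧ x a = encC (2 ^ m a) (P a) (v a) ∧
      RepC (2 ^ m a) (P a) (E0 * (k a + 1)) (v a) ∧ HadPre w1 (m a) (q a) (s a) (k a) (e a)) →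
    Oc g 𝒜 u fun a => encC (2 ^ m a) (P a) (hd (q a) (s a) (k a) (v a))

variable {α γ δ : Type} [Enc α] [Enc γ] [Enc δ] {g : γ → δ} {𝒜 : Amb α}
  {u : (γ → ℕ∞) → α → ℕ∞}

theorem sm_const {β π : Type} [Enc β] [Enc π] {p : α → π} (hp : Sm g 𝒜 p) (b : β) :
    Sm g 𝒜 fun _ => b := Sm.tc (F := fun _ => b) (by fun_prop) hp

/-- Powers of two below the length of a computed list are small. -/
theorem sm_pow {β : Type} [Enc β] {N P e : α → ℕ} (hF : Fit 𝒜 N P) {l : α → List β}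
    (hl : Cl g 𝒜 l) (he : Sm g 𝒜 e)
    (h : ∀ a, 𝒜.D a → (l a).length ≤ N a ∧ e a ≤ (l a).length.size) :
    Sm g 𝒜 fun a => 2 ^ e a :=
  (Sm.tc (F := fun s : ℕ × ℕ => pw s.1 2 s.2) (by fun_prop)
    ((Sm.of_fit hF hl.length fun a ha => (h a ha).1).pair he)).congr
    fun a ha => (pw_eq (h a ha).2).symm

/-- One butterfly layer. -/
theorem oc_cbit {x : α → CArr} {v : α → ℕ → ℂ} {m q N P : α → ℕ} (hx : Oc g 𝒜 u x)
    (hq : Sm g 𝒜 q) (hF : Fit 𝒜 N P)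
    (h : ∀ a, 𝒜.D a → 2 ^ m a ≤ N a ∧ q a < m a ∧ x a = encC (2 ^ m a) (P a) (v a) ∧
      RepC (2 ^ m a) (P a) 3 (v a)) :
    Oc g 𝒜 u fun a => encC (2 ^ m a) (P a) (cbit (q a) (v a)) := by
  have hF' := hF.ext (f := x) (h := hx.2)
  have hl : ∀ p, (𝒜.ext x hx.2).D p → p.2.1.length = 2 ^ m p.1 ∧ p.2.2.length = 2 ^ m p.1 :=
    fun p hp => by rw [hp.2, (h _ hp.1).2.2.1]; exact ⟨length_encA .., length_encA ..⟩
  have hw : Sm g (𝒜.ext x hx.2) fun p => 2 ^ q p.1 :=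
    (sm_pow hF' (l := fun p => p.2.1) (by fun_prop) hq.ext fun p hp => by
      rw [(hl p hp).1, Nat.size_pow]
      exact ⟨(h _ hp.1).1, by have := (h _ hp.1).2.1; omega⟩)
  have key : ∀ {l : α × CArr → Arr}, Cl g (𝒜.ext x hx.2) l →
      (∀ p, (𝒜.ext x hx.2).D p → Wf (P p.1) (l p) ∧ (l p).length = 2 ^ m p.1) →
      Cl g (𝒜.ext x hx.2) fun p => pull (2 ^ m p.1) (reflIx (2 ^ q p.1) 2 1) (l p) :=
    fun {l} h1 h2 => (oc_refl h1 hw (sm_const hw 2) (sm_const hw 1) hF' fun p hp =>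
      ⟨(h2 p hp).1, List.ne_nil_of_length_pos (by rw [(h2 p hp).2]; positivity),
        by rw [(h2 p hp).2]; exact (h _ hp.1).1, by
          rw [(h2 p hp).2, ← pow_succ]; exact pow_dvd_pow _ (h _ hp.1).2.1⟩).congr
      fun p hp => by rw [(h2 p hp).2]
  have h1 := key (l := fun p => p.2.1) (by fun_prop) fun p hp =>
    ⟨by rw [hp.2, (h _ hp.1).2.2.1]; exact wf_encA _ _ _, (hl p hp).1⟩
  have h2 := key (l := fun p => p.2.2) (by fun_prop) fun p hp =>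
    ⟨by rw [hp.2, (h _ hp.1).2.2.1]; exact wf_encA _ _ _, (hl p hp).2⟩
  have h3 : Cl g (lin _) bfly := by unfold bfly; fun_prop
  refine ((hx.bind (oc_lin h3 (Cl.pair (Cl.snd Cl.id) (h1.pair h2)))).congr fun a ha => ?_).mono
    fun _ _ _ => by simp
  obtain ⟨-, a2, a3, a4⟩ := h a ha
  have a5 : ∀ i < 2 ^ m a, reflIx (2 ^ q a) 2 1 i < 2 ^ m a := fun i hi => reflIx_bit_lt a2 hi
  simp only [a3]
  rw [pull_encC _ a5, bfly_encC a4 (a4.comp a5)]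
  rfl

end Vale.Agent.P338
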