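import Vale.Agent.P338.Defs
import Mathlib.Data.Fintype.Option
import Mathlib.Data.Fintype.Sum
import Mathlib.Data.Finite.Prod
import Mathlib.Data.Finite.Sum
import Mathlib.Tactic.Ring
import Mathlib.Tactic.Linarith

/-! A recursive stack language with exact step counts, simulated by multitape machines. -/

namespace Vale.Agent.P338

open Function

/-- Programs acting on finitely many stacks of bits, with one recursion binder. -/
inductive Cmd (K : Type) : Type
  | skip : Cmd K
  | push (r : K) (b : Bool) : Cmd K
  | pop (r : K) : Cmd K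
  | seq (P Q : Cmd K) : Cmd K
  | cond (r : K) (c : Option Bool → Bool) (P Q : Cmd K) : Cmd K
  | loop (r : K) (c : Option Bool → Bool) (P : Cmd K) : Cmd K
  | call : Cmd K
  | mu (P : Cmd K) : Cmd K

variable {K : Type} [DecidableEq K]

/-- `Ex E P s s' t`: with `E` as the body of the current recursion, `P` leads from `s` to `s'`
in `t` steps. -/
inductive Ex : Cmd K → Cmd K → (K → List Bool) → (K → List Bool) → ℕ → Prop
  | skip (E s) : Ex E .skip s s 1
  | push (E r b s) : Ex E (.push r b) s (update s r (b :: s r)) 1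
  | pop (E r s) : Ex E (.pop r) s (update s r (s r).tail) 1
  | seq {E P Q s t u a b} : Ex E P s t a → Ex E Q t u b → Ex E (.seq P Q) s u (a + b + 2)
  | condT {E r c P Q s t a} : c (s r).head? = true → Ex E P s t a →
      Ex E (.cond r c P Q) s t (a + 1)
  | condF {E r c P Q s t a} : c (s r).head? = false → Ex E Q s t a →
      Ex E (.cond r c P Q) s t (a + 1)
  | loopT {E r c P s t u a b} : c (s r).head? = true → Ex E P s t a →
      Ex E (.loop r c P) t u b → Ex E (.loop r c P) s u (a + b + 2)
  | loopF {E r c P s} : c (s r).head? = false → Ex E (.loop r c P) s s 1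
  | call {E s t a} : Ex E E s t a → Ex E .call s t (a + 1)
  | mu {E P s t a} : Ex P P s t a → Ex E (.mu P) s t (a + 1)

/-! ### Small steps -/

/-- Subterms. -/
def Cmd.sub : Cmd K → List (Cmd K)
  | .seq P Q => .seq P Q :: (P.sub ++ Q.sub)
  | .cond r c P Q => .cond r c P Q :: (P.sub ++ Q.sub)
  | .loop r c P => .loop r c P :: P.sub
  | .mu P => .mu P :: P.sub
  | P => [P]

omit [DecidableEq K] in
theorem Cmd.self_sub (P : Cmd K) : P ∈ P.sub := by cases P <;> simp [Cmd.sub]

omit [DecidableEq K] in
theorem Cmd.sub_trans {P Q R : Cmd K} (h : P ∈ Q.sub) (h' : Q ∈ R.sub) : P ∈ R.sub := by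
  induction R with
  | seq A B iA iB =>
    simp only [Cmd.sub, List.mem_cons, List.mem_append] at h' ⊢
    rcases h' with rfl | h' | h'
    · simpa [Cmd.sub] using h
    · exact Or.inr (Or.inl (iA h'))
    · exact Or.inr (Or.inr (iB h'))
  | cond r c A B iA iB =>
    simp only [Cmd.sub, List.mem_cons, List.mem_append] at h' ⊢
    rcases h' with rfl | h' | h'
    · simpa [Cmd.sub] using h
    · exact Or.inr (Or.inl (iA h'))
    · exact Or.inr (Or.inr (iB h'))
  | loop r c A iA =>
    simp only [Cmd.sub, List.mem_cons] at h' ⊢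
    rcases h' with rfl | h'
    · simpa [Cmd.sub] using h
    · exact Or.inr (iA h')
  | mu A iA =>
    simp only [Cmd.sub, List.mem_cons] at h' ⊢
    rcases h' with rfl | h'
    · simpa [Cmd.sub] using h
    · exact Or.inr (iA h')
  | _ =>
    simp only [Cmd.sub, List.mem_singleton] at h' ⊢
    subst h'
    simpa [Cmd.sub] using h

abbrev Node (K : Type) := Cmd K × Cmd K

/-- Next node, node to be pushed, stack to be popped, bit to be pushed. -/
def nxt (p : Node K) (top : K → Option Bool) :
    Option (Node K) × Option (Node K) × Option K × Option (K × Bool) :=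
  match p.1 with
  | .skip => (none, none, none, none)
  | .push r b => (none, none, none, some (r, b))
  | .pop r => (none, none, some r, none)
  | .seq P Q => (some (P, p.2), some (Q, p.2), none, none)
  | .cond r c P Q => (some (if c (top r) then P else Q, p.2), none, none, none)
  | .loop r c P => if c (top r) then (some (P, p.2), some p, none, none) else (none, none, none, none)
  | .call => (some (p.2, p.2), none, none, none)
  | .mu P => (some (P, P), none, none, none)

def dpop (s : K → List Bool) : Option K → K → List Bool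
  | none => s
  | some r => update s r (s r).tail

def dpush (s : K → List Bool) : Option (K × Bool) → K → List Bool
  | none => s
  | some r => update s r.1 (r.2 :: s r.1)

abbrev ACfg (K : Type) := Option (Node K) × List (Node K) × (K → List Bool)

def astep : ACfg K → ACfg K
  | (some p, κ, s) =>
    let r := nxt p fun k => (s k).head?
    (r.1, r.2.1.toList ++ κ, dpush (dpop s r.2.2.1) r.2.2.2)
  | (none, p :: κ, s) => (some p, κ, s)
  | (none, [], s) => (none, [], s)

theorem Ex.small {E P : Cmd K} {s s' t} (h : Ex E P s s' t) :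
    ∀ κ, astep^[t] (some (P, E), κ, s) = (none, κ, s') := by
  induction h with
  | skip | push | pop => intro κ; rfl
  | @seq E P Q s t u a b _ _ i1 i2 =>
    intro κ
    rw [show a + b + 2 = b + 1 + a + 1 by omega, iterate_succ_apply, iterate_add_apply]
    show astep^[b + 1] (astep^[a] (some (P, E), (Q, E) :: κ, s)) = _
    rw [i1, iterate_succ_apply]
    exact i2 κ
  | @condT E r c P Q s t a h _ i1 =>
    intro κ
    rw [iterate_succ_apply, ← i1 κ]
    simp [astep, nxt, h, dpop, dpush]
  | @condF E r c P Q s t a h _ i1 =>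
    intro κ
    rw [iterate_succ_apply, ← i1 κ]
    simp [astep, nxt, h, dpop, dpush]
  | @loopT E r c P s t u a b h _ _ i1 i2 =>
    intro κ
    rw [show a + b + 2 = b + 1 + a + 1 by omega, iterate_succ_apply, iterate_add_apply]
    have : astep (some (Cmd.loop r c P, E), κ, s) = (some (P, E), (Cmd.loop r c P, E) :: κ, s) := by
      simp [astep, nxt, h, dpop, dpush]
    rw [this, i1, iterate_succ_apply]
    exact i2 κ
  | @loopF E r c P s h =>
    intro κ
    simp [astep, nxt, h, dpop, dpush]
  | call _ i1 => intro κ; rw [iterate_succ_apply]; exact i1 κ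
  | mu _ i1 => intro κ; rw [iterate_succ_apply]; exact i1 κ

def InN (P : Cmd K) (p : Node K) : Prop := p.1 ∈ P.sub ∧ p.2 ∈ P.sub

omit [DecidableEq K] in
theorem nxt_in {P : Cmd K} {p : Node K} (hp : InN P p) (top : K → Option Bool) :
    (∀ q, (nxt p top).1 = some q → InN P q) ∧ ∀ q, (nxt p top).2.1 = some q → InN P q := by
  obtain ⟨p, E⟩ := p
  obtain ⟨h1, h2⟩ := hp
  have key : ∀ Q, Q ∈ p.sub → Q ∈ P.sub := fun Q h => Cmd.sub_trans h h1
  cases p with
  | seq A B =>
    simp only [nxt, Option.some.injEq]
    exact ⟨fun q h => h ▸ ⟨key _ (by simp [Cmd.sub, Cmd.self_sub]), h2⟩,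
      fun q h => h ▸ ⟨key _ (by simp [Cmd.sub, Cmd.self_sub]), h2⟩⟩
  | cond r c A B =>
    simp only [nxt, Option.some.injEq]
    refine ⟨fun q h => h ▸ ⟨key _ ?_, h2⟩, by simp⟩
    split_ifs <;> simp [Cmd.sub, Cmd.self_sub]
  | loop r c A =>
    simp only [nxt]
    split_ifs
    · simp only [Option.some.injEq]
      exact ⟨fun q h => h ▸ ⟨key _ (by simp [Cmd.sub, Cmd.self_sub]), h2⟩,
        fun q h => h ▸ ⟨h1, h2⟩⟩
    · simp
  | call =>
    simp only [nxt, Option.some.injEq]
    exact ⟨fun q h => h ▸ ⟨h2, h2⟩, by simp⟩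
  | mu A =>
    simp only [nxt, Option.some.injEq]
    have := key A (by simp [Cmd.sub, Cmd.self_sub])
    exact ⟨fun q h => h ▸ ⟨this, this⟩, by simp⟩
  | _ => simp [nxt]

end Vale.Agent.P338
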