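import Vale.Agent.P338.Prog

/-! The program computes the Fourier transform along one axis. -/

namespace Vale.Agent.P338

namespace DftAAux
open Finset Vale.Agent.P344 Complex Matrix

variable {a s ι : ℕ} {inv : Bool}

def emb (a : ℕ) (v : ZMod 2 → ℕ → ℂ) : (Option (Fin a) → ZMod 2) → ℂ := fun y => v (y none) (axv y)

theorem emb_congr {v w : ZMod 2 → ℕ → ℂ} (h : ∀ c, ∀ n < 2 ^ a, v c n = w c n) :
    emb a v = emb a w := funext fun y => h _ _ (axv_lt y)

noncomputable def PP (inv : Bool) (a s ι : ℕ) (L : List Stp) :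
    Matrix (Option (Fin a) → ZMod 2) (Option (Fin a) → ZMod 2) ℂ :=
  (L.reverse.map (axM inv a s ι)).prod

theorem PP_append (L L' : List Stp) (v : (Option (Fin a) → ZMod 2) → ℂ) :
    PP inv a s ι (L ++ L') *ᵥ v = PP inv a s ι L' *ᵥ (PP inv a s ι L *ᵥ v) := by
  simp [PP]

theorem PP_single (st : Stp) : PP inv a s ι [st] = axM inv a s ι st := by simp [PP]

theorem PP_map (k u ε d : ℕ) (hk : k = 4 ∨ k = 8 ∨ k = 9) :
    PP inv a s ι ((List.range d).map fun j => (k, u, ε, j)) =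
      if ι < d then axM inv a s ι (k, u, ε, ι) else 1 := by
  induction d with
  | zero => simp [PP]
  | succ d ih =>
    have h : PP inv a s ι ((List.range (d + 1)).map fun j => (k, u, ε, j)) =
        axM inv a s ι (k, u, ε, d) * PP inv a s ι ((List.range d).map fun j => (k, u, ε, j)) := by
      simp [PP, List.range_succ]
    rw [h, ih]
    by_cases h1 : d = ι
    · subst h1; simp
    · have h2 : axM inv a s ι (k, u, ε, d) = 1 := by
        rcases hk with rfl | rfl | rfl <;> simp [axM, h1]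
      rw [h2, one_mul]
      exact if_congr (by omega) rfl rfl

theorem ee_quarter : ee (1 / 4) = I := by
  rw [← Complex.exp_pi_div_two_mul_I, ee]; congr 1; push_cast; ring

theorem ee_half : ee (1 / 2) = -1 := by
  rw [ee, ← Complex.exp_pi_mul_I]; congr 1; push_cast; ring

theorem ee_neg (θ : ℝ) : ee (-θ) * ee θ = 1 := by rw [← ee_add]; simp

theorem ee_nat (n : ℕ) : ee n = 1 := by exact_mod_cast ee_int n

theorem ee_pow (θ : ℝ) (n : ℕ) : ee (n * θ) = ee θ ^ n := by
  induction n with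
  | zero => simp
  | succ n ih => rw [Nat.cast_succ, add_mul, one_mul, ee_add, ih, pow_succ]

def flp (j n : ℕ) : ℕ := if n / 2 ^ j % 2 = 0 then n + 2 ^ j else n - 2 ^ j

theorem axv_flip (x : Option (Fin a) → ZMod 2) (j : Fin a) :
    axv (Function.update x (some j) (x (some j) + 1)) = flp j (axv x) := by
  have h : axv (Function.update x (some j) (x (some j) + 1)) + (x (some j)).val * 2 ^ (j : ℕ) =
      axv x + (x (some j) + 1).val * 2 ^ (j : ℕ) := by
    rw [axv, axv, ← add_sum_erase _ _ (mem_univ j), ← add_sum_erase _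
      (fun i : Fin a => (x (some i)).val * 2 ^ (i : ℕ)) (mem_univ j), Function.update_self,
      sum_congr rfl (s₁ := univ.erase j) (g := fun i : Fin a => (x (some i)).val * 2 ^ (i : ℕ))
        fun i hi => by rw [Function.update_of_ne (by simpa using ne_of_mem_erase hi)]]
    ring
  rw [flp, axv_bit]
  rcases zmod2_cases (x (some j)) with h1 | h1 <;> rw [h1] at h ⊢
  · have e1 : (0 + 1 : ZMod 2).val = 1 := rfl
    rw [e1, ZMod.val_zero] at h
    rw [ZMod.val_zero, if_pos rfl]; omega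
  · have e1 : (1 + 1 : ZMod 2).val = 0 := rfl
    have e2 : (1 : ZMod 2).val = 1 := rfl
    rw [e1, e2] at h
    rw [e2, if_neg one_ne_zero]; omega

theorem axv_none (x : Option (Fin a) → ZMod 2) (c : ZMod 2) :
    axv (Function.update x none c) = axv x := by simp [axv]

theorem cAt_mulVec {J : Type} [Fintype J] [DecidableEq J] (i : J) (f : (J → ZMod 2) → ℂ)
    (x : J → ZMod 2) : (cAt i *ᵥ f) x =
      (1 + I) / 2 * f x + (1 - I) / 2 * f (Function.update x i (x i + 1)) := by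
  have h2 : ∀ x : ZMod 2, x ≠ x + 1 := by decide
  have h3 : ∀ x y : ZMod 2, y = x ∨ y = x + 1 := by decide
  have e : ∀ y, cAt i x y = C2 (x i) (y i) * ∏ j ∈ univ.erase i, if x j = y j then 1 else 0 := by
    intro y
    rw [cAt, P344.tprod_apply, ← mul_prod_erase _ _ (mem_univ i), if_pos rfl]
    congr 1
    exact prod_congr rfl fun j hj => by rw [if_neg (ne_of_mem_erase hj), Matrix.one_apply]
  rw [mulVec, dotProduct, Fintype.sum_eq_add x (Function.update x i (x i + 1))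
    (fun h => h2 (x i) (by simpa using congrFun h i))]
  · rw [e, e, prod_eq_one (by simp), prod_eq_one fun j hj => by
      rw [Function.update_of_ne (ne_of_mem_erase hj), if_pos rfl]]
    simp [C2, h2]
  · rintro y ⟨h4, h5⟩
    obtain ⟨j, hj, h6⟩ : ∃ j, j ≠ i ∧ x j ≠ y j := by
      by_contra hn
      push Not at hn
      rcases h3 (x i) (y i) with h | h
      · exact h4 (funext fun j => if h' : j = i then h' ▸ h else (hn j h').symm)
      · refine h5 (funext fun j => ?_)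
        by_cases h' : j = i
        · rw [h', h, Function.update_self]
        · rw [Function.update_of_ne h', hn j h']
    rw [e, prod_eq_zero (mem_erase.mpr ⟨hj, mem_univ j⟩) (if_neg h6)]; simp

theorem step_diag {k u ε j : ℕ} (hk : k = 0 ∨ k = 1 ∨ k = 3 ∨ k = 6 ∨ k = 7)
    (v : ZMod 2 → ℕ → ℂ) : axM inv a s ι (k, u, ε, j) *ᵥ emb a v =
      emb a fun c n => axD inv a s (k, u, ε, j) n c.val * v c n := by
  funext x
  rcases hk with rfl | rfl | rfl | rfl | rfl <;> simp [axM, mulVec_diagonal, emb]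

theorem step_c {k u ε j : ℕ} (hk : k = 2 ∨ k = 5) (hj : j < a) (v : ZMod 2 → ℕ → ℂ) :
    axM inv a s ι (k, u, ε, j) *ᵥ emb a v = emb a fun c n =>
      (1 + I) / 2 * (axD inv a s (k, u, ε, j) n c.val * v c n) +
      (1 - I) / 2 * (axD inv a s (k, u, ε, j) (flp j n) c.val * v c (flp j n)) := by
  funext x
  have : axM inv a s ι (k, u, ε, j) = cAt (some ⟨j, hj⟩) *
      Matrix.diagonal fun x => axD inv a s (k, u, ε, j) (axv x) (x none).val := by
    rcases hk with rfl | rfl <;> simp [axM, hj]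
  rw [this, ← mulVec_mulVec, cAt_mulVec]
  simp [mulVec_diagonal, emb, axv_flip]

theorem step_flip {k u ε : ℕ} (hk : k = 4 ∨ k = 9) (v : ZMod 2 → ℕ → ℂ) :
    axM inv a s ι (k, u, ε, ι) *ᵥ emb a v = emb a fun c n => (if k = 4 then 1 else 0) * v c n +
      wval (axW2 inv a s (k, u, ε, ι) n c.val) * v (c + 1) n := by
  funext x
  rcases hk with rfl | rfl <;>
    simp [axM, mulVec, dotProduct, add_mul, sum_add_distrib, emb, axv_none]

theorem step_refl (v : ZMod 2 → ℕ → ℂ) :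
    axM inv a s ι (8, 0, 0, ι) *ᵥ emb a v = emb a fun c n => (c.val : ℂ) * v c n +
      wval (axW2 inv a s (8, 0, 0, ι) n c.val) * v c ((s - 1 + (2 ^ a - n)) % 2 ^ a) := by
  funext x
  have hl : (s - 1 + (2 ^ a - axv x)) % 2 ^ a < 2 ^ a := Nat.mod_lt _ (by positivity)
  have e : ∀ y : Option (Fin a) → ZMod 2,
      (y none = x none ∧ axv y = (s - 1 + (2 ^ a - axv x)) % 2 ^ a) ↔
      y = LayAux.ofAx (x none) ((s - 1 + (2 ^ a - axv x)) % 2 ^ a) := fun y =>
    ⟨fun h => axv_inj h.1 (by rw [h.2, LayAux.axv_ofAx _ hl]),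
      fun h => by rw [h]; exact ⟨rfl, LayAux.axv_ofAx _ hl⟩⟩
  simp [axM, mulVec, dotProduct, add_mul, sum_add_distrib, emb, e, LayAux.axv_ofAx _ hl,
    LayAux.ofAx]

theorem bit_cases (n j : ℕ) : n / 2 ^ j % 2 = 0 ∨ n / 2 ^ j % 2 = 1 := by omega

theorem axD2 (u ε j n c : ℕ) :
    axD inv a s (2, u, ε, j) n c = if n / 2 ^ j % 2 = 0 then 1 else I := by
  rcases bit_cases n j with h | h <;> simp [axD, ang1, ang2, h]
  rw [← ee_quarter]; congr 1; field_simp

theorem pow_split {j : ℕ} (hj : j < a) : (2 : ℝ) ^ (a + 1 - j) = 4 * 2 ^ a / 2 ^ (j + 1) := by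
  rw [eq_div_iff (by positivity), ← pow_add, show a + 1 - j + (j + 1) = a + 2 by omega]; ring

theorem axD3 (u ε : ℕ) {j : ℕ} (hj : j < a) (n c : ℕ) : axD inv a s (3, u, ε, j) n c =
    if n / 2 ^ j % 2 = 0 then 1 else I * ee ((n % 2 ^ j : ℕ) / 2 ^ (j + 1)) := by
  rcases bit_cases n j with h | h
  · simp [axD, ang1, ang2, h]
  · simp only [axD, ang1, ang2, h]
    norm_num
    rw [← ee_quarter, ← ee_add, pow_split hj, ← Int.cast_natCast (R := ℝ) (n % 2 ^ j)]
    congr 1; push_cast; field_simp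

theorem axD5 (u ε : ℕ) {j : ℕ} (hj : j < a) (n c : ℕ) : axD inv a s (5, u, ε, j) n c =
    if n / 2 ^ j % 2 = 0 then 1 else I * ee (-((n % 2 ^ j : ℕ) / 2 ^ (j + 1))) := by
  rcases bit_cases n j with h | h
  · simp [axD, ang1, ang2, h]
  · simp only [axD, ang1, ang2, h]
    norm_num
    rw [← ee_quarter, ← ee_add, pow_split hj, ← Int.cast_natCast (R := ℝ) (n % 2 ^ j)]
    congr 1; push_cast; field_simp; ring

theorem axD6 (u ε j n c : ℕ) :
    axD inv a s (6, u, ε, j) n c = if n / 2 ^ j % 2 = 0 then -I else 1 := by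
  rcases bit_cases n j with h | h <;> simp [axD, ang1, ang2, h]
  have := ee_neg (1 / 4)
  rw [ee_quarter] at this
  rw [show -(2 : ℝ) ^ a / (4 * 2 ^ a) = -(1 / 4) by field_simp]
  linear_combination (-I) * this + ee (-(1 / 4)) * I_mul_I

theorem flp0 {j n : ℕ} (h : n / 2 ^ j % 2 = 0) : flp j n = n + 2 ^ j ∧
    (n + 2 ^ j) / 2 ^ j % 2 = 1 ∧ (n + 2 ^ j) % 2 ^ j = n % 2 ^ j := by
  refine ⟨if_pos h, ?_, by simp⟩
  rw [Nat.add_div_right _ (by positivity)]; omega

theorem flp1 {j n : ℕ} (h : n / 2 ^ j % 2 = 1) : flp j n = n - 2 ^ j ∧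
    (n - 2 ^ j) / 2 ^ j % 2 = 0 ∧ n - 2 ^ j + 2 ^ j = n := by
  have h1 : 2 ^ j ≤ n := by
    by_contra h2
    rw [Nat.div_eq_of_lt (by omega)] at h; omega
  obtain ⟨m, rfl⟩ := Nat.exists_eq_add_of_le' h1
  rw [Nat.add_div_right _ (by positivity)] at h
  exact ⟨if_neg (by rw [Nat.add_div_right _ (by positivity)]; omega), by
    rw [Nat.add_sub_cancel]; omega, by simp⟩

noncomputable def Fw (j : ℕ) (w : ℕ → ℂ) (n : ℕ) : ℂ :=
  if n / 2 ^ j % 2 = 0 then (1 + I) / 2 * (w n + w (n + 2 ^ j))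
  else (1 + I) / 2 * ee ((n % 2 ^ j : ℕ) / 2 ^ (j + 1)) * (w (n - 2 ^ j) - w n)

theorem level_fwd (u ε : ℕ) {j : ℕ} (hj : j < a) (v : ZMod 2 → ℕ → ℂ) :
    PP inv a s ι [(2, u, ε, j), (3, u, ε, j)] *ᵥ emb a v = emb a fun c => Fw j (v c) := by
  rw [show [(2, u, ε, j), (3, u, ε, j)] = [(2, u, ε, j)] ++ [(3, u, ε, j)] from rfl, PP_append,
    PP_single, PP_single, step_c (by simp) hj, step_diag (by simp)]
  refine emb_congr fun c n _ => ?_
  rcases bit_cases n j with h | h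
  · obtain ⟨h1, h2, -⟩ := flp0 h
    simp only [axD2, axD3 _ _ hj, Fw, h, h1, h2, if_true, one_ne_zero, if_false]
    linear_combination (-1 / 2 * v c (n + 2 ^ j)) * I_mul_I
  · obtain ⟨h1, h2, -⟩ := flp1 h
    simp only [axD2, axD3 _ _ hj, Fw, h, h1, h2, if_true, one_ne_zero, if_false]
    linear_combination (ee ((n % 2 ^ j : ℕ) / 2 ^ (j + 1)) * ((1 + I) / 2 * v c n -
      1 / 2 * v c (n - 2 ^ j))) * I_mul_I

theorem level_inv (u ε : ℕ) {j : ℕ} (hj : j < a) (v : ZMod 2 → ℕ → ℂ) :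
    PP inv a s ι [(5, u, ε, j), (6, u, ε, j)] *ᵥ (emb a fun c => Fw j (v c)) = emb a v := by
  rw [show [(5, u, ε, j), (6, u, ε, j)] = [(5, u, ε, j)] ++ [(6, u, ε, j)] from rfl, PP_append,
    PP_single, PP_single, step_c (by simp) hj, step_diag (by simp)]
  refine emb_congr fun c n _ => ?_
  have e := ee_neg ((n % 2 ^ j : ℕ) / 2 ^ (j + 1))
  rcases bit_cases n j with h | h
  · obtain ⟨h1, h2, h3⟩ := flp0 h
    simp only [axD5 _ _ hj, axD6, Fw, h, h1, h2, h3, if_true, one_ne_zero, if_false,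
      Nat.add_sub_cancel]
    linear_combination (-I * ((1 - I) / 2) * I * ((1 + I) / 2) * (v c n - v c (n + 2 ^ j))) * e +
      ((I * I - I - 4) / 4 * v c n - (I * I + I) / 4 * v c (n + 2 ^ j)) * I_mul_I
  · obtain ⟨h1, h2, h3⟩ := flp1 h
    simp only [axD5 _ _ hj, axD6, Fw, h, h1, h2, h3, if_true, one_ne_zero, if_false]
    linear_combination ((1 + I) / 2 * I * ((1 + I) / 2) * (v c (n - 2 ^ j) - v c n)) * e +
      ((I + 1) / 4 * v c (n - 2 ^ j) - (I + 3) / 4 * v c n) * I_mul_I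

noncomputable def Gw : ℕ → (ℕ → ℂ) → ℕ → ℂ
  | 0, w => w
  | k + 1, w => Gw k (Fw k w)

theorem levels_fwd (u ε : ℕ) {k : ℕ} (hk : k ≤ a) (v : ZMod 2 → ℕ → ℂ) :
    PP inv a s ι ((List.range k).reverse.flatMap fun j => [(2, u, ε, j), (3, u, ε, j)]) *ᵥ
      emb a v = emb a fun c => Gw k (v c) := by
  induction k generalizing v with
  | zero => simp [PP, Gw]
  | succ k ih =>
    rw [List.range_succ, List.reverse_append, List.flatMap_append, PP_append]
    simp only [List.reverse_singleton, List.flatMap_singleton]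
    rw [level_fwd u ε (by omega), ih (by omega)]; rfl

theorem levels_inv (u ε : ℕ) {k : ℕ} (hk : k ≤ a) (v : ZMod 2 → ℕ → ℂ) :
    PP inv a s ι ((List.range k).flatMap fun j => [(5, u, ε, j), (6, u, ε, j)]) *ᵥ
      (emb a fun c => Gw k (v c)) = emb a v := by
  induction k generalizing v with
  | zero => simp [PP, Gw]
  | succ k ih =>
    rw [List.range_succ, List.flatMap_append, PP_append, List.flatMap_singleton]
    simp only [Gw]
    rw [ih (by omega) fun c => Fw k (v c), level_inv u ε (by omega)]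

theorem rev_succ (k y : ℕ) : rev (k + 1) y = 2 * rev k (y % 2 ^ k) + y / 2 ^ k % 2 := by
  simp only [rev, List.range_succ, List.map_append, List.sum_append, ← List.sum_map_mul_left]
  congr 1
  · refine congrArg List.sum (List.map_congr_left fun j hj => ?_)
    have hj' := List.mem_range.mp hj
    have h1 : y % 2 ^ k / 2 ^ j % 2 = y / 2 ^ j % 2 := by
      have := Nat.testBit_mod_two_pow y k j
      simp only [Nat.testBit_eq_decide_div_mod_eq, hj', decide_true, Bool.true_and,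
        decide_eq_decide] at this
      omega
    rw [h1, show k + 1 - 1 - j = k - 1 - j + 1 by omega, pow_succ]; ring
  · simp

theorem Gw_eq (k : ℕ) (w : ℕ → ℂ) (h y : ℕ) (hy : y < 2 ^ k) : Gw k w (h * 2 ^ k + y) =
    ((1 + I) / 2) ^ k * ∑ x ∈ range (2 ^ k), ee (x * rev k y / 2 ^ k) * w (h * 2 ^ k + x) := by
  induction k generalizing w h y with
  | zero =>
    obtain rfl : y = 0 := by omega
    simp [Gw]
  | succ k ih =>
    have hp : 0 < 2 ^ k := by positivity
    have hb : y / 2 ^ k < 2 := by rw [Nat.div_lt_iff_lt_mul hp]; rw [pow_succ] at hy; omega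
    have e1 : h * 2 ^ (k + 1) + y = (2 * h + y / 2 ^ k) * 2 ^ k + y % 2 ^ k := by
      conv_lhs => rw [← Nat.div_add_mod y (2 ^ k)]
      ring
    rw [Gw, e1, ih _ _ _ (Nat.mod_lt _ hp), rev_succ, Nat.mod_eq_of_lt hb, pow_succ 2 k,
      mul_two (2 ^ k), sum_range_add, ← sum_add_distrib, pow_succ, mul_assoc]
    congr 1
    rw [mul_sum]
    refine sum_congr rfl fun x hx => ?_
    have hx' := mem_range.mp hx
    have e2 : ∀ b, ((2 * h + b) * 2 ^ k + x) / 2 ^ k = 2 * h + b := fun b => by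
      rw [add_comm, Nat.add_mul_div_right _ _ hp, Nat.div_eq_of_lt hx', zero_add]
    have e3 : ∀ b, ((2 * h + b) * 2 ^ k + x) % 2 ^ k = x := fun b => by
      rw [add_comm, Nat.add_mul_mod_self_right, Nat.mod_eq_of_lt hx']
    generalize rev k (y % 2 ^ k) = r
    have e4 : ∀ b : ℕ, ee (((2 ^ k + x : ℕ) : ℝ) * (2 * r + b : ℕ) / 2 ^ (k + 1)) =
        ee (x * (2 * r + b : ℕ) / 2 ^ (k + 1)) * ee (b / 2) := fun b => by
      rw [← mul_one (ee (b / 2)), ← ee_nat r, ← ee_add, ← ee_add]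
      congr 1; push_cast; field_simp; ring
    have e5 : ∀ b : ℕ, ee (x * (2 * r + b : ℕ) / 2 ^ (k + 1)) =
        ee (x * r / 2 ^ k) * ee (b * x / 2 ^ (k + 1)) := fun b => by
      rw [← ee_add]; congr 1; push_cast; field_simp; ring
    rw [e4, e5, Fw, e2, e3]
    obtain h0 | h0 := Nat.le_one_iff_eq_zero_or_eq_one.mp (Nat.lt_succ_iff.mp hb)
    · rw [h0, if_pos (by omega), show (2 * h + 0) * 2 ^ k + x = h * (2 ^ k + 2 ^ k) + x by ring,
        show h * (2 ^ k + 2 ^ k) + x + 2 ^ k = h * (2 ^ k + 2 ^ k) + (2 ^ k + x) by ring]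
      simp; ring
    · rw [h0, if_neg (by omega),
        show (2 * h + 1) * 2 ^ k + x = h * (2 ^ k + 2 ^ k) + x + 2 ^ k by ring, Nat.add_sub_cancel,
        show h * (2 ^ k + 2 ^ k) + x + 2 ^ k = h * (2 ^ k + 2 ^ k) + (2 ^ k + x) by ring,
        Nat.cast_one, ee_half, one_mul]
      ring

theorem sum_shift {t : ℕ} (g : ℕ → ℂ) (hg : ∀ n, g (n + t) = g n) (k : ℕ) :
    ∑ n ∈ range t, g (n + k) = ∑ n ∈ range t, g n := by
  induction k with
  | zero => rfl
  | succ k ih =>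
    have h1 := sum_range_succ (fun n => g (n + k)) t
    rw [sum_range_succ', zero_add, add_comm t k, hg, ih] at h1
    rw [← add_right_cancel h1]
    exact sum_congr rfl fun n _ => by congr 1; ring

noncomputable def circ (t : ℕ) (α w : ℕ → ℂ) (n : ℕ) : ℂ :=
  ∑ y ∈ range t, α ((n + (t - y)) % t) * w y

theorem Gw_circ (α z w : ℕ → ℂ) {n : ℕ} (hn : n < 2 ^ a) :
    Gw a (fun n => z n + circ (2 ^ a) α w n) n =
      Gw a z n + (∑ m ∈ range (2 ^ a), α m * ee (m * rev a n / 2 ^ a)) * Gw a w n := by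
  have e := fun w => Gw_eq a w 0 n hn
  simp only [zero_mul, zero_add] at e
  simp only [e, mul_add, sum_add_distrib, circ]
  congr 1
  rw [mul_left_comm]
  congr 1
  simp only [mul_sum]
  rw [sum_comm]
  refine sum_congr rfl fun y hy => ?_
  have hy' := (mem_range.mp hy).le
  have h1 := sum_shift (t := 2 ^ a) (fun m => α (m % 2 ^ a) * ee (m * rev a n / 2 ^ a))
    (fun m => by
      rw [Nat.add_mod_right, ← mul_one (ee (m * _ / _)), ← ee_nat (rev a n), ← ee_add]
      congr 2; push_cast; field_simp) (2 ^ a - y)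
  have h2 : ∑ m ∈ range (2 ^ a), α (m % 2 ^ a) * ee (m * rev a n / 2 ^ a) =
      ∑ m ∈ range (2 ^ a), α m * ee (m * rev a n / 2 ^ a) :=
    sum_congr rfl fun m hm => by rw [Nat.mod_eq_of_lt (mem_range.mp hm)]
  rw [← h2, ← h1, sum_mul]
  refine sum_congr rfl fun m _ => ?_
  have h3 : ee (((m + (2 ^ a - y) : ℕ) : ℝ) * rev a n / 2 ^ a) * ee (y * rev a n / 2 ^ a) =
      ee (m * rev a n / 2 ^ a) := by
    rw [← mul_one (ee (m * _ / _)), ← ee_nat (rev a n), ← ee_add, ← ee_add]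
    congr 1; push_cast [hy']; field_simp; ring
  rw [← h3]; ring

noncomputable def cf (s u : ℕ) : ℂ := if u = 1 then -(s : ℂ)⁻¹ else 1

noncomputable def al (inv : Bool) (a s u ε m : ℕ) : ℂ := cf s u / 2 *
  (ee (-(sgn inv u * (m * (m - 1)) / (2 * s)) - ε * m / (2 * 2 ^ a)) +
    ee (-(sgn inv u * ((m - 2 ^ a) * (m - 2 ^ a - 1)) / (2 * s)) - ε * m / (2 * 2 ^ a) + ε / 2))

theorem sum_flat (t : ℕ) (f g : ℕ → ℤ × ℕ) (F : ℤ × ℕ → ℂ) :
    (((List.range t).flatMap fun n => [f n, g n]).map F).sum =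
      ∑ n ∈ range t, (F (f n) + F (g n)) := by
  induction t with
  | zero => simp
  | succ t ih => simp [List.range_succ, List.flatMap_append, sum_range_succ, ← ih]

theorem wval4 (hs : 0 < s) (u ε n c : ℕ) : wval (axW2 inv a s (4, u, ε, ι) n c) =
    ∑ m ∈ range (2 ^ a), (if c = tgt u then al inv a s u ε m else 0) *
      ee (m * rev a n / 2 ^ a) := by
  have hs' : (s : ℝ) ≠ 0 := by positivity
  by_cases hc : c = tgt u
  swap
  · simp [wval, axW2, hc]
  simp only [wval, axW2, hc, if_true, lam, sum_flat, mul_sum]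
  refine sum_congr rfl fun m _ => ?_
  rw [al, mul_assoc (cf s u / 2), add_mul, ← ee_add, ← ee_add]
  congr 1
  · unfold cf; split_ifs <;> push_cast <;> ring
  · congr 2 <;> push_cast <;> field_simp <;> ring

theorem axD7 (u ε n : ℕ) : axD inv a s (7, u, ε, 0) n (tgt u) = if n < s then
    ee (ε * n / (2 * 2 ^ a) + sgn inv u * (n * (n - 1)) / (2 * s)) else 0 := by
  by_cases h : n < s
  · simp only [axD, ang1, ang2, not_le.mpr h, h]
    norm_num
    congr 2; ring
  · simp [axD, h, not_lt.mp h]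

theorem axD1 (u ε n : ℕ) {c : ℕ} (hc : c ≠ tgt u) : axD inv a s (1, u, ε, 0) n c =
    ee (-(ε * n / (2 * 2 ^ a)) + sgn inv u * ((n + 1) * n) / (2 * s)) := by
  simp only [axD, ang1, ang2, hc]
  norm_num
  congr 2; ring

theorem axD71 (u ε n c : ℕ) : axD inv a s (7, u, ε, 0) n c * axD inv a s (1, u, ε, 0) n c =
    if n < s then 1 else 0 := by
  by_cases h : n < s
  · simp only [axD, ang1, ang2, not_le.mpr h, h]
    norm_num
    rw [← ee_add, ← ee_zero]
    congr 1
    split_ifs <;> ring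
  · simp [axD, h, not_lt.mp h]

theorem val_succ_ne {c : ZMod 2} {u : ℕ} (h : c.val = tgt u) : (c + 1).val ≠ tgt u := by
  rw [← h]; clear h; revert c; decide

noncomputable def KK (inv : Bool) (a s u ε n y : ℕ) : ℂ := axD inv a s (7, u, ε, 0) n (tgt u) *
  al inv a s u ε ((n + (2 ^ a - y)) % 2 ^ a) *
    ee (-(ε * y / (2 * 2 ^ a)) + sgn inv u * ((y + 1) * y) / (2 * s))

theorem shear_eq {d : ℕ} (hs : 0 < s) (hι : ι < d) (u ε : ℕ) (v : ZMod 2 → ℕ → ℂ) :
    PP inv a s ι (shear a d u ε) *ᵥ emb a v = emb a fun c n => (if n < s then v c n else 0) +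
      if c.val = tgt u then ∑ y ∈ range (2 ^ a), KK inv a s u ε n y * v (c + 1) y else 0 := by
  rw [shear, PP_append, PP_append, PP_append, PP_append, PP_single, PP_single,
    PP_map _ _ _ _ (by simp), if_pos hι, step_diag (by simp), levels_fwd u ε le_rfl,
    step_flip (by simp), emb_congr (w := fun c => Gw a fun n =>
      axD inv a s (1, u, ε, 0) n c.val * v c n +
      circ (2 ^ a) (fun m => if c.val = tgt u then al inv a s u ε m else 0)
        (fun n => axD inv a s (1, u, ε, 0) n (c + 1).val * v (c + 1) n) n)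
      (fun c n hn => by rw [Gw_circ _ _ _ hn, wval4 hs]; simp),
    levels_inv u ε le_rfl, step_diag (by simp)]
  refine emb_congr fun c n _ => ?_
  rw [mul_add, ← mul_assoc, axD71, circ, mul_sum]
  congr 1
  · simp
  · split_ifs with h
    · refine sum_congr rfl fun y _ => ?_
      rw [KK, axD1 _ _ _ (val_succ_ne h), h]; ring
    · simp

theorem KK_sum (hs : 0 < s) (hst : s ≤ 2 ^ a) (u : ℕ) {n y : ℕ} (hn : n < s) (hy : y < 2 ^ a) :
    KK inv a s u 0 n y + KK inv a s u 1 n y = cf s u * ee (sgn inv u * (n * y) / s) := by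
  have hs' : (s : ℝ) ≠ 0 := by positivity
  simp only [KK, axD7, if_pos hn, al]
  generalize (sgn inv u : ℝ) = σ
  have e : ∀ A B C D : ℝ, ee A * (cf s u / 2 * (ee B + ee C)) * ee D =
      cf s u / 2 * (ee (A + B + D) + ee (A + C + D)) := fun A B C D => by
    simp only [ee_add]; ring
  have e2 : ∀ A B C D T : ℝ, (A = T ∧ C = T ∧ D = B + 1 / 2) ∨ (B = T ∧ D = T ∧ A = C + 1 / 2) →
      cf s u / 2 * (ee A + ee B) + cf s u / 2 * (ee C + ee D) = cf s u * ee T := by
    rintro A B C D T (⟨rfl, rfl, rfl⟩ | ⟨rfl, rfl, rfl⟩) <;> rw [ee_add, ee_half] <;> ring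
  rw [e, e]
  apply e2
  by_cases h : y ≤ n
  · rw [show n + (2 ^ a - y) = n - y + 2 ^ a by omega, Nat.add_mod_right,
      Nat.mod_eq_of_lt (by omega)]
    left; push_cast [h]
    refine ⟨?_, ?_, ?_⟩ <;> field_simp <;> ring
  · rw [Nat.mod_eq_of_lt (by omega)]
    right; push_cast [hy.le]
    refine ⟨?_, ?_, ?_⟩ <;> field_simp <;> ring

noncomputable def FF (σ : ℝ) (s : ℕ) (w : ℕ → ℂ) (n : ℕ) : ℂ :=
  if n < s then ∑ y ∈ range s, ee (σ * (n * y) / s) * w y else 0

theorem shear2 {d : ℕ} (hs : 0 < s) (hst : s ≤ 2 ^ a) (hι : ι < d) (u : ℕ)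
    {v : ZMod 2 → ℕ → ℂ} (hv : ∀ c n, s ≤ n → v c n = 0) :
    PP inv a s ι (shear a d u 1) *ᵥ (PP inv a s ι (shear a d u 0) *ᵥ emb a v) = emb a fun c n =>
      v c n + if c.val = tgt u then cf s u * FF (sgn inv u) s (v (c + 1)) n else 0 := by
  have hv' : ∀ c n, (if n < s then v c n else 0) = v c n := fun c n => by
    split_ifs with h
    · rfl
    · exact (hv c n (not_lt.mp h)).symm
  rw [shear_eq hs hι, shear_eq hs hι]
  refine emb_congr fun c n _ => ?_
  by_cases hc : c.val = tgt u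
  swap
  · simp only [hc, if_false, add_zero, hv']
  simp only [hc, if_true, val_succ_ne hc, if_false, add_zero, hv', FF]
  split_ifs with h
  · rw [add_assoc, ← sum_add_distrib, mul_sum, sum_subset (range_subset_range.mpr hst)
      fun y _ hy => by rw [hv _ y (by simpa using hy)]; simp]
    congr 1
    exact sum_congr rfl fun y hy => by
      rw [← add_mul, KK_sum hs hst u h (mem_range.mp hy), mul_assoc]
  · simp [hv c n (not_lt.mp h), KK, axD7, h]

theorem orth {σ : ℝ} (hσ : σ = 1 ∨ σ = -1) {n m : ℕ} (hn : n < s) (hm : m < s) :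
    ∑ y ∈ range s, ee (σ * (n * y) / s) * ee (-σ * (y * m) / s) = if m = n then (s : ℂ) else 0 := by
  have hs : (s : ℝ) ≠ 0 := by have : 0 < s := by omega
                              positivity
  have e : ∀ y : ℕ, ee (σ * (n * y) / s) * ee (-σ * (y * m) / s) = ee (σ * (n - m) / s) ^ y :=
    fun y => by rw [← ee_add, ← ee_pow]; congr 1; ring
  simp only [e]
  split_ifs with h
  · simp [h]
  obtain ⟨k, hk⟩ : ∃ k : ℤ, σ * (n - m) = k ∧ k ≠ 0 ∧ |k| < s := by
    rcases hσ with rfl | rfl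
    · exact ⟨n - m, by simp, by omega, by rw [abs_lt]; omega⟩
    · exact ⟨m - n, by simp, by omega, by rw [abs_lt]; omega⟩
  rw [hk.1]
  have h1 : ee (k / s) ≠ 1 := by
    intro h1
    obtain ⟨l, hl⟩ := Complex.exp_eq_one_iff.mp h1
    have h2 : ((k / s : ℝ) : ℂ) = l := mul_left_cancel₀ two_pi_I_ne_zero (by rw [hl]; ring)
    have h3 : (k : ℝ) = l * s := by rw [← div_eq_iff hs]; exact_mod_cast h2
    have h4 : k = l * s := by exact_mod_cast h3
    exact hk.2.1 (Int.eq_zero_of_abs_lt_dvd ⟨l, by rw [h4, mul_comm]⟩ hk.2.2)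
  rw [geom_sum_eq h1, ← ee_pow, mul_div_cancel₀ _ hs, ee_int]; simp

theorem FF_inv {σ : ℝ} (hσ : σ = 1 ∨ σ = -1) {w : ℕ → ℂ} (hw : ∀ n, s ≤ n → w n = 0) (n : ℕ) :
    FF σ s (FF (-σ) s w) n = s * w n := by
  rw [FF]
  split_ifs with h
  swap
  · rw [hw n (not_lt.mp h), mul_zero]
  have e1 : ∀ y ∈ range s, ee (σ * (n * y) / s) * FF (-σ) s w y =
      ∑ m ∈ range s, ee (σ * (n * y) / s) * ee (-σ * (y * m) / s) * w m := fun y hy => by
    simp only [FF, if_pos (mem_range.mp hy), mul_sum, mul_assoc]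
  have e2 : ∀ m ∈ range s, ∑ y ∈ range s, ee (σ * (n * y) / s) * ee (-σ * (y * m) / s) * w m =
      (if m = n then (s : ℂ) else 0) * w m := fun m hm => by
    rw [← sum_mul, orth hσ h (mem_range.mp hm)]
  rw [sum_congr rfl e1, sum_comm, sum_congr rfl e2]
  simp [h]

theorem FF_add (σ : ℝ) (w w' : ℕ → ℂ) (c : ℂ) (n : ℕ) :
    FF σ s (fun n => w n + c * w' n) n = FF σ s w n + c * FF σ s w' n := by
  simp only [FF]
  split_ifs
  · simp only [mul_add, sum_add_distrib, mul_sum, mul_left_comm]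
  · simp

theorem FF_mask (σ : ℝ) (w : ℕ → ℂ) {n : ℕ} (h : s ≤ n) : FF σ s w n = 0 := if_neg (by omega)

theorem sgn_facts (inv : Bool) : ((sgn inv 0 : ℝ) = 1 ∨ (sgn inv 0 : ℝ) = -1) ∧
    (sgn inv 1 : ℝ) = -sgn inv 0 ∧ sgn inv 2 = sgn inv 0 := by
  cases inv <;> simp [sgn]

noncomputable def sc (inv : Bool) (s : ℕ) : ℂ := if inv then (s : ℂ)⁻¹ else 1

theorem target_eq (hst : s ≤ 2 ^ a) (v : ZMod 2 → ℕ → ℂ) :
    (Matrix.of fun x y : Option (Fin a) → ZMod 2 =>
      if x none = y none then Fm inv s (axv x) (axv y) else 0) *ᵥ emb a v =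
    emb a fun c => FF (sgn inv 0) s fun n => sc inv s * v c n := by
  funext x
  rw [mulVec, dotProduct]
  refine (sum_axis fun c n => (if x none = c then Fm inv s (axv x) n else 0) * v c n).trans ?_
  rw [sum_eq_single (x none) (fun c _ h => by simp [h.symm]) (by simp), emb, FF]
  simp only [if_true]
  by_cases h : axv x < s
  · rw [if_pos h, ← sum_subset (range_subset_range.mpr hst) fun y _ hy => by
      rw [Fm, if_neg fun h => hy (mem_range.mpr h.2), zero_mul]]
    exact sum_congr rfl fun y hy => by rw [Fm, if_pos ⟨h, mem_range.mp hy⟩, sc]; ring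
  · rw [if_neg h]
    exact sum_eq_zero fun y _ => by rw [Fm, if_neg fun h' => h h'.1, zero_mul]

theorem axD00 {n : ℕ} (h : n < s) : axD inv a s (0, 0, 0, 0) n 0 = sc inv s := by
  simp [axD, ang1, ang2, sc, not_le.mpr h]

theorem axD01 {n : ℕ} (h : n < s) :
    axD inv a s (0, 0, 0, 0) n 1 = sc inv s * ee (-(sgn inv 0 * n / s)) := by
  simp only [axD, ang1, ang2, sc, not_le.mpr h]
  norm_num
  congr 2 <;> ring_nf

theorem FF_congr (σ : ℝ) {w w' : ℕ → ℂ} (h : ∀ n < s, w n = w' n) : FF σ s w = FF σ s w' := by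
  funext n
  rw [FF, FF, sum_congr rfl fun y hy => by rw [h y (mem_range.mp hy)]]

theorem FF_refl (σ : ℤ) (w : ℕ → ℂ) {n : ℕ} (h : n < s) :
    FF (-σ) s (fun y => ee (-(σ * y / s)) * w y) (s - 1 - n) = FF σ s w n := by
  have hs : (s : ℝ) ≠ 0 := by
    have : 0 < s := by omega
    positivity
  rw [FF, FF, if_pos h, if_pos (by omega)]
  refine sum_congr rfl fun y _ => ?_
  rw [← mul_assoc, ← ee_add, ← mul_one (ee (σ * (n * y) / s)), ← ee_int (-(σ * y)), ← ee_add,
    Nat.sub_sub, Nat.cast_sub (by omega)]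
  congr 2; push_cast; field_simp; ring

theorem last_steps (hst : s ≤ 2 ^ a) {v w : ZMod 2 → ℕ → ℂ}
    (w0 : ∀ n, w 0 n = -(s : ℂ)⁻¹ * FF (-sgn inv 0) s
      (fun n => axD inv a s (0, 0, 0, 0) n 1 * v 1 n) n)
    (w1 : ∀ n, w 1 n = FF (sgn inv 0) s (fun n => axD inv a s (0, 0, 0, 0) n 0 * v 0 n) n) :
    axM inv a s ι (9, 0, 0, ι) *ᵥ (axM inv a s ι (8, 0, 0, ι) *ᵥ emb a w) =
      emb a fun c => FF (sgn inv 0) s fun n => sc inv s * v c n := by
  rw [step_refl, step_flip (by simp)]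
  refine emb_congr fun c n _ => ?_
  have e9 : ∀ c, wval (axW2 inv a s (9, 0, 0, ι) n c) = 1 := fun c => by simp [wval, axW2]
  have e8 : ∀ c, wval (axW2 inv a s (8, 0, 0, ι) n c) = if c = 0 ∧ n < s then -(s : ℂ) else 0 :=
    fun c => by
      simp only [wval, axW2]; split_ifs <;> simp_all
  rw [e9]
  rcases zmod2_cases c with rfl | rfl
  · have v1 : (0 + 1 : ZMod 2).val = 1 := rfl
    rw [v1, zero_add, w1, FF_congr _ fun n hn => by rw [axD00 hn]]
    simp [e8]
  · have a1 : (1 + 1 : ZMod 2) = 0 := rfl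
    rw [a1, ZMod.val_zero]
    by_cases h : n < s
    · have hs' : (s : ℂ) ≠ 0 := by exact_mod_cast (show s ≠ 0 by omega)
      rw [show s - 1 + (2 ^ a - n) = s - 1 - n + 2 ^ a by omega, Nat.add_mod_right,
        Nat.mod_eq_of_lt (by omega), w0 (s - 1 - n),
        FF_congr (w' := fun y => ee (-(sgn inv 0 * y / s)) * (sc inv s * v 1 y)) _
          fun n hn => by rw [axD01 hn]; ring, FF_refl _ _ h]
      simp [h, hs', e8]
    · simp [h, FF, e8]

end DftAAux

open DftAAux Finset Matrix in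
theorem axis_prod (inv : Bool) {a d s ι : ℕ} (hs : 0 < s) (hst : s ≤ 2 ^ a) (hι : ι < d) :
    ((prog a d).reverse.map (axM inv a s ι)).prod =
      Matrix.of fun x y => if x none = y none then Fm inv s (axv x) (axv y) else 0 := by
  refine Matrix.ext_iff_mulVec.mpr fun f => ?_
  obtain ⟨v, rfl⟩ : ∃ v, f = emb a v := ⟨fun c n => f (LayAux.ofAx c n), funext fun y =>
    congrArg f (axv_inj rfl (LayAux.axv_ofAx _ (axv_lt y)).symm)⟩
  obtain ⟨s1, s2, s3⟩ := sgn_facts inv
  have hs' : (s : ℂ) ≠ 0 := by exact_mod_cast hs.ne'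
  obtain ⟨z, hz⟩ : ∃ z : ZMod 2 → ℕ → ℂ,
    z = fun c n => axD inv a s (0, 0, 0, 0) n c.val * v c n := ⟨_, rfl⟩
  have z0 : ∀ c n, s ≤ n → z c n = 0 := fun c n h => by simp [hz, axD, h]
  have v0 : (0 : ZMod 2).val = 0 := rfl
  have v1 : (1 : ZMod 2).val = 1 := rfl
  have a0 : (0 : ZMod 2) + 1 = 1 := rfl
  have a1 : (1 : ZMod 2) + 1 = 0 := rfl
  have t0 : tgt 0 = 1 := rfl
  have t1 : tgt 1 = 0 := rfl
  have t2 : tgt 2 = 1 := rfl
  have c0 : cf s 0 = 1 := rfl
  have c1 : cf s 1 = -(s : ℂ)⁻¹ := rfl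
  have c2 : cf s 2 = 1 := rfl
  have key : ∀ n, z 0 n + -(s : ℂ)⁻¹ * FF (-sgn inv 0) s
      (fun n => z 1 n + 1 * FF (sgn inv 0) s (z 0) n) n =
      -(s : ℂ)⁻¹ * FF (-sgn inv 0) s (z 1) n := by
    intro n
    have := FF_inv (s := s) (σ := -sgn inv 0) (by rcases s1 with h | h <;> simp [h]) (z0 0) n
    rw [neg_neg] at this
    rw [FF_add, this]; field_simp; ring
  change PP inv a s ι _ *ᵥ _ = _
  simp only [prog, PP_append, PP_single, PP_map _ _ _ _ (Or.inr (Or.inl rfl)),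
    PP_map _ _ _ _ (Or.inr (Or.inr rfl)), if_pos hι]
  rw [step_diag (by simp), ← hz, shear2 hs hst hι 0 z0, shear2 hs hst hι 1, shear2 hs hst hι 2,
    target_eq hst]
  · refine last_steps hst (fun n => ?_) fun n => ?_
    · simp only [t0, t1, t2, c0, c1, v0, v1, a0, a1, s2, if_true, zero_ne_one, if_false,
        add_zero, key]
      rw [hz]; rfl
    · simp only [t0, t1, t2, c0, c1, c2, v0, v1, a0, a1, s2, s3, if_true, zero_ne_one,
        one_ne_zero, if_false, add_zero, key]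
      have := FF_add (s := s) (sgn inv 0) (fun _ => 0) (FF (-sgn inv 0) s (z 1)) (-(s : ℂ)⁻¹) n
      simp only [zero_add] at this
      rw [this, FF_inv s1 (z0 1), show FF (sgn inv 0) s (fun _ => 0) n = 0 by simp [FF],
        show (fun n => axD inv a s (0, 0, 0, 0) n 0 * v 0 n) = z 0 by rw [hz]; rfl]
      field_simp; ring
  · intro c n h; simp [z0 c n h, FF_mask _ _ h]
  · intro c n h; simp [z0 c n h, FF_mask _ _ h]

end Vale.Agent.P338
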