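import Vale.Agent.P338.Apx

/-! Blockwise products, loading of the factors and extraction of the product. -/

namespace Vale.Agent.P338

open Vale.Agent.Common.TreeTM Vale.Agent.P337

variable {α γ δ : Type} [Enc α] [Enc γ] [Enc δ] {g : γ → δ} {𝒜 : Amb α}

theorem Apx.int {N B D i : ℕ} {z v : ℕ → ℂ} (h : Apx N B D z v) (hi : i < N) :
    z i = (⌊(z i).re⌋ : ℤ) + (⌊(z i).im⌋ : ℤ) * Complex.I := by
  obtain ⟨x, y, e⟩ := (h i hi).1
  simp [e]

theorem Apx.norm_le {N B D i : ℕ} {z v : ℕ → ℂ} (h : Apx N B D z v) (hD : D ≤ B) (hi : i < N) :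
    ‖z i‖ ≤ 2 * 2 ^ B := by
  have h1 := norm_le_insert' (z i) (v i)
  have h2 : (2 : ℝ) ^ D ≤ 2 ^ B := pow_le_pow_right₀ one_le_two hD
  linarith [(h i hi).2.1, (h i hi).2.2]

theorem Apx.small {N B D P i : ℕ} {z v : ℕ → ℂ} (h : Apx N B D z v) (hD : D ≤ B) (hP : B + 3 ≤ P)
    (hi : i < N) : |⌊(z i).re⌋| * 2 < 2 ^ P ∧ |⌊(z i).im⌋| * 2 < 2 ^ P := by
  have h1 := h.norm_le hD hi
  have h2 := Complex.abs_re_le_norm (z i)
  have h3 := Complex.abs_im_le_norm (z i)
  have h4 : (2 : ℝ) ^ (B + 3) ≤ 2 ^ P := pow_le_pow_right₀ one_le_two hP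
  have h5 : (0 : ℝ) < 2 ^ B := by positivity
  obtain ⟨x, y, e⟩ := (h i hi).1
  have e1 : (z i).re = x := by simp [e]
  have e2 : (z i).im = y := by simp [e]
  rw [pow_add] at h4
  rw [e1] at h2
  rw [e2] at h3
  rw [e1, e2, Int.floor_intCast, Int.floor_intCast]
  constructor <;> rw [← Int.cast_lt (R := ℝ)] <;> push_cast <;> linarith

theorem Apx.re_le {N B D i : ℕ} {z v : ℕ → ℂ} (h : Apx N B D z v) (hi : i < N) :
    |(⌊(z i).re⌋ : ℝ) - (v i).re| ≤ 2 ^ D := by
  obtain ⟨x, y, e⟩ := (h i hi).1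
  have e1 : (z i).re = x := by simp [e]
  rw [e1, Int.floor_intCast, ← e1, ← Complex.sub_re]
  exact (Complex.abs_re_le_norm _).trans (h i hi).2.2

namespace PtwAux

open Finset

theorem sz_encC (N P : ℕ) (v : ℕ → ℂ) : sz (encC N P v) ≤ 8 * (N * (P + 1)) + 3 := by
  have h1 := (wf_encA N P fun i => ⌊(v i).re⌋).sz_le
  have h2 := (wf_encA N P fun i => ⌊(v i).im⌋).sz_le
  rw [length_encA] at h1 h2
  rw [encC, sz_pair]
  nlinarith [Nat.zero_le N]

theorem sz_blk (R P F : ℕ) (z z' : ℕ → ℂ) (hF : F ≤ P) :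
    sz ((encC R P z, encC R P z'), List.replicate F false, ([] : List Bool)) + 1 ≤
      25 * ((R + 1) * (P + 1)) := by
  have h1 := sz_encC R P z
  have h2 := sz_encC R P z'
  have h3 := sz_bools (List.replicate F false)
  rw [List.length_replicate] at h3
  rw [sz_pair, sz_pair (encC R P z), sz_pair (List.replicate F false), sz_lnil]
  nlinarith [Nat.zero_le (R * (P + 1))]

noncomputable def re' (R : ℕ) (z z' : ℕ → ℂ) (j c : ℕ) : ℤ :=
  cv (fun i => ⌊(z (j * R + i)).re⌋) (fun i => ⌊(z' (j * R + i)).re⌋) c -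
    cv (fun i => ⌊(z (j * R + i)).im⌋) (fun i => ⌊(z' (j * R + i)).im⌋) c

noncomputable def im' (R : ℕ) (z z' : ℕ → ℂ) (j c : ℕ) : ℤ :=
  cv (fun i => ⌊(z (j * R + i)).re⌋) (fun i => ⌊(z' (j * R + i)).im⌋) c +
    cv (fun i => ⌊(z (j * R + i)).im⌋) (fun i => ⌊(z' (j * R + i)).re⌋) c

theorem norm_div_le (x : ℤ) (F : ℕ) : ‖((x / 2 ^ F : ℤ) : ℂ) - (2 ^ F : ℂ)⁻¹ * x‖ ≤ 1 := by
  have h0 : (0 : ℤ) < 2 ^ F := by positivity
  have h1 : ((x / 2 ^ F : ℤ) : ℂ) - (2 ^ F : ℂ)⁻¹ * x = -((2 ^ F : ℂ)⁻¹ * (x % 2 ^ F : ℤ)) := by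
    rw [Int.emod_def]
    push_cast
    field_simp
    ring
  have h2 : |((x % 2 ^ F : ℤ) : ℝ)| ≤ 2 ^ F := by
    rw [abs_of_nonneg (by exact_mod_cast Int.emod_nonneg _ h0.ne')]
    exact_mod_cast (Int.emod_lt_of_pos x h0).le
  rw [h1, norm_neg, norm_mul, norm_inv, norm_pow, Complex.norm_ofNat, Complex.norm_intCast,
    inv_mul_le_iff₀ (by positivity), mul_one]
  exact h2

theorem apx_blk {k R lr F B D B' D' : ℕ} {z v z' v' : ℕ → ℂ} (hR : 0 < R)
    (h : Apx (k * R) B D z v) (h' : Apx (k * R) B D z' v') (h1 : R ≤ 2 ^ lr) (h2 : D ≤ B)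
    (h3 : 2 * B + lr ≤ F + B') (h4 : B + D + lr + 2 ≤ F + D') (h5 : 3 ≤ D') :
    Apx (k * R) B' D' (fun o => (re' R z z' (o / R) (o % R) / 2 ^ F : ℤ) +
      (im' R z z' (o / R) (o % R) / 2 ^ F : ℤ) * Complex.I) (blk R (2 ^ F : ℂ)⁻¹ v v') := by
  intro o ho
  have a1 : ∀ p ∈ antidiagonal (o % R), o / R * R + p.1 < k * R ∧ o / R * R + p.2 < k * R :=
    fun p hp => by
      have b1 := mem_antidiagonal.1 hp
      have b2 := Nat.mod_lt o hR
      have b3 := Nat.mul_le_mul_right R (show o / R + 1 ≤ k from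
        Nat.div_lt_of_lt_mul (by rwa [mul_comm]))
      rw [add_mul] at b3
      omega
  have a2 : ∀ (f : ℕ × ℕ → ℂ) (c : ℝ), 0 ≤ c → (∀ p ∈ antidiagonal (o % R), ‖f p‖ ≤ c) →
      ‖(2 ^ F : ℂ)⁻¹ * ∑ p ∈ antidiagonal (o % R), f p‖ ≤ (2 ^ F)⁻¹ * (2 ^ lr * c) := by
    intro f c hc hf
    rw [norm_mul, norm_inv, norm_pow, Complex.norm_ofNat]
    refine mul_le_mul_of_nonneg_left ((norm_sum_le _ _).trans
      ((sum_le_card_nsmul _ _ _ hf).trans ?_)) (by positivity)
    rw [Nat.card_antidiagonal, nsmul_eq_mul]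
    refine mul_le_mul_of_nonneg_right ?_ hc
    exact_mod_cast (Nat.mod_lt o hR).trans_le h1
  refine ⟨⟨_, _, rfl⟩, (a2 _ (2 ^ B * 2 ^ B) (by positivity) fun p hp => ?_).trans ?_, ?_⟩
  · rw [norm_mul]
    exact mul_le_mul (h _ (a1 p hp).1).2.1 (h' _ (a1 p hp).2).2.1 (norm_nonneg _) (by positivity)
  · rw [inv_mul_le_iff₀ (by positivity), ← pow_add, ← pow_add, ← pow_add]
    exact pow_le_pow_right₀ one_le_two (by omega)
  have a3 : (re' R z z' (o / R) (o % R) : ℂ) + im' R z z' (o / R) (o % R) * Complex.I =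
      ∑ p ∈ antidiagonal (o % R), z (o / R * R + p.1) * z' (o / R * R + p.2) := by
    simp only [re', im', cv]
    push_cast
    rw [← sum_sub_distrib, ← sum_add_distrib, sum_mul, ← sum_add_distrib]
    refine sum_congr rfl fun p hp => ?_
    conv_rhs => rw [h.int (a1 p hp).1, h'.int (a1 p hp).2]
    linear_combination -(⌊(z (o / R * R + p.1)).im⌋ : ℂ) * ⌊(z' (o / R * R + p.2)).im⌋ * Complex.I_sq
  have a4 := a2 (fun p => z (o / R * R + p.1) * z' (o / R * R + p.2) -
    v (o / R * R + p.1) * v' (o / R * R + p.2)) (3 * (2 ^ B * 2 ^ D)) (by positivity) fun p hp => by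
    have b1 := mul_le_mul (h.norm_le h2 (a1 p hp).1) (h' _ (a1 p hp).2).2.2 (norm_nonneg _)
      (by positivity)
    have b2 := mul_le_mul (h _ (a1 p hp).1).2.2 (h' _ (a1 p hp).2).2.1 (norm_nonneg _)
      (by positivity)
    rw [← norm_mul] at b1 b2
    refine le_trans (le_of_eq (congrArg _ (by ring))) ((norm_add_le _ _).trans (add_le_add b1 b2)
      |>.trans (le_of_eq (by ring)))
  have a5 : ((2 : ℝ) ^ F)⁻¹ * (2 ^ lr * (2 ^ B * 2 ^ D)) * 2 ^ 2 ≤ 2 ^ D' := by
    rw [mul_assoc, inv_mul_le_iff₀ (by positivity), ← pow_add, ← pow_add, ← pow_add, ← pow_add]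
    exact pow_le_pow_right₀ one_le_two (by omega)
  have a6 : (2 : ℝ) ^ 3 ≤ 2 ^ D' := pow_le_pow_right₀ one_le_two h5
  have a7 := norm_div_le (re' R z z' (o / R) (o % R)) F
  have a8 := norm_div_le (im' R z z' (o / R) (o % R)) F
  rw [← mul_one ‖_‖, ← Complex.norm_I, ← norm_mul, Complex.norm_I] at a8
  rw [sum_sub_distrib, ← a3] at a4
  refine le_trans (le_of_eq (congrArg _ ?_)) (((norm_add_le _ _).trans
    (add_le_add ((norm_add_le _ _).trans (add_le_add a7 a8)) a4)).trans (by linarith))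
  rw [blk]
  ring

theorem sm_sq {N P f : α → ℕ} (hF : Fit 𝒜 N P) (hf : Cl g 𝒜 f)
    (h : ∀ a, 𝒜.D a → f a ≤ N a * N a) : Sm g 𝒜 f := by
  obtain ⟨c, hc⟩ := hF
  refine ⟨hf, 8 + c + 0 + 1, fun a ha => ⟨?_, (sz_nat_le ((h a ha).trans_lt
    ((Nat.mul_lt_mul'' (hc a ha).2.2 (hc a ha).2.2).trans_eq (pow_add _ _ _).symm))).trans
    ((Nat.add_le_add ?_ (pow_zero _).ge).trans (AmbAux.pw_add _ _ _))⟩⟩
  · have := (hc a ha).2.1
    exact Nat.pos_of_ne_zero fun h => by simp [h] at this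
  · rw [pow_add]
    have := Nat.mul_le_mul_right ((𝒜.l a + 2) ^ c) (AmbAux.le_pw (𝒜.l a) 8)
    omega

theorem cl_zeros {N P m : α → ℕ} (hF : Fit 𝒜 N P) (hm : Sm g 𝒜 m) (h : ∀ a, 𝒜.D a → m a ≤ N a) :
    Cl g 𝒜 fun a => List.replicate (m a) false :=
  Oc.replicate (Cl.const false) hm (hF.mono 3 fun a ha =>
    ⟨by have := h a ha; omega, (sz_bool _).trans (by omega)⟩)

def emb (c : List Bool) : List Bool :=
  (c ++ c ++ c).map (fun _ => false) ++ (c ++ (c ++ c ++ c ++ c).map fun _ => false)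

theorem emb_toBits (b : ℕ) (y : ℤ) : emb (toBits b y) = toBits (8 * b) (2 ^ (3 * b) * (y % 2 ^ b)) := by
  rw [emb, List.map_const', List.map_const', ← toBits_zero, ← toBits_zero]
  simp only [List.length_append, length_toBits]
  rw [toBits_append b, toBits_append]
  congr 1
  · ring
  · simp [show b + b + b = 3 * b by ring]

theorem ix1 {H S i : ℕ} (hH : 0 < H) (hi : i < S * H) : i / H * (2 * H) + i % H < S * (2 * H) ∧
    (i / H - 1) * (2 * H) + H + i % H < S * (2 * H) := by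
  have h1 := Nat.mul_le_mul_right (2 * H) (show i / H + 1 ≤ S from
    Nat.div_lt_of_lt_mul (by rwa [mul_comm]))
  have h2 := Nat.mod_lt i hH
  have h3 := Nat.mul_le_mul_right (2 * H) (Nat.sub_le (i / H) 1)
  rw [add_mul] at h1
  omega

theorem ix2 {H i j : ℕ} (hH : 0 < H) (h : i < j) :
    i / H * (2 * H) + i % H < j / H * (2 * H) + j % H := by
  have h1 := Nat.div_add_mod' i H
  have h2 := Nat.div_add_mod' j H
  have h3 := Nat.mul_le_mul_right H (Nat.div_le_div_right (c := H) h.le)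
  linarith

theorem half_bits {b : ℕ} (hb : 0 < b) : (List.replicate (3 * b) false).tail ++
    true :: List.replicate (5 * b) false = toBits (8 * b) (2 ^ (3 * b - 1)) := by
  have : true :: List.replicate (5 * b) false = toBits (5 * b + 1) 1 := by
    rw [toBits, ← toBits_zero]; rfl
  rw [List.tail_replicate, ← toBits_zero, this, toBits_append]
  congr 1
  · omega
  · simp

theorem round {e D : ℕ} {U c : ℤ} (h : D + 3 ≤ e)
    (h' : |(U : ℝ) - (2 ^ e * c : ℤ)| ≤ 2 * 2 ^ D) : (U + 2 ^ (e - 1)) / 2 ^ e = c := by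
  have h1 : |U - 2 ^ e * c| ≤ 2 * 2 ^ D := by exact_mod_cast h'
  obtain ⟨d, rfl⟩ := Nat.exists_eq_add_of_le' (show 3 ≤ e by omega)
  have h2 : (2 : ℤ) ^ D ≤ 2 ^ d := pow_le_pow_right₀ one_le_two (by omega)
  have h3 : (0 : ℤ) < 2 ^ d := by positivity
  rw [abs_le] at h1
  refine BitsAux.ediv_eq (r := U + 2 ^ (d + 2) - 2 ^ (d + 3) * c) ?_ ?_ (by simp) <;>
    rw [pow_add _ _ 2] <;> [skip; nth_rewrite 2 [pow_add]] <;> linarith

end PtwAux

theorem oc_ptw {u : (List Bool × List Bool → ℕ∞) → α → ℕ∞} {x x' : α → CArr}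
    {z v z' v' : α → ℕ → ℂ} {k R lr N P F B D B' D' : α → ℕ}
    (hx : Oc mulB 𝒜 u fun p => (x p, x' p)) (hR : Sm mulB 𝒜 R) (hF : Sm mulB 𝒜 F)
    (hN : Fit 𝒜 N P)
    (h : ∀ p, 𝒜.D p → 0 < k p ∧ 0 < R p ∧ k p * R p ≤ N p ∧ P p ≤ N p ∧
      x p = encC (k p * R p) (P p) (z p) ∧
      x' p = encC (k p * R p) (P p) (z' p) ∧ Apx (k p * R p) (B p) (D p) (z p) (v p) ∧
      Apx (k p * R p) (B p) (D p) (z' p) (v' p) ∧ R p ≤ 2 ^ lr p ∧ lr p ≤ P p ∧ F p ≤ P p ∧
      D p ≤ B p ∧ B p + 3 ≤ P p ∧ 2 * B p + lr p ≤ F p + B' p ∧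
      B p + D p + lr p + 2 ≤ F p + D' p ∧ 3 ≤ D' p) :
    ∃ y : α → CArr, Oc mulB 𝒜 (fun T p => u T p + (4 * k p : ℕ) * That T (5 * P p * R p)) y ∧
      ∀ p, 𝒜.D p → ∃ z'', y p = encC (k p * R p) (P p) z'' ∧
        Apx (k p * R p) (B' p) (D' p) z'' (blk (R p) (2 ^ F p : ℂ)⁻¹ (v p) (v' p)) := by
  have hP : ∀ p, 𝒜.D p → 0 < P p := fun p hp => by have := h p hp; omega
  set 𝒜' := 𝒜.ext _ hx.2 with h𝒜'
  have hc : ∀ {l : α × CArr × CArr → Arr} {y : α → ℕ → ℤ}, Cl mulB 𝒜' l →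
      (∀ a, 𝒜'.D a → l a = encA (k a.1 * R a.1) (P a.1) (y a.1)) → Cl mulB 𝒜' fun a =>
        arr (k a.1) fun j => encA (R a.1) (P a.1) fun i => y a.1 (j * R a.1 + i) :=
    fun {l y} h1 h2 => (oc_chunks h1 hR.ext (hN.ext.mono 1 (P' := fun a => P a.1) fun a ha => by
        rw [h2 a ha, length_encA]
        exact ⟨by have := (h _ ha.1).2.2.1; omega, by omega⟩) fun a ha => by
        rw [h2 a ha, length_encA]
        exact ⟨(h _ ha.1).2.1, Dvd.intro_left _ rfl⟩).congr fun a ha => by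
      rw [h2 a ha, encA, chunks_arr (h _ ha.1).2.1]; rfl
  have hl : Cl mulB 𝒜' fun a => arr (k a.1) fun j =>
      (encC (R a.1) (P a.1) fun i => z a.1 (j * R a.1 + i),
        encC (R a.1) (P a.1) fun i => z' a.1 (j * R a.1 + i)) :=
    (((hc (l := fun a => a.2.1.1) (y := fun a i => ⌊(z a i).re⌋) (by fun_prop) fun a ha => by
        rw [ha.2]; exact congrArg Prod.fst (h _ ha.1).2.2.2.2.1).zip
      (hc (l := fun a => a.2.1.2) (y := fun a i => ⌊(z a i).im⌋) (by fun_prop) fun a ha => by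
        rw [ha.2]; exact congrArg Prod.snd (h _ ha.1).2.2.2.2.1)).zip
      ((hc (l := fun a => a.2.2.1) (y := fun a i => ⌊(z' a i).re⌋) (by fun_prop) fun a ha => by
        rw [ha.2]; exact congrArg Prod.fst (h _ ha.1).2.2.2.2.2.1).zip
      (hc (l := fun a => a.2.2.2) (y := fun a i => ⌊(z' a i).im⌋) (by fun_prop) fun a ha => by
        rw [ha.2]; exact congrArg Prod.snd (h _ ha.1).2.2.2.2.2.1))).congr fun a _ => by
      rw [zip_arr, zip_arr, zip_arr]; rfl
  have ht : Cl mulB 𝒜' fun a => (List.replicate (F a.1) false, ([] : List Bool)) :=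
    Cl.pair (Oc.replicate (Cl.const false) hF.ext (hN.ext.mono 3 fun a ha =>
      ⟨by have := h _ ha.1; omega, (sz_bool _).trans (by omega)⟩)) (Cl.const _)
  have hm : Oc mulB ((lin ((CArr × CArr) × List Bool × List Bool)).sub fun p =>
      ∃ R P, cmulPre R P (p.2, p.1)) _ fun p => cmul (p.2, p.1) :=
    Oc.app oc_cmul (show Cl _ _ _ by fun_prop) (fun _ h => ⟨trivial, h.2⟩)
      (Dom.of (n := fun _ => 0) (l := fun _ => 0) (bnd_sz.mono fun p _ => by
        show sz (p.2, p.1) ≤ _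
        rw [sz_pair, sz_prod p]; omega) 0 fun _ _ => ⟨by simp, by simp⟩)
  have h1 := Oc.map hm hl ht (fun a ha x hx => by
      obtain ⟨j, -, rfl⟩ := List.mem_map.1 hx
      have := h _ ha.1
      exact ⟨trivial, R a.1, P a.1, this.2.1, by simp; omega, by simp, length_encA ..,
        length_encA .., length_encA .., length_encA .., wf_encA _ _ _, wf_encA _ _ _,
        wf_encA _ _ _, wf_encA _ _ _⟩) fun K => ((hN.ext.bnd.mul 50).mul K).mono fun a ha => by
      refine (List.sum_le_card_nsmul _ (K * (25 * ((R a.1 + 1) * (P a.1 + 1)))) fun y hy => ?_).trans ?_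
      · obtain ⟨x, hx, rfl⟩ := List.mem_map.1 hy
        obtain ⟨j, -, rfl⟩ := List.mem_map.1 hx
        refine le_trans (le_of_eq ?_) (Nat.mul_le_mul_left K (PtwAux.sz_blk (R a.1) (P a.1) (F a.1)
          (fun i => z a.1 (j * R a.1 + i)) (fun i => z' a.1 (j * R a.1 + i))
          (by have := h _ ha.1; omega)))
        simp [Amb.wt, Amb.sub, lin, wt]
      · obtain ⟨-, a2, a3, -⟩ := h _ ha.1
        have a4 : k a.1 * (R a.1 + 1) ≤ 2 * (N a.1 + 1) := by nlinarith
        have a5 := Nat.mul_le_mul_right (25 * K * (P a.1 + 1)) a4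
        simp only [List.length_map, length_arr, smul_eq_mul]
        linarith
  have h2 := hx.bind (oc_lin (F := fun L : List CArr =>
    ((L.map fun z => z.1).flatten, (L.map fun z => z.2).flatten)) (by fun_prop) h1)
  refine ⟨_, h2.mono fun T a ha => add_le_add le_rfl (le_of_eq ?_), fun a ha => ?_⟩
  · simp only [u0_apply, zero_add, map_arr, encC, BitsAux.zer_encA (h a ha).2.1,
      List.length_replicate, length_encA]
    simp [arr, mul_comm, mul_assoc, mul_left_comm]
  · obtain ⟨-, a2, -, -, -, -, a7, a8, a9, a10, a11, a12, a13, a14, a15, a16⟩ := h a ha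
    refine ⟨_, ?_, PtwAux.apx_blk a2 a7 a8 a9 a12 a14 a15 a16⟩
    rw [encC_int fun _ _ => rfl, map_arr, arr_congr (f' := fun j => (encA (R a) (P a) fun c =>
      PtwAux.re' (R a) (z a) (z' a) j c / 2 ^ F a, encA (R a) (P a) fun c =>
      PtwAux.im' (R a) (z a) (z' a) j c / 2 ^ F a)) fun j hj => ?_, map_arr, map_arr]
    · exact Prod.ext (flatten_arr a2 _ _) (flatten_arr a2 _ _)
    · have b1 : ∀ i < R a, j * R a + i < k a * R a := fun i hi => by nlinarith
      simp only [encC]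
      rw [cmul_encA a2 (hP a ha) (a9.trans (Nat.pow_le_pow_right two_pos a10)) (by simpa using a11)
        fun i hi => ⟨(a7.small a12 a13 (b1 i hi)).1, (a7.small a12 a13 (b1 i hi)).2,
          a8.small a12 a13 (b1 i hi)⟩]
      simp [PtwAux.re', PtwAux.im']

/-- The `i`-th block of `b` bits of a number. -/
def chk (b : ℕ) (x : List Bool) (i : ℕ) : ℕ := ofBits x / 2 ^ (b * i) % 2 ^ b

/-- Blocks of `H` entries, each followed by `H` zeros. -/
def ld (H : ℕ) (X : ℕ → ℂ) (p : ℕ) : ℂ :=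
  if p % (2 * H) < H then X (p / (2 * H) * H + p % (2 * H)) else 0

theorem chk_lt (b : ℕ) (x : List Bool) (i : ℕ) : chk b x i < 2 ^ b := Nat.mod_lt _ (by positivity)

theorem chk_eq_zero {b i : ℕ} {x : List Bool} (hb : 0 < b) (h : x.length / b + 1 ≤ i) :
    chk b x i = 0 := by
  have h1 := Nat.lt_mul_div_succ x.length hb
  have h2 := Nat.mul_le_mul_left b h
  rw [chk, Nat.div_eq_of_lt ((ofBits_lt x).trans_le (Nat.pow_le_pow_right two_pos (by omega))),
    Nat.zero_mod]

theorem PtwAux.sum_chk {b n : ℕ} (x : List Bool) (h : x.length ≤ b * n) :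
    (ofBits x : ℤ) = ∑ i ∈ Finset.range n, (chk b x i : ℤ) * (2 ^ b) ^ i := by
  have := field_digits (K := 2 ^ b) 1 n (ofBits x)
  rw [Nat.div_one, ← pow_mul, Nat.mod_eq_of_lt ((ofBits_lt x).trans_le
    (Nat.pow_le_pow_right two_pos h))] at this
  conv_lhs => rw [this]
  simp only [chk, one_mul, pow_mul, Nat.cast_sum, Nat.cast_mul, Nat.cast_pow, Nat.cast_ofNat]

theorem PtwAux.cv_chk {b : ℕ} {x : List Bool} (hb : 0 < b) (h : x.length / b + 1 ≤ 2 ^ b)
    (y : List Bool) (i : ℕ) : 0 ≤ cv (fun i => chk b x i) (fun i => chk b y i) i ∧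
      cv (fun i => chk b x i) (fun i => chk b y i) i * 2 < 2 ^ (5 * b) := by
  have h1 : ∑ k ∈ Finset.range i.succ, chk b x k * chk b y (i - k) ≤ 2 ^ b * (2 ^ b * 2 ^ b) :=
    (Finset.sum_le_sum_of_ne_zero (t := Finset.range (x.length / b + 1)) fun k _ hk => by
      by_contra c
      exact hk (by rw [chk_eq_zero hb (by simpa using c), zero_mul])).trans
      ((Finset.sum_le_card_nsmul _ _ _ fun k _ =>
        Nat.mul_le_mul (chk_lt _ _ _).le (chk_lt _ _ _).le).trans
        (by rw [Finset.card_range]; exact Nat.mul_le_mul_right _ h))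
  rw [← pow_add, ← pow_add] at h1
  have h2 := (Nat.mul_le_mul_right 2 h1).trans_lt
    (Nat.pow_lt_pow_right one_lt_two (show b + (b + b) + 1 < 5 * b by omega))
  rw [cv, Finset.Nat.sum_antidiagonal_eq_sum_range_succ fun i j => (chk b x i : ℤ) * chk b y j]
  exact ⟨by positivity, by exact_mod_cast h2⟩

/-- The factor is cut into blocks of `b` bits that are scaled by `2 ^ (3 b)`. -/
theorem cl_load {x : α → List Bool} {b H L N : α → ℕ} (hx : Cl g 𝒜 x) (hb : Sm g 𝒜 b)
    (hH : Sm g 𝒜 H) (hL : Sm g 𝒜 L) (hN : Fit 𝒜 N fun p => 8 * b p)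
    (h : ∀ p, 𝒜.D p → 0 < b p ∧ 0 < H p ∧ L p ≤ N p ∧ (x p).length / b p + 1 ≤ N p ∧
      8 * b p ≤ N p) :
    Cl g 𝒜 fun p => encC (L p) (8 * b p)
      (ld (H p) fun i => 2 ^ (3 * b p) * (chk (b p) (x p) i : ℂ)) := by
  have hM : Sm g 𝒜 fun p => (x p).length / b p + 1 :=
    Sm.tc (F := fun s : ℕ × ℕ => s.1 / s.2 + 1) (by fun_prop)
      ((PtwAux.sm_sq hN hx.length fun p hp => by
        obtain ⟨a1, -, -, a4, a5⟩ := h p hp
        exact (Nat.lt_mul_div_succ _ a1).le.trans (Nat.mul_le_mul (by omega) a4)).pair hb)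
  have hz : Cl g 𝒜 fun p => List.replicate (b p) false :=
    PtwAux.cl_zeros hN hb fun p hp => by have := h p hp; omega
  have hf : Cl g 𝒜 fun p => (List.replicate ((x p).length / b p + 1)
      (true :: List.replicate (b p - 1) false)).flatten :=
    Cl.flatten (Oc.replicate (Cl.congr (Cl.cons (Cl.const true) hz.tail) fun p _ => by simp) hM
      (hN.mono 5 fun p hp => ⟨by have := h p hp; omega, (sz_bools _).trans (by simp; omega)⟩))
  have h1 : Cl g 𝒜 fun p => encA ((x p).length / b p + 1) (8 * b p)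
      fun i => 2 ^ (3 * b p) * chk (b p) (x p) i :=
    (Cl.map (F := PtwAux.emb) (by unfold PtwAux.emb; fun_prop)
      (cl_chunksF hf (cl_takeL hf (hx.append hz)))).congr fun p hp => by
      have a1 := (h p hp).1
      have e : (List.replicate ((x p).length / b p + 1)
          (true :: List.replicate (b p - 1) false)).flatten.length =
          ((x p).length / b p + 1) * b p := by
        simp [Nat.sub_add_cancel a1]
      rw [takeL, e, BitsAux.toBits_pad, take_toBits (by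
        have := Nat.div_mul_le_self (x p).length (b p)
        rw [add_mul]; omega), chunksF_replicate a1 (length_toBits _ _), BitsAux.chunks_toBits a1,
        map_arr]
      refine arr_congr fun i _ => ?_
      simp only [PtwAux.emb_toBits, chk, pow_mul _ (b p)]
      push_cast
      rfl
  have t1 : TC 0 fun q : ((ℕ × ℕ) × ℕ × ℕ) × ℕ => q.2 % q.1.1.2 :=
    tc_mod (by fun_prop) (by fun_prop)
  have h2 := oc_pull (p := fun p => ((H p, 2 * H p), L p, (x p).length / b p + 1))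
    (n := fun s => s.2.1)
    (ψ := fun s o => bif nlt (o % s.1.2) s.1.1 then o / s.1.2 * s.1.1 + o % s.1.2 else s.2.2)
    (κ := fun s o => bif nlt (o % s.1.2) s.1.1 &&
      nlt (o / s.1.2 * s.1.1 + o % s.1.2) s.2.2 then 0 else 1) 1 h1
    ((Sm.tc (F := fun s : ℕ => (s, 2 * s)) (by fun_prop) hH).pair (hL.pair hM)) (by fun_prop)
    (TC.cond (t1.nlt (by fun_prop)) (TC.add (by fun_prop) t1) (by fun_prop))
    (TC.cond ((t1.nlt (by fun_prop)).and ((TC.add (by fun_prop) t1).nlt (by fun_prop)))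
      (TC.const _) (TC.const _)) hN fun p hp => by
      obtain ⟨-, a2, a3, a4, -⟩ := h p hp
      simp only [length_encA]
      refine ⟨wf_encA _ _ _, List.ne_nil_of_length_pos (by simp), a4, a3, fun o _ => ?_,
        fun o o' h1 _ h2 h3 => ?_⟩
      · by_cases c1 : o % (2 * H p) < H p <;>
        by_cases c2 : o / (2 * H p) * H p + o % (2 * H p) < (x p).length / b p + 1 <;>
        simp [nlt, c1, c2]
        omega
      · have h4 := h2 ▸ h3
        simp only [nlt, Bool.cond_eq_ite, Bool.and_eq_true, decide_eq_true_eq] at h3 h4 ⊢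
        rw [if_pos (by by_contra c; simp [c] at h3), if_pos (by by_contra c; simp [c] at h4)]
        have c1 : o % (2 * H p) < H p := by by_contra c; simp [c] at h3
        rcases (Nat.div_le_div_right h1.le : o / (2 * H p) ≤ _).eq_or_lt with c | c
        · have := Nat.div_add_mod o (2 * H p)
          have := Nat.div_add_mod o' (2 * H p)
          rw [c] at *
          omega
        · have := Nat.mul_le_mul_right (H p) (Nat.succ_le_of_lt c)
          rw [Nat.succ_mul] at this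
          omega
  have h3 : Cl g 𝒜 fun p => encA (L p) (8 * b p) fun o => if o % (2 * H p) < H p then
      2 ^ (3 * b p) * chk (b p) (x p) (o / (2 * H p) * H p + o % (2 * H p)) else 0 :=
    h2.congr fun p hp => by
      rw [encA, encA, pull_arr' _ (Nat.succ_pos _) fun _ _ => length_toBits _ _]
      refine arr_congr fun o _ => ?_
      by_cases c1 : o % (2 * H p) < H p
      · simp only [nlt, c1, decide_true, cond_true, if_true]
        split_ifs with c2
        · rfl
        · rw [chk_eq_zero (h p hp).1 (not_lt.1 c2), ← toBits_zero]; simp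
      · simp [nlt, c1, toBits_zero]
  refine (h3.pair (Cl.map (F := fun u : List Bool => u.map fun _ => false) (by fun_prop) h3)).congr
    fun p _ => (encC_int (y := fun _ => 0) fun i _ => ?_).trans (Prod.ext rfl ?_)
  · rw [ld]; split_ifs <;> simp
  · simp [encA, map_arr, toBits_zero]

/-- The product is read off from approximations of the two halves of its blocks. -/
theorem oc_finish {u : (γ → ℕ∞) → α → ℕ∞} {x y : α → List Bool} {w : α → CArr}
    {z v : α → ℕ → ℂ} {b H S N B D : α → ℕ} (hw : Oc g 𝒜 u w) (hx : Cl g 𝒜 x) (hy : Cl g 𝒜 y)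
    (hb : Sm g 𝒜 b) (hH : Sm g 𝒜 H) (hS : Sm g 𝒜 S) (hN : Fit 𝒜 N fun p => 8 * b p)
    (h : ∀ p, 𝒜.D p → 0 < b p ∧ 0 < H p ∧ S p * (2 * H p) ≤ N p ∧ 8 * b p ≤ N p ∧
      (x p).length = (y p).length ∧ 2 * ((x p).length / b p + 1) ≤ S p * H p ∧
      (x p).length / b p + 1 ≤ 2 ^ b p ∧ w p = encC (S p * (2 * H p)) (8 * b p) (z p) ∧
      Apx (S p * (2 * H p)) (B p) (D p) (z p) (v p) ∧ D p + 3 ≤ 3 * b p ∧
      ∀ i < S p * H p, v p (i / H p * (2 * H p) + i % H p) +
        (if H p ≤ i then v p ((i / H p - 1) * (2 * H p) + H p + i % H p) else 0) =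
        2 ^ (3 * b p) * ∑ q ∈ Finset.HasAntidiagonal.antidiagonal i,
          (chk (b p) (x p) q.1 : ℂ) * (chk (b p) (y p) q.2 : ℂ)) :
    Oc g 𝒜 u fun p => mulB (x p, y p) := by
  have key : ∀ {α : Type} [Enc α] {𝒜 : Amb α} {l : α → Arr} {X : α → ℕ → ℤ} {b H S N : α → ℕ},
      Cl g 𝒜 l → Sm g 𝒜 H → Sm g 𝒜 S → Fit 𝒜 N (fun p => 8 * b p) →
      (∀ p, 𝒜.D p → 0 < H p ∧ 0 < S p ∧ S p * (2 * H p) ≤ N p ∧
        l p = encA (S p * (2 * H p)) (8 * b p) (X p)) →
      Cl g 𝒜 fun p => encA (S p * H p) (8 * b p) fun i => X p (i / H p * (2 * H p) + i % H p) +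
        if H p ≤ i then X p ((i / H p - 1) * (2 * H p) + H p + i % H p) else 0 := by
    intro α _ 𝒜 l X b H S N hl hH hS hN h
    have t1 : TC 0 fun q : (ℕ × ℕ) × ℕ => q.2 % q.1.1 := tc_mod (by fun_prop) (by fun_prop)
    have h0 : ∀ p, 𝒜.D p → Wf (8 * b p) (l p) ∧ l p ≠ [] ∧ (l p).length ≤ N p ∧
        S p * H p ≤ N p ∧ (l p).length = S p * (2 * H p) := fun p hp => by
      obtain ⟨a1, a2, a3, a4⟩ := h p hp
      rw [a4, length_encA]
      exact ⟨wf_encA _ _ _, List.ne_nil_of_length_pos (by rw [length_encA]; positivity), a3,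
        by nlinarith, rfl⟩
    have h1 := oc_pull (p := fun p => (H p, S p)) (n := fun s => s.2 * s.1)
      (ψ := fun s i => i / s.1 * (2 * s.1) + i % s.1) (κ := fun _ _ => 0) 1 hl (hH.pair hS)
      (by fun_prop) (TC.add (by fun_prop) t1) (by fun_prop) hN fun p hp => by
        obtain ⟨b1, b2, b3, b4, b5⟩ := h0 p hp
        exact ⟨b1, b2, b3, b4, fun o ho => by
          rw [if_pos one_pos, b5]; exact (PtwAux.ix1 (h p hp).1 ho).1,
          fun o o' h1 _ _ _ => PtwAux.ix2 (h p hp).1 h1⟩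
    have h2 := oc_pull (p := fun p => (H p, S p)) (n := fun s => s.2 * s.1)
      (ψ := fun s i => bif nlt i s.1 then s.2 * (2 * s.1) else
        (i / s.1 - 1) * (2 * s.1) + s.1 + i % s.1)
      (κ := fun s i => bif nlt i s.1 then 1 else 0) 1 hl (hH.pair hS) (by fun_prop)
      (TC.cond (by fun_prop) (by fun_prop) (TC.add (by fun_prop) t1)) (by fun_prop) hN fun p hp => by
        obtain ⟨b1, b2, b3, b4, b5⟩ := h0 p hp
        refine ⟨b1, b2, b3, b4, fun o ho => ?_, fun o o' h1 _ _ h3 => ?_⟩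
        · rw [b5]
          by_cases c : o < H p
          · simp [nlt, c]
          · simpa [nlt, c] using (PtwAux.ix1 (h p hp).1 ho).2
        · have c : ¬ o < H p := fun c => by simp [nlt, c] at h3
          have c' : ¬ o' < H p := by omega
          have := PtwAux.ix2 (h p hp).1 h1
          have d1 : 1 ≤ o / H p := (Nat.le_div_iff_mul_le (h p hp).1).2 (by omega)
          have d2 : 1 ≤ o' / H p := (Nat.le_div_iff_mul_le (h p hp).1).2 (by omega)
          have d3 := Nat.mul_le_mul_right (2 * H p) d1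
          have d4 := Nat.mul_le_mul_right (2 * H p) d2
          simp only [nlt, c, c', decide_false, cond_false, Nat.sub_mul]
          omega
    refine (cl_addA h1 h2).congr fun p hp => ?_
    obtain ⟨a1, a2, -, a4⟩ := h p hp
    rw [← addA_encA, a4, encA, encA, encA, pull_arr _ fun o ho => (PtwAux.ix1 a1 ho).1,
      pull_arr' _ (by positivity) fun _ _ => length_toBits _ _]
    refine congrArg _ (arr_congr fun o ho => ?_)
    by_cases c : o < H p
    · simp [nlt, c, c.not_ge, toBits_zero]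
    · simp [nlt, c, not_lt.1 c, (PtwAux.ix1 a1 ho).2]
  set 𝒜' := 𝒜.ext w hw.2 with h𝒜'
  have h1 := key (𝒜 := 𝒜') (l := fun a => a.2.1) (X := fun a i => ⌊(z a.1 i).re⌋) (by fun_prop)
    hH.ext hS.ext hN.ext fun a ha => by
      obtain ⟨-, a2, a3, -, -, a6, -, a8, -⟩ := h _ ha.1
      exact ⟨a2, Nat.pos_of_ne_zero fun h0 => by simp [h0] at a6, a3, by rw [ha.2, a8]; rfl⟩
  have hz : ∀ c, c ≤ 8 → Cl g 𝒜' fun a => List.replicate (c * b a.1) false := fun c hc =>
    PtwAux.cl_zeros hN.ext (Sm.tc (F := fun s : ℕ => c * s) (by fun_prop) hb.ext) fun a ha =>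
      (Nat.mul_le_mul_right _ hc).trans (h _ ha.1).2.2.2.1
  have h2 := Cl.mapP (F := fun q : List Bool × List Bool × List Bool => dropL q.2.1 (addB q.1 q.2.2))
    (by fun_prop) h1 ((hz 3 (by omega)).pair ((hz 3 (by omega)).tail.append
      ((Cl.const true).cons (hz 5 (by omega))))) ((hN.ext.bnd.mul 10).mono fun a ha => by
        have a1 := sz_bools (List.replicate (3 * b a.1) false)
        have a2 := sz_bools ((List.replicate (3 * b a.1) false).tail ++
          true :: List.replicate (5 * b a.1) false)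
        have a3 := (h _ ha.1).2.2.1
        simp only [List.length_append, List.length_tail, List.length_replicate,
          List.length_cons] at a1 a2
        rw [length_encA, sz_pair, mul_left_comm 10]
        exact Nat.mul_le_mul (by linarith [Nat.zero_le (S a.1 * H a.1)]) (by omega))
  have h3 : Cl g 𝒜' fun a => encA (S a.1 * H a.1) (5 * b a.1)
      (cv (fun i => chk (b a.1) (x a.1) i) fun i => chk (b a.1) (y a.1) i) :=
    h2.congr fun a ha => by
      obtain ⟨a1, a2, -, -, -, -, -, -, a9, a10, a11⟩ := h _ ha.1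
      rw [encA, encA, map_arr]
      refine arr_congr fun i hi => ?_
      rw [PtwAux.half_bits a1, addB_toBits, dropL, List.length_replicate, drop_toBits,
        show 8 * b a.1 - 3 * b a.1 = 5 * b a.1 by omega]
      congr 1
      refine (PtwAux.round a10 ?_).symm
      have e := a11 i hi
      have e1 := a9.re_le (PtwAux.ix1 a2 hi).1
      have e2 := congrArg Complex.re e
      rw [show (2 : ℂ) ^ (3 * b a.1) * ∑ q ∈ Finset.HasAntidiagonal.antidiagonal i,
        (chk (b a.1) (x a.1) q.1 : ℂ) * (chk (b a.1) (y a.1) q.2 : ℂ) = ((2 ^ (3 * b a.1) *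
          cv (fun i => chk (b a.1) (x a.1) i) (fun i => chk (b a.1) (y a.1) i) i : ℤ) : ℂ) by
        simp [cv], Complex.intCast_re, Complex.add_re] at e2
      rw [← e2]
      have e3 : (0 : ℝ) < 2 ^ D a.1 := by positivity
      rw [abs_le] at e1 ⊢
      split_ifs with c
      · have e4 := abs_le.1 (a9.re_le (PtwAux.ix1 a2 hi).2)
        push_cast
        constructor <;> linarith
      · simp only [Complex.zero_re, add_zero]
        constructor <;> linarith
  refine (ArrAux.oc_wrap hw (cl_takeL ((Cl.append hx hy).ext (f := w) (h := hw.2)) (cl_carry (hz 1 (by omega)) h3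
    fun a _ => ⟨_, wf_encA _ _ _, by simp; omega⟩))).congr fun a ha => ?_
  obtain ⟨a1, -, -, -, a5, a6, a7, -⟩ := h a ha
  have b1 := Nat.lt_mul_div_succ (x a).length a1
  have b2 := Nat.mul_le_mul_left (b a) a6
  simp only [one_mul]
  rw [carry_encA (by simpa using a1) (by simp; omega) fun i _ => PtwAux.cv_chk a1 a7 _ i, takeL,
    List.length_replicate, List.length_append, take_toBits (by linarith), mulB]
  refine toBits_congr (Int.ModEq.of_dvd (pow_dvd_pow 2 (show _ ≤ b a * (S a * H a) by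
    simp only; linarith)) ?_)
  simp only [pow_mul _ (b a)]
  rw [Nat.cast_mul, PtwAux.sum_chk (b := b a) (n := S a * H a) (x a) (by linarith),
    PtwAux.sum_chk (b := b a) (n := S a * H a) (y a) (by linarith)]
  exact BitsAux.prod_trunc _ _ _ le_rfl

end Vale.Agent.P338
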