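import Vale.Agent.P338.CrtD
import Vale.Agent.P338.Ptw
import Vale.Agent.P338.DftA

/-! The convolution theorem for the whole pipeline. -/

namespace Vale.Agent.P338

/-- Remainder map, transform, exchange of the top field with the lowest axis. -/
noncomputable def fwd (a ν d A D : ℕ) (f : ℕ → ℂ) (o : ℕ) : ℂ :=
  boxF false a ν (ssL d A D)
    (fun i => if crtInv a ν d A D i < (ssL d A D).prod * (2 ^ a * 2 ^ ν) then f (crtInv a ν d A D i)
      else 0) (swapIx (2 ^ a) ((2 ^ a) ^ (d - 1)) (2 ^ ν) o)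

/-- The way back. -/
noncomputable def bwd (a ν d A D : ℕ) (f : ℕ → ℂ) (p : ℕ) : ℂ :=
  boxF true a ν (ssL d A D) (fun o => f (swapIx (2 ^ a) ((2 ^ a) ^ (d - 1)) (2 ^ ν) o))
    (crtIx a ν d A D p)

theorem swapIx_lt {K B C N p : ℕ} (h : K * B * K * C ∣ N) (hp : p < N) : swapIx K B C p < N := by
  obtain ⟨m, rfl⟩ := h
  have h0 : 0 < K * B * K * C := Nat.pos_of_mul_pos_right (by omega : 0 < K * B * K * C * m)
  have hC : 0 < C := Nat.pos_of_mul_pos_left h0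
  have h1 := Nat.pos_of_mul_pos_right h0
  have hK : 0 < K := Nat.pos_of_mul_pos_left h1
  have hB : 0 < B := Nat.pos_of_mul_pos_left (Nat.pos_of_mul_pos_right h1)
  have h2 : p / (C * K * B * K) < m := by
    rw [Nat.div_lt_iff_lt_mul (by positivity)]
    calc p < _ := hp
      _ = _ := by ring
  have h3 : p / (C * K * B * K) * K + p / C % K < m * K := by
    simpa using ix_lt (w := 1) (c := 0) h2 (Nat.mod_lt (p / C) hK) one_pos
  have h4 := ix_lt h3 (Nat.mod_lt (p / (C * K)) hB) (Nat.mod_lt (p / (C * K * B)) hK)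
  have h5 := ix_lt (w := 1) (c := 0) h4 (Nat.mod_lt p hC) one_pos
  simp only [mul_one, add_zero] at h5
  calc swapIx K B C p < _ := h5
    _ = _ := by ring

namespace ConvAux
open Finset Vale.Agent.P344

variable {a ν d A D : ℕ}

noncomputable def bx (inv : Bool) (a ν n : ℕ) (s : ℕ → ℕ) : (ℕ → ℂ) →ₗ[ℂ] (ℕ → ℂ) :=
  lft (K := 2 ^ a) (fun ι : Fin n => 2 ^ ν * (2 ^ a) ^ (ι : ℕ))
    (tprod fun ι => Matrix.of fun x y => Fm inv (s ι) x.val y.val)

theorem boxF_eq (inv : Bool) : boxF inv a ν (ssL d A D) = bx inv a ν d (sm A D) := by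
  have h1 : boxF inv a ν (ssL d A D) =
      bx inv a ν (ssL d A D).length fun ι => (ssL d A D).getD ι 1 := rfl
  rw [h1, length_ssL, bx, bx]
  congr 2
  funext ι
  rw [getD_ssL ι.2]

def dg (a : ℕ) {d : ℕ} (ξ : Fin d → ZMod (2 ^ a)) : ℕ := ∑ j, (ξ j).val * (2 ^ a) ^ (j : ℕ)

def ps (a ν : ℕ) {d : ℕ} (ξ : Fin d → ZMod (2 ^ a)) (r : ℕ) : ℕ :=
  (r / 2 ^ ν * (2 ^ a) ^ d + dg a ξ) * 2 ^ ν + r % 2 ^ ν

theorem dg_lt (ξ : Fin d → ZMod (2 ^ a)) : dg a ξ < (2 ^ a) ^ d := by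
  have h1 := (upd_mk (K := 2 ^ a) (a := 0) one_pos (0 : Fin d → ZMod (2 ^ a)) ξ).2
  have h2 := upd_lt (K := 2 ^ a) (sep_pow one_pos Fin.val_injective) (N := (2 ^ a) ^ d) (p := 0)
    (fun j : Fin d => by rw [one_mul, ← pow_succ]; exact pow_dvd_pow _ j.2) (by positivity) ξ
  simp only [Pi.zero_apply, ZMod.val_zero, zero_mul, sum_const_zero, add_zero, zero_add,
    mul_one] at h1
  rwa [h1] at h2

theorem bx_apply (inv : Bool) (s : ℕ → ℕ) (v : ℕ → ℂ) (ξ : Fin d → ZMod (2 ^ a)) (r : ℕ) :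
    bx inv a ν d s v (ps a ν ξ r) =
      ∑ Y : Fin d → ZMod (2 ^ a), (∏ ι : Fin d, Fm inv (s ι) (ξ ι).val (Y ι).val) * v (ps a ν Y r) := by
  have hc : r % 2 ^ ν < 2 ^ ν := Nat.mod_lt _ (by positivity)
  rw [bx, lft_apply]
  refine sum_congr rfl fun Y _ => ?_
  rw [ps, dg, (upd_mk hc ξ Y).1, (upd_mk hc ξ Y).2]
  rfl

def qq (a : ℕ) {d : ℕ} (ξ : Fin d → ZMod (2 ^ a)) : ℕ :=
  dg a ξ % 2 ^ a * (2 ^ a) ^ (d - 1) + dg a ξ / 2 ^ a

theorem swap_ps (hd : 0 < d) (ξ : Fin d → ZMod (2 ^ a)) {r : ℕ} (hr : r < 2 ^ a * 2 ^ ν) :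
    swapIx (2 ^ a) ((2 ^ a) ^ (d - 1)) (2 ^ ν) (ps a ν ξ r) = qq a ξ * (2 ^ a * 2 ^ ν) + r ∧
    swapIx (2 ^ a) ((2 ^ a) ^ (d - 1)) (2 ^ ν) (qq a ξ * (2 ^ a * 2 ^ ν) + r) = ps a ν ξ r := by
  have e : (2 ^ a) ^ d = (2 ^ a) ^ (d - 1) * 2 ^ a := by rw [← pow_succ]; congr 1; omega
  have h1 : r / 2 ^ ν < 2 ^ a := (Nat.div_lt_iff_lt_mul (by positivity)).mpr hr
  have h2 : dg a ξ / 2 ^ a < (2 ^ a) ^ (d - 1) :=
    (Nat.div_lt_iff_lt_mul (by positivity)).mpr (e ▸ dg_lt ξ)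
  have h3 : dg a ξ % 2 ^ a < 2 ^ a := Nat.mod_lt _ (by positivity)
  have h4 : r % 2 ^ ν < 2 ^ ν := Nat.mod_lt _ (by positivity)
  have e1 : ps a ν ξ r = (((0 * 2 ^ a + r / 2 ^ ν) * (2 ^ a) ^ (d - 1) + dg a ξ / 2 ^ a) * 2 ^ a +
      dg a ξ % 2 ^ a) * 2 ^ ν + r % 2 ^ ν := by
    rw [ps, e]
    conv_lhs => rw [← Nat.div_add_mod' (dg a ξ) (2 ^ a)]
    ring
  have e2 : qq a ξ * (2 ^ a * 2 ^ ν) + r = (((0 * 2 ^ a + dg a ξ % 2 ^ a) * (2 ^ a) ^ (d - 1) +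
      dg a ξ / 2 ^ a) * 2 ^ a + r / 2 ^ ν) * 2 ^ ν + r % 2 ^ ν := by
    rw [qq]
    conv_lhs => rw [← Nat.div_add_mod' r (2 ^ ν)]
    ring
  rw [e1, e2]
  exact ⟨swapIx_mk h1 h2 h3 h4, swapIx_mk h3 h2 h1 h4⟩

def bt (a d A D j : ℕ) : Fin d → ZMod (2 ^ a) := fun ι => (beta A D ι j : ℕ)

theorem bt_val (h : CrtPre a d A D) (j : ℕ) (ι : Fin d) : (bt a d A D j ι).val = beta A D ι j :=
  ZMod.val_cast_of_lt ((beta_lt _ _ _ _).trans_le (h.sm_le ι))

theorem crtIx_eq (h : CrtPre a d A D) (j : ℕ) {r : ℕ} (hr : r < 2 ^ a * 2 ^ ν) :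
    crtIx a ν d A D (j * (2 ^ a * 2 ^ ν) + r) = ps a ν (bt a d A D j) r := by
  have h1 : r / 2 ^ ν < 2 ^ a := (Nat.div_lt_iff_lt_mul (by positivity)).mpr hr
  obtain ⟨e1, e2, e3⟩ := ix_parts (h := j) h1 (Nat.mod_lt r (by positivity : 0 < 2 ^ ν))
  have e : (j * 2 ^ a + r / 2 ^ ν) * 2 ^ ν + r % 2 ^ ν = j * (2 ^ a * 2 ^ ν) + r := by
    conv_rhs => rw [← Nat.div_add_mod' r (2 ^ ν)]
    ring
  rw [e] at e1 e2 e3
  rw [mul_comm (2 ^ ν)] at e1
  rw [crtIx, e2, e3, e1, ps, dg,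
    ← Fin.sum_univ_eq_sum_range (fun ι => beta A D ι j * (2 ^ a) ^ ι)]
  simp only [bt_val h]

theorem fwd_eq (h : CrtPre a d A D) (hd : 0 < d) (f : ℕ → ℂ) (ξ : Fin d → ZMod (2 ^ a)) {r : ℕ}
    (hr : r < 2 ^ a * 2 ^ ν) : fwd a ν d A D f (qq a ξ * (2 ^ a * 2 ^ ν) + r) =
      ∑ j ∈ range (ssL d A D).prod, (∏ ι : Fin d, Fm false (sm A D ι) (ξ ι).val (beta A D ι j)) *
        f (j * (2 ^ a * 2 ^ ν) + r) := by
  rw [fwd, (swap_ps hd ξ hr).2, boxF_eq, bx_apply]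
  refine (sum_of_injOn (bt a d A D) (fun j hj j' hj' e => ?_) (fun _ _ => by simp)
    (fun Y _ hY => ?_) fun j hj => ?_).symm
  · exact (h.beta_bij (fun ι => beta A D ι j) fun ι => beta_lt _ _ _ _).unique
      ⟨by simpa using hj, fun _ => rfl⟩
      ⟨by simpa using hj', fun ι => by rw [← bt_val h, ← e, bt_val h]⟩
  · by_contra h0
    obtain ⟨j, ⟨h1, h2⟩, -⟩ := h.beta_bij (fun ι => (Y ι).val) fun ι => by
      by_contra h1
      refine h0 (mul_eq_zero_of_left (prod_eq_zero (mem_univ ι) ?_) _)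
      rw [Fm, if_neg fun h => h1 h.2]
    exact hY ⟨j, by simpa using h1, funext fun ι => by
      rw [bt, h2 ι, ZMod.natCast_zmod_val]⟩
  · have h1 : j * (2 ^ a * 2 ^ ν) + r < (ssL d A D).prod * (2 ^ a * 2 ^ ν) := by
      simpa using ix_lt (w := 1) (c := 0) (mem_range.mp hj) hr one_pos
    simp only [← crtIx_eq h j hr, h.crtInv_crtIx h1, if_pos h1, bt_val h]

theorem axis_orth {s β β₁ β₂ : ℕ} (hs : s ≤ 2 ^ a) (h : β < s) (h₁ : β₁ < s) (h₂ : β₂ < s) :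
    ∑ x : ZMod (2 ^ a), Fm true s β x.val * (Fm false s x.val β₁ * Fm false s x.val β₂) =
      if β = (β₁ + β₂) % s then 1 else 0 := by
  have hs0 : (s : ℝ) ≠ 0 := by
    have : 0 < s := by omega
    positivity
  have hs1 : (s : ℂ) ≠ 0 := by exact_mod_cast (show s ≠ 0 by omega)
  have e : ∀ g : ℕ → ℂ, ∑ x : ZMod (2 ^ a), g x.val = ∑ x ∈ range (2 ^ a), g x := fun g =>
    sum_nbij' ZMod.val (fun n => (n : ZMod (2 ^ a))) (fun x _ => mem_range.mpr x.val_lt)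
      (by simp) (by simp) (fun n hn => ZMod.val_cast_of_lt (mem_range.mp hn)) fun _ _ => rfl
  suffices e' : ∀ x ∈ range s, Fm true s β x * (Fm false s x β₁ * Fm false s x β₂) =
      (s : ℂ)⁻¹ * (ee (1 * ((((β₁ + β₂) % s : ℕ) : ℝ) * x) / s) * ee (-1 * (x * β) / s)) by
    rw [e fun x => Fm true s β x * (Fm false s x β₁ * Fm false s x β₂),
      ← sum_subset (range_subset_range.mpr hs) fun x _ hx => by
        rw [Fm, if_neg fun h => hx (mem_range.mpr h.2), zero_mul],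
      sum_congr rfl e', ← mul_sum, DftAAux.orth (Or.inl rfl) (Nat.mod_lt _ (by omega)) h]
    split_ifs <;> simp [hs1]
  · intro x hx
    have hx' := mem_range.mp hx
    have h3 : ((β₁ + β₂ : ℕ) : ℝ) = s * ((β₁ + β₂) / s : ℕ) + ((β₁ + β₂) % s : ℕ) := by
      exact_mod_cast (Nat.div_add_mod _ _).symm
    simp only [Fm, h, h₁, h₂, hx', and_self, if_true, sgn, Bool.false_eq_true, if_false, one_mul,
      mul_assoc, ← ee_add]
    rw [← mul_one (ee (_ * x / s + _)), ← DftAAux.ee_nat (x * ((β₁ + β₂) / s)), ← ee_add]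
    congr 2
    generalize (β₁ + β₂) / s = m at *
    generalize (β₁ + β₂) % s = m' at *
    push_cast at h3 ⊢
    field_simp
    linear_combination (x : ℝ) * h3

theorem all_orth (h : CrtPre a d A D) {j : ℕ} (hj : j < (ssL d A D).prod) (j₁ j₂ : ℕ) :
    ∑ ξ : Fin d → ZMod (2 ^ a), (∏ ι : Fin d, Fm true (sm A D ι) (beta A D ι j) (ξ ι).val) *
      ((∏ ι : Fin d, Fm false (sm A D ι) (ξ ι).val (beta A D ι j₁)) *
        ∏ ι : Fin d, Fm false (sm A D ι) (ξ ι).val (beta A D ι j₂)) =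
      if j = (j₁ + j₂) % (ssL d A D).prod then 1 else 0 := by
  simp only [← prod_mul_distrib]
  rw [← Fintype.piFinset_univ, ← prod_univ_sum (fun _ => univ) fun (ι : Fin d) (x : ZMod (2 ^ a)) =>
    Fm true (sm A D ι) (beta A D ι j) x.val * (Fm false (sm A D ι) x.val (beta A D ι j₁) *
      Fm false (sm A D ι) x.val (beta A D ι j₂))]
  simp only [axis_orth (h.sm_le _) (beta_lt _ _ _ _) (beta_lt _ _ _ _) (beta_lt _ _ _ _),
    ← beta_add]
  split_ifs with h1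
  · exact prod_eq_one fun ι _ => if_pos (by rw [h1, h.beta_mod ι.2])
  · by_contra h0
    refine h1 ((h.beta_bij (fun ι => beta A D ι j) fun ι => beta_lt _ _ _ _).unique
      ⟨hj, fun _ => rfl⟩ ⟨Nat.mod_lt _ (by omega), fun ι => ?_⟩)
    by_contra h2
    exact h0 (prod_eq_zero (mem_univ ι) (if_neg fun e => h2 (by rw [h.beta_mod ι.2, e])))

theorem bwd_eq (h : CrtPre a d A D) (hd : 0 < d) (c : ℂ) (f f' : ℕ → ℂ) {j r : ℕ}
    (hj : j < (ssL d A D).prod) (hr : r < 2 ^ a * 2 ^ ν) :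
    bwd a ν d A D (blk (2 ^ a * 2 ^ ν) c (fwd a ν d A D f) (fwd a ν d A D f'))
      (j * (2 ^ a * 2 ^ ν) + r) = c * ∑ q ∈ HasAntidiagonal.antidiagonal r, ∑ j₁ ∈ range (ssL d A D).prod,
        ∑ j₂ ∈ range (ssL d A D).prod, (if j = (j₁ + j₂) % (ssL d A D).prod then 1 else 0) *
          (f (j₁ * (2 ^ a * 2 ^ ν) + q.1) * f' (j₂ * (2 ^ a * 2 ^ ν) + q.2)) := by
  rw [bwd, crtIx_eq h j hr, boxF_eq, bx_apply]
  have e : ∀ ξ : Fin d → ZMod (2 ^ a), blk (2 ^ a * 2 ^ ν) c (fwd a ν d A D f) (fwd a ν d A D f')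
      (qq a ξ * (2 ^ a * 2 ^ ν) + r) = c * ∑ q ∈ HasAntidiagonal.antidiagonal r, ∑ j₁ ∈ range (ssL d A D).prod,
        ∑ j₂ ∈ range (ssL d A D).prod,
        ((∏ ι : Fin d, Fm false (sm A D ι) (ξ ι).val (beta A D ι j₁)) *
          ∏ ι : Fin d, Fm false (sm A D ι) (ξ ι).val (beta A D ι j₂)) *
          (f (j₁ * (2 ^ a * 2 ^ ν) + q.1) * f' (j₂ * (2 ^ a * 2 ^ ν) + q.2)) := by
    intro ξ
    rw [blk, add_comm _ r, Nat.add_mul_mod_self_right, Nat.add_mul_div_right _ _ (by positivity),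
      Nat.mod_eq_of_lt hr, Nat.div_eq_of_lt hr, zero_add]
    congr 1
    refine sum_congr rfl fun q hq => ?_
    have := HasAntidiagonal.mem_antidiagonal.mp hq
    rw [fwd_eq h hd _ _ (by omega), fwd_eq h hd _ _ (by omega), sum_mul_sum]
    exact sum_congr rfl fun _ _ => sum_congr rfl fun _ _ => by ring
  simp only [(swap_ps hd _ hr).1, e, bt_val h, ← all_orth h hj, mul_sum, sum_mul]
  rw [sum_comm]
  refine sum_congr rfl fun _ _ => ?_
  rw [sum_comm]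
  refine sum_congr rfl fun _ _ => ?_
  rw [sum_comm]
  exact sum_congr rfl fun _ _ => sum_congr rfl fun _ _ => by ring

theorem anti_eq (F : ℕ → ℕ → ℂ) (r N : ℕ) (h : ∀ x y, x + y = r → N ≤ x ∨ N ≤ y → F x y = 0) :
    ∑ q ∈ HasAntidiagonal.antidiagonal r, F q.1 q.2 =
      ∑ x ∈ range N, ∑ y ∈ range N, if x + y = r then F x y else 0 := by
  rw [← sum_product', ← sum_filter]
  refine (sum_subset (fun q hq => HasAntidiagonal.mem_antidiagonal.mpr (mem_filter.mp hq).2) fun q hq hq' =>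
    h _ _ (HasAntidiagonal.mem_antidiagonal.mp hq) ?_).symm
  by_contra h1
  exact hq' (mem_filter.mpr ⟨by simp; omega, HasAntidiagonal.mem_antidiagonal.mp hq⟩)

theorem sum_range_mul (g : ℕ → ℂ) (S H : ℕ) :
    ∑ i ∈ range (S * H), g i = ∑ r ∈ range H, ∑ j ∈ range S, g (j * H + r) := by
  induction S with
  | zero => simp
  | succ S ih => rw [add_mul, one_mul, sum_range_add, ih]; simp [sum_range_succ, sum_add_distrib]

theorem half_eq {H M S : ℕ} (hM : 2 * M ≤ S * H) {X Y : ℕ → ℂ} (hX : ∀ i, M ≤ i → X i = 0)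
    (hY : ∀ i, M ≤ i → Y i = 0) (j : ℕ) {r : ℕ} (hr : r < 2 * H) :
    ∑ q ∈ HasAntidiagonal.antidiagonal r, ∑ j₁ ∈ range S, ∑ j₂ ∈ range S, (if j = (j₁ + j₂) % S then 1 else 0) *
      (ld H X (j₁ * (2 * H) + q.1) * ld H Y (j₂ * (2 * H) + q.2)) =
    ∑ x ∈ range H, ∑ y ∈ range H, ∑ j₁ ∈ range S, ∑ j₂ ∈ range S,
      if x + y = r ∧ j₁ + j₂ = j then X (j₁ * H + x) * Y (j₂ * H + y) else 0 := by
  have e : ∀ (X : ℕ → ℂ) j x, x < 2 * H →
      ld H X (j * (2 * H) + x) = if x < H then X (j * H + x) else 0 := fun X j x hx => by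
    rw [ld, add_comm _ x, Nat.add_mul_mod_self_right, Nat.add_mul_div_right _ _ (by omega),
      Nat.mod_eq_of_lt hx, Nat.div_eq_of_lt hx, zero_add]
  rw [anti_eq (fun x y => ∑ j₁ ∈ range S, ∑ j₂ ∈ range S, (if j = (j₁ + j₂) % S then 1 else 0) *
      (ld H X (j₁ * (2 * H) + x) * ld H Y (j₂ * (2 * H) + y))) r H fun x y h1 h2 =>
    sum_eq_zero fun _ _ => sum_eq_zero fun _ _ => by
      rw [e _ _ _ (by omega), e _ _ _ (by omega)]
      rcases h2 with h2 | h2 <;> simp [not_lt.mpr h2]]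
  refine sum_congr rfl fun x hx => sum_congr rfl fun y hy => ?_
  have hx' := mem_range.mp hx
  have hy' := mem_range.mp hy
  split_ifs with h1
  swap
  · simp [h1]
  refine sum_congr rfl fun j₁ _ => sum_congr rfl fun j₂ _ => ?_
  rw [e _ _ _ (by omega), e _ _ _ (by omega), if_pos hx', if_pos hy']
  by_cases h2 : j₁ + j₂ < S
  · simp [h1, Nat.mod_eq_of_lt h2, eq_comm]
  · have h3 : S * H ≤ j₁ * H + j₂ * H := by rw [← add_mul]; exact Nat.mul_le_mul_right _ (by omega)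
    have h4 : X (j₁ * H + x) * Y (j₂ * H + y) = 0 := by
      by_cases h5 : M ≤ j₁ * H + x
      · rw [hX _ h5, zero_mul]
      · rw [hY _ (by omega), mul_zero]
    simp [h4]

theorem carry_iff {H m u j r : ℕ} (hu : u < 2 * H) (hr : r < H) : m * H + u = j * H + r ↔
    (u = r ∧ m = j) ∨ (u = H + r ∧ m + 1 = j) := by
  have e : ∀ {m u : ℕ}, u < H → m * H + u = j * H + r → m = j := fun {m u} h1 h2 => by
    have := congrArg (· / H) h2
    simpa [add_comm _ u, add_comm _ r, Nat.add_mul_div_right _ _ (show 0 < H by omega),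
      Nat.div_eq_of_lt h1, Nat.div_eq_of_lt hr] using this
  constructor
  · intro h
    by_cases h1 : u < H
    · obtain rfl := e h1 h
      left; omega
    · obtain rfl := e (m := m + 1) (u := u - H) (by omega) (by rw [add_mul]; omega)
      rw [add_mul] at h
      right; omega
  · rintro (⟨rfl, rfl⟩ | ⟨rfl, rfl⟩) <;> ring

end ConvAux

open ConvAux Finset in
theorem conv_eq {a ν d A D H M : ℕ} (h : CrtPre a d A D) (hd : 0 < d) (hH : 2 * H = 2 ^ a * 2 ^ ν)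
    (hM : 2 * M ≤ (ssL d A D).prod * H) {X Y : ℕ → ℂ} (hX : ∀ i, M ≤ i → X i = 0)
    (hY : ∀ i, M ≤ i → Y i = 0) (c : ℂ) {i : ℕ} (hi : i < (ssL d A D).prod * H) :
    bwd a ν d A D (blk (2 * H) c (fwd a ν d A D (ld H X)) (fwd a ν d A D (ld H Y)))
        (i / H * (2 * H) + i % H) +
      (if H ≤ i then
        bwd a ν d A D (blk (2 * H) c (fwd a ν d A D (ld H X)) (fwd a ν d A D (ld H Y)))
          ((i / H - 1) * (2 * H) + H + i % H) else 0) =
      c * ∑ q ∈ Finset.HasAntidiagonal.antidiagonal i, X q.1 * Y q.2 := by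
  have hH0 : 0 < H := by
    have : 0 < 2 ^ a * 2 ^ ν := by positivity
    omega
  have h1 : i / H < (ssL d A D).prod := (Nat.div_lt_iff_lt_mul hH0).mpr hi
  have h2 : i % H < H := Nat.mod_lt _ hH0
  have e := fun j r hj hr => bwd_eq (ν := ν) h hd c (ld H X) (ld H Y) (j := j) (r := r) hj hr
  simp only [← hH] at e
  rw [add_assoc, e _ _ h1 (by omega), e _ _ ((Nat.sub_le _ 1).trans_lt h1) (by omega), half_eq hM hX hY _ (by omega),
    half_eq hM hX hY _ (by omega), anti_eq (fun x y => X x * Y y) i ((ssL d A D).prod * H)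
      fun x y h3 h4 => by omega, sum_range_mul]
  simp only [sum_range_mul _ _ H]
  have h3 : H ≤ i ↔ 1 ≤ i / H := by rw [Nat.le_div_iff_mul_le hH0, one_mul]
  have e2 : ∀ x ∈ range H, ∀ y ∈ range H, ∀ j₁ j₂, ∀ z : ℂ,
      (if j₁ * H + x + (j₂ * H + y) = i then z else 0) =
      (if x + y = i % H ∧ j₁ + j₂ = i / H then z else 0) + if H ≤ i then
        (if x + y = H + i % H ∧ j₁ + j₂ = i / H - 1 then z else 0) else 0 := by
    intro x hx y hy j₁ j₂ z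
    have := carry_iff (m := j₁ + j₂) (u := x + y) (j := i / H)
      (by have := mem_range.mp hx; have := mem_range.mp hy; omega) h2
    rw [Nat.div_add_mod', add_mul, add_add_add_comm] at this
    simp only [this, h3]
    split_ifs <;> first | omega | simp
  rw [sum_congr rfl fun x hx => sum_comm.trans (sum_congr rfl fun y hy =>
    sum_congr rfl fun j₁ _ => sum_congr rfl fun j₂ _ => e2 x hx y hy j₁ j₂ _)]
  simp only [sum_add_distrib, mul_add]
  congr 1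
  split_ifs <;> simp

end Vale.Agent.P338
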