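import Vale.Agent.P338.CrtD
import Vale.Agent.P338.SwapD

/-! The remainder map costs one exchange per axis. -/

namespace Vale.Agent.P338

open Vale.Agent.Common.TreeTM

variable {α γ δ : Type} [Enc α] [Enc γ] [Enc δ] {g : γ → δ} {𝒜 : Amb α}
  {u : (γ → ℕ∞) → α → ℕ∞} {w1 : ℕ} {τ : ℕ → ℕ}

namespace CrtAux

open Enc AmbAux Finset Vale.Agent.P337

/-! ### Index maps -/

/-- Rotation of the digits below `s`. -/
def rs (s r x : ℕ) : ℕ := if x < s then (x + r) % s else x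

def rotS (C t s : ℕ) (r : ℕ → ℕ) : ℕ → ℕ := digIx C t t fun h x => rs s (r h) x

/-- The position map of one stage. -/
def fw (s S u t C o : ℕ) : ℕ :=
  rotS C t s (fun h => u * (h % S)) (swapIx t S C (digIx (S * t * C) s t (fun _ x => x) o))

theorem rs_lt {s t r x : ℕ} (hs : s ≤ t) (hx : x < t) : rs s r x < t := by
  unfold rs
  split_ifs with h
  · exact (Nat.mod_lt _ (by omega)).trans_le hs
  · exact hx

theorem rs_rs {s r r' : ℕ} (h : (r + r') % s = 0) (x : ℕ) : rs s r' (rs s r x) = x := by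
  by_cases hx : x < s
  · have := Nat.mod_lt (x + r) (show 0 < s by omega)
    rw [rs, rs, if_pos hx, if_pos this, Nat.mod_add_mod, add_assoc, ← Nat.add_mod_mod, h, add_zero,
      Nat.mod_eq_of_lt hx]
  · rw [rs, rs, if_neg hx, if_neg hx]

theorem neg_mod {s : ℕ} (hs : 0 < s) (r : ℕ) : (r + (s - r % s)) % s = 0 := by
  have := Nat.mod_lt r hs
  rw [← Nat.mod_add_mod, Nat.add_sub_cancel' this.le, Nat.mod_self]

theorem ex3 {H X w o : ℕ} (h : o < H * X * w) :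
    ∃ k x c, k < H ∧ x < X ∧ c < w ∧ o = (k * X + x) * w + c := by
  have hw : 0 < w := Nat.pos_of_ne_zero fun h0 => by simp [h0] at h
  have hX : 0 < X := Nat.pos_of_ne_zero fun h0 => by simp [h0] at h
  exact ⟨o / (w * X), o / w % X, o % w, Nat.div_lt_of_lt_mul (by linarith), Nat.mod_lt _ hX,
    Nat.mod_lt _ hw, ix_eq w X o⟩

theorem ex5 {H X S t C o : ℕ} (h : o < H * X * S * t * C) :
    ∃ k x b y c, k < H ∧ x < X ∧ b < S ∧ y < t ∧ c < C ∧
      o = (((k * X + x) * S + b) * t + y) * C + c := by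
  obtain ⟨m, y, c, hm, hy, hc, rfl⟩ := ex3 h
  obtain ⟨k, x, b, hk, hx, hb, rfl⟩ := ex3 hm
  exact ⟨k, x, b, y, c, hk, hx, hb, hy, hc, rfl⟩

theorem rotS_inv {H C t s : ℕ} {r r' : ℕ → ℕ} (hs : s ≤ t) (h : ∀ k, (r k + r' k) % s = 0) {o : ℕ}
    (ho : o < H * t * C) : rotS C t s r o < H * t * C ∧ rotS C t s r' (rotS C t s r o) = o := by
  obtain ⟨k, x, c, hk, hx, hc, rfl⟩ := ex3 ho
  rw [rotS, rotS, digIx_mk _ hx hc, digIx_mk _ (rs_lt hs hx) hc, rs_rs (h k)]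
  exact ⟨ix_lt hk (rs_lt hs hx) hc, rfl⟩

theorem swap_inv {H t S C o : ℕ} (ho : o < H * t * S * t * C) :
    swapIx t S C o < H * t * S * t * C ∧ swapIx t S C (swapIx t S C o) = o := by
  obtain ⟨k, x, b, y, c, hk, hx, hb, hy, hc, rfl⟩ := ex5 ho
  rw [swapIx_mk hx hb hy hc, swapIx_mk hy hb hx hc]
  exact ⟨ix_lt (ix_lt hk hy hb) hx hc, rfl⟩

theorem pad_lt {H s t w o : ℕ} (hs : s ≤ t) (ho : o < H * s * w) :
    digIx w s t (fun _ x => x) o < H * t * w := by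
  obtain ⟨k, x, c, hk, hx, hc, rfl⟩ := ex3 ho
  rw [digIx_mk _ hx hc]
  exact ix_lt hk (by omega) hc

theorem fw_mk {s S u t C k x b y c : ℕ} (hs : s ≤ t) (hx : x < s) (hb : b < S) (hy : y < t)
    (hc : c < C) : fw s S u t C ((((k * s + x) * S + b) * t + y) * C + c) =
      (((k * t + y) * S + b) * t + (x + u * b) % s) * C + c := by
  have e : ∀ m, ((m * S + b) * t + y) * C + c = m * (S * t * C) + ((b * t + y) * C + c) :=
    fun m => by ring
  rw [fw, e, digIx_mk _ hx (ix_lt hb hy hc), ← e, swapIx_mk (by omega) hb hy hc, rotS,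
    digIx_mk _ (by omega) hc, rs, if_pos hx, Nat.mul_add_mod_self_right, Nat.mod_eq_of_lt hb]

/-- The final position in terms of the position at an intermediate stage. -/
def gen (t C A D i o : ℕ) : ℕ :=
  ((o / (C * t) / (ssL i A D).prod * t + o / C % t) * t ^ i +
    ∑ ι ∈ range i, beta A D ι (o / (C * t) % (ssL i A D).prod) * t ^ ι) * C + o % C

theorem gen_mk {t C A D i k j y c : ℕ} (hj : j < (ssL i A D).prod) (hy : y < t) (hc : c < C) :
    gen t C A D i (((k * (ssL i A D).prod + j) * t + y) * C + c) =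
      ((k * t + y) * t ^ i + ∑ ι ∈ range i, beta A D ι j * t ^ ι) * C + c := by
  obtain ⟨h1, h2, h3⟩ := ix_parts (h := k * (ssL i A D).prod + j) hy hc
  rw [gen, h1, h2, h3, Nat.mul_add_mod_self_right, Nat.mod_eq_of_lt hj, mul_comm k,
    Nat.mul_add_div (by omega), Nat.div_eq_of_lt hj, add_zero]

theorem gen_zero (t C A D o : ℕ) : gen t C A D 0 o = o := by
  simpa [gen] using (ix_eq C t o).symm

theorem gen_top {a ν d A D o : ℕ} (ho : o < (ssL d A D).prod * (2 ^ a * 2 ^ ν)) :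
    gen (2 ^ a) (2 ^ ν) A D d o = crtIx a ν d A D o := by
  have h : o / (2 ^ ν * 2 ^ a) < (ssL d A D).prod := Nat.div_lt_of_lt_mul (by linarith)
  rw [gen, crtIx, Nat.div_eq_of_lt h, Nat.mod_eq_of_lt h, zero_mul, zero_add, mul_comm (2 ^ ν)]

theorem gen_succ {a d A D C H i o : ℕ} (h : CrtPre a d A D) (hi : i < d)
    (ho : o < H * sm A D i * ((ssL i A D).prod * 2 ^ a * C)) :
    gen (2 ^ a) C A D i (fw (sm A D i) (ssL i A D).prod (uu A D i) (2 ^ a) C o) =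
      gen (2 ^ a) C A D (i + 1) o := by
  rw [← mul_assoc, ← mul_assoc] at ho
  obtain ⟨k, x, b, y, c, hk, hx, hb, hy, hc, rfl⟩ := ex5 ho
  rw [fw_mk (h.sm_le i) hx hb hy hc, ← h.beta_stage hi, gen_mk hb (h.beta_lt' _ _) hc,
    show (k * sm A D i + x) * (ssL i A D).prod + b =
      k * (ssL (i + 1) A D).prod + (x * (ssL i A D).prod + b) by rw [ssL_prod_succ]; ring,
    gen_mk (by rw [ssL_prod_succ]; nlinarith) hy hc, sum_range_succ]
  have e : ∑ ι ∈ range i, beta A D ι (x * (ssL i A D).prod + b) * (2 ^ a) ^ ι =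
      ∑ ι ∈ range i, beta A D ι b * (2 ^ a) ^ ι :=
    sum_congr rfl fun ι hι => by rw [beta_mul_add (mem_range.1 hι)]
  rw [e]
  ring

/-! ### Embeddings of arrays -/

/-- The entries of `l` are found in `l'` at the positions `f p`, all other entries are `z`. -/
def Emb (z : List Bool) (f : ℕ → ℕ) (l l' : Arr) : Prop :=
  (∀ p < l.length, f p < l'.length ∧ l'.getD (f p) z = l.getD p z) ∧
    ∀ o, (∀ p < l.length, f p ≠ o) → l'.getD o z = z

theorem Emb.refl (z : List Bool) (l : Arr) : Emb z (fun p => p) l l :=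
  ⟨fun _ hp => ⟨hp, rfl⟩, fun o ho => List.getD_eq_default _ _ (not_lt.1 fun h => ho o h rfl)⟩

theorem Emb.trans {z : List Bool} {f f' : ℕ → ℕ} {l l' l'' : Arr} (h : Emb z f l l')
    (h' : Emb z f' l' l'') : Emb z (fun p => f' (f p)) l l'' := by
  refine ⟨fun p hp => ?_, fun o ho => ?_⟩
  · obtain ⟨h1, h2⟩ := h.1 p hp
    exact ⟨(h'.1 _ h1).1, (h'.1 _ h1).2.trans h2⟩
  · by_cases hc : ∀ q < l'.length, f' q ≠ o
    · exact h'.2 o hc
    · push Not at hc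
      obtain ⟨q, hq, rfl⟩ := hc
      rw [(h'.1 q hq).2]
      exact h.2 q fun p hp e => ho p hp (congrArg f' e)

theorem emb_pull {f ψ : ℕ → ℕ} {n : ℕ} {l : Arr} (h1 : ∀ p < l.length, f p < n ∧ ψ (f p) = p)
    (h2 : ∀ o < n, ψ o < l.length → f (ψ o) = o) : Emb (zer l) f l (pull n ψ l) := by
  refine ⟨fun p hp => ?_, fun o ho => ?_⟩
  · rw [length_pull, pull, getD_arr _ _ (h1 p hp).1, (h1 p hp).2]
    exact ⟨(h1 p hp).1, rfl⟩
  · by_cases hn : o < n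
    · rw [pull, getD_arr _ _ hn]
      exact List.getD_eq_default _ _ (not_lt.1 fun h => ho _ h (h2 o hn h))
    · exact List.getD_eq_default _ _ (by rw [length_pull]; omega)

theorem pull_ne {n : ℕ} (hn : 0 < n) (ψ : ℕ → ℕ) (l : Arr) : pull n ψ l ≠ [] := fun h => by
  have := congrArg List.length h
  simp at this
  omega

theorem zer_len {P : ℕ} {l : Arr} (h : Wf P l) (hl : l ≠ []) : (zer l).length = P := by
  rw [h.zer_eq hl, List.length_replicate]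

/-! ### The stages -/

/-- Parameters of a stage. -/
abbrev Q : Type := ℕ × ℕ × ℕ × ℕ × ℕ × ℕ

/-- The length of the padded array. -/
def nb (q : Q) : ℕ := q.1 * q.2.2.2.2.1 * q.2.2.1 * q.2.2.2.2.1 * q.2.2.2.2.2

def stB (x : Q × Arr) : Arr :=
  pull (x.1.1 * x.1.2.1 * (x.1.2.2.1 * x.1.2.2.2.2.1 * x.1.2.2.2.2.2))
    (fw x.1.2.1 x.1.2.2.1 x.1.2.2.2.1 x.1.2.2.2.2.1 x.1.2.2.2.2.2) x.2

def padF (H s t w : ℕ) (l : Arr) : Arr :=
  pull (H * t * w) (fun i => if i / w % t < s then digIx w t s (fun _ x => x) i else l.length) l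

def stF (x : Q × Arr) : Arr :=
  pull (nb x.1) (rotS x.1.2.2.2.2.2 x.1.2.2.2.2.1 x.1.2.1
      fun h => x.1.2.1 - x.1.2.2.2.1 * (h % x.1.2.2.1) % x.1.2.1)
    (pull (nb x.1) (swapIx x.1.2.2.2.2.1 x.1.2.2.1 x.1.2.2.2.2.2)
      (padF x.1.1 x.1.2.1 x.1.2.2.2.2.1 (x.1.2.2.1 * x.1.2.2.2.2.1 * x.1.2.2.2.2.2) x.2))

theorem fw_lt {H s S u t C o : ℕ} (hs : s ≤ t) (ho : o < H * s * (S * t * C)) :
    fw s S u t C o < H * t * S * t * C := by
  rw [← mul_assoc, ← mul_assoc] at ho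
  obtain ⟨k, x, b, y, c, hk, hx, hb, hy, hc, rfl⟩ := ex5 ho
  rw [fw_mk hs hx hb hy hc]
  exact ix_lt (ix_lt hk hy hb) ((Nat.mod_lt _ (by omega)).trans_le hs) hc

theorem emb_stF {H s S u t C P : ℕ} {l : Arr} (hs : s ≤ t) (hw : Wf P l) (hl : l ≠ [])
    (hlen : l.length = H * s * (S * t * C)) :
    Emb (List.replicate P false) (fw s S u t C) l (stF ((H, s, S, u, t, C), l)) ∧
      Wf P (stF ((H, s, S, u, t, C), l)) := by
  have h0 : 0 < H * s * (S * t * C) := hlen ▸ List.length_pos_iff.2 hl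
  have hs0 : 0 < s := Nat.pos_of_ne_zero fun h => by simp [h] at h0
  have h1 : 0 < H * t * (S * t * C) :=
    h0.trans_le (Nat.mul_le_mul_right _ (Nat.mul_le_mul_left _ hs))
  have e : H * t * (S * t * C) = H * t * S * t * C := by ring
  have a1 : Emb (zer l) (digIx (S * t * C) s t fun _ x => x) l (padF H s t (S * t * C) l) := by
    refine emb_pull (fun p hp => ?_) fun o ho h => ?_
    · rw [hlen] at hp
      refine ⟨pad_lt hs hp, ?_⟩
      obtain ⟨k, x, c, hk, hx, hc, rfl⟩ := ex3 hp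
      rw [digIx_mk _ hx hc, (ix_parts (hx.trans_le hs) hc).2.1, if_pos hx,
        digIx_mk _ (hx.trans_le hs) hc]
    · obtain ⟨k, x, c, hk, hx, hc, rfl⟩ := ex3 ho
      rw [(ix_parts hx hc).2.1] at h ⊢
      by_cases hxs : x < s
      · rw [if_pos hxs, digIx_mk _ hx hc, digIx_mk _ hxs hc]
      · rw [if_neg hxs] at h
        omega
  have w1 : Wf P (padF H s t (S * t * C) l) := wf_pull hw hl _ _
  have n1 : padF H s t (S * t * C) l ≠ [] := pull_ne h1 _ _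
  have l1 : (padF H s t (S * t * C) l).length = H * t * S * t * C := by rw [padF, length_pull, e]
  have a2 := emb_pull (l := padF H s t (S * t * C) l) (f := swapIx t S C) (ψ := swapIx t S C)
    (n := H * t * S * t * C) (fun p hp => swap_inv (l1 ▸ hp)) fun o ho _ => (swap_inv ho).2
  have w2 := wf_pull w1 n1 (H * t * S * t * C) (swapIx t S C)
  have n2 := pull_ne (e ▸ h1) (swapIx t S C) (padF H s t (S * t * C) l)
  have a3 := emb_pull (l := pull (H * t * S * t * C) (swapIx t S C) (padF H s t (S * t * C) l))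
    (f := rotS C t s fun h => u * (h % S)) (ψ := rotS C t s fun h => s - u * (h % S) % s)
    (n := H * t * S * t * C)
    (fun p hp => rotS_inv hs (fun k => neg_mod hs0 _) (by simpa using hp))
    fun o ho _ => (rotS_inv hs (fun k => by rw [add_comm]; exact neg_mod hs0 _) ho).2
  rw [hw.zer_eq hl] at a1
  rw [w1.zer_eq n1] at a2
  rw [w2.zer_eq n2] at a3
  exact ⟨(a1.trans a2).trans a3, wf_pull w2 n2 _ _⟩

theorem oc_rotS {π : Type} [Enc π] {l : α → Arr} {p : α → π} {H w X s : π → ℕ} {r : π → ℕ → ℕ}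
    (hl : Oc g 𝒜 u l) (hp : Sm g 𝒜 p) (hH : TC 0 H) (hw : TC 0 w) (hX : TC 0 X) (hs : TC 0 s)
    (hr : TC 0 fun q : π × ℕ => r q.1 q.2) {N P : α → ℕ} (hF : Fit 𝒜 N P)
    (h : ∀ a, 𝒜.D a → Wf (P a) (l a) ∧ l a ≠ [] ∧ (l a).length ≤ N a ∧
      (l a).length = H (p a) * X (p a) * w (p a) ∧ s (p a) ≤ X (p a)) :
    Oc g 𝒜 u fun a => pull (H (p a) * X (p a) * w (p a))
      (rotS (w (p a)) (X (p a)) (s (p a)) (r (p a))) (l a) := by
  have hr' : TC 0 fun q : π × ℕ × ℕ => r q.1 q.2.1 :=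
    TC.comp (g := fun q : π × ℕ × ℕ => (q.1, q.2.1)) hr (by fun_prop)
  have hφ : TC 0 fun q : π × ℕ × ℕ =>
      bif nlt q.2.2 (s q.1) then (q.2.2 + r q.1 q.2.1) % s q.1 else q.2.2 := by fun_prop
  have hκ : TC 0 fun q : π × ℕ × ℕ => bif nlt q.2.2 (s q.1) then
      (bif nlt (q.2.2 + r q.1 q.2.1 % s q.1) (s q.1) then 0 else 1) else 2 := by fun_prop
  refine Oc.congr (oc_dig (φ := fun q k x => rs (s q) (r q k) x)
    (κ := fun q k x => if x < s q then (if x + r q k % s q < s q then 0 else 1) else 2) 3 hl hp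
    hH hw hX hX (hφ.of_eq fun q => by simp only [nlt, Bool.cond_decide, rs])
    (hκ.of_eq fun q => by simp only [nlt, Bool.cond_decide]) hF fun a ha => ?_) fun a ha => ?_
  · obtain ⟨h1, h2, h3, h4, h5⟩ := h a ha
    refine ⟨h1, h2, h3, h4, h4 ▸ h3, fun k _ => ⟨fun x hx _ => rs_lt h5 hx,
      fun x x' h6 h7 h8 _ => ?_⟩⟩
    unfold rs
    by_cases e3 : x' < s (p a)
    · have e4 : x < s (p a) := by omega
      have e0 : r (p a) k % s (p a) < s (p a) := Nat.mod_lt _ (by omega)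
      rw [if_pos e3, if_pos e4] at h8 ⊢
      rw [← Nat.add_mod_mod x, ← Nat.add_mod_mod x']
      generalize r (p a) k % s (p a) = t at *
      by_cases e1 : x + t < s (p a) <;> by_cases e2 : x' + t < s (p a)
      · rw [Nat.mod_eq_of_lt e1, Nat.mod_eq_of_lt e2]; omega
      · simp [e1, e2] at h8
      · simp [e1, e2] at h8
      · rw [Nat.mod_eq_sub_mod (not_lt.1 e1), Nat.mod_eq_sub_mod (not_lt.1 e2),
          Nat.mod_eq_of_lt (by omega), Nat.mod_eq_of_lt (by omega)]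
        omega
    · rw [if_neg e3] at h8 ⊢
      by_cases e4 : x < s (p a)
      · rw [if_pos e4] at h8
        split_ifs at h8
        omega
      · rw [if_neg e4]
        exact h6
  · refine pull_congr fun o _ => Or.inl ?_
    rw [if_pos (by split_ifs <;> omega)]
    rfl

/-- The ambient of one stage. -/
def amb (w1 : ℕ) (τ : ℕ → ℕ) (hτ : ∀ e, 1 ≤ τ e) (len : Q → ℕ) : Amb (Q × Arr) where
  D x := Wf (zer x.2).length x.2 ∧ x.2 ≠ [] ∧ x.2.length = len x.1 ∧ len x.1 ≤ nb x.1 ∧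
    x.1.2.1 ≤ x.1.2.2.2.2.1 ∧ 0 < x.1.2.1 ∧ 2 ^ (w1 * x.1.2.2.2.2.1.size.size) ∣ x.1.2.2.2.2.2
  z x := nb x.1 * τ x.1.2.2.2.2.1.size * ((zer x.2).length + 1)
  n x := nb x.1 * τ x.1.2.2.2.2.1.size
  l x := sz x.1 + (nb x.1 * τ x.1.2.2.2.2.1.size).size
  ok := ⟨4, fun x hx => by
    have h1 := hx.1.sz_le
    have h2 : 0 < x.2.length := List.length_pos_iff.2 hx.2.1
    have h3 : x.2.length ≤ nb x.1 * τ x.1.2.2.2.2.1.size :=
      (hx.2.2.1.trans_le hx.2.2.2.1).trans (Nat.le_mul_of_pos_right _ (hτ _))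
    rw [sz_prod, wt]
    generalize nb x.1 * τ x.1.2.2.2.2.1.size = n at h3
    have h4 : sz x.1 + n.size + 2 ≤ (sz x.1 + n.size + 2) ^ 4 :=
      Nat.le_self_pow (by norm_num) _
    have h5 := Nat.mul_le_mul (h2.trans_le h3) h4
    have h6 := Nat.mul_le_mul_right (4 * (zer x.2).length + 2) h3
    nlinarith⟩

variable {hτ : ∀ e, 1 ≤ τ e} {len : Q → ℕ}

theorem amb_pos {x : Q × Arr} (hx : (amb w1 τ hτ len).D x) : 0 < nb x.1 :=
  (List.length_pos_iff.2 hx.2.1).trans_le (hx.2.2.1.trans_le hx.2.2.2.1)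

theorem amb_fit : Fit (amb w1 τ hτ len) (fun x => nb x.1 * τ x.1.2.2.2.2.1.size)
    fun x => (zer x.2).length := by
  refine ⟨2, fun x hx => ?_⟩
  have h1 : 0 < nb x.1 * τ x.1.2.2.2.2.1.size := Nat.mul_pos (amb_pos hx) (hτ _)
  simp only [amb]
  generalize nb x.1 * τ x.1.2.2.2.2.1.size = n at h1
  refine ⟨by nlinarith, by omega, (Nat.lt_size_self n).trans_le (Nat.pow_le_pow_right two_pos ?_)⟩
  exact le_trans (by omega) (Nat.le_self_pow two_ne_zero _)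

theorem amb_fit' : Fit (amb w1 τ hτ len) (fun x => nb x.1) fun x => (zer x.2).length :=
  amb_fit.mono 1 fun x _ => ⟨by
    have := Nat.le_mul_of_pos_right (nb x.1) (hτ x.1.2.2.2.2.1.size)
    omega, by omega⟩

theorem amb_sm : Sm g (amb w1 τ hτ len) fun x => x.1 :=
  ⟨Cl.fst Cl.id, 1, fun x hx => ⟨Nat.mul_pos (amb_pos hx) (hτ _), by
    simp only [amb, pow_one]
    omega⟩⟩

theorem amb_swap (hS : SwapOK w1 τ) {l : Q × Arr → Arr} (hl : Cl g (amb w1 τ hτ len) l)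
    (h : ∀ x, (amb w1 τ hτ len).D x → Wf (zer x.2).length (l x) ∧ (l x).length = nb x.1) :
    Cl g (amb w1 τ hτ len) fun x =>
      pull (nb x.1) (swapIx x.1.2.2.2.2.1 x.1.2.2.1 x.1.2.2.2.2.2) (l x) := by
  have hK : Sm g (amb w1 τ hτ len) fun x => x.1.2.2.2.2.1 :=
    amb_sm.tc (F := fun q : Q => q.2.2.2.2.1) (by fun_prop)
  have hB : Sm g (amb w1 τ hτ len) fun x => x.1.2.2.1 :=
    amb_sm.tc (F := fun q : Q => q.2.2.1) (by fun_prop)
  have hC : Sm g (amb w1 τ hτ len) fun x => x.1.2.2.2.2.2 :=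
    amb_sm.tc (F := fun q : Q => q.2.2.2.2.2) (by fun_prop)
  refine Oc.congr (hS (u := u0) (N := fun x => nb x.1) hl hK hB hC amb_fit fun x hx => ?_)
    fun x hx => by rw [(h x hx).2]
  refine ⟨(h x hx).1, List.length_pos_iff.1 ((h x hx).2 ▸ amb_pos hx), (h x hx).2.le, ?_,
    hx.2.2.2.2.2.2⟩
  rw [(h x hx).2]
  exact ⟨x.1.1, by rw [nb]; ring⟩

theorem cl_stF (hS : SwapOK w1 τ) :
    Cl g (amb w1 τ hτ fun q => q.1 * q.2.1 * (q.2.2.1 * q.2.2.2.2.1 * q.2.2.2.2.2)) stF := by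
  have e : ∀ q : Q, q.1 * q.2.2.2.2.1 * (q.2.2.1 * q.2.2.2.2.1 * q.2.2.2.2.2) = nb q :=
    fun q => by rw [nb]; ring
  have hκ : TC 0 fun q : Q × ℕ × ℕ => bif nlt q.2.2 q.1.2.1 then 0 else 1 := by fun_prop
  have h1 : Cl g (amb w1 τ hτ fun q => q.1 * q.2.1 * (q.2.2.1 * q.2.2.2.2.1 * q.2.2.2.2.2))
      fun x => padF x.1.1 x.1.2.1 x.1.2.2.2.2.1 (x.1.2.2.1 * x.1.2.2.2.2.1 * x.1.2.2.2.2.2) x.2 := by
    refine Oc.congr (oc_dig (H := fun q : Q => q.1)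
      (w := fun q => q.2.2.1 * q.2.2.2.2.1 * q.2.2.2.2.2) (X := fun q => q.2.2.2.2.1)
      (X' := fun q => q.2.1) (φ := fun _ _ x => x) (κ := fun q _ x => if x < q.2.1 then 0 else 1) 1
      (Cl.snd Cl.id) amb_sm (by fun_prop) (by fun_prop) (by fun_prop) (by fun_prop) (by fun_prop)
      (hκ.of_eq fun q => by simp only [nlt, Bool.cond_decide]) amb_fit' fun x hx => ?_)
      fun x _ => ?_
    · refine ⟨hx.1, hx.2.1, hx.2.2.1.trans_le hx.2.2.2.1, hx.2.2.1, (e _).le,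
        fun k _ => ⟨fun y _ hy => ?_, fun y y' h _ _ _ => h⟩⟩
      by_contra hc
      simp [hc] at hy
    · refine pull_congr fun o _ => Or.inl ?_
      split_ifs <;> simp_all
  have h2 := amb_swap hS h1 fun x hx => ⟨wf_pull hx.1 hx.2.1 _ _, by rw [padF, length_pull, e]⟩
  refine oc_rotS (H := fun q : Q => q.1 * q.2.2.2.2.1 * q.2.2.1) (w := fun q => q.2.2.2.2.2)
    (X := fun q => q.2.2.2.2.1) (s := fun q => q.2.1)
    (r := fun q h => q.2.1 - q.2.2.2.1 * (h % q.2.2.1) % q.2.1) h2 amb_sm (by fun_prop)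
    (by fun_prop) (by fun_prop) (by fun_prop) (by fun_prop) amb_fit' fun x hx => ?_
  exact ⟨wf_pull (wf_pull hx.1 hx.2.1 _ _) (pull_ne (e _ ▸ amb_pos hx) _ _) _ _,
    pull_ne (amb_pos hx) _ _, (length_pull _ _ _).le, length_pull _ _ _, hx.2.2.2.2.1⟩

theorem cl_stB (hS : SwapOK w1 τ) : Cl g (amb w1 τ hτ nb) stB := by
  have e : ∀ q : Q, q.1 * q.2.2.2.2.1 * (q.2.2.1 * q.2.2.2.2.1 * q.2.2.2.2.2) = nb q :=
    fun q => by rw [nb]; ring
  have h1 : Cl g (amb w1 τ hτ nb) fun x => pull (nb x.1) (rotS x.1.2.2.2.2.2 x.1.2.2.2.2.1 x.1.2.1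
      fun h => x.1.2.2.2.1 * (h % x.1.2.2.1)) x.2 :=
    oc_rotS (H := fun q : Q => q.1 * q.2.2.2.2.1 * q.2.2.1) (w := fun q => q.2.2.2.2.2)
      (X := fun q => q.2.2.2.2.1) (s := fun q => q.2.1)
      (r := fun q h => q.2.2.2.1 * (h % q.2.2.1)) (Cl.snd Cl.id) amb_sm (by fun_prop)
      (by fun_prop) (by fun_prop) (by fun_prop) (by fun_prop) amb_fit' fun x hx =>
      ⟨hx.1, hx.2.1, hx.2.2.1.le, hx.2.2.1, hx.2.2.2.2.1⟩
  have h2 := amb_swap hS h1 fun x hx => ⟨wf_pull hx.1 hx.2.1 _ _, length_pull _ _ _⟩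
  refine Oc.congr (oc_dig (H := fun q : Q => q.1)
    (w := fun q => q.2.2.1 * q.2.2.2.2.1 * q.2.2.2.2.2) (X := fun q => q.2.1)
    (X' := fun q => q.2.2.2.2.1) (φ := fun _ _ x => x) (κ := fun _ _ _ => 0) 1
    h2 amb_sm (by fun_prop) (by fun_prop) (by fun_prop) (by fun_prop) (by fun_prop)
    (by fun_prop) amb_fit' fun x hx => ?_) fun x hx => ?_
  · refine ⟨wf_pull (wf_pull hx.1 hx.2.1 _ _) (pull_ne (amb_pos hx) _ _) _ _,
      pull_ne (amb_pos hx) _ _, (length_pull _ _ _).le, (length_pull _ _ _).trans (e _).symm, ?_,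
      fun k _ => ⟨fun y hy _ => hy.trans_le hx.2.2.2.2.1, fun y y' h _ _ _ => h⟩⟩
    rw [← e]
    exact Nat.mul_le_mul_right _ (Nat.mul_le_mul_left _ hx.2.2.2.2.1)
  · simp only [Nat.lt_one_iff, if_true]
    rw [pull_pull _ fun o ho => (pad_lt hx.2.2.2.2.1 ho).trans_eq (e _),
      pull_pull (n' := nb x.1) _ fun o ho =>
        (swap_inv ((pad_lt hx.2.2.2.2.1 ho).trans_eq (e _))).1]
    rfl

theorem foldl_inv {β σ : Type} {F : β × σ → σ} (I : ℕ → σ → Prop) : ∀ (L : List β) (s : σ),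
    I 0 s → (∀ (i : ℕ) (hi : i < L.length) (t : σ), I i t → I (i + 1) (F (L[i], t))) →
      I L.length (L.foldl (fun t x => F (x, t)) s) := by
  intro L
  induction L generalizing I with
  | nil => exact fun s h _ => h
  | cons x L ih =>
    exact fun s h0 h => ih (fun i => I (i + 1)) _ (h 0 (by simp) s h0)
      fun i hi t ht => h (i + 1) (by simpa using hi) t ht

theorem wt_le {K z z' n n' l l' : ℕ} (hz : z ≤ z') (hn : n ≤ n') (hl : l ≤ l') :
    wt K z n l ≤ wt K z' n' l' :=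
  Nat.add_le_add (Nat.mul_le_mul_left _ (by omega))
    (Nat.mul_le_mul hn (Nat.pow_le_pow_left (by omega) _))

theorem oc_fold {F : Q × Arr → Arr} (hF : Cl g (amb w1 τ hτ len) F) {L : α → List Q}
    (hL : Sm g 𝒜 L) {l : α → Arr} (hl : Oc g 𝒜 u l) {a d N P : α → ℕ}
    (hfit : Fit 𝒜 (fun p => N p * ((d p + 1) * τ (a p + 1))) P) (I : α → ℕ → Arr → Prop)
    (h0 : ∀ p, 𝒜.D p → (L p).length = d p ∧ I p 0 (l p) ∧ 0 < N p)
    (h : ∀ p, 𝒜.D p → ∀ (i : ℕ) (hi : i < (L p).length) (t : Arr), I p i t →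
      (amb w1 τ hτ len).D ((L p)[i], t) ∧ I p (i + 1) (F ((L p)[i], t)) ∧ (zer t).length = P p ∧
        nb (L p)[i] ≤ N p ∧ (L p)[i].2.2.2.2.1 = 2 ^ a p) {R : α → Arr}
    (hR : ∀ p, 𝒜.D p → ∀ t, I p (d p) t → R p = t) : Oc g 𝒜 u R := by
  obtain ⟨c, hc⟩ := id hfit
  obtain ⟨c', hc'⟩ := hL.2
  have hd : Dom 𝒜 fun K p => wt K (d p * (N p * τ (a p + 1) * (P p + 1) + 1))
      (d p * (N p * τ (a p + 1))) (sz (L p) + (N p * τ (a p + 1)).size) := by
    refine Dom.of ((Bnd.mul 2 hfit.bnd).mono fun p hp => ?_) (c' + c + 1) fun p hp => ⟨?_, ?_⟩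
    · have h1 : 1 ≤ N p * τ (a p + 1) * (P p + 1) :=
        Nat.mul_pos (Nat.mul_pos (h0 p hp).2.2 (hτ _)) (Nat.succ_pos _)
      have h2 := Nat.mul_le_mul_left (d p) h1
      nlinarith [Nat.zero_le (N p * τ (a p + 1) * (P p + 1))]
    · refine le_trans ?_ ((hc p hp).2.1.trans (Nat.mul_le_mul_right _ (by omega)))
      nlinarith [Nat.zero_le (N p * τ (a p + 1))]
    · refine (Nat.add_le_add (hc' p hp).2 (Nat.size_le.2 (lt_of_le_of_lt ?_ (hc p hp).2.2))).trans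
        (pw_add _ _ _)
      exact Nat.mul_le_mul_left _ (Nat.le_mul_of_pos_left _ (Nat.succ_pos _))
  refine Oc.congr ((Oc.foldl hF hL.1 hl I (fun K p _ => wt K (N p * τ (a p + 1) * (P p + 1))
    (N p * τ (a p + 1)) (sz (L p) + (N p * τ (a p + 1)).size)) (fun _ _ _ => 0)
    (fun p hp => (h0 p hp).2.1) (fun p hp i hi t ht => ?_)
    fun K => (hd K).mono fun p hp => ?_).mono fun _ _ _ => by simp) fun p hp => ?_
  · obtain ⟨h1, h2, h3, h4, h5⟩ := h p hp i hi t ht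
    refine ⟨h1, h2, fun K => ?_, fun _ => le_rfl⟩
    have h6 := Nat.mul_le_mul_right (τ (a p + 1)) h4
    simp only [Amb.wt, amb, h3, h5, Nat.size_pow]
    exact wt_le (Nat.mul_le_mul_right _ h6) h6
      (Nat.add_le_add (sz_mem (List.getElem_mem hi)) (Nat.size_le_size h6))
  · simp only [sum_const, card_range, (h0 p hp).1, smul_eq_mul, wt]
    nlinarith
  · refine hR p hp _ ?_
    rw [← (h0 p hp).1]
    exact foldl_inv (I p) _ _ (h0 p hp).2.1 fun i hi t ht => (h p hp i hi t ht).2.1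

theorem sm_two_pow {e N P : α → ℕ} (he : Sm g 𝒜 e) (hF : Fit 𝒜 N P)
    (h : ∀ p, 𝒜.D p → 2 ^ e p ≤ N p) : Sm g 𝒜 fun p => 2 ^ e p := by
  have h1 : Cl g 𝒜 fun p => List.replicate (e p) false :=
    Oc.replicate (Cl.const false) he (hF.mono 3 fun p hp =>
      ⟨by have := (Nat.lt_two_pow_self (n := e p)).trans_le (h p hp); omega,
        by have := sz_bool false; omega⟩)
  obtain ⟨c, hc⟩ := id hF
  obtain ⟨c', hc'⟩ := he.2
  have h2 : Sm g 𝒜 fun p => List.replicate (e p) false := ⟨h1, c + 2, fun p hp => ⟨(hc' p hp).1, by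
    have h3 := (Nat.pow_lt_pow_iff_right one_lt_two).1 ((h p hp).trans_lt (hc p hp).2.2)
    have h4 := sz_bools (List.replicate (e p) false)
    have h5 : 2 ^ 2 ≤ (𝒜.l p + 2) ^ 2 := Nat.pow_le_pow_left (by omega) _
    have h6 := Nat.mul_le_mul_left ((𝒜.l p + 2) ^ c) h5
    rw [List.length_replicate] at h4
    rw [pow_add]
    exact h4.trans (by omega)⟩⟩
  exact (h2.tc (F := fun l => 2 ^ l.length) (by fun_prop)).congr fun p _ => by simp

/-- The parameters of the stage `i`. -/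
def sq (a ν d A D i : ℕ) : Q :=
  ((2 ^ a) ^ (d - 1 - i), sm A D i, (ssL i A D).prod, uu A D i, 2 ^ a, 2 ^ ν)

theorem sm_stages {a ν d A D N P : α → ℕ} (ha : Sm g 𝒜 a) (hν : Sm g 𝒜 ν) (hd : Sm g 𝒜 d)
    (hA : Sm g 𝒜 A) (hD : Sm g 𝒜 D) (hF : Fit 𝒜 N P)
    (h : ∀ p, 𝒜.D p → 2 ^ (ν p + a p * (d p + 1)) ≤ N p ∧ 0 < a p) :
    Sm g 𝒜 fun p => (List.range (d p)).map (sq (a p) (ν p) (d p) (A p) (D p)) := by
  have hM := sm_two_pow ((hν.pair (ha.pair hd)).tc (F := fun q => q.1 + q.2.1 * (q.2.2 + 1))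
    (by fun_prop)) hF fun p hp => (h p hp).1
  have ht : TC 0 fun q : ℕ × ℕ × ℕ × ℕ × ℕ × ℕ => (rg q.1 q.2.2.2.1).map fun i =>
      ((pw q.1 (pw q.1 2 q.2.1) (q.2.2.2.1 - 1 - i), 1 + (q.2.2.2.2.1 - i) * q.2.2.2.2.2,
        ((rg q.1 i).map fun l => 1 + (q.2.2.2.2.1 - l) * q.2.2.2.2.2).prod,
        ((rg q.1 i).map fun l => q.2.2.2.2.2 / (i - l) *
          ((q.2.2.2.2.1 - i) * (q.2.2.2.2.1 - i))).prod,
        pw q.1 2 q.2.1, pw q.1 2 q.2.2.1) : Q) := by fun_prop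
  refine ((hM.pair (ha.pair (hν.pair (hd.pair (hA.pair hD))))).tc ht).congr fun p hp => ?_
  have h1 : a p * 1 ≤ a p * (d p + 1) := Nat.mul_le_mul_left _ (by omega)
  have h2 : 1 * (d p + 1) ≤ a p * (d p + 1) := Nat.mul_le_mul_right _ (h p hp).2
  have hs : (2 ^ (ν p + a p * (d p + 1))).size = ν p + a p * (d p + 1) + 1 := Nat.size_pow
  simp only
  rw [rg_eq (by omega), pw_eq (e := a p) (by omega), pw_eq (e := ν p) (by omega)]
  refine List.map_congr_left fun i hi => ?_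
  have := List.mem_range.1 hi
  rw [rg_eq (by omega), pw_eq (by omega), sq, uu]
  simp only [pow_two]
  rfl

/-- The length of the array when `k` moduli are left. -/
def ln (a ν d A D k : ℕ) : ℕ := (2 ^ a) ^ (d - k) * (ssL k A D).prod * 2 ^ a * 2 ^ ν

theorem ln_pos (a ν d A D k : ℕ) : 0 < ln a ν d A D k := by
  have := ssL_prod_pos k A D
  unfold ln
  positivity

theorem nb_sq {a ν d A D i : ℕ} (hi : i < d) : nb (sq a ν d A D i) = ln a ν d A D i := by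
  rw [ln, show d - i = d - 1 - i + 1 by omega, pow_succ]
  rfl

theorem ln_succ (a ν d A D i : ℕ) : ln a ν d A D (i + 1) =
    (2 ^ a) ^ (d - 1 - i) * sm A D i * ((ssL i A D).prod * 2 ^ a * 2 ^ ν) := by
  rw [ln, ssL_prod_succ, show d - (i + 1) = d - 1 - i by omega]
  ring

theorem ln_le {a ν d A D k : ℕ} (h : CrtPre a d A D) (hk : k ≤ d) :
    ln a ν d A D k ≤ 2 ^ (ν + a * (d + 1)) := by
  obtain ⟨m, rfl⟩ := Nat.exists_eq_add_of_le hk
  rw [ln, Nat.add_sub_cancel_left, show 2 ^ (ν + a * (k + m + 1)) =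
    (2 ^ a) ^ m * (2 ^ a) ^ k * 2 ^ a * 2 ^ ν by ring]
  exact Nat.mul_le_mul_right _ (Nat.mul_le_mul_right _ (Nat.mul_le_mul_left _ (h.prod_le' k)))

theorem ln_zero (a ν d A D : ℕ) : ln a ν d A D 0 = 2 ^ (ν + a * (d + 1)) := by
  rw [ln, ssL_prod_zero, Nat.sub_zero]
  ring

theorem ln_top (a ν d A D : ℕ) : ln a ν d A D d = (ssL d A D).prod * (2 ^ a * 2 ^ ν) := by
  rw [ln, Nat.sub_self]
  ring

theorem fit_N (hτ : ∀ e, 1 ≤ τ e) {a d N P : α → ℕ}
    (hF : Fit 𝒜 (fun p => N p * ((d p + 1) * τ (a p + 1))) P) : Fit 𝒜 N P :=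
  hF.mono 1 fun p _ => ⟨by
    have := Nat.le_mul_of_pos_right (N p) (Nat.mul_pos (Nat.add_one_pos (d p)) (hτ (a p + 1)))
    omega, by omega⟩

end CrtAux

open CrtAux

theorem oc_crt (hS : SwapOK w1 τ) (hτ : ∀ e, 1 ≤ τ e) {l : α → Arr} {a ν d A D N P : α → ℕ}
    (hl : Oc g 𝒜 u l) (ha : Sm g 𝒜 a) (hν : Sm g 𝒜 ν) (hd : Sm g 𝒜 d) (hA : Sm g 𝒜 A)
    (hD : Sm g 𝒜 D) (hF : Fit 𝒜 (fun p => N p * ((d p + 1) * τ (a p + 1))) P)
    (h : ∀ p, 𝒜.D p → Wf (P p) (l p) ∧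
      (l p).length = (ssL (d p) (A p) (D p)).prod * (2 ^ a p * 2 ^ ν p) ∧
      2 ^ (ν p + a p * (d p + 1)) ≤ N p ∧ 0 < a p ∧ CrtPre (a p) (d p) (A p) (D p) ∧
      w1 * (a p + 1).size ≤ ν p) :
    Oc g 𝒜 u fun p => pull (2 ^ (ν p + a p * (d p + 1)))
      (crtInv (a p) (ν p) (d p) (A p) (D p)) (l p) := by
  have hL := (sm_stages ha hν hd hA hD (fit_N hτ hF) fun p hp =>
    ⟨(h p hp).2.2.1, (h p hp).2.2.2.1⟩).tc (F := fun L => L.reverse) (by fun_prop)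
  refine oc_fold (hτ := hτ) (cl_stF hS) hL hl hF (fun p i t => Wf (P p) t ∧
    t.length = ln (a p) (ν p) (d p) (A p) (D p) (d p - i) ∧
    ∃ f, Emb (List.replicate (P p) false) f (l p) t ∧ ∀ o < (l p).length,
      gen (2 ^ a p) (2 ^ ν p) (A p) (D p) (d p - i) (f o) = crtIx (a p) (ν p) (d p) (A p) (D p) o)
    (fun p hp => ?_) (fun p hp i hi t ht => ?_) fun p hp t ht => ?_
  · obtain ⟨h1, h2, h3, -⟩ := h p hp
    exact ⟨by simp, ⟨h1, by rw [Nat.sub_zero, ln_top, h2], _, Emb.refl _ _,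
      fun o ho => gen_top (h2 ▸ ho)⟩, (Nat.two_pow_pos _).trans_le h3⟩
  · obtain ⟨-, -, h3, -, h5, h6⟩ := h p hp
    obtain ⟨t1, t2, f, t3, t4⟩ := ht
    have hi' : i < d p := by simpa using hi
    obtain ⟨k, hk⟩ : ∃ k, d p - i = k + 1 := ⟨d p - i - 1, by omega⟩
    have e : ((List.range (d p)).map (sq (a p) (ν p) (d p) (A p) (D p))).reverse[i] =
        sq (a p) (ν p) (d p) (A p) (D p) k := by
      simp only [List.getElem_reverse, List.getElem_map, List.getElem_range, List.length_map,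
        List.length_range]
      congr 1
      omega
    have hk' : k < d p := by omega
    rw [e, show d p - (i + 1) = k by omega]
    rw [hk] at t2 t4
    have tn : t ≠ [] := List.length_pos_iff.1 (t2 ▸ ln_pos _ _ _ _ _ _)
    rw [ln_succ] at t2
    obtain ⟨e1, e2⟩ := emb_stF (u := uu (A p) (D p) k) (h5.sm_le k) t1 tn t2
    refine ⟨⟨(zer_len t1 tn).symm ▸ t1, tn, t2, ?_, h5.sm_le k, sm_pos _ _ _, ?_⟩,
      ⟨e2, (length_pull _ _ _).trans (nb_sq hk'), _, t3.trans e1, fun o ho => ?_⟩, zer_len t1 tn,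
      (nb_sq hk').trans_le ((ln_le h5 hk'.le).trans h3), rfl⟩
    · show _ ≤ _ * 2 ^ a p * _ * _ * _
      rw [mul_assoc (_ * 2 ^ a p), mul_assoc (_ * 2 ^ a p)]
      exact Nat.mul_le_mul_right _ (Nat.mul_le_mul_left _ (h5.sm_le k))
    · show 2 ^ (w1 * (2 ^ a p).size.size) ∣ 2 ^ ν p
      rw [Nat.size_pow]
      exact pow_dvd_pow _ h6
    · rw [gen_succ h5 hk' (t2 ▸ (t3.1 o ho).1), t4 o ho]
  · obtain ⟨h1, h2, -, -, h5, -⟩ := h p hp
    obtain ⟨t1, t2, f, t3, t4⟩ := ht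
    rw [Nat.sub_self] at t2 t4
    rw [ln_zero] at t2
    simp only [gen_zero] at t4
    have hn : l p ≠ [] := List.length_pos_iff.1 (by rw [h2, ← ln_top]; exact ln_pos _ _ _ _ _ _)
    rw [eq_arr t (List.replicate (P p) false), t2, pull, h1.zer_eq hn]
    refine arr_congr fun o _ => ?_
    by_cases hc : ∃ q < (l p).length, crtIx (a p) (ν p) (d p) (A p) (D p) q = o
    · obtain ⟨q, hq, rfl⟩ := hc
      rw [h5.crtInv_crtIx (h2 ▸ hq), ← t4 q hq, (t3.1 q hq).2]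
    · rw [crtInv, dif_neg (h2 ▸ hc), List.getD_eq_default _ _ h2.le,
        t3.2 o fun q hq e => hc ⟨q, hq, t4 q hq ▸ e⟩]

theorem oc_crt' (hS : SwapOK w1 τ) (hτ : ∀ e, 1 ≤ τ e) {l : α → Arr} {a ν d A D N P : α → ℕ}
    (hl : Oc g 𝒜 u l) (ha : Sm g 𝒜 a) (hν : Sm g 𝒜 ν) (hd : Sm g 𝒜 d) (hA : Sm g 𝒜 A)
    (hD : Sm g 𝒜 D) (hF : Fit 𝒜 (fun p => N p * ((d p + 1) * τ (a p + 1))) P)
    (h : ∀ p, 𝒜.D p → Wf (P p) (l p) ∧ (l p).length = 2 ^ (ν p + a p * (d p + 1)) ∧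
      2 ^ (ν p + a p * (d p + 1)) ≤ N p ∧ 0 < a p ∧ CrtPre (a p) (d p) (A p) (D p) ∧
      w1 * (a p + 1).size ≤ ν p) :
    Oc g 𝒜 u fun p => pull ((ssL (d p) (A p) (D p)).prod * (2 ^ a p * 2 ^ ν p))
      (crtIx (a p) (ν p) (d p) (A p) (D p)) (l p) := by
  have hL := sm_stages ha hν hd hA hD (fit_N hτ hF) fun p hp => ⟨(h p hp).2.2.1, (h p hp).2.2.2.1⟩
  refine oc_fold (hτ := hτ) (cl_stB hS) hL hl hF (fun p i t =>
    t = pull (ln (a p) (ν p) (d p) (A p) (D p) i) (gen (2 ^ a p) (2 ^ ν p) (A p) (D p) i) (l p))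
    (fun p hp => ?_) (fun p hp i hi t ht => ?_) fun p hp t ht => ?_
  · obtain ⟨h1, h2, h3, -⟩ := h p hp
    refine ⟨by simp, ?_, (Nat.two_pow_pos _).trans_le h3⟩
    rw [ln_zero, ← h2, funext (gen_zero _ _ _ _), pull_id]
  · obtain ⟨h1, h2, h3, -, h5, h6⟩ := h p hp
    have hi' : i < d p := by simpa using hi
    have hn : l p ≠ [] := List.length_pos_iff.1 (h2 ▸ Nat.two_pow_pos _)
    have t1 : Wf (P p) t := ht ▸ wf_pull h1 hn _ _
    have tn : t ≠ [] := ht ▸ pull_ne (ln_pos _ _ _ _ _ _) _ _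
    rw [List.getElem_map, List.getElem_range]
    refine ⟨⟨(zer_len t1 tn).symm ▸ t1, tn, by rw [ht, length_pull, nb_sq hi'], le_rfl,
      h5.sm_le i, sm_pos _ _ _, ?_⟩, ?_, zer_len t1 tn,
      (nb_sq hi').trans_le ((ln_le h5 hi'.le).trans h3), rfl⟩
    · show 2 ^ (w1 * (2 ^ a p).size.size) ∣ 2 ^ ν p
      rw [Nat.size_pow]
      exact pow_dvd_pow _ h6
    · rw [ht, ln_succ, ← nb_sq hi']
      refine (pull_pull _ fun o ho => fw_lt (h5.sm_le i) ho).trans ?_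
      exact pull_congr fun o ho => Or.inl (gen_succ h5 hi' ho)
  · rw [ht, ln_top]
    exact pull_congr fun o ho => Or.inl (gen_top ho).symm

end Vale.Agent.P338
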