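import Vale.Agent.P338.Tau
import Mathlib.Data.Nat.Size
import Mathlib.Data.Nat.Factorial.Basic

/-! The choice of the parameters. -/

namespace Vale.Agent.P338

/-- Logarithm of the number of axes, number of axes, logarithm of the array length, bits per
axis, low bits, for `n`-bit factors cut into blocks of `b` bits. -/
def pE (n : ℕ) : ℕ := n.size.size / 4
def pD (n : ℕ) : ℕ := 2 ^ pE n
def pM (n b : ℕ) : ℕ := (n / b + 1).size + 3
def pA (ex n b : ℕ) : ℕ := pM n b / (pD n + 2 * ex + 2)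
def pN (ex n b : ℕ) : ℕ := pM n b - pA ex n b * (pD n + 1)

/-- The number of steps of a transform. -/
def pT (ex n b : ℕ) : ℕ := 24 * pA ex n b + 8 * pD n + 13

/-- The number of passes over the array. -/
def pPhi (τH τS : ℕ → ℕ) (ex n b : ℕ) : ℕ :=
  pT ex n b * τH (pD n * pE n + 2) + (pD n + 1) * τS (pA ex n b + 1)

/-- The length of the factors of the large recursive products. -/
def pL (ex n b : ℕ) : ℕ := 5 * (8 * b) * (2 ^ pA ex n b * 2 ^ pN ex n b)

/-- All inequalities between the parameters that the algorithm needs. -/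
structure Pre (τH τS : ℕ → ℕ) (w1 E0 ex n b : ℕ) : Prop where
  e_pos : 0 < pE n
  de_le : pD n * pE n ≤ pA ex n b
  fac_le : 2 * pD n * (pD n + 1) * (pD n).factorial ≤ 2 ^ pA ex n b
  had : pD n * pE n + 2 + w1 * (pD n * pE n + 3).size ≤ pA ex n b
  swp : w1 * (pA ex n b + 1).size ≤ pA ex n b
  b_le : 8 * b + pM n b + 2 ≤ 2 ^ pA ex n b
  b_ge : 3 * (pT ex n b * (pA ex n b + pD n + 4)) + 2 * pM n b + E0 * (pD n + 1) + 8 ≤ b
  phi_le : pPhi τH τS ex n b ≤ n
  b_n : b ≤ n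

namespace ParAux

theorem ev_big (C δ : ℝ) (hδ : 0 < δ) :
    ∃ e0 : ℕ, ∀ e : ℕ, e0 ≤ e → C * (e + 1) ≤ ((2 : ℝ) ^ e) ^ δ := by
  have h1 : (1 : ℝ) < 2 ^ δ := Real.one_lt_rpow (by norm_num) hδ
  have h2 := (tendsto_pow_const_div_const_pow_of_one_lt 1 h1).add
    (tendsto_pow_const_div_const_pow_of_one_lt 0 h1)
  obtain ⟨e0, h3⟩ := Filter.eventually_atTop.mp
    ((h2.const_mul C).eventually_le_const (u := 1) (by simp))
  refine ⟨e0, fun e he => ?_⟩
  have h4 := h3 e he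
  rw [← add_div, ← mul_div_assoc, div_le_one (by positivity)] at h4
  rw [← Real.rpow_natCast, ← Real.rpow_mul (by norm_num), mul_comm (e : ℝ),
    Real.rpow_mul (by norm_num), Real.rpow_natCast]
  simpa using h4

structure Facts (ex K n b : ℕ) : Prop where
  d4 : pD n ^ 4 ≤ 2 * n.size
  lam : n.size < 8 * pD n ^ 4
  bb : b ≤ 2 ^ (4 * K * (pE n + 1))
  m1 : pM n b ≤ n.size + 4
  m2 : n.size + 3 ≤ pM n b + 4 * K * (pE n + 1)
  a1 : pA ex n b * (pD n + (2 * ex + 2)) ≤ pM n b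
  a2 : pM n b < (pA ex n b + 1) * (pD n + (2 * ex + 2))
  nn : 2 ^ n.size ≤ 2 * n

theorem two_size {n : ℕ} (hn : 0 < n) : 2 ^ n.size ≤ 2 * n := by
  have h1 : 0 < n.size := Nat.size_pos.mpr hn
  have h2 : 2 ^ (n.size - 1) ≤ n := Nat.lt_size.mp (by omega)
  calc 2 ^ n.size = 2 * 2 ^ (n.size - 1) := by rw [← pow_succ']; congr 1; omega
    _ ≤ _ := by omega

theorem facts (ex K : ℕ) {n b : ℕ} (hn : 0 < n) (hb : b = (n.size + 2) ^ K) :
    Facts ex K n b := by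
  have h1 := two_size (Nat.size_pos.mpr hn)
  have h2 := Nat.lt_size_self n.size
  have h3 : pD n ^ 4 = 2 ^ (4 * pE n) := by rw [pD, ← pow_mul, mul_comm]
  have h4 : 4 * pE n ≤ n.size.size ∧ n.size.size ≤ 4 * pE n + 3 := by unfold pE; omega
  have h5 : 2 ^ n.size.size ≤ 8 * 2 ^ (4 * pE n) :=
    (Nat.pow_le_pow_right two_pos h4.2).trans_eq (by ring)
  have hbb : b ≤ 2 ^ (4 * K * (pE n + 1)) := by
    have : n.size + 2 ≤ 2 ^ (4 * (pE n + 1)) := by
      have : 0 < 2 ^ (4 * pE n) := by positivity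
      rw [mul_add, pow_add]; omega
    rw [hb, mul_right_comm, pow_mul]
    exact Nat.pow_le_pow_left this K
  have hb0 : 0 < b := by rw [hb]; positivity
  refine ⟨h3 ▸ (Nat.pow_le_pow_right two_pos h4.1).trans h1, by omega, hbb, ?_, ?_, ?_, ?_,
    two_size hn⟩
  · have : (n / b + 1).size ≤ n.size + 1 := Nat.size_le.mpr (by
      have := Nat.lt_size_self n
      have := Nat.div_le_self n b
      rw [pow_succ]; omega)
    unfold pM; omega
  · have : n.size ≤ (n / b + 1).size + 4 * K * (pE n + 1) := Nat.size_le.mpr (by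
      rw [pow_add]
      calc n < (n / b + 1) * b := by rw [mul_comm]; exact Nat.lt_mul_div_succ n hb0
        _ ≤ _ := Nat.mul_le_mul (Nat.lt_size_self _).le hbb)
    unfold pM; omega
  · exact Nat.div_mul_le_self _ _
  · rw [mul_comm]; exact Nat.lt_mul_div_succ _ (by omega)

theorem nat_part {w1 E0 ex K n b : ℕ} (hK : 3 ≤ K) (hb : b = (n.size + 2) ^ K)
    (F : Facts ex K n b) (he : 0 < pE n)
    (hG : (200000 + 100 * (w1 + E0 + ex + K)) * (pE n + 1) ≤ pD n) :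
    (pD n * pE n ≤ pA ex n b ∧ 2 * pD n * (pD n + 1) * (pD n).factorial ≤ 2 ^ pA ex n b ∧
      pD n * pE n + 2 + w1 * (pD n * pE n + 3).size ≤ pA ex n b ∧
      w1 * (pA ex n b + 1).size ≤ pA ex n b ∧ 8 * b + pM n b + 2 ≤ 2 ^ pA ex n b ∧
      3 * (pT ex n b * (pA ex n b + pD n + 4)) + 2 * pM n b + E0 * (pD n + 1) + 8 ≤ b ∧
      b ≤ n ∧ n.size + 1 ≤ n ∧ pL ex n b < n) ∧ pA ex n b + 2 ≤ 14 * pD n ^ 3 ∧
      pT ex n b ≤ 309 * pD n ^ 3 ∧ (5 * (8 * b)).size + 1 ≤ (4 * K + 8) * (pE n + 1) ∧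
      (pL ex n b).size + 1 ≤ 23 * (2 * ex + 2) * pD n ^ 3 := by
  obtain ⟨d4, lam, bb, m1, m2, a1, a2, nn⟩ := F
  have hd : pD n = 2 ^ pE n := rfl
  have hN : pA ex n b + pN ex n b ≤ (pA ex n b + 1) * (2 * ex + 2) + pD n := by
    unfold pN
    have : (pA ex n b + 1) * (pD n + (2 * ex + 2)) =
      pA ex n b * (pD n + 1) + ((pA ex n b + 1) * (2 * ex + 2) + pD n - pA ex n b) := by
      have : pA ex n b ≤ (pA ex n b + 1) * (2 * ex + 2) := by nlinarith
      zify [this.trans (Nat.le_add_right _ (pD n))]; ring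
    have : pA ex n b ≤ (pA ex n b + 1) * (2 * ex + 2) := by nlinarith
    omega
  unfold pL pT
  generalize pN ex n b = ν at *
  generalize pA ex n b = a at *
  generalize pM n b = m at *
  generalize pD n = d at *
  generalize pE n = e at *
  generalize n.size = l at *
  generalize hβ : 4 * K * (e + 1) = β at *
  have g1 : e + 1 ≤ d := (Nat.le_mul_of_pos_left _ (by omega)).trans hG
  have g2 : 200000 + 100 * (w1 + E0 + ex + K) ≤ d :=
    (Nat.le_mul_of_pos_right _ (by omega)).trans hG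
  have g3 : β ≤ d := hβ ▸ (Nat.mul_le_mul_right _ (by omega)).trans hG
  have g4 : d ≤ d ^ 2 := Nat.le_self_pow (by omega) _
  have g5 : d ^ 2 ≤ d ^ 3 := Nat.pow_le_pow_right (by omega) (by omega)
  have g6 : d ^ 3 ≤ d ^ 4 := Nat.pow_le_pow_right (by omega) (by omega)
  have g7 : d ^ 4 ≤ d ^ 6 := Nat.pow_le_pow_right (by omega) (by omega)
  have g8 : a ≤ 12 * d ^ 3 := by
    refine Nat.le_of_mul_le_mul_right (c := d) ?_ (by omega)
    have : 12 * d ^ 3 * d = 12 * d ^ 4 := by ring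
    have : a * d ≤ a * (d + (2 * ex + 2)) := Nat.mul_le_mul_left _ (by omega)
    omega
  have g9 : d ^ 3 ≤ 4 * a + 6 := by
    refine Nat.le_of_mul_le_mul_right (c := d) ?_ (by omega)
    have : d ^ 3 * d = d ^ 4 := by ring
    have : (a + 1) * (d + (2 * ex + 2)) ≤ (a + 1) * (2 * d) := Nat.mul_le_mul_left _ (by omega)
    have : (4 * a + 6) * d = 2 * ((a + 1) * (2 * d)) + 2 * d := by ring
    omega
  have g10 : (8 * w1 + 8) * d ^ 2 ≤ a := by
    have : (32 * w1 + 38) * d ^ 2 ≤ d ^ 3 := by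
      rw [pow_succ' d 2]; exact Nat.mul_le_mul_right _ (by omega)
    linarith
  have g11 : d * e ≤ d ^ 2 := by rw [sq]; exact Nat.mul_le_mul_left _ (by omega)
  have g0 := Nat.zero_le (w1 * d ^ 2)
  have g12 : w1 * d ≤ w1 * d ^ 2 := Nat.mul_le_mul_left _ g4
  have g13 : (l + 2) ^ 3 ≤ b := hb ▸ Nat.pow_le_pow_right (by omega) hK
  have g14 : l + 2 ≤ (l + 2) ^ 3 := Nat.le_self_pow (by omega) _
  have g15 : (a + 1) * (2 * ex + 2) ≤ 13 * d ^ 3 * (2 * ex + 2) :=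
    Nat.mul_le_mul_right _ (by omega)
  have g16 : d ^ 3 * 2 ≤ d ^ 3 * (2 * ex + 2) := Nat.mul_le_mul_left _ (by omega)
  have g17 : 5 * (8 * b) * (2 ^ a * 2 ^ ν) < 2 ^ (21 * (d ^ 3 * (2 * ex + 2))) := by
    have : 0 < 2 ^ β := by positivity
    calc _ < 2 ^ 6 * 2 ^ β * (2 ^ a * 2 ^ ν) :=
          Nat.mul_lt_mul_of_pos_right (by omega) (by positivity)
      _ = 2 ^ (6 + β + (a + ν)) := by ring
      _ ≤ _ := Nat.pow_le_pow_right two_pos (by linarith)
  have g18 : ∀ x, x + 1 ≤ l → 2 ^ x ≤ n := fun x hx => by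
    have := Nat.pow_le_pow_right two_pos hx
    rw [pow_succ] at this; omega
  have g19 : d ^ 3 * (44 * (2 * ex + 2)) ≤ d ^ 4 := by
    rw [pow_succ d 3]; exact Nat.mul_le_mul_left _ (by omega)
  refine ⟨⟨by linarith, ?_, ?_, ?_, ?_, ?_, bb.trans (g18 _ (by linarith)), ?_,
    g17.trans_le (g18 _ (by linarith))⟩, by omega, by omega, ?_, ?_⟩
  · calc 2 * d * (d + 1) * d.factorial ≤ 2 * d * (2 * d) * d ^ d :=
          Nat.mul_le_mul (Nat.mul_le_mul_left _ (by omega)) (Nat.factorial_le_pow d)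
      _ = 2 ^ (2 + 2 * e + d * e) := by
          rw [pow_add, pow_add, mul_comm d e, mul_comm 2 e, pow_mul, pow_mul, ← hd]; ring
      _ ≤ _ := Nat.pow_le_pow_right two_pos (by linarith)
  · have : (d * e + 3).size ≤ d * e + 3 := Nat.size_le.mpr Nat.lt_two_pow_self
    have : w1 * (d * e + 3).size ≤ w1 * (4 * d ^ 2) := Nat.mul_le_mul_left _ (by omega)
    linarith
  · have : (a + 1).size ≤ 3 * e + 4 := Nat.size_le.mpr (by
      rw [pow_add, mul_comm 3 e, pow_mul, ← hd]; omega)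
    have : w1 * (a + 1).size ≤ w1 * (4 * d) := Nat.mul_le_mul_left _ (by omega)
    linarith
  · calc 8 * b + m + 2 ≤ 2 ^ β * 2 ^ 4 := by omega
      _ ≤ _ := by rw [← pow_add]; exact Nat.pow_le_pow_right two_pos (by linarith)
  · have h1 : (24 * a + 8 * d + 13) * (a + d + 4) ≤ 309 * d ^ 3 * (17 * d ^ 3) :=
      Nat.mul_le_mul (by omega) (by omega)
    have h2 : E0 * (d + 1) ≤ E0 * (2 * d ^ 6) := Nat.mul_le_mul_left _ (by omega)
    have h3 : (d ^ 4) ^ 3 ≤ (2 * (l + 2)) ^ 3 := Nat.pow_le_pow_left (by omega) 3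
    have h4 : d * d ^ 6 ≤ (d ^ 4) ^ 3 := by
      rw [← pow_mul, ← pow_succ']; exact Nat.pow_le_pow_right (by omega) (by omega)
    have h5 : (130000 + 16 * E0) * d ^ 6 ≤ d * d ^ 6 := Nat.mul_le_mul_right _ (by omega)
    linarith
  · have h1 : l - 1 - 1 < 2 ^ (l - 1 - 1) := Nat.lt_two_pow_self
    have h2 := g18 (l - 1 - 1 + 1) (by omega)
    rw [pow_succ] at h2
    omega
  · have : (5 * (8 * b)).size ≤ β + 6 := Nat.size_le.mpr (by
      have : 0 < 2 ^ β := by positivity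
      rw [pow_add]; omega)
    linarith
  · have := Nat.size_le.mpr g17
    linarith

end ParAux

open ParAux in
theorem exists_par {τH τS : ℕ → ℕ} (hH : Grow τH) (hS : Grow τS) : ∃ φ : ℕ → ℕ, Grow φ ∧
    ∀ w1 E0 ex K c : ℕ, 3 ≤ K → ∃ n0, ∀ n, n0 ≤ n → ∀ b, b = (n.size + 2) ^ K →
      Pre τH τS w1 E0 ex n b ∧ pPhi τH τS ex n b ≤ φ n.size ∧ pL ex n b < n ∧
        c * (pT ex n b * φ (5 * (8 * b)).size) ≤ φ n.size ∧ c * φ (pL ex n b).size ≤ φ n.size := by
  obtain ⟨-, H1, θH, cH, H2, H3, H4⟩ := hH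
  obtain ⟨-, S1, θS, cS, S2, S3, S4⟩ := hS
  have hcH : 0 ≤ cH := by simpa using (Nat.cast_nonneg _).trans (H4 0)
  have hcS : 0 ≤ cS := by simpa using (Nat.cast_nonneg _).trans (S4 0)
  obtain ⟨θ₀, t1, t2, t3⟩ : ∃ θ₀ : ℝ, θH ≤ θ₀ ∧ θS ≤ θ₀ ∧ θ₀ < 1 :=
    ⟨max θH θS, le_max_left _ _, le_max_right _ _, max_lt H3 S3⟩
  obtain ⟨θ, hθ⟩ : ∃ θ, θ = (7 + θ₀) / 8 := ⟨_, rfl⟩
  have t4 : 0 < θ := by linarith
  have t5 : θ < 1 := by linarith
  have hx : ∀ e : ℕ, 1 ≤ ((e : ℝ) + 1) ^ θ := fun e => Real.one_le_rpow (by simp) t4.le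
  have hφ : ∀ e : ℕ, ⌈((e : ℝ) + 1) ^ θ⌉₊ ≤ e + 1 := fun e => Nat.ceil_le.mpr (by
    simpa using Real.rpow_le_rpow_of_exponent_le (x := (e : ℝ) + 1) (by simp) t5.le)
  refine ⟨fun e => ⌈((e : ℝ) + 1) ^ θ⌉₊, ⟨fun a b hab => Nat.ceil_mono
    (Real.rpow_le_rpow (by positivity) (by simpa using hab) t4.le), fun e => Nat.one_le_ceil_iff.mpr
    (by positivity), θ, 2, t4, t5, fun e => by
      have := Nat.ceil_lt_add_one (show 0 ≤ ((e : ℝ) + 1) ^ θ by positivity)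
      linarith [hx e]⟩, fun w1 E0 ex K c hK => ?_⟩
  obtain ⟨G, G1, G2, G3, G4⟩ : ∃ G : ℝ, ((200000 + 100 * (w1 + E0 + ex + K) : ℕ) : ℝ) ≤ G ∧
      1236 * cH + 28 * cS ≤ G ∧ ((c * (309 * (4 * K + 8)) : ℕ) : ℝ) ≤ G ∧
      ((c * (23 * (2 * ex + 2)) : ℕ) : ℝ) ≤ G := ⟨max (max _ _) (max _ _),
    le_max_of_le_left (le_max_left _ _), le_max_of_le_left (le_max_right _ _),
    le_max_of_le_right (le_max_left _ _), le_max_of_le_right (le_max_right _ _)⟩
  have G0 : 0 ≤ G := (Nat.cast_nonneg _).trans G1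
  obtain ⟨e0, he0⟩ := ev_big (2 * G) ((1 - θ₀) / 2) (by linarith)
  refine ⟨2 ^ 2 ^ (4 * (e0 + 1)), fun n hn b hb => ?_⟩
  have h1 : e0 + 1 ≤ pE n := by
    have := Nat.lt_size.mpr (Nat.lt_size.mpr hn).le
    unfold pE; omega
  have F := facts ex K (lt_of_lt_of_le (by positivity) hn) hb
  have h2 := he0 (pE n) (by omega)
  have hd : ((2 : ℝ) ^ pE n) = pD n := by simp [pD]
  rw [hd] at h2
  have d1 : (1 : ℝ) ≤ pD n := hd ▸ one_le_pow₀ (by norm_num)
  have e1 : (1 : ℝ) ≤ pE n + 1 := by simp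
  obtain ⟨⟨p1, p2, p3, p4, p5, p6, p7, p8, p9⟩, q1, q2, q3, q4⟩ := nat_part (w1 := w1) (E0 := E0)
    hK hb F (by omega) (by
      have := Real.rpow_le_rpow_of_exponent_le d1 (show (1 - θ₀) / 2 ≤ 1 by linarith)
      rw [Real.rpow_one, ] at this
      rw [← Nat.cast_le (α := ℝ), Nat.cast_mul, Nat.cast_add (pE n), Nat.cast_one]
      linarith [mul_le_mul_of_nonneg_right G1 (zero_le_one.trans e1),
        mul_nonneg G0 (zero_le_one.trans e1)])
  obtain ⟨D, hD⟩ : ∃ D : ℝ, D = (pD n : ℝ) ^ θ₀ := ⟨_, rfl⟩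
  have D1 : 1 ≤ D := hD ▸ Real.one_le_rpow d1 (by linarith)
  have main : G * ((pE n + 1) * (pD n ^ 3 * D)) ≤ (⌈((n.size : ℝ) + 1) ^ θ⌉₊ : ℕ) := by
    refine le_trans ?_ (Nat.le_ceil _)
    have a1 : (pD n : ℝ) ^ 4 ≤ 2 * (n.size + 1) := by
      have : (pD n : ℝ) ^ 4 ≤ 2 * n.size := by exact_mod_cast F.d4
      linarith
    have a2 := Real.rpow_le_rpow (by positivity) a1 t4.le
    rw [Real.mul_rpow (by norm_num) (by positivity), ← Real.rpow_natCast,
      ← Real.rpow_mul (by positivity),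
      show ((4 : ℕ) : ℝ) * θ = (3 : ℕ) + θ₀ + (1 - θ₀) / 2 by rw [hθ]; push_cast; ring,
      Real.rpow_add (by positivity), Real.rpow_add (by positivity), Real.rpow_natCast, ← hD] at a2
    have a3 : (2 : ℝ) ^ θ ≤ 2 := by
      simpa using Real.rpow_le_rpow_of_exponent_le (x := 2) (by norm_num) t5.le
    have a4 := mul_le_mul_of_nonneg_left h2 (show 0 ≤ (pD n : ℝ) ^ 3 * D by positivity)
    have a5 := mul_le_mul_of_nonneg_right a3 (show 0 ≤ ((n.size : ℝ) + 1) ^ θ by positivity)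
    linarith
  have r0 : (1 : ℝ) ≤ (pE n + 1) * D := one_le_mul_of_one_le_of_one_le e1 D1
  have r1 : pPhi τH τS ex n b ≤ ⌈((n.size : ℝ) + 1) ^ θ⌉₊ := by
    rw [← Nat.cast_le (α := ℝ)]
    refine le_trans ?_ main
    have a1 : (τH (pD n * pE n + 2) : ℝ) ≤ cH * (D * (4 * (pE n + 1))) := by
      refine (H4 _).trans (mul_le_mul_of_nonneg_left ?_ hcH)
      refine (Real.rpow_le_rpow (by positivity) (show _ ≤ (pD n : ℝ) * (4 * (pE n + 1)) by
        push_cast; linarith [mul_nonneg (show (0 : ℝ) ≤ pD n by positivity) (show (0 : ℝ) ≤ pE n by positivity)]) H2.le).trans ?_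
      rw [Real.mul_rpow (by positivity) (by positivity), hD]
      refine mul_le_mul (Real.rpow_le_rpow_of_exponent_le d1 t1) ?_ (by positivity) (by positivity)
      simpa using Real.rpow_le_rpow_of_exponent_le (x := 4 * ((pE n : ℝ) + 1)) (by linarith) H3.le
    have a2 : (τS (pA ex n b + 1) : ℝ) ≤ cS * (14 * pD n ^ 2 * D) := by
      refine (S4 _).trans (mul_le_mul_of_nonneg_left ?_ hcS)
      refine (Real.rpow_le_rpow (by positivity) (show _ ≤ 14 * (pD n : ℝ) ^ 2 * pD n by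
        have : ((pA ex n b + 2 : ℕ) : ℝ) ≤ (14 * pD n ^ 3 : ℕ) := by exact_mod_cast q1
        push_cast at this ⊢; linarith) S2.le).trans ?_
      rw [Real.mul_rpow (by positivity) (by positivity), hD]
      refine mul_le_mul ?_ (Real.rpow_le_rpow_of_exponent_le d1 t2) (by positivity) (by positivity)
      simpa using Real.rpow_le_rpow_of_exponent_le (x := 14 * (pD n : ℝ) ^ 2) (by
        linarith [one_le_pow₀ (n := 2) d1]) S3.le
    have a3 : (pT ex n b : ℝ) ≤ 309 * pD n ^ 3 := by exact_mod_cast q2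
    have a4 := mul_le_mul a3 a1 (by positivity) (by positivity)
    have a5 := mul_le_mul (show (pD n : ℝ) + 1 ≤ 2 * pD n by linarith) a2 (by positivity)
      (by positivity)
    have a6 := mul_le_mul_of_nonneg_right G2
      (show 0 ≤ ((pE n : ℝ) + 1) * (pD n ^ 3 * D) by positivity)
    have a7 := mul_le_mul_of_nonneg_right e1 (show 0 ≤ cS * ((pD n : ℝ) ^ 3 * D) by positivity)
    unfold pPhi
    push_cast
    linarith
  refine ⟨⟨by omega, p1, p2, p3, p4, p5, p6, r1.trans ((hφ _).trans p8), p7⟩, r1, p9, ?_, ?_⟩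
  · refine (Nat.mul_le_mul_left c (Nat.mul_le_mul q2 ((hφ _).trans q3))).trans ?_
    rw [← Nat.cast_le (α := ℝ)]
    refine le_trans ?_ main
    have a6 := mul_le_mul G3 (le_mul_of_one_le_right
      (show 0 ≤ ((pE n : ℝ) + 1) * pD n ^ 3 by positivity) D1) (by positivity) G0
    push_cast at a6 ⊢
    linarith
  · refine (Nat.mul_le_mul_left c ((hφ _).trans q4)).trans ?_
    rw [← Nat.cast_le (α := ℝ)]
    refine le_trans ?_ main
    have a6 := mul_le_mul G4 (le_mul_of_one_le_right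
      (show 0 ≤ (pD n : ℝ) ^ 3 by positivity) r0) (by positivity) G0
    push_cast at a6 ⊢
    linarith

/-- From the binary length to the logarithm. -/
theorem Grow.log_bound {φ : ℕ → ℕ} (h : Grow φ) : ∃ κ C : ℝ, 0 < κ ∧ ∀ n : ℕ, 2 ≤ n →
    ((n : ℝ) + 1) * φ n.size ≤ C * n * Real.log n ^ (1 - κ) := by
  obtain ⟨-, -, θ, c, h1, h2, h3⟩ := h
  have hc : 0 ≤ c := by simpa using (Nat.cast_nonneg _).trans (h3 0)
  have l2 : 0 < Real.log 2 := Real.log_pos (by norm_num)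
  refine ⟨1 - θ, 2 * c * (3 / Real.log 2) ^ θ, by linarith, fun n hn => ?_⟩
  have hn' : (2 : ℝ) ≤ n := by exact_mod_cast hn
  have a1 : Real.log 2 ≤ Real.log n := Real.log_le_log (by norm_num) hn'
  have a2 : (n.size : ℝ) * Real.log 2 ≤ Real.log 2 + Real.log n := by
    rw [← Real.log_pow, ← Real.log_mul (by norm_num) (by positivity)]
    exact Real.log_le_log (by positivity) (by exact_mod_cast ParAux.two_size (by omega))
  have a3 : (n.size : ℝ) + 1 ≤ 3 / Real.log 2 * Real.log n := by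
    rw [div_mul_eq_mul_div, le_div_iff₀ l2]; linarith
  have a4 := Real.rpow_le_rpow (by positivity) a3 h1.le
  rw [Real.mul_rpow (by positivity) (by linarith)] at a4
  have a5 := mul_le_mul (show (n : ℝ) + 1 ≤ 2 * n by linarith)
    ((h3 _).trans (mul_le_mul_of_nonneg_left a4 hc)) (by positivity) (by positivity)
  rw [sub_sub_cancel]
  linarith

theorem not_nlogn {T : ℕ → ℕ} {κ C : ℝ} (hκ : 0 < κ)
    (h : ∀ n : ℕ, 2 ≤ n → (T n : ℝ) ≤ C * n * Real.log n ^ (1 - κ)) :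
    ¬∃ (c : ℝ) (N : ℕ), 0 < c ∧ 2 ≤ N ∧ ∀ n : ℕ, N ≤ n → c * n * Real.log n ≤ T n := by
  rintro ⟨c, N, h1, h2, h3⟩
  have h4 := ((tendsto_rpow_atTop hκ).comp (Real.tendsto_log_atTop.comp
    tendsto_natCast_atTop_atTop)).eventually_gt_atTop (C / c)
  obtain ⟨n, h5, h6⟩ := (h4.and (Filter.eventually_ge_atTop N)).exists
  have hn : (2 : ℝ) ≤ n := by exact_mod_cast h2.trans h6
  have l : 0 < Real.log n := Real.log_pos (by linarith)
  have h7 := (h3 n h6).trans (h n (h2.trans h6))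
  have h8 : Real.log n = Real.log n ^ κ * Real.log n ^ (1 - κ) := by
    rw [← Real.rpow_add l]; simp
  simp only [Function.comp, div_lt_iff₀ h1] at h5
  have h9 := mul_lt_mul_of_pos_right h5 (show 0 < n * Real.log n ^ (1 - κ) by positivity)
  nth_rewrite 1 [h8] at h7
  nlinarith

end Vale.Agent.P338
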