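import Vale.Agent.P338.Fft
import Vale.Agent.P338.Crt
import Vale.Agent.P338.Conv
import Vale.Agent.P338.Par

/-! The multiplication algorithm for given parameters. -/

namespace Vale.Agent.P338

open Vale.Agent.Common.TreeTM Vale.Agent.P337

/-- The statement about transforms provided by `fft_ok`. -/
def FftOK (w1 E0 ex : ℕ) (τ : ℕ → ℕ) : Prop :=
  ∀ (inv : Bool) {α : Type} [Enc α] {𝒜 : Amb α}
    {u : (List Bool × List Bool → ℕ∞) → α → ℕ∞} {x : α → CArr} {z v : α → ℕ → ℂ}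
    {ss : α → List ℕ} {m a ν γ e N P F B D : α → ℕ}, Oc mulB 𝒜 u x → Sm mulB 𝒜 m → Sm mulB 𝒜 a →
    Sm mulB 𝒜 ν → Sm mulB 𝒜 γ → Sm mulB 𝒜 e → Sm mulB 𝒜 F → Sm mulB 𝒜 ss →
    Fit 𝒜 (fun p => N p * ((24 * a p + 8 * (ss p).length + 13) * τ ((ss p).length * e p + 2))) P →
    (∀ p, 𝒜.D p → 2 ^ m p ≤ N p ∧ x p = encC (2 ^ m p) (P p) (z p) ∧
      Apx (2 ^ m p) (B p) (D p) (z p) (v p) ∧
      FftPre w1 E0 ex (m p) (a p) (ν p) (γ p) (e p) (P p) (F p) (B p) (D p) (ss p)) →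
    ∃ y : α → CArr, Oc mulB 𝒜 (fun T p => u T p +
        (8 * 2 ^ m p * (24 * a p + 8 * (ss p).length + 13) : ℕ) * That T (5 * P p)) y ∧
      ∀ p, 𝒜.D p → ∃ z', y p = encC (2 ^ m p) (P p) z' ∧
        Apx (2 ^ m p) (B p + grw (a p) (ss p).length) (D p + grw (a p) (ss p).length) z'
          (boxF inv (a p) (ν p) (ss p) (v p))

/-- The relations between the parameters. -/
structure Geo (w1 E0 ex m a ν e d A D b : ℕ) : Prop where
  hm : m = ν + a * (d + 1)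
  a_pos : 0 < a
  d_pos : 0 < d
  e_pos : 0 < e
  crt : CrtPre a d A D
  big : (2 ^ a) ^ d ≤ 2 * (ssL d A D).prod
  de : d * e ≤ a
  d_le : d ≤ 2 ^ e
  a_le : a ≤ ν
  had : d * e + 2 + w1 * (d * e + 3).size ≤ a
  swp : w1 * (a + 1).size ≤ a
  wts : (2 ^ a + 8 * b + m + 2) ^ ex ≤ 2 ^ (ν - d)
  b_le : 8 * b ≤ 2 ^ a
  b_ge : 3 * grw a d + 2 * m + E0 * (d + 1) + 8 ≤ b

namespace CoreAux

theorem Geo.d_le_a {w1 E0 ex m a ν e d A D b : ℕ} (h : Geo w1 E0 ex m a ν e d A D b) : d ≤ a :=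
  (Nat.le_mul_of_pos_right _ h.e_pos).trans h.de

theorem Geo.fft {w1 E0 ex m a ν e d A D b B D' : ℕ} (h : Geo w1 E0 ex m a ν e d A D b)
    (h1 : B ≤ 3 * b + D') (h2 : b ≤ D') (h3 : D' ≤ B) (h4 : B ≤ 5 * b + 2 * grw a d + m) :
    FftPre w1 E0 ex m a ν (ν - d) e (8 * b) (3 * b) B D' (ssL d A D) := by
  have h5 := Geo.d_le_a h
  have h6 := h.a_le
  have h7 := h.b_ge
  have h8 := h.hm
  have h9 := h.had
  have h10 : a ≤ a * (d + 1) := Nat.le_mul_of_pos_right _ (by omega)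
  simp only [FftPre, BoxPre, length_ssL]
  refine ⟨⟨h.a_pos, by omega, h.crt.mem⟩, by omega, h.de, h.e_pos, h.d_le,
    h5.trans Nat.lt_two_pow_self.le, by omega, h.wts, h1, by omega, h3, by omega, by omega⟩

theorem Geo.len_le {w1 E0 ex m a ν e d A D b : ℕ} (h : Geo w1 E0 ex m a ν e d A D b) :
    (ssL d A D).prod * (2 ^ a * 2 ^ ν) ≤ 2 ^ m := by
  refine (Nat.mul_le_mul_right _ h.crt.prod_le).trans (le_of_eq ?_)
  rw [h.hm]
  ring

theorem Geo.pow_eq {w1 E0 ex m a ν e d A D b : ℕ} (h : Geo w1 E0 ex m a ν e d A D b) :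
    2 ^ m = (2 ^ a) ^ d * (2 ^ a * 2 ^ ν) := by
  rw [h.hm]
  ring

theorem Geo.swap_dvd {w1 E0 ex m a ν e d A D b : ℕ} (h : Geo w1 E0 ex m a ν e d A D b) :
    2 ^ a * (2 ^ a) ^ (d - 1) * 2 ^ a * 2 ^ ν = 2 ^ m := by
  obtain ⟨k, rfl⟩ : ∃ k, d = k + 1 := ⟨d - 1, by have := h.d_pos; omega⟩
  rw [h.hm, Nat.add_sub_cancel]
  ring

variable {α γ δ : Type} [Enc α] [Enc γ] [Enc δ] {g : γ → δ} {𝒜 : Amb α}

theorem oc_both {u : (γ → ℕ∞) → α → ℕ∞} {x : α → CArr} (hx : Oc g 𝒜 u x) {L P n : α → ℕ}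
    {z : α → ℕ → ℂ} {ψ : α → ℕ → ℕ} (he : ∀ p, 𝒜.D p → x p = encC (L p) (P p) (z p))
    (h : ∀ l : α × CArr → Arr, Cl g (𝒜.ext x hx.2) l →
      (∀ q, (𝒜.ext x hx.2).D q → Wf (P q.1) (l q) ∧ (l q).length = L q.1) →
      Cl g (𝒜.ext x hx.2) fun q => pull (n q.1) (ψ q.1) (l q)) :
    Oc g 𝒜 u fun p => (pull (n p) (ψ p) (x p).1, pull (n p) (ψ p) (x p).2) := by
  refine ArrAux.oc_wrap hx (F := fun q => (pull (n q.1) (ψ q.1) q.2.1, pull (n q.1) (ψ q.1) q.2.2))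
    (Cl.pair (h _ (by fun_prop) fun q hq => ?_) (h _ (by fun_prop) fun q hq => ?_))
  · rw [hq.2, he _ hq.1]
    exact ⟨wf_encA _ _ _, length_encA _ _ _⟩
  · rw [hq.2, he _ hq.1]
    exact ⟨wf_encA _ _ _, length_encA _ _ _⟩

theorem sm_pw {N b e : α → ℕ} (hN : Sm g 𝒜 N) (hb : Sm g 𝒜 b) (he : Sm g 𝒜 e)
    (h : ∀ p, 𝒜.D p → e p ≤ (N p).size) : Sm g 𝒜 fun p => b p ^ e p :=
  (Sm.tc (F := fun q : ℕ × ℕ × ℕ => pw q.1 q.2.1 q.2.2) (by fun_prop)
    (hN.pair (hb.pair he))).congr fun p hp => (pw_eq (h p hp)).symm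

theorem sm_const {N : α → ℕ} (hN : Sm g 𝒜 N) (c : ℕ) : Sm g 𝒜 fun _ => c :=
  Sm.tc (F := fun _ : ℕ => c) (by fun_prop) hN

theorem sm_mul {f f' : α → ℕ} (h : Sm g 𝒜 f) (h' : Sm g 𝒜 f') : Sm g 𝒜 fun p => f p * f' p :=
  Sm.tc (F := fun q : ℕ × ℕ => q.1 * q.2) (by fun_prop) (h.pair h')

theorem sm_add {f f' : α → ℕ} (h : Sm g 𝒜 f) (h' : Sm g 𝒜 f') : Sm g 𝒜 fun p => f p + f' p :=
  Sm.tc (F := fun q : ℕ × ℕ => q.1 + q.2) (by fun_prop) (h.pair h')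

theorem sm_sub {f f' : α → ℕ} (h : Sm g 𝒜 f) (h' : Sm g 𝒜 f') : Sm g 𝒜 fun p => f p - f' p :=
  Sm.tc (F := fun q : ℕ × ℕ => q.1 - q.2) (by fun_prop) (h.pair h')

theorem sm_div {f f' : α → ℕ} (h : Sm g 𝒜 f) (h' : Sm g 𝒜 f') : Sm g 𝒜 fun p => f p / f' p :=
  Sm.tc (F := fun q : ℕ × ℕ => q.1 / q.2) (by fun_prop) (h.pair h')

theorem sm_size {f : α → ℕ} (h : Sm g 𝒜 f) : Sm g 𝒜 fun p => (f p).size :=
  Sm.tc (F := fun q : ℕ => q.size) (by fun_prop) h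

theorem tc_ssL : TC 0 fun q : ℕ × ℕ × ℕ × ℕ => (rg q.1 q.2.1).map (sm q.2.2.1 q.2.2.2) := by
  unfold sm
  fun_prop

end CoreAux

open CoreAux

section pipeline
variable {α : Type} [Enc α] {𝒜 : Amb α} {w1 E0 ex : ℕ} {τH τS : ℕ → ℕ}
  {m a ν e d A D b : α → ℕ}

/-- The parameters are small and satisfy the relations. -/
structure Env (𝒜 : Amb α) (w1 E0 ex : ℕ) (τH τS : ℕ → ℕ) (m a ν e d A D b : α → ℕ) : Prop where
  sN : Sm mulB 𝒜 fun p => 2 ^ m p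
  sm : Sm mulB 𝒜 m
  sa : Sm mulB 𝒜 a
  sν : Sm mulB 𝒜 ν
  se : Sm mulB 𝒜 e
  sd : Sm mulB 𝒜 d
  sA : Sm mulB 𝒜 A
  sD : Sm mulB 𝒜 D
  sb : Sm mulB 𝒜 b
  fit : Fit 𝒜 (fun p => 2 ^ m p * ((24 * a p + 8 * d p + 13) * τH (d p * e p + 2) +
    (d p + 1) * τS (a p + 1))) fun p => 8 * b p
  geo : ∀ p, 𝒜.D p → Geo w1 E0 ex (m p) (a p) (ν p) (e p) (d p) (A p) (D p) (b p)
  hS : SwapOK w1 τS
  one : ∀ k, 1 ≤ τS k
  hF : FftOK w1 E0 ex τH

namespace Env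

variable (h : Env 𝒜 w1 E0 ex τH τS m a ν e d A D b)
include h

theorem fit_le {N : α → ℕ} (hN : ∀ p, N p ≤ (24 * a p + 8 * d p + 13) * τH (d p * e p + 2) +
    (d p + 1) * τS (a p + 1)) : Fit 𝒜 (fun p => 2 ^ m p * N p) fun p => 8 * b p :=
  h.fit.mono 1 fun p _ => ⟨by
    have := Nat.mul_le_mul_left (2 ^ m p) (hN p)
    omega, by omega⟩

theorem fit1 : Fit 𝒜 (fun p => 2 ^ m p) fun p => 8 * b p :=
  (h.fit_le (N := fun _ => 1) fun p => le_add_left (Nat.mul_pos (by omega) (h.one _))).mono 1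
    fun p _ => ⟨by omega, by omega⟩

theorem pw2 {k : α → ℕ} (hk : Sm mulB 𝒜 k) (hm : ∀ p, 𝒜.D p → k p ≤ m p) :
    Sm mulB 𝒜 fun p => 2 ^ k p :=
  sm_pw h.sN (sm_const h.sN 2) hk fun p hp => by
    rw [Nat.size_pow]
    exact (hm p hp).trans (Nat.le_succ _)

theorem a_le (p : α) (hp : 𝒜.D p) : a p ≤ m p ∧ ν p ≤ m p ∧ d p ≤ m p := by
  have h1 := (h.geo p hp).hm
  have h2 := (h.geo p hp).a_le
  have h3 := Geo.d_le_a (h.geo p hp)
  omega

theorem st : Sm mulB 𝒜 fun p => 2 ^ a p := h.pw2 h.sa fun p hp => (h.a_le p hp).1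

theorem sV : Sm mulB 𝒜 fun p => 2 ^ ν p := h.pw2 h.sν fun p hp => (h.a_le p hp).2.1

theorem sR : Sm mulB 𝒜 fun p => 2 ^ a p * 2 ^ ν p :=
  sm_mul h.st h.sV

theorem sss : Sm mulB 𝒜 fun p => ssL (d p) (A p) (D p) :=
  (Sm.tc tc_ssL (h.sN.pair (h.sd.pair (h.sA.pair h.sD)))).congr fun p hp => by
    rw [rg_eq, ssL]
    rw [Nat.size_pow]
    exact (h.a_le p hp).2.2.trans (Nat.le_succ _)

theorem sS : Sm mulB 𝒜 fun p => (ssL (d p) (A p) (D p)).prod :=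
  Sm.tc (F := fun l : List ℕ => l.prod) (by fun_prop) h.sss

theorem sH : Sm mulB 𝒜 fun p => 2 ^ a p * 2 ^ ν p / 2 :=
  Sm.tc (F := fun q : ℕ => q / 2) (by fun_prop) h.sR

theorem s3b : Sm mulB 𝒜 fun p => 3 * b p :=
  Sm.tc (F := fun q : ℕ => 3 * q) (by fun_prop) h.sb

theorem swapC {u} {x : α → CArr} {z : α → ℕ → ℂ} (hx : Oc mulB 𝒜 u x)
    (he : ∀ p, 𝒜.D p → x p = encC (2 ^ m p) (8 * b p) (z p)) :
    Oc mulB 𝒜 u fun p => encC (2 ^ m p) (8 * b p)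
      fun o => z p (swapIx (2 ^ a p) ((2 ^ a p) ^ (d p - 1)) (2 ^ ν p) o) := by
  have hB : Sm mulB 𝒜 fun p => (2 ^ a p) ^ (d p - 1) :=
    sm_pw h.sN h.st (Sm.tc (F := fun q : ℕ => q - 1) (by fun_prop) h.sd) fun p hp => by
      have := (h.a_le p hp).2.2
      rw [Nat.size_pow]
      omega
  have hfit : Fit 𝒜 (fun p => 2 ^ m p * τS (2 ^ a p).size) fun p => 8 * b p :=
    h.fit_le fun p => by
      rw [Nat.size_pow]
      exact le_add_left (Nat.le_mul_of_pos_left _ (by omega))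
  refine (oc_both hx (n := fun p => 2 ^ m p)
    (ψ := fun p => swapIx (2 ^ a p) ((2 ^ a p) ^ (d p - 1)) (2 ^ ν p)) he fun l hl hw => ?_).congr
    fun p hp => ?_
  · refine Cl.congr (h.hS hl h.st.ext hB.ext h.sV.ext (N := fun q => 2 ^ m q.1) hfit.ext
      fun q hq => ?_) fun q hq => by rw [(hw q hq).2]
    obtain ⟨h1, h2⟩ := hw q hq
    refine ⟨h1, List.ne_nil_of_length_pos (by rw [h2]; positivity), h2.le, ?_, ?_⟩
    · rw [h2, Geo.swap_dvd (h.geo _ hq.1)]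
    · rw [Nat.size_pow]
      exact pow_dvd_pow _ ((h.geo _ hq.1).swp.trans (h.geo _ hq.1).a_le)
  · rw [he p hp]
    exact (pull_encC _ fun i hi => swapIx_lt (by rw [Geo.swap_dvd (h.geo p hp)]) hi).symm

theorem fft (inv : Bool) {u} {x : α → CArr} {z v : α → ℕ → ℂ} {B D' : α → ℕ} (hx : Oc mulB 𝒜 u x)
    (he : ∀ p, 𝒜.D p → x p = encC (2 ^ m p) (8 * b p) (z p) ∧
      Apx (2 ^ m p) (B p) (D' p) (z p) (v p) ∧ B p ≤ 3 * b p + D' p ∧ b p ≤ D' p ∧ D' p ≤ B p ∧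
      B p ≤ 5 * b p + 2 * grw (a p) (d p) + m p) :
    ∃ (y : α → CArr) (z' : α → ℕ → ℂ), Oc mulB 𝒜 (fun T p => u T p +
        (8 * 2 ^ m p * (24 * a p + 8 * d p + 13) : ℕ) * That T (5 * (8 * b p))) y ∧
      ∀ p, 𝒜.D p → y p = encC (2 ^ m p) (8 * b p) (z' p) ∧
        Apx (2 ^ m p) (B p + grw (a p) (d p)) (D' p + grw (a p) (d p)) (z' p)
          (boxF inv (a p) (ν p) (ssL (d p) (A p) (D p)) (v p)) := by
  have hF := h.hF
  unfold FftOK at hF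
  obtain ⟨y, h1, h2⟩ := hF inv (z := z) (v := v) (B := B) (D := D') (N := fun p => 2 ^ m p)
    (P := fun p => 8 * b p) hx h.sm h.sa h.sν
    (sm_sub h.sν h.sd) h.se h.s3b h.sss
    (h.fit_le fun p => by simp) fun p hp => by
      obtain ⟨h1, h2, h3, h4, h5, h6⟩ := he p hp
      exact ⟨le_rfl, h1, h2, Geo.fft (h.geo p hp) h3 h4 h5 h6⟩
  simp only [length_ssL] at h1 h2
  choose! z' hz using h2
  exact ⟨y, z', h1, hz⟩

theorem fitC : Fit 𝒜 (fun p => 2 ^ m p * ((d p + 1) * τS (a p + 1))) fun p => 8 * b p :=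
  h.fit_le fun _ => Nat.le_add_left _ _

theorem oc_fwd {x : α → List Bool} (hx : Cl mulB 𝒜 x)
    (hn : ∀ p, 𝒜.D p → (x p).length / b p + 1 ≤ 2 ^ m p) :
    ∃ (y : α → CArr) (z : α → ℕ → ℂ), Oc mulB 𝒜 (fun T p =>
        (8 * 2 ^ m p * (24 * a p + 8 * d p + 13) : ℕ) * That T (5 * (8 * b p))) y ∧
      ∀ p, 𝒜.D p → y p = encC (2 ^ m p) (8 * b p) (z p) ∧
        Apx (2 ^ m p) (4 * b p + grw (a p) (d p)) (b p + grw (a p) (d p)) (z p)
          (fwd (a p) (ν p) (d p) (A p) (D p) (ld (2 ^ a p * 2 ^ ν p / 2)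
            fun i => 2 ^ (3 * b p) * (chk (b p) (x p) i : ℂ))) := by
  have hL : Sm mulB 𝒜 fun p => (ssL (d p) (A p) (D p)).prod * (2 ^ a p * 2 ^ ν p) :=
    sm_mul h.sS h.sR
  have h0 := cl_load hx h.sb h.sH hL h.fit1 fun p hp => by
    have hg := h.geo p hp
    have h1 := hg.b_ge
    have h2 : 2 ≤ 2 ^ a p * 2 ^ ν p :=
      (Nat.le_self_pow hg.a_pos.ne' 2).trans (Nat.le_mul_of_pos_right _ (Nat.two_pow_pos _))
    exact ⟨by omega, Nat.div_pos h2 two_pos, Geo.len_le hg, hn p hp,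
      hg.b_le.trans (Nat.pow_le_pow_right two_pos (h.a_le p hp).1)⟩
  set f : α → ℕ → ℂ := fun p => ld (2 ^ a p * 2 ^ ν p / 2)
    fun i => 2 ^ (3 * b p) * (chk (b p) (x p) i : ℂ) with hf
  have h1 := (oc_both h0 (n := fun p => 2 ^ (ν p + a p * (d p + 1)))
    (ψ := fun p => crtInv (a p) (ν p) (d p) (A p) (D p)) (z := f) (fun _ _ => rfl)
    fun l hl hw => oc_crt h.hS h.one hl h.sa.ext h.sν.ext h.sd.ext h.sA.ext h.sD.ext
      (N := fun q => 2 ^ m q.1) h.fitC.ext fun q hq => by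
        have hg := h.geo _ hq.1
        exact ⟨(hw q hq).1, (hw q hq).2, by rw [hg.hm], hg.a_pos, hg.crt, hg.swp.trans hg.a_le⟩)
  obtain ⟨y, z, h2, h3⟩ := h.fft false (B := fun p => 4 * b p) (D' := b)
    (z := fun p i => if crtInv (a p) (ν p) (d p) (A p) (D p) i <
      (ssL (d p) (A p) (D p)).prod * (2 ^ a p * 2 ^ ν p) then
        f p (crtInv (a p) (ν p) (d p) (A p) (D p) i) else 0)
    (v := fun p i => if crtInv (a p) (ν p) (d p) (A p) (D p) i <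
      (ssL (d p) (A p) (D p)).prod * (2 ^ a p * 2 ^ ν p) then
        f p (crtInv (a p) (ν p) (d p) (A p) (D p) i) else 0) h1 fun p hp => by
      refine ⟨?_, Apx.comp' (fun i _ => ?_) _ _, by omega, le_rfl, by omega, by omega⟩
      · rw [pull_encC' (Nat.mul_pos (ssL_prod_pos _ _ _) (by positivity)), (h.geo p hp).hm]
      · simp only [hf, ld, sub_self, norm_zero]
        split_ifs
        · refine ⟨⟨2 ^ (3 * b p) * chk (b p) (x p) _, 0, by push_cast; rw [zero_mul, add_zero]⟩, ?_,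
            by positivity⟩
          rw [norm_mul, norm_pow, Complex.norm_natCast, Complex.norm_two,
            show 4 * b p = 3 * b p + b p by ring, pow_add]
          gcongr
          exact_mod_cast (chk_lt _ _ _).le
        · exact ⟨⟨0, 0, by simp⟩, by simp, by positivity⟩
  refine ⟨_, _, (h.swapC h2 fun p hp => (h3 p hp).1).mono fun T p _ => by simp, fun p hp =>
    ⟨rfl, (h3 p hp).2.comp fun i hi => swapIx_lt (by rw [Geo.swap_dvd (h.geo p hp)]) hi⟩⟩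

theorem oc_core {x y : α → List Bool} (hx : Cl mulB 𝒜 x) (hy : Cl mulB 𝒜 y)
    (hn : ∀ p, 𝒜.D p → (x p).length = (y p).length ∧ 8 * ((x p).length / b p + 1) ≤ 2 ^ m p) :
    Oc mulB 𝒜 (fun T p =>
      (24 * 2 ^ m p * (24 * a p + 8 * d p + 13) : ℕ) * That T (5 * (8 * b p)) +
      (4 * (2 ^ a p) ^ d p : ℕ) * That T (5 * (8 * b p) * (2 ^ a p * 2 ^ ν p)))
      fun p => mulB (x p, y p) := by
  obtain ⟨X, zx, h1, h2⟩ := h.oc_fwd hx fun p hp => by have := (hn p hp).2; omega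
  obtain ⟨Y, zy, h3, h4⟩ := h.oc_fwd hy fun p hp => by
    have := (hn p hp).2
    rw [← (hn p hp).1]
    omega
  obtain ⟨Z, h5, h6⟩ := oc_ptw (h1.pair h3) h.sR h.s3b h.fit1 (k := fun p => (2 ^ a p) ^ d p)
    (lr := fun p => a p + ν p) (B := fun p => 4 * b p + grw (a p) (d p))
    (D := fun p => b p + grw (a p) (d p))
    (B' := fun p => 5 * b p + 2 * grw (a p) (d p) + (a p + ν p))
    (D' := fun p => 2 * b p + 2 * grw (a p) (d p) + (a p + ν p) + 2) (z := zx) (z' := zy)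
    fun p hp => by
      have hg := h.geo p hp
      have h7 := hg.b_ge
      have h8 := hg.hm
      have h9 : a p ≤ a p * (d p + 1) := Nat.le_mul_of_pos_right _ (by omega)
      rw [← Geo.pow_eq hg]
      exact ⟨by positivity, by positivity, le_rfl,
        hg.b_le.trans (Nat.pow_le_pow_right two_pos (h.a_le p hp).1), (h2 p hp).1, (h4 p hp).1,
        (h2 p hp).2, (h4 p hp).2, (pow_add _ _ _).ge, by omega, by omega, by omega, by omega,
        by omega, by omega, by omega⟩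
  choose! zz h6 using h6
  have h7 := h.swapC (z := zz) h5 fun p hp => by rw [(h6 p hp).1, Geo.pow_eq (h.geo p hp)]
  obtain ⟨W, zw, h8, h9⟩ := h.fft true h7
    (B := fun p => 5 * b p + 2 * grw (a p) (d p) + (a p + ν p))
    (D' := fun p => 2 * b p + 2 * grw (a p) (d p) + (a p + ν p) + 2) fun p hp => by
      have hg := h.geo p hp
      have h7 := hg.b_ge
      have h8 := hg.hm
      have h9 : a p ≤ a p * (d p + 1) := Nat.le_mul_of_pos_right _ (by omega)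
      have h10 := (h6 p hp).2
      rw [← Geo.pow_eq hg] at h10
      exact ⟨rfl, h10.comp fun i hi => swapIx_lt (by rw [Geo.swap_dvd hg]) hi, by omega, by omega,
        by omega, by omega⟩
  have h10 := (oc_both h8 (n := fun p => (ssL (d p) (A p) (D p)).prod * (2 ^ a p * 2 ^ ν p))
    (ψ := fun p => crtIx (a p) (ν p) (d p) (A p) (D p)) (fun p hp => (h9 p hp).1)
    fun l hl hw => oc_crt' h.hS h.one hl h.sa.ext h.sν.ext h.sd.ext h.sA.ext h.sD.ext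
      (N := fun q => 2 ^ m q.1) h.fitC.ext fun q hq => by
        have hg := h.geo _ hq.1
        exact ⟨(hw q hq).1, by rw [(hw q hq).2, hg.hm], by rw [hg.hm], hg.a_pos, hg.crt,
          hg.swp.trans hg.a_le⟩)
  have hH : ∀ p, 𝒜.D p → 2 * (2 ^ a p * 2 ^ ν p / 2) = 2 ^ a p * 2 ^ ν p := fun p hp =>
    Nat.mul_div_cancel' ((dvd_pow_self 2 (h.geo p hp).a_pos.ne').mul_right _)
  refine (oc_finish h10 hx hy h.sb h.sH h.sS h.fit1
    (z := fun p i => zw p (crtIx (a p) (ν p) (d p) (A p) (D p) i))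
    (v := fun p => bwd (a p) (ν p) (d p) (A p) (D p) (blk (2 ^ a p * 2 ^ ν p) (2 ^ (3 * b p) : ℂ)⁻¹
      (fwd (a p) (ν p) (d p) (A p) (D p) (ld (2 ^ a p * 2 ^ ν p / 2)
        fun i => 2 ^ (3 * b p) * (chk (b p) (x p) i : ℂ)))
      (fwd (a p) (ν p) (d p) (A p) (D p) (ld (2 ^ a p * 2 ^ ν p / 2)
        fun i => 2 ^ (3 * b p) * (chk (b p) (y p) i : ℂ)))))
    (B := fun p => 5 * b p + 2 * grw (a p) (d p) + (a p + ν p) + grw (a p) (d p))
    (D := fun p => 2 * b p + 2 * grw (a p) (d p) + (a p + ν p) + 2 + grw (a p) (d p))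
    fun p hp => ?_).mono fun T p _ => le_of_eq ?_
  · have hg := h.geo p hp
    have h11 := hg.b_ge
    have h12 := hg.hm
    have h13 : a p ≤ a p * (d p + 1) := Nat.le_mul_of_pos_right _ (by omega)
    have h14 := hH p hp
    have h15 : 0 < 2 ^ a p * 2 ^ ν p := by positivity
    obtain ⟨h16, h17⟩ := hn p hp
    have h18 : ∀ i, crtIx (a p) (ν p) (d p) (A p) (D p) i < 2 ^ m p := fun i => by
      rw [h12]
      exact hg.crt.crtIx_lt i
    have h19 : 2 * ((x p).length / b p + 1) ≤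
        (ssL (d p) (A p) (D p)).prod * (2 ^ a p * 2 ^ ν p / 2) := by
      have h20 := Nat.mul_le_mul_right (2 * (2 ^ a p * 2 ^ ν p / 2)) hg.big
      rw [Geo.pow_eq hg, ← h14] at h17
      nlinarith
    have h21 : 2 ^ m p ≤ 2 ^ b p := Nat.pow_le_pow_right two_pos (by omega)
    simp only [h14]
    refine ⟨by omega, by omega, Geo.len_le hg,
      hg.b_le.trans (Nat.pow_le_pow_right two_pos (h.a_le p hp).1), h16, h19, by omega, ?_,
      (h9 p hp).2.comp fun i _ => h18 i, by omega, fun i hi => ?_⟩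
    · rw [(h9 p hp).1]
      exact pull_encC _ fun i _ => h18 i
    · have h22 := conv_eq hg.crt hg.d_pos h14 h19
        (X := fun i => 2 ^ (3 * b p) * (chk (b p) (x p) i : ℂ))
        (Y := fun i => 2 ^ (3 * b p) * (chk (b p) (y p) i : ℂ))
        (fun i hi => by rw [chk_eq_zero (by omega) hi]; simp)
        (fun i hi => by rw [chk_eq_zero (by omega) (h16 ▸ hi)]; simp) (2 ^ (3 * b p) : ℂ)⁻¹ hi
      simp only [h14] at h22
      rw [h22, Finset.mul_sum, Finset.mul_sum]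
      refine Finset.sum_congr rfl fun q _ => ?_
      field_simp
  · push_cast
    ring

end Env

end pipeline

end Vale.Agent.P338
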