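import Vale.Agent.P338.Ix
import Mathlib.Algebra.BigOperators.Intervals
import Mathlib.Algebra.Order.Ring.Pow
import Mathlib.Algebra.Order.Field.Rat
import Mathlib.Algebra.BigOperators.Fin
import Mathlib.Tactic.Positivity
import Mathlib.Tactic.FieldSimp
import Mathlib.Algebra.Order.BigOperators.Group.Finset
import Mathlib.Algebra.Order.BigOperators.Ring.Finset
import Mathlib.Data.Nat.ChineseRemainder
import Mathlib.Data.Nat.ModEq
import Mathlib.Tactic.Ring
import Mathlib.Tactic.Linarith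

/-! Pairwise coprime moduli close to a power of two and the remainder map. -/

namespace Vale.Agent.P338

open Finset

/-- The moduli. -/
def sm (A D ι : ℕ) : ℕ := 1 + (A - ι) * D

def ssL (d A D : ℕ) : List ℕ := (List.range d).map (sm A D)

/-- The inverse of the product of the lower moduli. -/
def uu (A D ι : ℕ) : ℕ := ((List.range ι).map fun l => D / (ι - l) * (A - ι) ^ 2).prod

/-- The normalised remainders. -/
def beta (A D ι j : ℕ) : ℕ := uu A D ι * j % sm A D ι

def CrtPre (a d A D : ℕ) : Prop :=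
  d ≤ A ∧ (∀ x, 0 < x → x < d → x ∣ D) ∧ sm A D 0 ≤ 2 ^ a

/-- From the layout `(j, U, V)` to the layout `(U, β (d - 1), ..., β 0, V)`. -/
def crtIx (a ν d A D p : ℕ) : ℕ :=
  (p / 2 ^ ν % 2 ^ a * (2 ^ a) ^ d +
    ∑ ι ∈ range d, beta A D ι (p / (2 ^ a * 2 ^ ν)) * (2 ^ a) ^ ι) * 2 ^ ν + p % 2 ^ ν

open Classical in
/-- The inverse map; positions outside the image are sent out of range. -/
noncomputable def crtInv (a ν d A D o : ℕ) : ℕ :=
  if h : ∃ p < (ssL d A D).prod * (2 ^ a * 2 ^ ν), crtIx a ν d A D p = o then h.choose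
  else (ssL d A D).prod * (2 ^ a * 2 ^ ν)

@[simp] theorem length_ssL (d A D : ℕ) : (ssL d A D).length = d := by simp [ssL]

theorem getD_ssL {d A D ι : ℕ} (h : ι < d) : (ssL d A D).getD ι 1 = sm A D ι := by
  simp [ssL, List.getD_eq_getElem?_getD, h]

theorem sm_pos (A D ι : ℕ) : 0 < sm A D ι := by unfold sm; omega

theorem beta_lt (A D ι j : ℕ) : beta A D ι j < sm A D ι := Nat.mod_lt _ (sm_pos _ _ _)

theorem beta_add (A D ι j j' : ℕ) :
    beta A D ι (j + j') = (beta A D ι j + beta A D ι j') % sm A D ι := by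
  simp [beta, mul_add]

variable {a ν d A D : ℕ}

theorem CrtPre.sm_le (h : CrtPre a d A D) (ι : ℕ) : sm A D ι ≤ 2 ^ a := by
  refine le_trans ?_ h.2.2
  unfold sm
  exact Nat.add_le_add_left (Nat.mul_le_mul_right _ (by omega)) _

theorem CrtPre.mem (h : CrtPre a d A D) : ∀ s ∈ ssL d A D, 0 < s ∧ s ≤ 2 ^ a := by
  intro s hs
  obtain ⟨ι, -, rfl⟩ := List.mem_map.1 hs
  exact ⟨sm_pos _ _ _, h.sm_le ι⟩

theorem ssL_prod_succ (d A D : ℕ) : (ssL (d + 1) A D).prod = (ssL d A D).prod * sm A D d := by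
  simp [ssL, List.range_succ]

@[simp] theorem ssL_prod_zero (A D : ℕ) : (ssL 0 A D).prod = 1 := rfl

theorem CrtPre.prod_le' (h : CrtPre a d A D) (k : ℕ) : (ssL k A D).prod ≤ (2 ^ a) ^ k := by
  induction k with
  | zero => simp
  | succ k ih =>
    rw [ssL_prod_succ, pow_succ]
    exact Nat.mul_le_mul ih (h.sm_le k)

theorem CrtPre.prod_le (h : CrtPre a d A D) : (ssL d A D).prod ≤ (2 ^ a) ^ d :=
  h.prod_le' d

theorem ssL_prod_pos (d A D : ℕ) : 0 < (ssL d A D).prod := by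
  induction d with
  | zero => simp
  | succ k ih =>
    rw [ssL_prod_succ]
    exact Nat.mul_pos ih (sm_pos _ _ _)

theorem sm_dvd_prod {ι d : ℕ} (A D : ℕ) (h : ι < d) : sm A D ι ∣ (ssL d A D).prod :=
  List.dvd_prod (List.mem_map.2 ⟨ι, List.mem_range.2 h, rfl⟩)

theorem CrtPre.uu_mul (h : CrtPre a d A D) {ι : ℕ} (hι : ι < d) :
    uu A D ι * (ssL ι A D).prod ≡ 1 [MOD sm A D ι] := by
  have key : ∀ k ≤ ι, ((List.range k).map fun l => D / (ι - l) * (A - ι) ^ 2).prod *
      (ssL k A D).prod ≡ 1 [MOD sm A D ι] := by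
    intro k hk
    induction k with
    | zero => simp [Nat.ModEq.refl]
    | succ k ih =>
      rw [ssL_prod_succ, List.range_succ, List.map_append, List.prod_append, List.map_singleton,
        List.prod_singleton, mul_mul_mul_comm]
      refine (Nat.ModEq.mul (ih (by omega)) ?_).trans (by rw [mul_one])
      obtain ⟨c, hc⟩ := h.2.1 (ι - k) (by omega) (by omega)
      have h1 : D / (ι - k) = c := by rw [hc, Nat.mul_div_cancel_left _ (by omega)]
      have h2 : sm A D k = sm A D ι + (ι - k) * D := by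
        have := h.1
        rw [sm, sm, show A - k = A - ι + (ι - k) by omega]
        ring
      have h3 : c * (A - ι) ^ 2 * ((ι - k) * D) + sm A D ι = 1 + (A - ι) * D * sm A D ι := by
        rw [show c * (A - ι) ^ 2 * ((ι - k) * D) = (ι - k) * c * (A - ι) ^ 2 * D by ring, ← hc, sm]
        ring
      rw [h1, h2, Nat.ModEq, mul_add, mul_comm _ (sm A D ι), Nat.mul_add_mod,
        ← Nat.add_mod_right, h3, Nat.add_mul_mod_self_right]
  exact key ι le_rfl

theorem CrtPre.beta_mod (h : CrtPre a d A D) {ι : ℕ} (hι : ι < d) (j : ℕ) :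
    beta A D ι (j % (ssL d A D).prod) = beta A D ι j :=
  ((Nat.mod_modEq j _).of_dvd (sm_dvd_prod A D hι)).mul_left _

theorem beta_mul_add {ι k : ℕ} (hι : ι < k) (A D x j : ℕ) :
    beta A D ι (x * (ssL k A D).prod + j) = beta A D ι j := by
  obtain ⟨c, hc⟩ := sm_dvd_prod A D hι
  rw [beta, beta, hc, mul_add,
    show uu A D ι * (x * (sm A D ι * c)) = sm A D ι * (uu A D ι * x * c) by ring, Nat.mul_add_mod]

theorem CrtPre.beta_stage (h : CrtPre a d A D) {ι : ℕ} (hι : ι < d) (x j : ℕ) :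
    beta A D ι (x * (ssL ι A D).prod + j) = (x + uu A D ι * j) % sm A D ι := by
  rw [beta, mul_add, show uu A D ι * (x * (ssL ι A D).prod) = x * (uu A D ι * (ssL ι A D).prod)
    by ring]
  exact (((h.uu_mul hι).mul_left x).trans (by rw [mul_one])).add_right _

theorem CrtPre.beta_inj (h : CrtPre a d A D) {k : ℕ} (hk : k ≤ d) : ∀ {j j' : ℕ},
    j < (ssL k A D).prod → j' < (ssL k A D).prod → (∀ ι < k, beta A D ι j = beta A D ι j') →
      j = j' := by
  induction k with
  | zero => intro j j' hj hj' _; simp at hj hj'; omega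
  | succ k ih =>
    intro j j' hj hj' hb
    have hS := ssL_prod_pos k A D
    rw [ssL_prod_succ] at hj hj'
    have h1 : j % (ssL k A D).prod = j' % (ssL k A D).prod := by
      refine ih (by omega) (Nat.mod_lt _ hS) (Nat.mod_lt _ hS) fun ι hι => ?_
      have := hb ι (by omega)
      rwa [← Nat.div_add_mod' j (ssL k A D).prod, ← Nat.div_add_mod' j' (ssL k A D).prod,
        beta_mul_add hι, beta_mul_add hι] at this
    have h2 := hb k (by omega)
    rw [← Nat.div_add_mod' j (ssL k A D).prod, ← Nat.div_add_mod' j' (ssL k A D).prod,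
      h.beta_stage (by omega), h.beta_stage (by omega), h1] at h2
    have h3 := Nat.ModEq.eq_of_lt_of_lt (Nat.ModEq.add_right_cancel' _ h2)
      (Nat.div_lt_of_lt_mul hj) (Nat.div_lt_of_lt_mul hj')
    rw [← Nat.div_add_mod' j (ssL k A D).prod, ← Nat.div_add_mod' j' (ssL k A D).prod, h1, h3]

theorem CrtPre.beta_surj (h : CrtPre a d A D) (β : ℕ → ℕ) {k : ℕ} (hk : k ≤ d)
    (hβ : ∀ ι < k, β ι < sm A D ι) :
    ∃ j < (ssL k A D).prod, ∀ ι < k, beta A D ι j = β ι := by
  induction k with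
  | zero => exact ⟨0, by simp, by simp⟩
  | succ k ih =>
    obtain ⟨j, hj, hb⟩ := ih (by omega) fun ι hι => hβ ι (by omega)
    have hs := sm_pos A D k
    have hx := Nat.mod_lt (β k + (sm A D k - uu A D k * j % sm A D k)) hs
    refine ⟨(β k + (sm A D k - uu A D k * j % sm A D k)) % sm A D k * (ssL k A D).prod + j, ?_,
      fun ι hι => ?_⟩
    · rw [ssL_prod_succ]
      nlinarith
    · rcases Nat.lt_succ_iff_lt_or_eq.1 hι with hι | rfl
      · rw [beta_mul_add hι, hb ι hι]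
      · have := Nat.mod_lt (uu A D ι * j) hs
        rw [h.beta_stage (by omega), Nat.mod_add_mod, ← Nat.add_mod_mod, add_assoc,
          Nat.sub_add_cancel this.le, Nat.add_mod_right, Nat.mod_eq_of_lt (hβ ι hι)]

theorem digits_lt {t : ℕ} {β : ℕ → ℕ} (k : ℕ) (h : ∀ ι < k, β ι < t) :
    ∑ ι ∈ range k, β ι * t ^ ι < t ^ k := by
  induction k with
  | zero => simp
  | succ k ih =>
    have h1 := ih fun ι hι => h ι (by omega)
    have h2 := h k (by omega)
    have h3 := Nat.mul_le_mul_left (t ^ k) (Nat.succ_le_of_lt h2)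
    rw [sum_range_succ, pow_succ]
    rw [Nat.mul_succ, mul_comm] at h3
    omega

theorem two_inj {X h h' x x' : ℕ} (hx : x < X) (hx' : x' < X) (e : h * X + x = h' * X + x') :
    h = h' ∧ x = x' := by
  have h1 := congrArg (· % X) e
  simp only [Nat.mul_add_mod_self_right, Nat.mod_eq_of_lt hx, Nat.mod_eq_of_lt hx'] at h1
  rw [h1] at e
  exact ⟨Nat.eq_of_mul_eq_mul_right (by omega) (Nat.add_right_cancel e), h1⟩

theorem digits_inj {t : ℕ} {β β' : ℕ → ℕ} (k : ℕ) (h : ∀ ι < k, β ι < t) (h' : ∀ ι < k, β' ι < t)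
    (e : ∑ ι ∈ range k, β ι * t ^ ι = ∑ ι ∈ range k, β' ι * t ^ ι) : ∀ ι < k, β ι = β' ι := by
  induction k with
  | zero => simp
  | succ k ih =>
    rw [sum_range_succ, sum_range_succ, add_comm, add_comm _ (β' k * _)] at e
    obtain ⟨h1, h2⟩ := two_inj (digits_lt k fun ι hι => h ι (by omega))
      (digits_lt k fun ι hι => h' ι (by omega)) e
    intro ι hι
    rcases Nat.lt_succ_iff_lt_or_eq.1 hι with hι | rfl
    · exact ih (fun ι hι => h ι (by omega)) (fun ι hι => h' ι (by omega)) h2 ι hι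
    · exact h1

theorem CrtPre.beta_lt' (h : CrtPre a d A D) (ι j : ℕ) : beta A D ι j < 2 ^ a :=
  (beta_lt _ _ _ _).trans_le (h.sm_le ι)

theorem CrtPre.beta_bij (h : CrtPre a d A D) (β : Fin d → ℕ) (hβ : ∀ ι, β ι < sm A D ι) :
    ∃! j, j < (ssL d A D).prod ∧ ∀ ι : Fin d, beta A D ι j = β ι := by
  obtain ⟨j, hj, hb⟩ := h.beta_surj (fun ι => if hι : ι < d then β ⟨ι, hι⟩ else 0) le_rfl
    fun ι hι => by rw [dif_pos hι]; exact hβ ⟨ι, hι⟩
  have hb' : ∀ ι : Fin d, beta A D ι j = β ι := fun ι => by rw [hb ι ι.2, dif_pos ι.2]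
  exact ⟨j, ⟨hj, hb'⟩, fun j' hj' => h.beta_inj le_rfl hj'.1 hj fun ι hι =>
    (hj'.2 ⟨ι, hι⟩).trans (hb' ⟨ι, hι⟩).symm⟩

theorem CrtPre.crtIx_lt (h : CrtPre a d A D) (p : ℕ) :
    crtIx a ν d A D p < 2 ^ (ν + a * (d + 1)) := by
  have := ix_lt (Nat.mod_lt (p / 2 ^ ν) (Nat.two_pow_pos a))
    (digits_lt d fun ι _ => h.beta_lt' ι (p / (2 ^ a * 2 ^ ν))) (Nat.mod_lt p (Nat.two_pow_pos ν))
  rwa [show 2 ^ a * (2 ^ a) ^ d * 2 ^ ν = 2 ^ (ν + a * (d + 1)) by ring] at this

theorem CrtPre.crtInv_crtIx (h : CrtPre a d A D) {p : ℕ}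
    (hp : p < (ssL d A D).prod * (2 ^ a * 2 ^ ν)) : crtInv a ν d A D (crtIx a ν d A D p) = p := by
  have hex : ∃ q < (ssL d A D).prod * (2 ^ a * 2 ^ ν), crtIx a ν d A D q = crtIx a ν d A D p :=
    ⟨p, hp, rfl⟩
  rw [crtInv, dif_pos hex]
  obtain ⟨hq, e⟩ := hex.choose_spec
  generalize hex.choose = q at hq e
  obtain ⟨e1, e2⟩ := two_inj (Nat.mod_lt _ (Nat.two_pow_pos ν)) (Nat.mod_lt _ (Nat.two_pow_pos ν)) e
  obtain ⟨e3, e4⟩ := two_inj (digits_lt d fun ι _ => h.beta_lt' ι _)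
    (digits_lt d fun ι _ => h.beta_lt' ι _) e1
  have e5 := h.beta_inj le_rfl (Nat.div_lt_of_lt_mul (by rwa [mul_comm]))
    (Nat.div_lt_of_lt_mul (by rwa [mul_comm]))
    (digits_inj d (fun ι _ => h.beta_lt' ι _) (fun ι _ => h.beta_lt' ι _) e4)
  rw [mul_comm] at e5
  rw [ix_eq (2 ^ ν) (2 ^ a) q, ix_eq (2 ^ ν) (2 ^ a) p, e2, e3, e5]

/-- The choice of the moduli. -/
theorem crt_choice {a d D : ℕ} (hd : 0 < d) (hD : 0 < D) (hx : ∀ x, 0 < x → x < d → x ∣ D)
    (h : 2 * d * (d + 1) * D ≤ 2 ^ a) :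
    CrtPre a d (2 ^ a / D - 1) D ∧ (2 ^ a) ^ d ≤ 2 * (ssL d (2 ^ a / D - 1) D).prod := by
  generalize ht : 2 ^ a = t at h ⊢
  have h1 : 2 * d * (d + 1) ≤ t / D := (Nat.le_div_iff_mul_le hD).2 h
  have h2 : d + 1 ≤ t / D := le_trans (by nlinarith) h1
  have h3 := Nat.div_add_mod' t D
  have h4 := Nat.mod_lt t hD
  obtain ⟨q, hq⟩ : ∃ q, t / D = q + d + 1 := ⟨t / D - (d + 1), by omega⟩
  rw [hq] at h3 ⊢
  rw [Nat.add_sub_cancel]
  refine ⟨⟨by omega, hx, ?_⟩, ?_⟩
  · rw [ht, sm, Nat.sub_zero]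
    rw [add_mul, one_mul] at h3
    omega
  · have h5 : ∀ k ≤ d, ((1 + (-1 / (2 * d) : ℚ)) * t) ^ k ≤ (ssL k (q + d) D).prod := by
      have hd' : (1 : ℚ) ≤ d := by exact_mod_cast hd
      have h0 : 0 ≤ (1 + (-1 / (2 * d) : ℚ)) * t := by
        refine mul_nonneg ?_ (by positivity)
        have : (1 : ℚ) / (2 * d) ≤ 1 := by
          rw [div_le_one (by positivity)]
          linarith
        rw [neg_div]
        linarith
      intro k hk
      induction k with
      | zero => simp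
      | succ k ih =>
        rw [ssL_prod_succ, pow_succ, Nat.cast_mul]
        refine mul_le_mul (ih (by omega)) ?_ h0 (by positivity)
        have h6 : t ≤ sm (q + d) D k + (d + 1) * D := by
          have : (q + 1) * D ≤ (q + d - k) * D := Nat.mul_le_mul_right _ (by omega)
          rw [sm]
          nlinarith
        have h7 : (t : ℚ) ≤ sm (q + d) D k + (d + 1) * D := by exact_mod_cast h6
        have h8 : (2 * d * (d + 1) * D : ℚ) ≤ t := by exact_mod_cast h
        have h9 : ((d + 1) * D : ℚ) ≤ t / (2 * d) := by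
          rw [le_div_iff₀ (by positivity)]
          linarith
        have : (1 + (-1 / (2 * d) : ℚ)) * t = t - t / (2 * d) := by ring
        linarith
    have hd' : (1 : ℚ) ≤ d := by exact_mod_cast hd
    have h6 := one_add_mul_le_pow (a := (-1 / (2 * d) : ℚ)) (by
      have : (1 : ℚ) / (2 * d) ≤ 1 := by
        rw [div_le_one (by positivity)]
        linarith
      rw [neg_div]
      linarith) d
    have h7 : 1 + (d : ℚ) * (-1 / (2 * d)) = 1 / 2 := by
      field_simp
      ring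
    have h8 := h5 d le_rfl
    rw [mul_pow] at h8
    rw [h7] at h6
    have h9 : (t : ℚ) ^ d ≤ 2 * (ssL d (q + d) D).prod := by
      have := mul_le_mul_of_nonneg_right h6 (show (0 : ℚ) ≤ (t : ℚ) ^ d by positivity)
      linarith
    exact_mod_cast h9

end Vale.Agent.P338
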