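import Mathlib.Data.Fintype.Pi
import Mathlib.Data.Fintype.Prod
import Mathlib.Data.Finset.Lattice.Fold
import Mathlib.Order.ConditionallyCompleteLattice.Basic
import Mathlib.Order.Lattice.Nat

/-! Deterministic multitape Turing machines and the running time of multiplication. -/

namespace Vale.Agent.P338

/-- Head movements. -/
inductive Dir : Type
  | left : Dir
  | stay : Dir
  | right : Dir

/-- The new position of a head on a tape with cells `0, 1, 2, ...` (cell `0` is the leftmost
one; a head that is asked to leave it to the left does not move). -/
def Dir.move : Dir → ℕ → ℕ
  | .left, h => h - 1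
  | .stay, h => h
  | .right, h => h + 1

/-- A deterministic multitape Turing machine: finitely many tapes, states and symbols. In one
step it reads the symbols under all heads, and then either halts (`none`) or enters a new state,
overwrites the scanned cells and moves each head by at most one cell. -/
structure MTM : Type 1 where
  Tape : Type
  State : Type
  Sym : Type
  finTape : Finite Tape
  finState : Finite State
  finSym : Finite Sym
  inp : Tape
  out : Tape
  start : State
  blank : Sym
  zero : Sym
  one : Sym
  sep : Sym
  distinct : [blank, zero, one, sep].Nodup
  δ : State → (Tape → Sym) → Option (State × (Tape → Sym × Dir))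

namespace MTM

variable (A : MTM)

/-- Configurations: state, tape contents and head positions. -/
structure Cfg : Type where
  state : A.State
  tape : A.Tape → ℕ → A.Sym
  head : A.Tape → ℕ

/-- One step; `none` when the machine halts. -/
def step (c : A.Cfg) : Option A.Cfg :=
  (A.δ c.state fun i => c.tape i (c.head i)).map fun r =>
    ⟨r.1, fun i => Function.update (c.tape i) (c.head i) (r.2 i).1,
      fun i => (r.2 i).2.move (c.head i)⟩

/-- The configuration after `t` steps (`none` if the machine halted earlier). -/
def run (c : A.Cfg) : ℕ → Option A.Cfg
  | 0 => some c
  | t + 1 => (run c t).bind A.step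

/-- A word written from the leftmost cell on, followed by blanks. -/
def written (w : List A.Sym) : ℕ → A.Sym := fun j => w.getD j A.blank

open Classical in
/-- The initial configuration on the input `w`. -/
noncomputable def init (w : List A.Sym) : A.Cfg :=
  ⟨A.start, fun i => if i = A.inp then A.written w else fun _ => A.blank, fun _ => 0⟩

/-- On input `w` the machine halts after exactly `t` steps, in the configuration `c`. -/
def HaltsIn (w : List A.Sym) (t : ℕ) (c : A.Cfg) : Prop :=
  A.run (A.init w) t = some c ∧ A.step c = none

/-- A binary string as a word over the tape alphabet. -/
def word (x : List Bool) : List A.Sym := x.map fun b => if b then A.one else A.zero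

/-- The input made of `x`, the separator and `y`. -/
def input (x y : List Bool) : List A.Sym := A.word x ++ A.sep :: A.word y

end MTM

/-- The value of a binary string, leftmost bit most significant. -/
def val (x : List Bool) : ℕ := x.foldl (fun a b => 2 * a + b.toNat) 0

/-- The `k` lowest binary digits of `z`, most significant first. -/
def bin (k z : ℕ) : List Bool := List.ofFn fun j : Fin k => z.testBit (k - 1 - j)

/-- The machine multiplies. -/
def MTM.Multiplies (A : MTM) : Prop :=
  ∀ n : ℕ, 1 ≤ n → ∀ x y : List Bool, x.length = n → y.length = n →
    ∃ (t : ℕ) (c : A.Cfg), A.HaltsIn (A.input x y) t c ∧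
      c.tape A.out = A.written (A.word (bin (2 * n) (val x * val y)))

/-- The number of steps on the input `w`. -/
noncomputable def MTM.time (A : MTM) (w : List A.Sym) : ℕ := sInf {t | ∃ c, A.HaltsIn w t c}

/-- The worst case running time on two `n`-bit factors. -/
noncomputable def MTM.T (A : MTM) (n : ℕ) : ℕ :=
  Finset.univ.sup fun p : (Fin n → Bool) × (Fin n → Bool) =>
    A.time (A.input (List.ofFn p.1) (List.ofFn p.2))

end Vale.Agent.P338
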