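import Vale.Agent.P338.DftA

/-! The program computes the multidimensional transform; bounds for its weights. -/

namespace Vale.Agent.P338

open Vale.Agent.P344

/-- Admissible parameters of the box. -/
def BoxPre (a ν γ : ℕ) (ss : List ℕ) : Prop :=
  0 < a ∧ γ + ss.length ≤ ν ∧ ∀ s ∈ ss, 0 < s ∧ s ≤ 2 ^ a

variable {inv : Bool} {a ν γ : ℕ} {ss : List ℕ} {st : Stp}

namespace DftAux

open Function

theorem mem_shear {a d u ε : ℕ} (h : st ∈ shear a d u ε) : st.2.1 = u ∧ st.2.2.1 = ε ∧
    1 ≤ st.1 ∧ st.1 ≤ 7 ∧ (st.1 = 4 → st.2.2.2 < d) ∧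
    (st.1 = 2 ∨ st.1 = 3 ∨ st.1 = 5 ∨ st.1 = 6 → st.2.2.2 < a) ∧
    (st.1 = 1 ∨ st.1 = 7 → st.2.2.2 = 0) := by
  simp only [shear, List.mem_append, List.mem_cons, List.mem_flatMap, List.mem_reverse,
    List.mem_range, List.mem_map, List.not_mem_nil, or_false] at h
  rcases h with (((rfl | ⟨j, hj, rfl | rfl⟩) | ⟨j, hj, rfl⟩) | ⟨j, hj, rfl | rfl⟩) | rfl <;>
    simp [*]

theorem getD_pos (h : BoxPre a ν γ ss) (i : ℕ) : 0 < ss.getD i 1 ∧ ss.getD i 1 ≤ 2 ^ a := by
  by_cases hi : i < ss.length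
  · rw [List.getD_eq_getElem _ _ hi]
    exact h.2.2 _ (List.getElem_mem hi)
  · rw [List.getD_eq_default _ _ (by omega)]
    exact ⟨one_pos, Nat.one_le_two_pow⟩

theorem prod_getD (ss : List ℕ) : ∏ ι : Fin ss.length, ss.getD ι 1 = ss.prod := by
  rw [← Fin.prod_univ_getElem]
  exact Finset.prod_congr rfl fun ι _ => List.getD_eq_getElem _ _ ι.2

theorem prod_pos (h : BoxPre a ν γ ss) : 0 < ss.prod := by
  rw [← prod_getD]
  exact Finset.prod_pos fun ι _ => (getD_pos h ι).1

theorem sum_range_fin (d : ℕ) (f : ℕ → ℤ) : ((List.range d).map f).sum = ∑ ι : Fin d, f ι := by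
  rw [← Finset.sum_range]
  induction d with
  | zero => simp
  | succ d ih => rw [List.range_succ, List.map_append, List.sum_append, ih, Finset.sum_range_succ]; simp

theorem ee_sum {I : Type} (S : Finset I) (f : I → ℝ) : ee (∑ i ∈ S, f i) = ∏ i ∈ S, ee (f i) := by
  classical
  induction S using Finset.induction_on with
  | empty => simp
  | insert i S hi ih => rw [Finset.sum_insert hi, Finset.prod_insert hi, ee_add, ih]

theorem wval_wp1 (h : BoxPre a ν γ ss) (h4 : st.1 ≠ 4) (h8 : st.1 ≠ 8) (h9 : st.1 ≠ 9) (p : ℕ) :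
    wval (wp1 inv a ν γ ss st p) =
      ∏ ι : Fin ss.length, axD inv a (ss.getD ι 1) st (xv a ν ι p) (cb γ ι p) := by
  simp only [wp1, if_neg h4, if_neg h8, if_neg h9, wval, List.map_cons, List.map_nil,
    List.sum_cons, List.sum_nil, add_zero, axD, Finset.prod_mul_distrib]
  rw [div_eq_mul_inv]
  congr 1
  · congr 1
    · split_ifs with hc
      · obtain ⟨h1, ι, hι, h2⟩ := hc
        rw [Int.cast_zero]
        symm
        refine Finset.prod_eq_zero (i := (⟨ι, hι⟩ : Fin ss.length)) (Finset.mem_univ _) ?_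
        exact if_pos ⟨h1, h2⟩
      · rw [Int.cast_one]
        symm
        refine Finset.prod_eq_one fun ι _ => ?_
        exact if_neg fun hh => hc ⟨hh.1, ι, ι.2, hh.2⟩
    · split_ifs with hc
      · rw [← prod_getD, Finset.prod_inv_distrib]
        simp
      · simp
  · rw [← ee_sum, sum_range_fin]
    congr 1
    rw [Int.cast_sum, Finset.sum_div]
    refine Finset.sum_congr rfl fun ι _ => ?_
    have hd : ss.getD ι 1 ∣ ss.prod := by
      rw [← prod_getD]
      exact Finset.dvd_prod_of_mem (fun ι : Fin ss.length => ss.getD ι 1) (Finset.mem_univ ι)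
    obtain ⟨c, hc⟩ := hd
    have hs := (getD_pos h ι).1
    have hP := prod_pos h
    have hc0 : 0 < c := Nat.pos_of_ne_zero fun h0 => by rw [h0, mul_zero] at hc; omega
    have e : ss.prod / ss.getD ι 1 = c := by rw [hc, Nat.mul_div_cancel_left _ hs]
    have e2 : ((ss.prod : ℕ) : ℝ) = (ss.getD ι 1 : ℕ) * c := by rw [hc]; push_cast; ring
    have hs' : ((ss.getD ι 1 : ℕ) : ℝ) ≠ 0 := by exact_mod_cast hs.ne'
    have hc' : (c : ℝ) ≠ 0 := by exact_mod_cast hc0.ne'
    rw [e]
    generalize ss.prod = P at e2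
    push_cast
    rw [e2]
    field_simp
    ring

theorem tprod_diagonal {A I : Type} [Fintype A] [DecidableEq A] [Fintype I] [DecidableEq I]
    (D : A → (I → ZMod 2) → ℂ) :
    (tprod fun ι => Matrix.diagonal (D ι)).submatrix curry curry =
      Matrix.diagonal fun x : A × I → ZMod 2 => ∏ ι, D ι (curry x ι) := by
  ext x y
  rw [Matrix.submatrix_apply, P344.tprod_apply]
  by_cases hxy : x = y
  · subst hxy
    simp
  · rw [Matrix.diagonal_apply_ne _ hxy]
    obtain ⟨ι, hι⟩ := Function.ne_iff.1 (curry_injective.ne hxy)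
    exact Finset.prod_eq_zero (Finset.mem_univ ι) (Matrix.diagonal_apply_ne _ hι)

theorem lft2_axis {A I : Type} [Fintype A] [DecidableEq A] [Fintype I] [DecidableEq I]
    (w : A → I → ℕ) {M : A → Matrix (I → ZMod 2) (I → ZMod 2) ℂ} (ι : A)
    (hM : ∀ κ, κ ≠ ι → M κ = 1) {D D' : (I → ZMod 2) → ℂ} {φ : (I → ZMod 2) → I → ZMod 2}
    (hι : ∀ x y, M ι x y = (if y = x then D x else 0) + if y = φ x then D' x else 0)
    (v : ℕ → ℂ) (p : ℕ) :
    lft2 w (tprod M) v p = D (curry (dX 2 (uncurry w) p) ι) * v p +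
      D' (curry (dX 2 (uncurry w) p) ι) * v (upd (uncurry w) p
        (uncurry (update (curry (dX 2 (uncurry w) p)) ι (φ (curry (dX 2 (uncurry w) p) ι))))) := by
  have e : (tprod M).submatrix curry curry =
      Matrix.diagonal (fun x : A × I → ZMod 2 => D (curry x ι)) +
      Matrix.of fun x y => if y = uncurry (update (curry x) ι (φ (curry x ι))) then
        D' (curry x ι) else 0 := by
    ext x y
    rw [Matrix.submatrix_apply, P344.tprod_apply, Matrix.add_apply, Matrix.of_apply,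
      Matrix.diagonal_apply]
    by_cases hxy : ∀ κ, κ ≠ ι → curry x κ = curry y κ
    · rw [Finset.prod_eq_single ι (fun κ _ hκ => by rw [hM κ hκ, hxy κ hκ, Matrix.one_apply_eq])
        (by simp), hι]
      have h1 : x = y ↔ curry y ι = curry x ι := by
        refine ⟨fun e => by rw [e], fun e => curry_injective (funext fun κ => ?_)⟩
        by_cases hκ : κ = ι
        · rw [hκ, e]
        · exact hxy κ hκ
      have h2 : y = uncurry (update (curry x) ι (φ (curry x ι))) ↔ curry y ι = φ (curry x ι) := by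
        refine ⟨fun e => by rw [e, curry_uncurry, update_self],
          fun e => curry_injective (funext fun κ => ?_)⟩
        rw [curry_uncurry]
        by_cases hκ : κ = ι
        · rw [hκ, e, update_self]
        · rw [update_of_ne hκ, hxy κ hκ]
      simp only [h1, h2]
    · push Not at hxy
      obtain ⟨κ, hκ, hne⟩ := hxy
      rw [Finset.prod_eq_zero (Finset.mem_univ κ) (by rw [hM κ hκ, Matrix.one_apply_ne hne]),
        if_neg (fun e => hne (by rw [e])), if_neg, add_zero]
      intro e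
      rw [e, curry_uncurry, update_of_ne hκ] at hne
      exact hne rfl
  rw [lft2, e, lft_add, Pi.add_apply, lft_diagonal, lft_mono]

theorem cb_dX (d a ν γ p : ℕ) (ι : Fin d) :
    (curry (dX 2 (uncurry (axw d a ν γ)) p) ι none).val = cb γ ι p := dX_val p _

theorem xv_dX (d a ν γ p : ℕ) (ι : Fin d) :
    axv (curry (dX 2 (uncurry (axw d a ν γ)) p) ι) = xv a ν ι p := axv_dX d a ν γ p ι

theorem norm_wval (q : WP) : ‖wval q‖ ≤ |(q.1 : ℝ)| / q.2.1 * q.2.2.length := by
  rw [wval, norm_mul, norm_div, Complex.norm_intCast, Complex.norm_natCast]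
  refine mul_le_mul_of_nonneg_left ?_ (by positivity)
  induction q.2.2 with
  | nil => simp
  | cons θ l ih =>
    rw [List.map_cons, List.sum_cons, List.length_cons]
    refine (norm_add_le _ _).trans ?_
    rw [norm_ee]
    push_cast
    linarith

theorem length_lam (inv : Bool) (a s u ε x : ℕ) : (lam inv a s u ε x).length = 2 * 2 ^ a := by
  simp [lam, List.length_flatMap, mul_comm]

theorem block_div (p γ : ℕ) {k : ℕ} (h : γ ≤ k) : p / 2 ^ γ * 2 ^ γ / 2 ^ k = p / 2 ^ k := by
  obtain ⟨c, rfl⟩ := Nat.exists_eq_add_of_le h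
  rw [pow_add, ← Nat.div_div_eq_div_mul, ← Nat.div_div_eq_div_mul,
    Nat.mul_div_cancel _ (by positivity)]

end DftAux

open DftAux Function

theorem mem_prog {a d : ℕ} (h : st ∈ prog a d) : st.1 ≤ 9 ∧ st.2.1 ≤ 2 ∧ st.2.2.1 ≤ 1 ∧
    (st.1 = 4 ∨ st.1 = 8 ∨ st.1 = 9 → st.2.2.2 < d) ∧
    (st.1 = 2 ∨ st.1 = 3 ∨ st.1 = 5 ∨ st.1 = 6 → st.2.2.2 < a) ∧
    (st.1 = 0 ∨ st.1 = 1 ∨ st.1 = 7 → st.2.2.2 = 0) := by
  simp only [prog, List.mem_append, List.mem_cons, List.mem_range, List.mem_map,
    List.not_mem_nil, or_false] at h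
  rcases h with (((((((rfl | h) | h) | h) | h) | h) | h) | ⟨j, hj, rfl⟩) | ⟨j, hj, rfl⟩
  · simp
  iterate 6 have := mem_shear h; omega
  · simp [hj]
  · simp [hj]

theorem stepOp_eq (h : BoxPre a ν γ ss) (hst : st ∈ prog a ss.length) (v : ℕ → ℂ) :
    stepOp inv a ν γ ss st v =
      lft2 (axw ss.length a ν γ) (tprod fun ι => axM inv a (ss.getD ι 1) ι st) v := by
  obtain ⟨-, -, -, hd, ha, -⟩ := mem_prog hst
  have hsep := sep_axw (a := a) h.2.1
  by_cases h49 : st.1 = 4 ∨ st.1 = 9
  · have hj : st.2.2.2 < ss.length := hd (by omega)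
    funext p
    rw [stepOp, hk, if_neg (by omega), hd_zero,
      lft2_axis (axw ss.length a ν γ) (⟨st.2.2.2, hj⟩ : Fin ss.length)
        (D := fun _ => if st.1 = 4 then 1 else 0)
        (D' := fun x => wval (axW2 inv a (ss.getD st.2.2.2 1) st (axv x) (x none).val))
        (φ := fun x => update x none (x none + 1))
        (fun κ hκ => by rw [axM, if_pos h49, if_neg fun e => hκ (Fin.ext e.symm)])
        (fun x y => by rw [axM, if_pos h49, if_pos rfl, Matrix.of_apply]),
      (upd_axis h.2.1 p ⟨st.2.2.2, hj⟩ (fun j hj => by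
        rw [uncurry, update_of_ne hj]
        rfl)).2 (fun j => by
        rw [uncurry_apply_pair, update_self, update_of_ne (by simp)]
        rfl) (by
        rw [uncurry_apply_pair, update_self, update_self]
        rfl), xv_dX, cb_dX, rf, if_pos h49]
    congr 2
    rcases h49 with h4 | h9
    · simp [wp1, h4, wval]
    · simp [wp1, h9, wval]
  · by_cases h8 : st.1 = 8
    · have hj : st.2.2.2 < ss.length := hd (by omega)
      have hlt : ∀ n, n % 2 ^ a < 2 ^ a := fun n => Nat.mod_lt _ (by positivity)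
      funext p
      rw [stepOp, hk, if_neg (by omega), hd_zero,
        lft2_axis (axw ss.length a ν γ) (⟨st.2.2.2, hj⟩ : Fin ss.length)
          (D := fun x => ((x none).val : ℂ))
          (D' := fun x => wval (axW2 inv a (ss.getD st.2.2.2 1) st (axv x) (x none).val))
          (φ := fun x => LayAux.ofAx (x none) ((ss.getD st.2.2.2 1 - 1 + (2 ^ a - axv x)) % 2 ^ a))
          (fun κ hκ => by rw [axM, if_neg h49, if_pos h8, if_neg fun e => hκ (Fin.ext e.symm)])
          (fun x y => by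
            rw [axM, if_neg h49, if_pos h8, if_pos rfl, Matrix.of_apply]
            congr 1
            refine if_congr ⟨fun e => axv_inj e.1 ?_, fun e => ?_⟩ rfl rfl
            · rw [e.2, LayAux.axv_ofAx _ (hlt _)]
            · rw [e, LayAux.axv_ofAx _ (hlt _)]
              exact ⟨rfl, rfl⟩),
        (upd_axis h.2.1 p ⟨st.2.2.2, hj⟩ (fun j hj => by
          rw [uncurry, update_of_ne hj]
          rfl)).1 (by
          rw [uncurry_apply_pair, update_self]
          rfl), curry_uncurry, update_self, LayAux.axv_ofAx _ (hlt _), xv_dX, cb_dX, rf,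
        if_neg h49, if_pos h8]
      congr 2
      simp [wp1, h8, wval]
    · have h4 : st.1 ≠ 4 := fun e => h49 (Or.inl e)
      have h9 : st.1 ≠ 9 := fun e => h49 (Or.inr e)
      have e1 : (fun p => wval (wp1 inv a ν γ ss st p) * v p + wval (wp2 inv a ν γ ss st p) *
          v (reflIx (rf a ν γ ss st).1 (rf a ν γ ss st).2.1 (rf a ν γ ss st).2.2 p)) =
          lft2 (axw ss.length a ν γ) (tprod fun ι => Matrix.diagonal fun x =>
            axD inv a (ss.getD ι 1) st (axv x) (x none).val) v := by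
        funext p
        rw [lft2, tprod_diagonal, lft_diagonal, wval_wp1 h h4 h8 h9]
        simp only [xv_dX, cb_dX]
        simp [wp2, axW2, h4, h8, h9, wval]
      simp only [axM, if_neg h49, if_neg h8]
      rw [stepOp, e1, ← P344.tprod_mul, lft2_mul hsep]
      by_cases h25 : st.1 = 2 ∨ st.1 = 5
      · have hj : st.2.2.2 < a := ha (by omega)
        rw [dif_pos ⟨h25, hj⟩, hk, if_pos h25,
          ← lft2_cAt hsep (i := some ⟨st.2.2.2, hj⟩) fun j => by
            rw [axw]
            congr 1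
            ring]
        rfl
      · rw [dif_neg fun e => h25 e.1, hk, if_neg h25, hd_zero, P344.tprod_one, lft2_one]

theorem prog_eq (h : BoxPre a ν γ ss) (v : ℕ → ℂ) :
    (prog a ss.length).foldl (fun v st => stepOp inv a ν γ ss st v) v = boxF inv a ν ss v := by
  have key : ∀ L : List Stp, (∀ st ∈ L, st ∈ prog a ss.length) → ∀ v,
      L.foldl (fun v st => stepOp inv a ν γ ss st v) v = lft2 (axw ss.length a ν γ)
        (tprod fun ι => (L.reverse.map (axM inv a (ss.getD ι 1) ι)).prod) v := by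
    intro L
    induction L with
    | nil =>
      intro _ v
      simp only [List.foldl_nil, List.reverse_nil, List.map_nil, List.prod_nil]
      rw [P344.tprod_one, lft2_one]
    | cons st L ih =>
      intro hL v
      rw [List.foldl_cons, ih fun s hs => hL s (List.mem_cons_of_mem _ hs),
        stepOp_eq h (hL st List.mem_cons_self), ← lft2_mul (sep_axw h.2.1), P344.tprod_mul]
      simp
  have e : (fun ι : Fin ss.length =>
      ((prog a ss.length).reverse.map (axM inv a (ss.getD ι 1) ι)).prod) = fun ι : Fin ss.length =>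
      Matrix.of fun x y => if x none = y none then Fm inv (ss.getD ι 1) (axv x) (axv y) else 0 :=
    funext fun ι => axis_prod inv (getD_pos h ι).1 (getD_pos h ι).2 ι.2
  rw [key _ fun _ h => h, e, lft2_field h.2.1 fun ι => Fm inv (ss.getD ι 1), boxF]

theorem wp_pos (h : BoxPre a ν γ ss) (p : ℕ) :
    (0 < (wp1 inv a ν γ ss st p).2.1 ∧ ∀ θ ∈ (wp1 inv a ν γ ss st p).2.2, 0 < θ.2) ∧
    (0 < (wp2 inv a ν γ ss st p).2.1 ∧ ∀ θ ∈ (wp2 inv a ν γ ss st p).2.2, 0 < θ.2) := by
  have hP := prod_pos h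
  have hs := (getD_pos h st.2.2.2).1
  constructor
  · unfold wp1
    split_ifs <;> simp [hP]
  · unfold wp2 axW2
    have hl : ∀ u ε x, ∀ θ ∈ lam inv a (ss.getD st.2.2.2 1) u ε x, 0 < θ.2 := by
      intro u ε x θ hθ
      simp only [lam, List.mem_flatMap, List.mem_cons, List.not_mem_nil, or_false] at hθ
      obtain ⟨n, -, rfl | rfl⟩ := hθ <;> positivity
    by_cases h4 : st.1 = 4
    · rw [if_pos h4]
      refine ⟨?_, hl _ _ _⟩
      show 0 < ite _ _ _
      split_ifs <;> omega
    · rw [if_neg h4]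
      split_ifs <;> simp

theorem norm_wp (h : BoxPre a ν γ ss) (p : ℕ) :
    ‖wval (wp1 inv a ν γ ss st p)‖ ≤ 1 ∧ ‖wval (wp2 inv a ν γ ss st p)‖ ≤ 2 ^ a := by
  have hP : (1 : ℝ) ≤ (ss.prod : ℕ) := by exact_mod_cast prod_pos h
  have hs : (1 : ℝ) ≤ (ss.getD st.2.2.2 1 : ℕ) := by exact_mod_cast (getD_pos h st.2.2.2).1
  have hs' : ((ss.getD st.2.2.2 1 : ℕ) : ℝ) ≤ 2 ^ a := by exact_mod_cast (getD_pos h st.2.2.2).2
  have h2 : (1 : ℝ) ≤ 2 ^ a := one_le_pow₀ (by norm_num)
  constructor <;> refine (norm_wval _).trans ?_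
  · have hc : ((cb γ st.2.2.2 p : ℕ) : ℝ) ≤ 1 := by
      have : cb γ st.2.2.2 p < 2 := Nat.mod_lt _ two_pos
      exact_mod_cast Nat.lt_succ_iff.1 this
    have hi : ((ss.prod : ℕ) : ℝ)⁻¹ ≤ 1 := inv_le_one_of_one_le₀ hP
    unfold wp1
    split_ifs <;> simp only [List.length_cons, List.length_nil] <;> simp [hc, -Nat.cast_list_prod, hi]
  · unfold wp2 axW2
    by_cases h4 : st.1 = 4
    · rw [if_pos h4]
      simp only [length_lam]
      have h3 : (1 : ℝ) / (2 * (ss.getD st.2.2.2 1 : ℕ)) * (2 * 2 ^ a) ≤ 2 ^ a := by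
        rw [div_mul_eq_mul_div, div_le_iff₀ (by positivity)]
        nlinarith
      split_ifs <;> push_cast <;> simp only [abs_neg, abs_one, abs_zero, zero_div, zero_mul] <;>
        linarith
    · rw [if_neg h4]
      split_ifs <;> simp only [List.length_cons, List.length_nil] <;>
        simp [h2, -List.getD_eq_getElem?_getD, hs']

/-- The weights are constant on blocks of length `2 ^ γ`. -/
theorem wp_block (h : BoxPre a ν γ ss) (p : ℕ) :
    wp1 inv a ν γ ss st (p / 2 ^ γ * 2 ^ γ) = wp1 inv a ν γ ss st p ∧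
    wp2 inv a ν γ ss st (p / 2 ^ γ * 2 ^ γ) = wp2 inv a ν γ ss st p := by
  have h1 : ∀ ι, xv a ν ι (p / 2 ^ γ * 2 ^ γ) = xv a ν ι p := fun ι => by
    rw [xv, xv, block_div _ _ (by have := h.2.1; omega)]
  have h2 : ∀ ι, cb γ ι (p / 2 ^ γ * 2 ^ γ) = cb γ ι p := fun ι => by
    rw [cb, cb, block_div _ _ (Nat.le_add_right _ _)]
  simp only [wp1, wp2, h1, h2, and_self]

theorem rf_dvd (h : BoxPre a ν γ ss) (hst : st ∈ prog a ss.length) {m : ℕ}
    (hm : ν + a * ss.length ≤ m) : (rf a ν γ ss st).1 * (rf a ν γ ss st).2.1 ∣ 2 ^ m := by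
  obtain ⟨-, -, -, hd, -⟩ := mem_prog hst
  have := h.2.1
  unfold rf
  split_ifs with h49 h8
  · have hj : st.2.2.2 < ss.length := hd (by omega)
    rw [← pow_succ]
    exact pow_dvd_pow _ (by omega)
  · have hj : st.2.2.2 < ss.length := hd (by omega)
    have h1 : a * (st.2.2.2 + 1) ≤ a * ss.length := Nat.mul_le_mul_left a hj
    rw [← pow_add]
    exact pow_dvd_pow _ (by rw [mul_add, mul_one] at h1; omega)
  · simp

theorem reflIx_lt {w X c N p : ℕ} (h : w * X ∣ N) (hp : p < N) : reflIx w X c p < N := by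
  obtain ⟨H, rfl⟩ := h
  have hw : 0 < w := Nat.pos_of_ne_zero fun h0 => by simp [h0] at hp
  have hX : 0 < X := Nat.pos_of_ne_zero fun h0 => by simp [h0] at hp
  have h1 : p / (w * X) < H := Nat.div_lt_of_lt_mul hp
  have := ix_lt (c := p % w) h1 (Nat.mod_lt (c + (X - p / w % X)) hX) (Nat.mod_lt _ hw)
  rw [show w * X * H = H * X * w by ring]
  exact this

end Vale.Agent.P338
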