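import Vale.Agent.P338.FftD
import Vale.Agent.P338.Crt

/-! Approximate computation of the multidimensional transform. -/

namespace Vale.Agent.P338

open Vale.Agent.Common.TreeTM

/-- Conditions on the parameters of a transform. -/
def FftPre (w1 E0 ex m a ν γ e P F B D : ℕ) (ss : List ℕ) : Prop :=
  BoxPre a ν γ ss ∧ ν + a * (ss.length + 1) ≤ m ∧ ss.length * e ≤ a ∧ 0 < e ∧
    ss.length ≤ 2 ^ e ∧ ss.length ≤ 2 ^ a ∧
    ss.length * e + 2 + w1 * (ss.length * e + 3).size ≤ ν ∧ (2 ^ a + P + m + 2) ^ ex ≤ 2 ^ γ ∧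
    B ≤ F + D ∧ E0 * (ss.length + 1) + 2 ≤ D ∧ D ≤ B ∧
    B + grw a ss.length + E0 * (ss.length + 1) + 3 ≤ P ∧ F + a + 3 ≤ P

namespace FftAux

theorem FftPre.step {w1 E0 ex m a ν γ e P F B D : ℕ} {ss : List ℕ}
    (h : FftPre w1 E0 ex m a ν γ e P F B D ss) {i : ℕ} (hi : i < 24 * a + 8 * ss.length + 13) :
    StepPre w1 E0 ex m a ν γ e P F (B + i * (a + ss.length + 4)) (D + i * (a + ss.length + 4))
      ss := by
  obtain ⟨h1, h2, h3, h4, h5, h6, h7, h8, h9, h10, h11, h12, h13⟩ := h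
  have h14 := Nat.mul_le_mul_right (a + ss.length + 4) (Nat.succ_le_of_lt hi)
  rw [Nat.succ_mul] at h14
  unfold grw at h12
  exact ⟨h1, h2, h3, h4, h5, h6, h7, h8, by omega, by omega, by omega, by omega, h13⟩

/-- The length of the entries. -/
def pOf (x : CArr) : ℕ := (zer x.1).length

theorem pOf_encC (m P : ℕ) (z : ℕ → ℂ) : pOf (encC (2 ^ m) P z) = P := by
  rw [pOf, encC, BitsAux.zer_encA (Nat.two_pow_pos _), List.length_replicate]

theorem sz_encC (N P : ℕ) (z : ℕ → ℂ) : sz (encC N P z) ≤ 8 * (N * (P + 1)) + 3 := by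
  have h1 := (wf_encA N P fun i => ⌊(z i).re⌋).sz_le
  have h2 := (wf_encA N P fun i => ⌊(z i).im⌋).sz_le
  rw [length_encA] at h1 h2
  rw [encC, sz_pair]
  nlinarith [Nat.zero_le N]

/-- The number of passes times the array length. -/
def nOf (τ : ℕ → ℕ) (π : FPar) : ℕ := 2 ^ π.1 * τ (π.2.2.2.2.2.2.length * π.2.2.2.2.1 + 2)

def stAmb (w1 E0 ex : ℕ) (τ : ℕ → ℕ) (h1 : ∀ e, 1 ≤ τ e) : Amb (Stp × FPar × CArr) :=
  ⟨fun q => q.1 ∈ prog q.2.1.2.1 q.2.1.2.2.2.2.2.2.length ∧ ∃ B D z v,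
      q.2.2 = encC (2 ^ q.2.1.1) (pOf q.2.2) z ∧ Apx (2 ^ q.2.1.1) B D z v ∧
      StepPre w1 E0 ex q.2.1.1 q.2.1.2.1 q.2.1.2.2.1 q.2.1.2.2.2.1 q.2.1.2.2.2.2.1 (pOf q.2.2)
        q.2.1.2.2.2.2.2.1 B D q.2.1.2.2.2.2.2.2,
    fun q => nOf τ q.2.1 * (pOf q.2.2 + 1), fun q => nOf τ q.2.1,
    fun q => (nOf τ q.2.1).size + sz (q.1, q.2.1), 8, fun q ⟨_, _, _, z, _, h, _⟩ => by
      have h2 := sz_encC (2 ^ q.2.1.1) (pOf q.2.2) z
      have h3 : 2 ^ q.2.1.1 ≤ nOf τ q.2.1 := Nat.le_mul_of_pos_right _ (h1 _)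
      have h4 := Nat.mul_le_mul_right (pOf q.2.2 + 1) h3
      have h5 := Nat.le_self_pow (show 8 ≠ 0 by omega) ((nOf τ q.2.1).size + sz (q.1, q.2.1) + 2)
      have h6 := Nat.le_mul_of_pos_left (((nOf τ q.2.1).size + sz (q.1, q.2.1) + 2) ^ 8)
        ((Nat.two_pow_pos _).trans_le h3)
      have h7 := sz_pair q.1 q.2.1
      have h8 := sz_prod q
      have h9 := sz_prod q.2
      rw [← h] at h2
      show sz q ≤ 8 * (nOf τ q.2.1 * (pOf q.2.2 + 1) + 1) +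
        nOf τ q.2.1 * ((nOf τ q.2.1).size + sz (q.1, q.2.1) + 2) ^ 8
      omega⟩

noncomputable def stepF (w : WP × List Bool → ℤ × ℤ) (inv : Bool) (E0 : ℕ)
    (q : Stp × FPar × CArr) : FPar × CArr :=
  (q.2.1, encC (2 ^ q.2.1.1) (pOf q.2.2) (hd (q.2.1.2.2.1 + q.1.2.2.2) q.2.1.2.1
    (hk q.2.1.2.2.2.2.2.2.length q.1) fun i => gz (mid w inv (E0 * (q.2.1.2.2.2.2.2.2.length + 1))
      q.2.1.2.2.2.2.2.1 q.2.1.2.1 q.2.1.2.2.1 q.2.1.2.2.2.1 q.2.1.2.2.2.2.2.2 q.1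
      (re' q.2.2) (im' q.2.2) i)))

theorem oc_stepF {w : WP × List Bool → ℤ × ℤ} {w1 E0 : ℕ} {τ : ℕ → ℕ} (hw : TC 0 w) (hw' : WOk w)
    (hE : 0 < E0) (hH : HadOK w1 E0 τ) (hτ : Monotone τ) (h1 : ∀ e, 1 ≤ τ e) :
    ∃ ex, ∀ inv : Bool, Oc mulB (stAmb w1 E0 ex τ h1)
      (fun T q => (8 * 2 ^ q.2.1.1 : ℕ) * That T (5 * pOf q.2.2)) (stepF w inv E0) := by
  obtain ⟨ex, h⟩ := oc_step hw hw' hE hH hτ h1
  refine ⟨ex, fun inv => ?_⟩
  set 𝓑 := stAmb w1 E0 ex τ h1 with h𝓑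
  have hpos : ∀ q, 1 ≤ 𝓑.n q := fun q => Nat.mul_pos (Nat.two_pow_pos _) (h1 _)
  have s0 : Sm mulB 𝓑 fun q => (q.1, q.2.1) := ⟨by fun_prop, 1, fun q _ => ⟨hpos q, by
    show sz (q.1, q.2.1) ≤ ((nOf τ q.2.1).size + sz (q.1, q.2.1) + 2) ^ 1
    rw [pow_one]
    omega⟩⟩
  have h2 := h inv (𝒜 := 𝓑) (x := fun q => q.2.2) (P := fun q => pOf q.2.2) (by fun_prop)
    (Sm.tc (F := fun q : Stp × FPar => q.1) (by fun_prop) s0 :)
    (Sm.tc (F := fun q : Stp × FPar => q.2.2.2.2.2.2.2) (by fun_prop) s0 :)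
    (Sm.tc (F := fun q : Stp × FPar => q.2.1) (by fun_prop) s0 :)
    (Sm.tc (F := fun q : Stp × FPar => q.2.2.1) (by fun_prop) s0 :)
    (Sm.tc (F := fun q : Stp × FPar => q.2.2.2.1) (by fun_prop) s0 :)
    (Sm.tc (F := fun q : Stp × FPar => q.2.2.2.2.1) (by fun_prop) s0 :)
    (Sm.tc (F := fun q : Stp × FPar => q.2.2.2.2.2.1) (by fun_prop) s0 :)
    (Sm.tc (F := fun q : Stp × FPar => q.2.2.2.2.2.2.1) (by fun_prop) s0 :)
    ⟨2, fun q _ => ⟨by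
      have := hpos q
      show (𝓑.n q + 1) * (pOf q.2.2 + 1) ≤ 2 * (𝓑.n q * (pOf q.2.2 + 1) + 1)
      nlinarith, by
      have := hpos q
      show 𝓑.n q + 1 ≤ 2 * 𝓑.n q
      omega, (Nat.lt_size_self (nOf τ q.2.1)).trans_le (Nat.pow_le_pow_right two_pos (by
        have := Nat.le_self_pow (show 2 ≠ 0 by omega)
          ((nOf τ q.2.1).size + sz (q.1, q.2.1) + 2)
        show (nOf τ q.2.1).size ≤ ((nOf τ q.2.1).size + sz (q.1, q.2.1) + 2) ^ 2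
        omega))⟩⟩ fun q hq => hq
  exact (Oc.pair (show Cl mulB 𝓑 fun q => q.2.1 by fun_prop) h2).mono fun _ _ _ => by simp

/-- The invariant of the loop. -/
def FInv (inv : Bool) (π : FPar) (γ P B D : ℕ) (v : ℕ → ℂ) (i : ℕ) (t : FPar × CArr) : Prop :=
  t.1 = π ∧ ∃ z, t.2 = encC (2 ^ π.1) P z ∧
    Apx (2 ^ π.1) (B + i * (π.2.1 + π.2.2.2.2.2.2.length + 4))
      (D + i * (π.2.1 + π.2.2.2.2.2.2.length + 4)) z
      (((prog π.2.1 π.2.2.2.2.2.2.length).take i).foldl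
        (fun v st => stepOp inv π.2.1 π.2.2.1 γ π.2.2.2.2.2.2 st v) v)

theorem FInv.step {w : WP × List Bool → ℤ × ℤ} {inv : Bool} {w1 E0 ex m a ν γ e P F B D : ℕ}
    {ss : List ℕ} {τ : ℕ → ℕ} {h1 : ∀ e, 1 ≤ τ e} {v : ℕ → ℂ} (hw : WOk w) (hE : 0 < E0)
    (h : FftPre w1 E0 ex m a ν γ e P F B D ss) {i : ℕ} (hi : i < (prog a ss.length).length)
    {t : FPar × CArr} (ht : FInv inv (m, a, ν, γ, e, F, ss) γ P B D v i t) :
    (stAmb w1 E0 ex τ h1).D ((prog a ss.length)[i], t) ∧ pOf t.2 = P ∧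
      FInv inv (m, a, ν, γ, e, F, ss) γ P B D v (i + 1) (stepF w inv E0 ((prog a ss.length)[i], t)) := by
  obtain ⟨π, x⟩ := t
  obtain ⟨rfl, z, rfl, hz⟩ := ht
  dsimp only at hz
  have hs := FftPre.step h (length_prog a ss.length ▸ hi)
  have hm := List.getElem_mem hi
  have hP := pOf_encC m P z
  have hr : RepC (2 ^ m) P 0 z := by
    obtain ⟨-, -, -, -, -, -, -, -, -, -, a1, a2, -⟩ := hs
    exact apx_rep hz a1 (by omega)
  refine ⟨⟨hm, _, _, z, _, by rw [hP], hz, by rw [hP]; exact hs⟩, hP, rfl, _,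
    by rw [stepF, hP], ?_⟩
  have := (step_apx (inv := inv) hw hE hs hm (fun i hi => dec_eq hr hi) hz).2
  dsimp only
  rw [List.take_add_one, List.getElem?_eq_getElem hi, List.foldl_append, add_mul, one_mul,
    ← add_assoc B, ← add_assoc D]
  exact this

end FftAux

open FftAux

theorem fft_ok {w1 E0 : ℕ} {τ : ℕ → ℕ} (hE : 0 < E0) (hH : HadOK w1 E0 τ) (hm : Monotone τ)
    (h1 : ∀ e, 1 ≤ τ e) : ∃ ex : ℕ, ∀ (inv : Bool) {α : Type} [Enc α] {𝒜 : Amb α}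
    {u : (List Bool × List Bool → ℕ∞) → α → ℕ∞} {x : α → CArr} {z v : α → ℕ → ℂ}
    {ss : α → List ℕ} {m a ν γ e N P F B D : α → ℕ}, Oc mulB 𝒜 u x → Sm mulB 𝒜 m → Sm mulB 𝒜 a →
    Sm mulB 𝒜 ν → Sm mulB 𝒜 γ → Sm mulB 𝒜 e → Sm mulB 𝒜 F → Sm mulB 𝒜 ss →
    Fit 𝒜 (fun p => N p * ((24 * a p + 8 * (ss p).length + 13) * τ ((ss p).length * e p + 2))) P →
    (∀ p, 𝒜.D p → 2 ^ m p ≤ N p ∧ x p = encC (2 ^ m p) (P p) (z p) ∧
      Apx (2 ^ m p) (B p) (D p) (z p) (v p) ∧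
      FftPre w1 E0 ex (m p) (a p) (ν p) (γ p) (e p) (P p) (F p) (B p) (D p) (ss p)) →
    ∃ y : α → CArr, Oc mulB 𝒜 (fun T p => u T p +
        (8 * 2 ^ m p * (24 * a p + 8 * (ss p).length + 13) : ℕ) * That T (5 * P p)) y ∧
      ∀ p, 𝒜.D p → ∃ z', y p = encC (2 ^ m p) (P p) z' ∧
        Apx (2 ^ m p) (B p + grw (a p) (ss p).length) (D p + grw (a p) (ss p).length) z'
          (boxF inv (a p) (ν p) (ss p) (v p)) := by
  obtain ⟨w, hw, hw'⟩ := exists_wApx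
  obtain ⟨ex, hS⟩ := oc_stepF hw hw' hE hH hm h1
  refine ⟨ex, fun inv {α} _ {𝒜 u x z v ss m a ν γ e N P F B D} hx sm sa sν sγ se sF sss hF h => ?_⟩
  have sπ : Sm mulB 𝒜 fun p => ((m p, a p, ν p, γ p, e p, F p, ss p) : FPar) :=
    sm.pair (sa.pair (sν.pair (sγ.pair (se.pair (sF.pair sss)))))
  have hL : ∀ p, 0 < 24 * a p + 8 * (ss p).length + 13 := fun p => by omega
  have hN : Fit 𝒜 N P := hF.mono 1 fun p _ => ⟨by
    have := Nat.le_mul_of_pos_right (N p) (Nat.mul_pos (hL p) (h1 ((ss p).length * e p + 2)))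
    omega, by omega⟩
  have sl : Sm mulB 𝒜 fun p => prog (a p) (ss p).length :=
    (Sm.tc tc_prog' ((CrtAux.sm_two_pow sm hN fun p hp => (h p hp).1).pair (sa.pair sss)) :).congr
      fun p hp => by
        have a1 := (h p hp).2.2.2.2.1
        have a2 : a p ≤ a p * ((ss p).length + 1) := Nat.le_mul_of_pos_right _ (by omega)
        dsimp only
        rw [rg_eq (by rw [Nat.size_pow]; omega), idx, prog'_eq]
  obtain ⟨c, hc⟩ := id hF
  obtain ⟨c', hc'⟩ := (sl.pair sπ).2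
  set π : α → FPar := fun p => (m p, a p, ν p, γ p, e p, F p, ss p) with hπ
  set L : α → ℕ := fun p => 24 * a p + 8 * (ss p).length + 13 with hLd
  have hn : ∀ p, 𝒜.D p → L p * nOf τ (π p) ≤ N p * (L p * τ ((ss p).length * e p + 2)) :=
    fun p hp => by
      rw [mul_left_comm]
      exact Nat.mul_le_mul_left _ (Nat.mul_le_mul_right _ (h p hp).1)
  have hd : Dom 𝒜 fun K p => wt K (L p * (nOf τ (π p) * (P p + 1) + 1)) (L p * nOf τ (π p))
      (sz (prog (a p) (ss p).length, π p) + (nOf τ (π p)).size) := by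
    refine Dom.of ((Bnd.mul 2 hF.bnd).mono fun p hp => ?_) (c' + c + 1) fun p hp => ⟨?_, ?_⟩
    · have a1 : 1 ≤ nOf τ (π p) * (P p + 1) :=
        Nat.mul_pos (Nat.mul_pos (Nat.two_pow_pos _) (h1 _)) (Nat.succ_pos _)
      have a2 := Nat.mul_le_mul_left (L p) a1
      have a3 := Nat.mul_le_mul_right (P p + 1) (hn p hp)
      show _ ≤ 2 * ((N p * (L p * τ ((ss p).length * e p + 2)) + 1) * (P p + 1))
      rw [mul_assoc] at a3
      rw [mul_add (L p), add_mul _ 1]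
      omega
    · exact ((hn p hp).trans (Nat.le_succ _)).trans
        ((hc p hp).2.1.trans (Nat.mul_le_mul_right _ (by omega)))
    · exact (Nat.add_le_add (hc' p hp).2 (Nat.size_le.2 (lt_of_le_of_lt
        ((Nat.le_mul_of_pos_left _ (hL p)).trans (hn p hp)) (hc p hp).2.2))).trans
        (AmbAux.pw_add _ _ _)
  have h0 : ∀ p, 𝒜.D p → FInv inv (π p) (γ p) (P p) (B p) (D p) (v p) 0 (π p, x p) := fun p hp =>
    ⟨rfl, z p, (h p hp).2.1, by simpa using (h p hp).2.2.1⟩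
  have hf := Oc.foldl (hS inv) sl.1 (Oc.pair sπ.1 hx)
    (fun p => FInv inv (π p) (γ p) (P p) (B p) (D p) (v p))
    (fun K p _ => wt K (nOf τ (π p) * (P p + 1)) (nOf τ (π p))
      (sz (prog (a p) (ss p).length, π p) + (nOf τ (π p)).size))
    (fun T p _ => (8 * 2 ^ m p : ℕ) * That T (5 * P p)) h0
    (fun p hp i hi t ht => by
      obtain ⟨a1, a2, a3⟩ := FInv.step (τ := τ) (h1 := h1) hw' hE (h p hp).2.2.2 hi ht
      refine ⟨a1, a3, fun K => ?_, fun T => ?_⟩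
      · simp only [Amb.wt, stAmb, a2, ht.1]
        refine CrtAux.wt_le le_rfl le_rfl ?_
        have := sz_mem (List.getElem_mem hi)
        rw [sz_pair _ (π p), sz_pair _ (π p)]
        omega
      · simp only [a2, ht.1]
        exact le_rfl)
    fun K => (hd K).mono fun p _ => by
      simp only [Finset.sum_const, Finset.card_range, length_prog, smul_eq_mul, wt]
      show L p * _ ≤ _
      nlinarith
  refine ⟨_, (oc_lin (F := fun q : FPar × CArr => q.2) (by fun_prop) hf).mono fun T p _ => ?_,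
    fun p hp => ?_⟩
  · simp only [Finset.sum_const, Finset.card_range, length_prog, nsmul_eq_mul, u0]
    push_cast
    refine le_of_eq ?_
    ring
  · obtain ⟨-, z', a1, a2⟩ := CrtAux.foldl_inv (F := stepF w inv E0)
      (FInv inv (π p) (γ p) (P p) (B p) (D p) (v p)) _ _ (h0 p hp) fun i hi t ht =>
        (FInv.step (τ := τ) (h1 := h1) hw' hE (h p hp).2.2.2 hi ht).2.2
    refine ⟨z', a1, ?_⟩
    simp only [hπ, List.take_length] at a2
    rw [prog_eq (h p hp).2.2.2.1, length_prog] at a2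
    exact a2

end Vale.Agent.P338
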