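import Vale.Agent.P338.Apx
import Vale.Agent.P338.Dft

/-! Polynomial time versions of the descriptions of the weights. -/

namespace Vale.Agent.P338.FftAux

open Vale.Agent.Common.TreeTM Vale.Agent.P337

section ite
variable {α β : Type} [Enc α] [Enc β] {e : ℕ}

@[fun_prop] theorem tc_iteEq {f g : α → ℕ} {x y : α → β} (hf : TC e f) (hg : TC e g) (hx : TC e x)
    (hy : TC e y) : TC e fun a => if f a = g a then x a else y a :=
  (TC.cond (tc_neq hf hg) hx hy).of_eq fun a => by simp [neq]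

end ite

def ang1' (N a : ℕ) (st : Stp) (x : ℕ) : ℤ :=
  if st.1 = 1 then -(2 * st.2.2.1 * x)
  else if st.1 = 7 then 2 * st.2.2.1 * x
  else if st.1 = 2 then (x / pw N 2 st.2.2.2 % 2 : ℕ) * (pw N 2 a : ℕ)
  else if st.1 = 3 then (x / pw N 2 st.2.2.2 % 2 : ℕ) *
    ((pw N 2 a : ℕ) + (x % pw N 2 st.2.2.2 : ℕ) * (pw N 2 (a + 1 - st.2.2.2) : ℕ))
  else if st.1 = 5 then (x / pw N 2 st.2.2.2 % 2 : ℕ) *
    ((pw N 2 a : ℕ) - (x % pw N 2 st.2.2.2 : ℕ) * (pw N 2 (a + 1 - st.2.2.2) : ℕ))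
  else if st.1 = 6 then (x / pw N 2 st.2.2.2 % 2 : ℕ) * (pw N 2 a : ℕ) - (pw N 2 a : ℕ)
  else 0

theorem ang1'_eq {N a : ℕ} {st : Stp} (ha : a + 1 ≤ N.size) (hj : st.2.2.2 ≤ N.size) (x : ℕ) :
    ang1' N a st x = ang1 a st x := by
  unfold ang1' ang1
  rw [pw_eq hj, pw_eq (show a ≤ N.size by omega),
    pw_eq (show a + 1 - st.2.2.2 ≤ N.size by omega)]
  push_cast
  rfl

def rev' (N a x : ℕ) : ℕ := ((rg N a).map fun j => x / pw N 2 j % 2 * pw N 2 (a - 1 - j)).sum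

theorem rev'_eq {N a : ℕ} (ha : a ≤ N.size) (x : ℕ) : rev' N a x = rev a x := by
  unfold rev' rev
  rw [rg_eq ha]
  refine congrArg _ (List.map_congr_left fun j hj => ?_)
  have := List.mem_range.1 hj
  rw [pw_eq (show j ≤ N.size by omega), pw_eq (show a - 1 - j ≤ N.size by omega)]

def lam' (inv : Bool) (N : ℕ) (tm : List Bool) (a s u ε x : ℕ) : List (ℤ × ℕ) :=
  (idx tm).flatMap fun n : ℕ =>
    [(-(sgn inv u * (n * (n - 1)) * tm.length) - ε * n * s + 2 * n * rev' N a x * s,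
        2 * tm.length * s),
     (-(sgn inv u * ((n - tm.length) * (n - tm.length - 1)) * tm.length) - ε * n * s +
        2 * n * rev' N a x * s + ε * tm.length * s, 2 * tm.length * s)]

theorem lam'_eq {N a : ℕ} {tm : List Bool} (ha : a ≤ N.size) (ht : tm.length = 2 ^ a) (inv : Bool)
    (s u ε x : ℕ) : lam' inv N tm a s u ε x = lam inv a s u ε x := by
  unfold lam' lam idx
  rw [rev'_eq ha, ht]
  push_cast
  rfl

def xv' (N a ν ι p : ℕ) : ℕ := p / pw N 2 (ν + a * ι) % pw N 2 a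
def cb' (N γ ι p : ℕ) : ℕ := p / pw N 2 (γ + ι) % 2

/-- The parameters of the weights: cap, template of length `2 ^ a`, `a`, `ν`, `γ`, moduli,
step. -/
abbrev WPar : Type := ℕ × List Bool × ℕ × ℕ × ℕ × List ℕ × Stp

def msk (N a ν : ℕ) (ss : List ℕ) (p : ℕ) : ℤ :=
  bif (idx ss).all fun ι => nlt (xv' N a ν ι p) (ss.getD ι 1) then 1 else 0

def wp1' (inv : Bool) (N a ν γ : ℕ) (ss : List ℕ) (st : Stp) (p : ℕ) : WP :=
  if st.1 = 4 then (1, 1, [(0, 1)])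
  else if st.1 = 8 then (cb' N γ st.2.2.2 p, 1, [(0, 1)])
  else if st.1 = 9 then (0, 1, [])
  else
    (if st.1 = 0 then msk N a ν ss p else if st.1 = 7 then msk N a ν ss p else 1,
      if st.1 = 0 then (bif inv then ss.prod else 1) else 1,
      [(((idx ss).map fun ι => ang1' N a st (xv' N a ν ι p) * ss.prod +
          ang2 inv st (xv' N a ν ι p) (cb' N γ ι p) *
            (2 * pw N 2 a * (ss.prod / ss.getD ι 1) : ℕ)).sum, 4 * pw N 2 a * ss.prod)])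

def axW2' (inv : Bool) (N : ℕ) (tm : List Bool) (a s : ℕ) (st : Stp) (x c : ℕ) : WP :=
  if st.1 = 4 then
    (if c = tgt st.2.1 then (if st.2.1 = 1 then -1 else 1) else 0,
      if st.2.1 = 1 then 2 * s else 2, lam' inv N tm a s st.2.1 st.2.2.1 x)
  else if st.1 = 8 then (if c = 0 then (bif nlt x s then -s else 0) else 0, 1, [(0, 1)])
  else if st.1 = 9 then (1, 1, [(0, 1)])
  else (0, 1, [])

def wp' (inv snd : Bool) (q : WPar) (p : ℕ) : WP :=
  bif snd then axW2' inv q.1 q.2.1 q.2.2.1 (q.2.2.2.2.2.1.getD q.2.2.2.2.2.2.2.2.2 1) q.2.2.2.2.2.2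
    (xv' q.1 q.2.2.1 q.2.2.2.1 q.2.2.2.2.2.2.2.2.2 p) (cb' q.1 q.2.2.2.2.1 q.2.2.2.2.2.2.2.2.2 p)
  else wp1' inv q.1 q.2.2.1 q.2.2.2.1 q.2.2.2.2.1 q.2.2.2.2.2.1 q.2.2.2.2.2.2 p

section tc
variable {α : Type} [Enc α]

@[fun_prop] theorem tc_xv' {N a ν ι p : α → ℕ} (h1 : TC 0 N) (h2 : TC 0 a) (h3 : TC 0 ν)
    (h4 : TC 0 ι) (h5 : TC 0 p) : TC 0 fun q => xv' (N q) (a q) (ν q) (ι q) (p q) := by
  unfold xv'
  fun_prop

@[fun_prop] theorem tc_cb' {N γ ι p : α → ℕ} (h1 : TC 0 N) (h2 : TC 0 γ)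
    (h4 : TC 0 ι) (h5 : TC 0 p) : TC 0 fun q => cb' (N q) (γ q) (ι q) (p q) := by
  unfold cb'
  fun_prop

@[fun_prop] theorem tc_ang1' {N a x : α → ℕ} {st : α → Stp} (h1 : TC 0 N) (h2 : TC 0 a)
    (h3 : TC 0 st) (h4 : TC 0 x) : TC 0 fun q => ang1' (N q) (a q) (st q) (x q) := by
  unfold ang1'
  fun_prop

@[fun_prop] theorem tc_sgn (inv : Bool) {u : α → ℕ} (h1 : TC 0 u) :
    TC 0 fun q => sgn inv (u q) := by
  unfold sgn
  fun_prop

@[fun_prop] theorem tc_tgt {u : α → ℕ} (h1 : TC 0 u) : TC 0 fun q => tgt (u q) := by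
  unfold tgt
  fun_prop

@[fun_prop] theorem tc_ang2 (inv : Bool) {x c : α → ℕ} {st : α → Stp} (h1 : TC 0 st) (h2 : TC 0 x)
    (h3 : TC 0 c) : TC 0 fun q => ang2 inv (st q) (x q) (c q) := by
  unfold ang2
  fun_prop

@[fun_prop] theorem tc_rev' {N a x : α → ℕ} (h1 : TC 0 N) (h2 : TC 0 a) (h3 : TC 0 x) :
    TC 0 fun q => rev' (N q) (a q) (x q) := by
  unfold rev'
  fun_prop

@[fun_prop] theorem tc_lam' (inv : Bool) {N a s u ε x : α → ℕ} {tm : α → List Bool} (h1 : TC 0 N)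
    (h2 : TC 0 tm) (h3 : TC 0 a) (h4 : TC 0 s) (h5 : TC 0 u) (h6 : TC 0 ε) (h7 : TC 0 x) :
    TC 0 fun q => lam' inv (N q) (tm q) (a q) (s q) (u q) (ε q) (x q) := by
  unfold lam'
  fun_prop

@[fun_prop] theorem tc_msk {N a ν p : α → ℕ} {ss : α → List ℕ} (h1 : TC 0 N) (h2 : TC 0 a)
    (h3 : TC 0 ν) (h4 : TC 0 ss) (h5 : TC 0 p) :
    TC 0 fun q => msk (N q) (a q) (ν q) (ss q) (p q) := by
  unfold msk
  fun_prop

@[fun_prop] theorem tc_wp1' (inv : Bool) {N a ν γ p : α → ℕ} {ss : α → List ℕ} {st : α → Stp}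
    (h1 : TC 0 N) (h2 : TC 0 a) (h3 : TC 0 ν) (h4 : TC 0 γ) (h5 : TC 0 ss) (h6 : TC 0 st)
    (h7 : TC 0 p) : TC 0 fun q => wp1' inv (N q) (a q) (ν q) (γ q) (ss q) (st q) (p q) := by
  unfold wp1'
  fun_prop

@[fun_prop] theorem tc_axW2' (inv : Bool) {N a s x c : α → ℕ} {tm : α → List Bool} {st : α → Stp}
    (h1 : TC 0 N) (h2 : TC 0 tm) (h3 : TC 0 a) (h4 : TC 0 s) (h5 : TC 0 st) (h6 : TC 0 x)
    (h7 : TC 0 c) : TC 0 fun q => axW2' inv (N q) (tm q) (a q) (s q) (st q) (x q) (c q) := by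
  unfold axW2'
  fun_prop

end tc

theorem tc_wp' (inv snd : Bool) : TC 0 fun q : WPar × ℕ => wp' inv snd q.1 q.2 := by
  unfold wp'
  fun_prop

theorem j_le {a d : ℕ} {st : Stp} (h : st ∈ prog a d) :
    st.2.2.2 ≤ a + d ∧ (st.1 = 4 ∨ st.1 = 8 ∨ st.1 = 9 → st.2.2.2 < d) := by
  obtain ⟨h1, -, -, h2, h3, h4⟩ := mem_prog h
  omega

theorem wp'_eq {inv : Bool} {m a ν γ : ℕ} {ss : List ℕ} {st : Stp} {tm : List Bool}
    (h : BoxPre a ν γ ss) (hst : st ∈ prog a ss.length) (hm : ν + a * (ss.length + 1) ≤ m)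
    (ht : tm.length = 2 ^ a) (p : ℕ) :
    wp' inv false (2 ^ m, tm, a, ν, γ, ss, st) p = wp1 inv a ν γ ss st p ∧
    wp' inv true (2 ^ m, tm, a, ν, γ, ss, st) p = wp2 inv a ν γ ss st p := by
  obtain ⟨h1, h2⟩ := j_le hst
  have h3 := h.2.1
  have h4 : a ≤ a * (ss.length + 1) := Nat.le_mul_of_pos_right _ (by omega)
  have hs : (2 ^ m).size = m + 1 := Nat.size_pow
  have hx : ∀ ι < ss.length, xv' (2 ^ m) a ν ι p = xv a ν ι p := fun ι hι => by
    have : a * ι ≤ a * (ss.length + 1) := Nat.mul_le_mul_left _ (by omega)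
    rw [xv', xv, pw_eq (by omega), pw_eq (by omega)]
  have hc : ∀ ι < ss.length, cb' (2 ^ m) γ ι p = cb γ ι p := fun ι hι => by
    rw [cb', cb, pw_eq (by omega)]
  constructor
  · have hk : msk (2 ^ m) a ν ss p =
        if ∃ ι < ss.length, ss.getD ι 1 ≤ xv a ν ι p then 0 else 1 := by
      unfold msk idx
      split_ifs with h5
      · obtain ⟨ι, h6, h7⟩ := h5
        rw [List.all_eq_false.2 ⟨ι, List.mem_range.2 h6, by simpa [nlt, hx ι h6] using h7⟩]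
        rfl
      · rw [List.all_eq_true.2 fun ι hι => ?_]
        · rfl
        · have h6 := List.mem_range.1 hι
          rw [nlt, hx ι h6, decide_eq_true_eq]
          exact not_le.1 fun h7 => h5 ⟨ι, h6, h7⟩
    simp only [wp', cond_false, wp1', wp1]
    by_cases h4 : st.1 = 4
    · simp only [h4, if_true]
    by_cases h8 : st.1 = 8
    · simp only [h8, if_true, hc _ (h2 (by omega))]
    by_cases h9 : st.1 = 9
    · simp only [h9, if_true, hc _ (h2 (by omega))]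
    rw [if_neg h4, if_neg h8, if_neg h9, if_neg h4, if_neg h8, if_neg h9, hk, pw_eq (by omega), idx]
    refine Prod.ext ?_ (Prod.ext ?_ ?_)
    · by_cases h0 : st.1 = 0 <;> by_cases h7 : st.1 = 7 <;> simp [h0, h7]
    · cases inv <;> simp
    · rw [List.map_congr_left fun ι hι => by
        rw [hx ι (List.mem_range.1 hι), hc ι (List.mem_range.1 hι), ang1'_eq (by omega) (by omega)]]
  · simp only [wp', cond_true, axW2', wp2, axW2]
    by_cases h4 : st.1 = 4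
    · simp only [h4, if_true, hc _ (h2 (by omega)), hx _ (h2 (by omega)),
        lam'_eq (show a ≤ (2 ^ m).size by omega) ht]
    by_cases h8 : st.1 = 8
    · rw [if_neg h4, if_neg h4, if_pos h8, if_pos h8, hc _ (h2 (by omega)), hx _ (h2 (by omega))]
      by_cases h0 : cb γ st.2.2.2 p = 0 <;> simp [h0, nlt]
    · simp only [h4, h8, if_false]

def rf' (N a ν γ : ℕ) (ss : List ℕ) (st : Stp) : ℕ × ℕ × ℕ :=
  if st.1 = 4 then (pw N 2 (γ + st.2.2.2), 2, 1)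
  else if st.1 = 9 then (pw N 2 (γ + st.2.2.2), 2, 1)
  else if st.1 = 8 then (pw N 2 (ν + a * st.2.2.2), pw N 2 a, ss.getD st.2.2.2 1 - 1)
  else (1, 1, 0)

theorem tc_rf' : TC 0 fun q : ℕ × ℕ × ℕ × ℕ × List ℕ × Stp =>
    rf' q.1 q.2.1 q.2.2.1 q.2.2.2.1 q.2.2.2.2.1 q.2.2.2.2.2 := by
  unfold rf'
  fun_prop

theorem rf'_eq {m a ν γ : ℕ} {ss : List ℕ} {st : Stp} (h : BoxPre a ν γ ss)
    (hst : st ∈ prog a ss.length) (hm : ν + a * (ss.length + 1) ≤ m) :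
    rf' (2 ^ m) a ν γ ss st = rf a ν γ ss st := by
  obtain ⟨h1, h2⟩ := j_le hst
  have h3 := h.2.1
  have h4 : a ≤ a * (ss.length + 1) := Nat.le_mul_of_pos_right _ (by omega)
  have hs : (2 ^ m).size = m + 1 := Nat.size_pow
  unfold rf' rf
  by_cases h4 : st.1 = 4
  · have := h2 (by omega)
    rw [if_pos h4, if_pos (Or.inl h4), pw_eq (by omega)]
  by_cases h9 : st.1 = 9
  · have := h2 (by omega)
    rw [if_neg h4, if_pos h9, if_pos (Or.inr h9), pw_eq (by omega)]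
  rw [if_neg h4, if_neg h9, if_neg (show ¬(st.1 = 4 ∨ st.1 = 9) by omega)]
  split_ifs with h8
  · have : a * st.2.2.2 ≤ a * (ss.length + 1) :=
      Nat.mul_le_mul_left _ (by have := h2 (by omega); omega)
    rw [pw_eq (by omega), pw_eq (by omega)]
  · rfl

theorem tc_hk : TC 0 fun q : ℕ × Stp => hk q.1 q.2 :=
  TC.of_eq (f := fun q : ℕ × Stp => if q.2.1 = 2 then q.1 else if q.2.1 = 5 then q.1 else 0)
    (by fun_prop) fun q => by
      unfold hk
      by_cases h2 : q.2.1 = 2 <;> by_cases h5 : q.2.1 = 5 <;> simp [h2, h5]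

def shear' (ra rd : List ℕ) (u ε : ℕ) : List Stp :=
  [(1, u, ε, 0)] ++ (ra.reverse.flatMap fun j => [(2, u, ε, j), (3, u, ε, j)]) ++
    (rd.map fun j => (4, u, ε, j)) ++
    (ra.flatMap fun j => [(5, u, ε, j), (6, u, ε, j)]) ++ [(7, u, ε, 0)]

@[fun_prop] theorem tc_shear' {α : Type} [Enc α] (u ε : ℕ) {ra rd : α → List ℕ} (h1 : TC 0 ra)
    (h2 : TC 0 rd) : TC 0 fun q => shear' (ra q) (rd q) u ε := by
  unfold shear'
  fun_prop

def prog' (ra rd : List ℕ) : List Stp :=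
  [(0, 0, 0, 0)] ++ shear' ra rd 0 0 ++ shear' ra rd 0 1 ++ shear' ra rd 1 0 ++ shear' ra rd 1 1 ++
    shear' ra rd 2 0 ++ shear' ra rd 2 1 ++ (rd.map fun j => (8, 0, 0, j)) ++
    (rd.map fun j => (9, 0, 0, j))

theorem tc_prog' : TC 0 fun q : ℕ × ℕ × List ℕ => prog' (rg q.1 q.2.1) (idx q.2.2) := by
  unfold prog'
  fun_prop

theorem prog'_eq (a d : ℕ) : prog' (List.range a) (List.range d) = prog a d := rfl

end Vale.Agent.P338.FftAux
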