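import Vale.Agent.P338.FftA

/-! Arrays of weights, entrywise products and their errors. -/

namespace Vale.Agent.P338.FftAux

open Vale.Agent.Common.TreeTM Vale.Agent.P337 Complex

section blocks
variable {π β : Type} [Enc π] [Enc β]

def blkAmb (G : π × ℕ → β) (k : ℕ) : Amb (ℕ × ℕ × π) :=
  ⟨fun q => (sz (q.2.2, q.1) + 2) ^ (k + 1) ≤ q.2.1, fun q => q.2.1 * (sz (G (q.2.2, q.1)) + 1),
    fun q => q.2.1, fun q => q.2.1.size, 6, fun q hq => by
      have h1 := sz_nat_self q.2.1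
      have h2 := (Nat.le_self_pow (Nat.succ_ne_zero k) _).trans hq
      have h3 := Nat.le_mul_of_pos_right q.2.1 (Nat.add_one_pos (sz (G (q.2.2, q.1))))
      rw [sz_pair] at h2
      rw [sz_prod, sz_prod, wt]
      omega⟩

theorem flatten_rep {β : Type} {S : ℕ} (hS : 0 < S) (M : ℕ) (f : ℕ → β) :
    (arr M fun j => List.replicate S (f j)).flatten = arr (M * S) fun i => f (i / S) := by
  rw [← flatten_arr hS M fun j _ => f j]
  congr 1
  exact arr_congr fun j _ => by simp [arr]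

theorem exists_blocks {G : π × ℕ → β} (hG : TC 0 G) : ∃ k, ∀ {α γ δ : Type} [Enc α] [Enc γ] [Enc δ]
    {g : γ → δ} {𝒜 : Amb α} {p : α → π} {M S N P : α → ℕ}, Cl g 𝒜 p → Sm g 𝒜 M → Sm g 𝒜 S →
    Fit 𝒜 N P → (∀ a, 𝒜.D a → M a * S a ≤ N a ∧ 0 < M a ∧ ∀ i < M a,
      (sz (p a, i) + 2) ^ (k + 1) ≤ S a ∧ sz (G (p a, i)) ≤ 8 * P a + 3) →
    Cl g 𝒜 fun a => arr (M a * S a) fun i => G (p a, i / S a) := by
  obtain ⟨k, hk⟩ := exists_tc_exp hG
  refine ⟨k, fun {α γ δ} _ _ _ {g 𝒜 p M S N P} hp hM hS hF h => ?_⟩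
  have hpos : ∀ q, (blkAmb G k).D q → 1 ≤ q.2.1 := fun q hq => (Nat.pow_pos (by omega)).trans_le hq
  have h1 : Cl g (blkAmb G k) fun q => G (q.2.2, q.1) :=
    hk g _ (fun q : ℕ × ℕ × π => (q.2.2, q.1)) u0 (by show Cl _ _ _; fun_prop)
      (Bnd.z.mono fun q hq =>
        ((Nat.pow_le_pow_right (by omega) (Nat.le_succ k)).trans hq).trans
          (Nat.le_mul_of_pos_right _ (Nat.add_one_pos _)))
  have h2 : Cl g (blkAmb G k) fun q => List.replicate q.2.1 (G (q.2.2, q.1)) :=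
    Oc.replicate h1 ⟨by fun_prop, 2, fun q hq => ⟨hpos q hq, by
        have := sz_nat_le (Nat.lt_size_self q.2.1)
        show _ ≤ (q.2.1.size + 2) ^ 2
        nlinarith⟩⟩
      ⟨2, fun q hq => by
        have h3 := hpos q hq
        refine ⟨?_, ?_, (Nat.lt_size_self _).trans_le (Nat.pow_le_pow_right two_pos ?_)⟩
        · show _ ≤ 2 * (q.2.1 * (sz (G (q.2.2, q.1)) + 1) + 1)
          nlinarith
        · show q.2.1 + 1 ≤ 2 * q.2.1
          omega
        · show _ ≤ (q.2.1.size + 2) ^ 2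
          nlinarith⟩
  have hS0 : ∀ a, 𝒜.D a → 0 < S a := fun a ha =>
    (Nat.pow_pos (by omega)).trans_le ((h a ha).2.2 0 (h a ha).2.1).1
  have hMN : ∀ a, 𝒜.D a → M a ≤ N a := fun a ha =>
    (Nat.le_mul_of_pos_right _ (hS0 a ha)).trans (h a ha).1
  have h3 : Cl g 𝒜 fun a => List.replicate (M a) false :=
    Oc.replicate (Cl.const false) hM (hF.mono 1 fun a ha => ⟨by have := hMN a ha; omega, by
      show 1 ≤ _
      omega⟩)
  have h4 : Cl g 𝒜 fun a => (List.replicate (M a) false).zipIdx :=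
    Oc.zipIdx h3 (P := P) (hF.mono 1 fun a ha => ⟨by have := hMN a ha; simp; omega, by omega⟩)
  have h5 : Cl g 𝒜 fun a => List.range (M a) :=
    (Cl.map (F := fun q : Bool × ℕ => q.2) (by fun_prop) h4).congr fun a _ => by
      simp [List.range_eq_range']
  obtain ⟨c, hc⟩ := hF
  have hF : Fit 𝒜 N P := ⟨c, hc⟩
  obtain ⟨c', hc'⟩ := hS.2
  have h6 := Oc.map h2 h5 (Cl.pair hS.1 hp) (fun a ha i hi => ((h a ha).2.2 i (by simpa using hi)).1)
    (fun K => by
      have := Dom.sum (𝒜 := 𝒜) (L := fun a => (List.range (M a)).map fun i => (i, S a, p a))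
        (z := (blkAmb G k).z) (n := (blkAmb G k).n) (l := (blkAmb G k).l)
        ((hF.bnd.mul 9).mono fun a ha => ?_) (c + c') (fun a ha => ⟨?_, ?_⟩) K
      · simpa [List.map_map, Function.comp_def, Amb.wt] using this
      · refine (ListsAux.sum_le_mul _ _ (S a * (9 * (P a + 1))) fun q hq => ?_).trans ?_
        · obtain ⟨i, hi, rfl⟩ := List.mem_map.1 hq
          have h7 := ((h a ha).2.2 i (by simpa using hi)).2
          have h8 := hS0 a ha
          show S a * (sz (G (p a, i)) + 1) + 1 ≤ _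
          nlinarith
        · have h7 := (h a ha).1
          simp only [List.length_map, List.length_range]
          nlinarith
      · refine (ListsAux.sum_le_mul _ _ (S a) fun q hq => ?_).trans ?_
        · obtain ⟨i, -, rfl⟩ := List.mem_map.1 hq
          exact le_rfl
        · have h7 := (h a ha).1
          have h8 := (hc a ha).2.1
          simp only [List.length_map, List.length_range]
          nlinarith [Nat.zero_le (c' * 𝒜.n a)]
      · intro q hq
        obtain ⟨i, -, rfl⟩ := List.mem_map.1 hq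
        refine (Nat.size_le.2 (lt_two_pow_sz _)).trans ((hc' a ha).2.trans ?_)
        exact Nat.pow_le_pow_right (by omega) (by omega))
  refine (Cl.flatten (h6.mono fun T a _ => ?_)).congr fun a ha =>
    (flatten_rep (hS0 a ha) _ fun i => G (p a, i)).symm
  simp

end blocks

/-- The rounded product of a Gaussian integer and a weight. -/
def mulR (s r : ℕ) (x y : ℤ) (w : ℤ × ℤ) : ℤ × ℤ :=
  ((x * w.1 - y * w.2) / 2 ^ s * 2 ^ r, (x * w.2 + y * w.1) / 2 ^ s * 2 ^ r)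

def emul (q : ((List Bool × List Bool) × List Bool × List Bool) × List Bool × List Bool) : CArr :=
  cmul (q.2, ([q.1.1.1], [q.1.1.2]), [q.1.2.1], [q.1.2.2])

theorem encA_one (P : ℕ) (x : ℕ → ℤ) : encA 1 P x = [toBits P (x 0)] := rfl

theorem emul_eq {P : ℕ} {t : List Bool × List Bool} {x y : ℤ} {w : ℤ × ℤ} (hP : 0 < P)
    (ht : t.1.length ≤ P + t.2.length)
    (h : |x| * 2 < 2 ^ P ∧ |y| * 2 < 2 ^ P ∧ |w.1| * 2 < 2 ^ P ∧ |w.2| * 2 < 2 ^ P) :
    emul (((toBits P x, toBits P y), toBits P w.1, toBits P w.2), t) =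
      ([toBits P (mulR t.1.length t.2.length x y w).1],
        [toBits P (mulR t.1.length t.2.length x y w).2]) := by
  have := cmul_encA (R := 1) (t := t) (x := fun _ => x) (y := fun _ => y) (x' := fun _ => w.1)
    (y' := fun _ => w.2) one_pos hP Nat.one_le_two_pow ht fun _ _ => h
  simpa [encA_one, cv, emul, mulR] using this

theorem dom_lin' {α β π : Type} [Enc α] [Enc β] [Enc π] {𝒜 : Amb α} {l : α → List β} {p : α → π}
    {Q : β × π → Prop} (h : Bnd 𝒜 fun a => ((l a).map fun x => sz (x, p a) + 1).sum) :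
    Dom 𝒜 fun K a => ((l a).map fun x => ((lin (β × π)).sub Q).wt K (x, p a)).sum := fun K =>
  (h.mul K).mono fun a _ => by
    rw [← List.sum_map_mul_left]
    exact le_of_eq (congrArg List.sum (List.map_congr_left fun x _ => ListsAux.lin_wt K (x, p a)))

theorem oc_emul {α : Type} [Enc α] {𝒜 : Amb α} {X : α → CArr}
    {W : α → List (List Bool × List Bool)} {t : α → List Bool × List Bool} {x y : α → ℕ → ℤ}
    {w : α → ℕ → ℤ × ℤ} {L N P : α → ℕ} (hX : Cl mulB 𝒜 X) (hW : Cl mulB 𝒜 W) (ht : Cl mulB 𝒜 t)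
    (hF : Fit 𝒜 N P)
    (h : ∀ a, 𝒜.D a → L a ≤ N a ∧ 0 < P a ∧ X a = (encA (L a) (P a) (x a), encA (L a) (P a) (y a)) ∧
      (W a = arr (L a) fun i => (toBits (P a) (w a i).1, toBits (P a) (w a i).2)) ∧
      (t a).1.length ≤ P a + (t a).2.length ∧ (t a).2.length ≤ P a ∧
      ∀ i < L a, |x a i| * 2 < 2 ^ P a ∧ |y a i| * 2 < 2 ^ P a ∧ |(w a i).1| * 2 < 2 ^ P a ∧
        |(w a i).2| * 2 < 2 ^ P a) :
    Oc mulB 𝒜 (fun T a => (4 * L a : ℕ) * That T (5 * P a)) fun a =>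
      (encA (L a) (P a) fun i => (mulR (t a).1.length (t a).2.length (x a i) (y a i) (w a i)).1,
       encA (L a) (P a) fun i => (mulR (t a).1.length (t a).2.length (x a i) (y a i) (w a i)).2) := by
  have h1 : Oc mulB ((lin _).sub fun q => ∃ P, cmulPre 1 P (q.2, ([q.1.1.1], [q.1.1.2]), [q.1.2.1],
      [q.1.2.2])) (fun T q => 4 * That T (5 * q.1.1.1.length)) emul := by
    have h2 : Cl mulB ((lin (((List Bool × List Bool) × List Bool × List Bool) × List Bool ×
        List Bool)).sub fun q => ∃ P, cmulPre 1 P (q.2, ([q.1.1.1], [q.1.1.2]), [q.1.2.1],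
      [q.1.2.2])) fun q => (q.2, ([q.1.1.1], [q.1.1.2]), [q.1.2.1], [q.1.2.2]) := by fun_prop
    exact (Oc.app oc_cmul h2 (fun q hq => ⟨trivial, 1, hq.2⟩)
      (Dom.of (n := fun _ => 0) (l := fun _ => 0) h2.2 0 fun _ _ => ⟨by simp, by simp⟩)).mono
      fun T q _ => by simp [zer]
  have h2 : Cl mulB 𝒜 fun a => ((X a).1.zip (X a).2).zip (W a) := by fun_prop
  have h3 : ∀ a, 𝒜.D a → ((X a).1.zip (X a).2).zip (W a) = arr (L a) fun i =>
      ((toBits (P a) (x a i), toBits (P a) (y a i)), toBits (P a) (w a i).1,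
        toBits (P a) (w a i).2) := fun a ha => by
    obtain ⟨-, -, h4, h5, -⟩ := h a ha
    rw [h4, h5, encA, encA, zip_arr, zip_arr]
  have h4 := Oc.map h1 h2 ht (fun a ha q hq => by
      rw [h3 a ha] at hq
      obtain ⟨i, -, rfl⟩ := List.mem_map.1 hq
      obtain ⟨-, -, -, -, h5, h6, -⟩ := h a ha
      exact ⟨trivial, P a, one_pos, by simp only; omega, h6, rfl, rfl, rfl, rfl, by simp [Wf],
        by simp [Wf], by simp [Wf], by simp [Wf]⟩)
    (dom_lin' ((hF.bnd.mul 40).mono fun a ha => ?_))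
  · refine (ArrAux.oc_wrap h4 (F := fun q => ((q.2.map fun e => e.1).flatten,
      (q.2.map fun e => e.2).flatten)) (by fun_prop)).mono (fun T a ha => ?_) |>.congr
        fun a ha => ?_
    · rw [h3 a ha, map_arr, arr]
      simp [mul_assoc, mul_left_comm]
    · obtain ⟨-, h5, -, -, h6, -, h7⟩ := h a ha
      rw [h3 a ha, map_arr, arr_congr fun i hi => emul_eq h5 h6 (h7 i hi), map_arr, map_arr]
      have h8 : ∀ f : ℕ → List Bool, (arr (L a) fun i => [f i]).flatten = arr (L a) f := fun f => by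
        simpa using flatten_rep one_pos (L a) f
      rw [h8, h8]
      rfl
  · obtain ⟨h5, -, -, -, h6, h7, -⟩ := h a ha
    rw [h3 a ha]
    refine (ListsAux.sum_le_mul _ _ (40 * (P a + 1)) fun q hq => ?_).trans ?_
    · obtain ⟨i, -, rfl⟩ := List.mem_map.1 hq
      have h8 := sz_bools (t a).1
      have h9 := sz_bools (t a).2
      have h10 : ∀ z, sz (toBits (P a) z) ≤ 4 * P a + 1 := fun z => by simpa using sz_bools (toBits (P a) z)
      have := h10 (x a i)
      have := h10 (y a i)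
      have := h10 (w a i).1
      have := h10 (w a i).2
      simp only [sz_pair, sz_prod (t a)]
      omega
    · rw [length_arr]
      nlinarith

theorem floor_err (A : ℤ) (F r : ℕ) :
    |((A / 2 ^ (F + r) * 2 ^ r : ℤ) : ℝ) - A / 2 ^ F| ≤ 2 ^ r := by
  have h0 : (0 : ℤ) < 2 ^ (F + r) := by positivity
  have h1 := Int.emod_nonneg A h0.ne'
  have h2 := Int.emod_lt_of_pos A h0
  have h3 := Int.mul_ediv_add_emod A (2 ^ (F + r))
  generalize A / 2 ^ (F + r) = q at *
  generalize A % 2 ^ (F + r) = s at *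
  have h4 : ((q * 2 ^ r : ℤ) : ℝ) - A / 2 ^ F = -(s / 2 ^ F) := by
    rw [← h3]
    push_cast
    field_simp
    ring
  have h1' : (0 : ℝ) ≤ s := by exact_mod_cast h1
  have h2' : (s : ℝ) < 2 ^ (F + r) := by exact_mod_cast h2
  rw [h4, abs_neg, abs_of_nonneg (by positivity), div_le_iff₀ (by positivity), ← pow_add,
    add_comm r]
  exact h2'.le

/-- A pair of integers as a complex number. -/
noncomputable def gz (w : ℤ × ℤ) : ℂ := w.1 + w.2 * I

theorem mulR_err {F r B D : ℕ} {x y : ℤ} {w : ℤ × ℤ} {v W : ℂ} {c : ℝ}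
    (hw : ‖gz w / 2 ^ F - W‖ ≤ 3 / 2 ^ F) (hW : ‖W‖ ≤ c) (hv : ‖v‖ ≤ 2 ^ B)
    (hz : ‖(x + y * I) - v‖ ≤ 2 ^ D) (h1 : D ≤ B) (h2 : B ≤ F + D) (h3 : r + 2 ≤ D) :
    ‖gz (mulR (F + r) r x y w) - W * v‖ ≤ (c + 7) * 2 ^ D := by
  have e1 : gz (mulR (F + r) r x y w) - W * v =
      (((((x * w.1 - y * w.2) / 2 ^ (F + r) * 2 ^ r : ℤ) : ℝ) -
          ((x * w.1 - y * w.2 : ℤ) : ℝ) / 2 ^ F : ℝ) +
        ((((x * w.2 + y * w.1) / 2 ^ (F + r) * 2 ^ r : ℤ) : ℝ) -
          ((x * w.2 + y * w.1 : ℤ) : ℝ) / 2 ^ F : ℝ) * I) +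
      ((x + y * I) * (gz w / 2 ^ F - W) + W * ((x + y * I) - v)) := by
    simp only [gz, mulR]
    generalize (x * w.1 - y * w.2) / 2 ^ (F + r) = p
    generalize (x * w.2 + y * w.1) / 2 ^ (F + r) = q
    push_cast
    field_simp
    linear_combination (-(y : ℂ) * w.2) * I_sq
  have e2 := floor_err (x * w.1 - y * w.2) F r
  have e3 := floor_err (x * w.2 + y * w.1) F r
  have e4 : ‖(x + y * I : ℂ)‖ ≤ 2 * 2 ^ B := by
    have := norm_add_le ((x + y * I : ℂ) - v) v
    rw [sub_add_cancel] at this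
    have h4 : (2 : ℝ) ^ D ≤ 2 ^ B := pow_le_pow_right₀ one_le_two h1
    linarith
  have e5 : (2 : ℝ) ^ B ≤ 2 ^ F * 2 ^ D := by
    rw [← pow_add]
    exact pow_le_pow_right₀ one_le_two h2
  have e6 : (2 : ℝ) ^ r * 4 ≤ 2 ^ D := by
    have : (2 : ℝ) ^ (r + 2) ≤ 2 ^ D := pow_le_pow_right₀ one_le_two h3
    rw [pow_add] at this
    linarith
  have e7 : ‖(x + y * I : ℂ) * (gz w / 2 ^ F - W)‖ ≤ 6 * 2 ^ D := by
    rw [norm_mul]
    calc _ ≤ 2 * (2 ^ F * 2 ^ D) * (3 / 2 ^ F : ℝ) := by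
          gcongr
          linarith
      _ = _ := by field_simp; ring
  have e8 : ‖W * ((x + y * I) - v)‖ ≤ c * 2 ^ D := by
    rw [norm_mul]
    exact mul_le_mul hW hz (norm_nonneg _) ((norm_nonneg _).trans hW)
  rw [e1]
  refine (norm_add_le _ _).trans ((add_le_add (norm_add_le _ _) (norm_add_le _ _)).trans ?_)
  rw [norm_mul, norm_I, mul_one, norm_real, norm_real, Real.norm_eq_abs, Real.norm_eq_abs]
  have : (0 : ℝ) < 2 ^ r := by positivity
  linarith

theorem w_bound {F a P : ℕ} {w : ℤ × ℤ} {W : ℂ} (hw : ‖gz w / 2 ^ F - W‖ ≤ 3 / 2 ^ F)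
    (hW : ‖W‖ ≤ 2 ^ a) (ha : 0 < a) (hP : F + a + 3 ≤ P) :
    |w.1| * 2 < 2 ^ P ∧ |w.2| * 2 < 2 ^ P := by
  have h1 : ‖gz w‖ ≤ 2 ^ F * 2 ^ a + 3 := by
    have h2 := norm_add_le (gz w / 2 ^ F - W) W
    rw [sub_add_cancel, norm_div, norm_pow, Complex.norm_two, div_le_iff₀ (by positivity)] at h2
    have h3 : (3 / 2 ^ F : ℝ) * 2 ^ F = 3 := by field_simp
    have h4 : (0 : ℝ) < 2 ^ F := by positivity
    nlinarith
  have h2 : (2 : ℝ) ^ (F + a + 3) ≤ 2 ^ P := pow_le_pow_right₀ one_le_two hP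
  have h3 : (2 : ℝ) ^ 1 ≤ 2 ^ (F + a) := pow_le_pow_right₀ one_le_two (by omega)
  have h4 := abs_re_le_norm (gz w)
  have h5 := abs_im_le_norm (gz w)
  rw [pow_add] at h2
  rw [← pow_add] at h1
  simp only [gz, add_re, intCast_re, mul_re, I_re, mul_zero, intCast_im, I_im, mul_one, sub_self,
    add_zero, add_im, mul_im, zero_add] at h4 h5
  constructor <;> rw [← Int.cast_lt (R := ℝ)] <;> push_cast <;> simp only [gz] at h1 <;> linarith

end Vale.Agent.P338.FftAux
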