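import Vale.Agent.P338.FftB

/-! One step of the transform. -/

namespace Vale.Agent.P338.FftAux

open Vale.Agent.Common.TreeTM Vale.Agent.P337 Complex

/-- The specification of the approximation of weights. -/
def WOk (w : WP × List Bool → ℤ × ℤ) : Prop :=
  ∀ p t, 0 < p.2.1 → (∀ θ ∈ p.2.2, 0 < θ.2) →
    ‖gz (w (p, t)) / 2 ^ t.length - wval p‖ ≤ 3 / 2 ^ t.length

def StepPre (w1 E0 ex m a ν γ e P F B D : ℕ) (ss : List ℕ) : Prop :=
  BoxPre a ν γ ss ∧ ν + a * (ss.length + 1) ≤ m ∧ ss.length * e ≤ a ∧ 0 < e ∧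
    ss.length ≤ 2 ^ e ∧ ss.length ≤ 2 ^ a ∧
    ss.length * e + 2 + w1 * (ss.length * e + 3).size ≤ ν ∧ (2 ^ a + P + m + 2) ^ ex ≤ 2 ^ γ ∧
    B ≤ F + D ∧ E0 * (ss.length + 1) + 2 ≤ D ∧ D ≤ B ∧
    B + (a + ss.length + 4) + E0 * (ss.length + 1) + 3 ≤ P ∧ F + a + 3 ≤ P

def wz (w : WP × List Bool → ℤ × ℤ) (inv snd : Bool) (F a ν γ : ℕ) (ss : List ℕ) (st : Stp)
    (p : ℕ) : ℤ × ℤ :=
  w (bif snd then wp2 inv a ν γ ss st p else wp1 inv a ν γ ss st p, List.replicate F false)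

def rfl' (a ν γ : ℕ) (ss : List ℕ) (st : Stp) : ℕ → ℕ :=
  reflIx (rf a ν γ ss st).1 (rf a ν γ ss st).2.1 (rf a ν γ ss st).2.2

/-- The rounded combination before the butterflies. -/
def mid (w : WP × List Bool → ℤ × ℤ) (inv : Bool) (r F a ν γ : ℕ) (ss : List ℕ) (st : Stp)
    (x y : ℕ → ℤ) (p : ℕ) : ℤ × ℤ :=
  mulR (F + r) r (x p) (y p) (wz w inv false F a ν γ ss st p) +
    mulR (F + r) r (x (rfl' a ν γ ss st p)) (y (rfl' a ν γ ss st p)) (wz w inv true F a ν γ ss st p)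

theorem gz_add (u v : ℤ × ℤ) : gz (u + v) = gz u + gz v := by
  simp only [gz, Prod.fst_add, Prod.snd_add]
  push_cast
  ring

theorem gz_dvd (s r : ℕ) (x y x' y' : ℤ) (w w' : ℤ × ℤ) :
    ∃ p q : ℤ, gz (mulR s r x y w + mulR s r x' y' w') = 2 ^ r * (p + q * I) := by
  refine ⟨(x * w.1 - y * w.2) / 2 ^ s + (x' * w'.1 - y' * w'.2) / 2 ^ s,
    (x * w.2 + y * w.1) / 2 ^ s + (x' * w'.2 + y' * w'.1) / 2 ^ s, ?_⟩
  simp only [gz, mulR, Prod.fst_add, Prod.snd_add]
  push_cast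
  ring

variable {w : WP × List Bool → ℤ × ℤ} {inv : Bool} {w1 E0 ex m a ν γ e P F B D : ℕ} {ss : List ℕ}
  {st : Stp}

theorem wz_err (hw : WOk w) (h : BoxPre a ν γ ss) (p : ℕ) :
    ‖gz (wz w inv false F a ν γ ss st p) / 2 ^ F - wval (wp1 inv a ν γ ss st p)‖ ≤ 3 / 2 ^ F ∧
    ‖gz (wz w inv true F a ν γ ss st p) / 2 ^ F - wval (wp2 inv a ν γ ss st p)‖ ≤ 3 / 2 ^ F := by
  obtain ⟨h1, h2⟩ := wp_pos (inv := inv) (st := st) h p
  exact ⟨by simpa [wz] using hw _ (List.replicate F false) h1.1 h1.2,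
    by simpa [wz] using hw _ (List.replicate F false) h2.1 h2.2⟩

theorem StepPre.had (h : StepPre w1 E0 ex m a ν γ e P F B D ss) (hst : st ∈ prog a ss.length) :
    HadPre w1 m (ν + st.2.2.2) a (hk ss.length st) e := by
  obtain ⟨h1, h2, h3, h4, h5, h6, h7, -⟩ := h
  unfold hk
  split_ifs with h8
  · have h9 := (mem_prog hst).2.2.2.2.1 (by omega)
    refine ⟨h1.1, h4, h6, h5, fun j hj => ?_, by omega⟩
    have : a * (j + 1) ≤ a * ss.length := Nat.mul_le_mul_left _ hj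
    rw [mul_add] at this h2
    omega
  · have h9 : w1 * (0 * e + 3).size ≤ w1 * (ss.length * e + 3).size :=
      Nat.mul_le_mul_left _ (Nat.size_le_size (by omega))
    exact ⟨h1.1, h4, Nat.zero_le _, Nat.zero_le _, fun j hj => absurd hj (by omega), by omega⟩

theorem hk_le (d : ℕ) (st : Stp) : hk d st ≤ d := by
  unfold hk
  split_ifs <;> omega

theorem StepPre.rfl_lt (h : StepPre w1 E0 ex m a ν γ e P F B D ss) (hst : st ∈ prog a ss.length)
    {p : ℕ} (hp : p < 2 ^ m) : rfl' a ν γ ss st p < 2 ^ m :=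
  reflIx_lt (rf_dvd h.1 hst (by have := h.2.1; rw [mul_add] at this; omega)) hp

theorem step_apx (hw : WOk w) (hE : 0 < E0) (h : StepPre w1 E0 ex m a ν γ e P F B D ss)
    (hst : st ∈ prog a ss.length) {x y : ℕ → ℤ} {z v : ℕ → ℂ} (hz : ∀ i < 2 ^ m, z i = x i + y i * I)
    (ha : Apx (2 ^ m) B D z v) :
    RepC (2 ^ m) P (E0 * (ss.length + 1))
      (fun p => gz (mid w inv (E0 * (ss.length + 1)) F a ν γ ss st x y p)) ∧
    Apx (2 ^ m) (B + (a + ss.length + 4)) (D + (a + ss.length + 4))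
      (hd (ν + st.2.2.2) a (hk ss.length st)
        fun p => gz (mid w inv (E0 * (ss.length + 1)) F a ν γ ss st x y p))
      (stepOp inv a ν γ ss st v) := by
  have hH := h.had hst
  have hr := fun p => h.rfl_lt (p := p) hst
  obtain ⟨h1, -, -, -, -, -, -, -, h2, h3, h4, h5, -⟩ := h
  set r := E0 * (ss.length + 1) with hr0
  set vm : ℕ → ℂ := fun p => wval (wp1 inv a ν γ ss st p) * v p +
    wval (wp2 inv a ν γ ss st p) * v (rfl' a ν γ ss st p) with hvm
  have hA : (1 : ℝ) ≤ 2 ^ a := one_le_pow₀ one_le_two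
  have e1 : ∀ p < 2 ^ m, ‖gz (mid w inv r F a ν γ ss st x y p) - vm p‖ ≤ 2 ^ (D + a + 4) := by
    intro p hp
    have a1 := mulR_err (r := r) (wz_err (inv := inv) (st := st) (F := F) hw h1 p).1
      (norm_wp h1 p).1 (ha p hp).2.1 (hz p hp ▸ (ha p hp).2.2) h4 h2 h3
    have a2 := mulR_err (r := r) (wz_err (inv := inv) (st := st) (F := F) hw h1 p).2
      (norm_wp h1 p).2 (ha _ (hr p hp)).2.1 (hz _ (hr p hp) ▸ (ha _ (hr p hp)).2.2) h4 h2 h3
    rw [mid, gz_add, hvm, add_sub_add_comm]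
    refine (norm_add_le _ _).trans ?_
    rw [pow_add, pow_add]
    have : (0 : ℝ) < 2 ^ D := by positivity
    nlinarith
  have e2 : ∀ p < 2 ^ m, ‖vm p‖ ≤ 2 ^ (B + a + 1) := by
    intro p hp
    have a1 := mul_le_mul (norm_wp (inv := inv) (st := st) h1 p).1 (ha p hp).2.1 (norm_nonneg _)
      zero_le_one
    have a2 := mul_le_mul (norm_wp (inv := inv) (st := st) h1 p).2 (ha _ (hr p hp)).2.1
      (norm_nonneg _) (by positivity)
    refine (norm_add_le _ _).trans ?_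
    rw [norm_mul, norm_mul, pow_add, pow_add]
    have : (0 : ℝ) < 2 ^ B := by positivity
    nlinarith
  have e3 : RepC (2 ^ m) P r fun p => gz (mid w inv r F a ν γ ss st x y p) := by
    refine ⟨by omega, fun p hp => ⟨gz_dvd _ _ _ _ _ _ _ _, ?_⟩⟩
    have a1 := norm_add_le (gz (mid w inv r F a ν γ ss st x y p) - vm p) (vm p)
    rw [sub_add_cancel] at a1
    have a2 : (2 : ℝ) ^ (D + a + 4) ≤ 2 ^ (B + a + 4) := pow_le_pow_right₀ one_le_two (by omega)
    have a3 : (2 : ℝ) ^ (B + a + 1) ≤ 2 ^ (B + a + 4) := pow_le_pow_right₀ one_le_two (by omega)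
    calc _ ≤ (2 : ℝ) ^ (B + a + 5) * 2 ^ (r + 1) := by
          gcongr
          rw [pow_succ _ (B + a + 4)]
          linarith [e1 p hp, e2 p hp]
      _ < 2 ^ P := by
          rw [← pow_add]
          exact pow_lt_pow_right₀ one_lt_two (by omega)
  have hk1 := hk_le ss.length st
  have hm : ∀ j < hk ss.length st, ν + st.2.2.2 + a * j < m := fun j hj => by
    have := hH.2.2.2.2.1 j hj
    omega
  have hr1 : ss.length + 1 ≤ r := Nat.le_mul_of_pos_left _ hE
  have e4 := RepC.hd (j := 0) (e3.mono (by omega)) h1.1 hm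
  refine ⟨e3, fun p hp => ⟨by simpa using (e4.2 p hp).1, ?_, ?_⟩⟩
  · refine (norm_hd_le h1.1 hm hp (by positivity) e2).trans ?_
    rw [← pow_add]
    exact pow_le_pow_right₀ one_le_two (by omega)
  · have := norm_hd_le (v := (fun p => gz (mid w inv r F a ν γ ss st x y p)) - vm) h1.1 hm hp
      (by positivity) e1
    rw [map_sub] at this
    refine this.trans ?_
    rw [← pow_add]
    exact pow_le_pow_right₀ one_le_two (by omega)

theorem apx_rep {N : ℕ} {z v : ℕ → ℂ} (ha : Apx N B D z v) (h1 : D ≤ B) (h2 : B + 3 ≤ P) :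
    RepC N P 0 z := by
  refine ⟨by omega, fun i hi => ⟨by simpa using (ha i hi).1, ?_⟩⟩
  have a1 := norm_add_le (z i - v i) (v i)
  rw [sub_add_cancel] at a1
  have a2 : (2 : ℝ) ^ D ≤ 2 ^ B := pow_le_pow_right₀ one_le_two h1
  have a3 : (2 : ℝ) ^ (B + 3) ≤ 2 ^ P := pow_le_pow_right₀ one_le_two h2
  have a4 : (0 : ℝ) < 2 ^ B := by positivity
  rw [pow_add] at a3
  rw [zero_add, pow_one]
  linarith [(ha i hi).2.1, (ha i hi).2.2]

/-- The weights of one block. -/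
def wG (w : WP × List Bool → ℤ × ℤ) (inv snd : Bool) (q : (WPar × List Bool × List Bool) × ℕ) :
    List Bool × List Bool :=
  (toBits q.1.2.2.length (w (wp' inv snd q.1.1 (q.2 * pw q.1.1.1 2 q.1.1.2.2.2.2.1), q.1.2.1)).1,
   toBits q.1.2.2.length (w (wp' inv snd q.1.1 (q.2 * pw q.1.1.1 2 q.1.1.2.2.2.2.1), q.1.2.1)).2)

theorem tc_wG (hw : TC 0 w) (inv snd : Bool) : TC 0 (wG w inv snd) := by
  have h1 : TC 0 fun q : (WPar × List Bool × List Bool) × ℕ =>
      w (wp' inv snd q.1.1 (q.2 * pw q.1.1.1 2 q.1.1.2.2.2.2.1), q.1.2.1) :=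
    hw.comp (TC.pair ((tc_wp' inv snd).comp
      (g := fun q : (WPar × List Bool × List Bool) × ℕ =>
        (q.1.1, q.2 * pw q.1.1.1 2 q.1.1.2.2.2.2.1)) (by fun_prop)) (by fun_prop))
  exact TC.pair (tc_toBits (by fun_prop) h1.fst) (tc_toBits (by fun_prop) h1.snd)

theorem wG_eq (h : StepPre w1 E0 ex m a ν γ e P F B D ss) (hst : st ∈ prog a ss.length)
    (snd : Bool) (p : ℕ) :
    wG w inv snd (((2 ^ m, List.replicate (2 ^ a) false, a, ν, γ, ss, st), List.replicate F false,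
      List.replicate P false), p / 2 ^ γ) =
      (toBits P (wz w inv snd F a ν γ ss st p).1, toBits P (wz w inv snd F a ν γ ss st p).2) := by
  have h1 := wp'_eq (inv := inv) (tm := List.replicate (2 ^ a) false) h.1 hst h.2.1 (by simp)
    (p / 2 ^ γ * 2 ^ γ)
  have h2 := wp_block (inv := inv) (st := st) h.1 p
  have h3 : γ ≤ (2 ^ m).size := by
    have := h.1.2.1
    have := h.2.1
    rw [Nat.size_pow]
    omega
  cases snd <;> simp only [wG, wz, pw_eq h3, List.length_replicate, h1, h2, cond_true, cond_false]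

theorem sz_par (h : StepPre w1 E0 ex m a ν γ e P F B D ss) (hst : st ∈ prog a ss.length) {i : ℕ}
    (hi : i < 2 ^ m) : sz (((2 ^ m, List.replicate (2 ^ a) false, a, ν, γ, ss, st),
      List.replicate F false, List.replicate P false), i) + 2 ≤ (2 ^ a + P + m + 2) ^ 9 := by
  obtain ⟨h1, h2, -, -, -, -, -, -, -, -, -, -, h3⟩ := h
  have h4 := h1.2.1
  have h5 : a ≤ a * (ss.length + 1) := Nat.le_mul_of_pos_right _ (by omega)
  have a1 := sz_nat_le (show 2 ^ m < 2 ^ (m + 1) from Nat.pow_lt_pow_right one_lt_two (by omega))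
  have a2 := sz_bools (List.replicate (2 ^ a) false)
  have a3 := sz_nat_self a
  have a4 := sz_nat_self ν
  have a5 := sz_nat_self γ
  have a6 := sz_list_le (l := ss) (b := 4 * (a + 1) + 1) fun s hs =>
    sz_nat_le ((h1.2.2 s hs).2.trans_lt (Nat.pow_lt_pow_right one_lt_two (by omega)))
  have a7 := sz_bools (List.replicate F false)
  have a8 := sz_bools (List.replicate P false)
  have a9 := sz_nat_le hi
  have b1 := sz_nat_self st.1
  have b2 := sz_nat_self st.2.1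
  have b3 := sz_nat_self st.2.2.1
  have b4 := sz_nat_self st.2.2.2
  obtain ⟨b5, b6, b7, -⟩ := mem_prog hst
  have b8 := (j_le hst).1
  rw [List.length_replicate] at a2 a7 a8
  rw [sz_pair, sz_pair, sz_pair, sz_pair, sz_pair, sz_pair, sz_pair, sz_pair, sz_prod st,
    sz_prod st.2, sz_prod st.2.2, sz_pair]
  have c1 : ss.length * (4 * (a + 1) + 1 + 1) ≤ m * (4 * (m + 1) + 1 + 1) :=
    Nat.mul_le_mul (by omega) (by omega)
  have c2 : ∀ Y, 2 ≤ Y → 128 * (Y * Y) ≤ Y ^ 9 := fun Y hY => by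
    rw [show Y ^ 9 = Y ^ 7 * (Y * Y) by ring]
    exact Nat.mul_le_mul_right _ (Nat.pow_le_pow_left hY 7)
  refine le_trans ?_ (c2 _ (by omega))
  generalize 2 ^ a = t at *
  have c3 : m * (4 * (m + 1) + 1 + 1) ≤ 4 * ((t + P + m + 2) * (t + P + m + 2)) := by
    rw [mul_left_comm]
    exact Nat.mul_le_mul (by omega) (by omega)
  have c4 : 2 * (t + P + m + 2) ≤ (t + P + m + 2) * (t + P + m + 2) :=
    Nat.mul_le_mul_right _ (by omega)
  omega

/-- The parameters `m, a, ν, γ, e, F` and the moduli. -/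
abbrev FPar : Type := ℕ × ℕ × ℕ × ℕ × ℕ × ℕ × List ℕ

def re' (x : CArr) (i : ℕ) : ℤ := sval (x.1.getD i [])
def im' (x : CArr) (i : ℕ) : ℤ := sval (x.2.getD i [])

theorem dec_eq {N : ℕ} {z : ℕ → ℂ} (h : RepC N P 0 z) {i : ℕ} (hi : i < N) :
    z i = re' (encC N P z) i + im' (encC N P z) i * I := by
  rw [← h.decC hi]
  apply Complex.ext <;> simp [decC, re', im']

end Vale.Agent.P338.FftAux
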