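import Vale.Agent.P338.FftC

/-! The cost of one step of the transform. -/

namespace Vale.Agent.P338.FftAux

open Vale.Agent.Common.TreeTM Vale.Agent.P337 Complex

variable {α : Type} [Enc α]

structure SEnv (w1 E0 ex : ℕ) (𝒜 : Amb α) (x : α → CArr) (st : α → Stp) (ss : α → List ℕ)
    (m a ν γ e F P B D : α → ℕ) (z v : α → ℕ → ℂ) : Prop where
  hex : 0 < ex
  hx : Cl mulB 𝒜 x
  hst : Sm mulB 𝒜 st
  hss : Sm mulB 𝒜 ss
  hm : Sm mulB 𝒜 m
  ha : Sm mulB 𝒜 a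
  hν : Sm mulB 𝒜 ν
  hγ : Sm mulB 𝒜 γ
  hF : Sm mulB 𝒜 F
  hN : Fit 𝒜 (fun p => 2 ^ m p) P
  mem : ∀ p, 𝒜.D p → st p ∈ prog (a p) (ss p).length
  xe : ∀ p, 𝒜.D p → x p = encC (2 ^ m p) (P p) (z p)
  apx : ∀ p, 𝒜.D p → Apx (2 ^ m p) (B p) (D p) (z p) (v p)
  pre : ∀ p, 𝒜.D p →
    StepPre w1 E0 ex (m p) (a p) (ν p) (γ p) (e p) (P p) (F p) (B p) (D p) (ss p)

namespace SEnv

variable {w1 E0 ex : ℕ} {𝒜 : Amb α} {x : α → CArr} {st : α → Stp} {ss : α → List ℕ}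
  {m a ν γ e F P B D : α → ℕ} {z v : α → ℕ → ℂ} {w : WP × List Bool → ℤ × ℤ} {inv : Bool}
  (h : SEnv w1 E0 ex 𝒜 x st ss m a ν γ e F P B D z v)
include h

theorem rep (p : α) (hp : 𝒜.D p) : RepC (2 ^ m p) (P p) 0 (z p) := by
  obtain ⟨-, -, -, -, -, -, -, -, -, -, a1, a2, -⟩ := h.pre p hp
  exact apx_rep (h.apx p hp) a1 (by omega)

theorem len (p : α) (hp : 𝒜.D p) : (x p).1.length = 2 ^ m p ∧ (x p).2.length = 2 ^ m p ∧
    Wf (P p) (x p).1 ∧ Wf (P p) (x p).2 := by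
  rw [h.xe p hp]
  exact ⟨length_encA _ _ _, length_encA _ _ _, wf_encA _ _ _, wf_encA _ _ _⟩

theorem le (p : α) (hp : 𝒜.D p) : a p ≤ m p ∧ γ p ≤ m p ∧ 2 ^ a p ≤ 2 ^ γ p ∧ P p ≤ 2 ^ γ p ∧
    F p ≤ P p ∧ E0 * ((ss p).length + 1) ≤ P p := by
  obtain ⟨a1, a2, -, -, -, -, -, a3, -, -, -, a4, a5⟩ := h.pre p hp
  have a6 := a1.2.1
  have a7 : a p ≤ a p * ((ss p).length + 1) := Nat.le_mul_of_pos_right _ (by omega)
  have a8 := (Nat.le_self_pow h.hex.ne' _).trans a3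
  generalize 2 ^ a p = t at *
  omega

theorem pow {k : α → ℕ} (hk : Sm mulB 𝒜 k) (hkm : ∀ p, 𝒜.D p → k p ≤ m p) :
    Sm mulB 𝒜 fun p => 2 ^ k p := sm_pow h.hN h.hx.fst hk fun p hp => by
  rw [(h.len p hp).1, Nat.size_pow]
  exact ⟨le_rfl, (hkm p hp).trans (Nat.le_succ _)⟩

theorem zeros {k : α → ℕ} (hk : Sm mulB 𝒜 k) (hkm : ∀ p, 𝒜.D p → k p ≤ 2 * 2 ^ γ p) :
    Cl mulB 𝒜 fun p => List.replicate (k p) false :=
  Oc.replicate (Cl.const false) hk (h.hN.mono 2 fun p hp => ⟨by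
    have a1 := hkm p hp
    have a2 := Nat.pow_le_pow_right two_pos (h.le p hp).2.1
    omega, by show 1 ≤ _; omega⟩)

theorem sN : Sm mulB 𝒜 fun p => 2 ^ m p := h.pow h.hm fun _ _ => le_rfl

theorem sd : Sm mulB 𝒜 fun p => (ss p).length :=
  Sm.tc (F := fun l : List ℕ => l.length) (by fun_prop) h.hss

theorem sr : Sm mulB 𝒜 fun p => E0 * ((ss p).length + 1) :=
  (Sm.tc (F := fun l : ℕ => E0 * (l + 1)) (by fun_prop) h.sd :)

theorem par : Cl mulB 𝒜 fun p => (((2 ^ m p, List.replicate (2 ^ a p) false, a p, ν p, γ p, ss p,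
    st p) : WPar), List.replicate (F p) false, List.replicate (P p) false) := by
  have tP : Cl mulB 𝒜 fun p => List.replicate (P p) false :=
    (cl_zer h.hx.fst).congr fun p hp => ((h.len p hp).2.2.1.zer_eq
      (List.ne_nil_of_length_pos (by rw [(h.len p hp).1]; positivity))).symm
  have tF := h.zeros h.hF fun p hp => by have := h.le p hp; omega
  have tm := h.zeros (h.pow h.ha fun p hp => (h.le p hp).1) fun p hp => by
    have := h.le p hp; omega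
  exact Cl.pair (Cl.pair h.sN.1 (Cl.pair tm
    (h.ha.pair (h.hν.pair (h.hγ.pair (h.hss.pair h.hst)))).1)) (Cl.pair tF tP)

theorem tt : Cl mulB 𝒜 fun p => (List.replicate (F p + E0 * ((ss p).length + 1)) false,
    List.replicate (E0 * ((ss p).length + 1)) false) :=
  Cl.pair (h.zeros (Sm.tc (F := fun q : ℕ × ℕ => q.1 + q.2) (by fun_prop) (h.hF.pair h.sr))
    fun p hp => by
      have := h.le p hp
      show F p + E0 * ((ss p).length + 1) ≤ _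
      omega) (h.zeros h.sr fun p hp => by have := h.le p hp; omega)

theorem dec (p : α) (hp : 𝒜.D p) (i : ℕ) (hi : i < 2 ^ m p) :
    z p i = re' (x p) i + im' (x p) i * I := by
  rw [h.xe p hp]
  exact dec_eq (h.rep p hp) hi

theorem bd (p : α) (hp : 𝒜.D p) (i : ℕ) (hi : i < 2 ^ m p) :
    |re' (x p) i| * 2 < 2 ^ P p ∧ |im' (x p) i| * 2 < 2 ^ P p := by
  obtain ⟨x', y', a1⟩ := (h.rep p hp).ints
  obtain ⟨a2, a3, a4⟩ := a1 i hi
  have a5 := (h.dec p hp i hi).symm.trans a2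
  have a6 := congrArg Complex.re a5
  have a7 := congrArg Complex.im a5
  simp at a6 a7
  rwa [a6, a7, and_iff_left a4]

theorem wb (hw' : WOk w) (p : α) (hp : 𝒜.D p) (snd : Bool) (i : ℕ) :
    |(wz w inv snd (F p) (a p) (ν p) (γ p) (ss p) (st p) i).1| * 2 < 2 ^ P p ∧
    |(wz w inv snd (F p) (a p) (ν p) (γ p) (ss p) (st p) i).2| * 2 < 2 ^ P p := by
  have a1 := (h.pre p hp).1
  have a2 := (h.pre p hp).2.2.2.2.2.2.2.2.2.2.2.2
  cases snd
  · exact w_bound (wz_err hw' a1 i).1 ((norm_wp a1 i).1.trans (one_le_pow₀ one_le_two)) a1.1 a2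
  · exact w_bound (wz_err hw' a1 i).2 (norm_wp a1 i).2 a1.1 a2

theorem refl {l : α → Arr} (hl : Cl mulB 𝒜 l)
    (hl' : ∀ p, 𝒜.D p → (l p).length = 2 ^ m p ∧ Wf (P p) (l p)) :
    Cl mulB 𝒜 fun p => pull (2 ^ m p) (rfl' (a p) (ν p) (γ p) (ss p) (st p)) (l p) := by
  have srf : Sm mulB 𝒜 fun p => rf (a p) (ν p) (γ p) (ss p) (st p) :=
    (Sm.tc tc_rf' (h.sN.pair (h.ha.pair (h.hν.pair (h.hγ.pair (h.hss.pair h.hst)))))).congr
      fun p hp => (rf'_eq (h.pre p hp).1 (h.mem p hp) (h.pre p hp).2.1).symm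
  refine Cl.congr (oc_refl hl (Sm.tc (F := fun q : ℕ × ℕ × ℕ => q.1) (by fun_prop) srf)
    (Sm.tc (F := fun q : ℕ × ℕ × ℕ => q.2.1) (by fun_prop) srf)
    (Sm.tc (F := fun q : ℕ × ℕ × ℕ => q.2.2) (by fun_prop) srf) h.hN fun p hp =>
      ⟨(hl' p hp).2, List.ne_nil_of_length_pos (by rw [(hl' p hp).1]; positivity), (hl' p hp).1.le,
        ?_⟩) fun p hp => by rw [(hl' p hp).1]; rfl
  rw [(hl' p hp).1]
  refine rf_dvd (h.pre p hp).1 (h.mem p hp) ?_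
  have := (h.pre p hp).2.1
  rw [mul_add] at this
  omega

/-- The array of the weights. -/
def WArr (w : WP × List Bool → ℤ × ℤ) (inv snd : Bool) (𝒜 : Amb α) (st : α → Stp)
    (ss : α → List ℕ) (m a ν γ F P : α → ℕ) : Prop :=
  Cl mulB 𝒜 fun p => arr (2 ^ m p) fun i =>
    (toBits (P p) (wz w inv snd (F p) (a p) (ν p) (γ p) (ss p) (st p) i).1,
     toBits (P p) (wz w inv snd (F p) (a p) (ν p) (γ p) (ss p) (st p) i).2)

theorem mid_ok (hw' : WOk w) (hW : ∀ snd, WArr w inv snd 𝒜 st ss m a ν γ F P) :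
    Oc mulB 𝒜 (fun T p => (8 * 2 ^ m p : ℕ) * That T (5 * P p)) fun p => encC (2 ^ m p) (P p)
      fun i => gz (mid w inv (E0 * ((ss p).length + 1)) (F p) (a p) (ν p) (γ p) (ss p) (st p)
          (re' (x p)) (im' (x p)) i) := by
  have ht : ∀ p, 𝒜.D p → (List.replicate (F p + E0 * ((ss p).length + 1)) false).length ≤
      P p + (List.replicate (E0 * ((ss p).length + 1)) false).length ∧
      (List.replicate (E0 * ((ss p).length + 1)) false).length ≤ P p := fun p hp => by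
    have := h.le p hp
    simp only [List.length_replicate]
    omega
  have m1 := oc_emul (x := fun p => re' (x p)) (y := fun p => im' (x p)) h.hx (hW false) h.tt h.hN
    fun p hp => ⟨le_rfl, (h.rep p hp).1, (h.xe p hp).trans (encC_int (h.dec p hp)), rfl,
      (ht p hp).1, (ht p hp).2,
      fun i hi => ⟨(h.bd p hp i hi).1, (h.bd p hp i hi).2, h.wb hw' p hp false i⟩⟩
  have hr : ∀ p, 𝒜.D p → ∀ i < 2 ^ m p, rfl' (a p) (ν p) (γ p) (ss p) (st p) i < 2 ^ m p :=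
    fun p hp i hi => (h.pre p hp).rfl_lt (h.mem p hp) hi
  have m2 := oc_emul (x := fun p i => re' (x p) (rfl' (a p) (ν p) (γ p) (ss p) (st p) i))
    (y := fun p i => im' (x p) (rfl' (a p) (ν p) (γ p) (ss p) (st p) i))
    (Cl.pair (h.refl h.hx.fst fun p hp => ⟨(h.len p hp).1, (h.len p hp).2.2.1⟩)
      (h.refl h.hx.snd fun p hp => ⟨(h.len p hp).2.1, (h.len p hp).2.2.2⟩)) (hW true) h.tt h.hN
    fun p hp => ⟨le_rfl, (h.rep p hp).1, by
        have a1 := pull_encC (P := P p) (z p) (hr p hp)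
        rw [← h.xe p hp] at a1
        exact a1.trans (encC_int fun i hi => h.dec p hp _ (hr p hp i hi)),
      rfl, (ht p hp).1, (ht p hp).2, fun i hi =>
        ⟨(h.bd p hp _ (hr p hp i hi)).1, (h.bd p hp _ (hr p hp i hi)).2, h.wb hw' p hp true i⟩⟩
  refine ((oc_lin (F := fun q : CArr × CArr => (addA q.1.1 q.2.1, addA q.1.2 q.2.2))
    (by fun_prop) (m1.pair m2)).mono fun T p _ => le_of_eq ?_).congr fun p _ => ?_
  · push_cast
    ring
  · simp only [addA_encA, List.length_replicate]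
    exact encC_int fun i _ => rfl

end SEnv

theorem exists_warr {w : WP × List Bool → ℤ × ℤ} (hw : TC 0 w) : ∃ ex, 0 < ex ∧
    ∀ (inv snd : Bool) {α : Type} [Enc α] {w1 E0 : ℕ} {𝒜 : Amb α} {x : α → CArr} {st : α → Stp}
      {ss : α → List ℕ} {m a ν γ e F P B D : α → ℕ} {z v : α → ℕ → ℂ},
      SEnv w1 E0 ex 𝒜 x st ss m a ν γ e F P B D z v →
      SEnv.WArr w inv snd 𝒜 st ss m a ν γ F P := by
  choose k hk using fun b : Bool × Bool => exists_blocks (tc_wG hw b.1 b.2)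
  obtain ⟨K, hK⟩ : ∃ K, ∀ b, k b ≤ K :=
    ⟨Finset.univ.sup k, fun b => Finset.le_sup (Finset.mem_univ b)⟩
  refine ⟨9 * (K + 1), by omega,
    fun inv snd {α} _ {w1 E0 𝒜 x st ss m a ν γ e F P B D z v} h => ?_⟩
  have hmγ : ∀ p, 𝒜.D p → 2 ^ (m p - γ p) * 2 ^ γ p = 2 ^ m p := fun p hp => by
    rw [← pow_add, Nat.sub_add_cancel (h.le p hp).2.1]
  have hs : Sm mulB 𝒜 fun p => m p - γ p :=
    (Sm.tc (F := fun q : ℕ × ℕ => q.1 - q.2) (by fun_prop) (h.hm.pair h.hγ) :)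
  refine (hk (inv, snd) h.par (h.pow hs fun p _ => Nat.sub_le _ _)
    (h.pow h.hγ fun p hp => (h.le p hp).2.1) h.hN
    fun p hp => ⟨(hmγ p hp).le, Nat.two_pow_pos _, fun i hi => ⟨?_, ?_⟩⟩).congr fun p hp => ?_
  · refine le_trans ?_ (h.pre p hp).2.2.2.2.2.2.2.1
    rw [pow_mul]
    exact (Nat.pow_le_pow_left (sz_par (h.pre p hp) (h.mem p hp)
      (hi.trans_le (Nat.pow_le_pow_right two_pos (Nat.sub_le _ _)))) _).trans
      (Nat.pow_le_pow_right (by positivity) (Nat.succ_le_succ (hK (inv, snd))))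
  · have a1 : ∀ y, sz (toBits (P p) y) ≤ 4 * P p + 1 := fun y => by
      simpa using sz_bools (toBits (P p) y)
    rw [wG, sz_pair, List.length_replicate]
    exact (Nat.add_le_add_right (Nat.add_le_add (a1 _) (a1 _)) 1).trans (by omega)
  · rw [hmγ p hp]
    exact arr_congr fun i _ => (wG_eq (h.pre p hp) (h.mem p hp) snd i).symm

theorem oc_step {w : WP × List Bool → ℤ × ℤ} {w1 E0 : ℕ} {τ : ℕ → ℕ} (hw : TC 0 w) (hw' : WOk w)
    (hE : 0 < E0) (hH : HadOK w1 E0 τ) (hτ : Monotone τ) (h1 : ∀ e, 1 ≤ τ e) :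
    ∃ ex, ∀ (inv : Bool) {α : Type} [Enc α] {𝒜 : Amb α}
    {x : α → CArr} {st : α → Stp} {ss : α → List ℕ} {m a ν γ e F P : α → ℕ}, Cl mulB 𝒜 x →
    Sm mulB 𝒜 st → Sm mulB 𝒜 ss → Sm mulB 𝒜 m → Sm mulB 𝒜 a → Sm mulB 𝒜 ν → Sm mulB 𝒜 γ →
    Sm mulB 𝒜 e → Sm mulB 𝒜 F → Fit 𝒜 (fun p => 2 ^ m p * τ ((ss p).length * e p + 2)) P →
    (∀ p, 𝒜.D p → st p ∈ prog (a p) (ss p).length ∧ ∃ B D z v, x p = encC (2 ^ m p) (P p) z ∧
      Apx (2 ^ m p) B D z v ∧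
      StepPre w1 E0 ex (m p) (a p) (ν p) (γ p) (e p) (P p) (F p) B D (ss p)) →
    Oc mulB 𝒜 (fun T p => (8 * 2 ^ m p : ℕ) * That T (5 * P p)) fun p =>
      encC (2 ^ m p) (P p) (hd (ν p + (st p).2.2.2) (a p) (hk (ss p).length (st p)) fun i =>
        gz (mid w inv (E0 * ((ss p).length + 1)) (F p) (a p) (ν p) (γ p) (ss p) (st p)
          (re' (x p)) (im' (x p)) i)) := by
  obtain ⟨ex, hex, hW⟩ := exists_warr hw
  refine ⟨ex, fun inv {α} _ {𝒜 x st ss m a ν γ e F P} hx hst hss hm ha hν hγ he hF hfit h => ?_⟩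
  choose! hmem B D z v hxe hapx hpre using h
  have hN : Fit 𝒜 (fun p => 2 ^ m p) P := hfit.mono 1 fun p _ =>
    ⟨by have := Nat.le_mul_of_pos_right (2 ^ m p) (h1 ((ss p).length * e p + 2)); omega, by omega⟩
  have h : SEnv w1 E0 ex 𝒜 x st ss m a ν γ e F P B D z v :=
    ⟨hex, hx, hst, hss, hm, ha, hν, hγ, hF, hN, hmem, hxe, hapx, hpre⟩
  have sq : Sm mulB 𝒜 fun p => ν p + (st p).2.2.2 :=
    (Sm.tc (F := fun q : ℕ × Stp => q.1 + q.2.2.2.2) (by fun_prop) (hν.pair hst) :)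
  have sk : Sm mulB 𝒜 fun p => hk (ss p).length (st p) := (Sm.tc tc_hk (h.sd.pair hst) :)
  have hM := h.mid_ok hw' fun snd => hW inv snd h
  unfold HadOK at hH
  refine hH (v := fun p i => gz (mid w inv (E0 * ((ss p).length + 1)) (F p) (a p) (ν p) (γ p) (ss p)
    (st p) (re' (x p)) (im' (x p)) i)) (N := fun p => 2 ^ m p) (P := P) hM hm sq ha sk he
    (hfit.mono 1 fun p _ => ⟨?_, by omega⟩)
    fun p hp => ⟨le_rfl, rfl, ?_, (hpre p hp).had (hmem p hp)⟩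
  · have := Nat.mul_le_mul_left (2 ^ m p) (hτ (Nat.add_le_add_right
      (Nat.mul_le_mul_right (e p) (hk_le (ss p).length (st p))) 2))
    omega
  · exact (step_apx hw' hE (hpre p hp) (hmem p hp) (h.dec p hp) (hapx p hp)).1.mono
      (Nat.mul_le_mul_left _ (Nat.succ_le_succ (hk_le _ _)))

end Vale.Agent.P338.FftAux
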