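import Vale.Agent.P338.Net
import Vale.Agent.P344.Gadget

/-! The network for tensor powers of `C2`. -/

namespace Vale.Agent.P338

open Vale.Agent.P344

/-- Moves add the square of a functional (cost one) or twice the square (free). -/
noncomputable def sigH (ι : Type) : Sig ℂ (Lab ι) (((ι → ZMod 4) →+ ZMod 4) × Bool) where
  act m q := q + fun x => if m.2 then m.1 x ^ 2 else 2 * m.1 x ^ 2
  cost m := if m.2 then 1 else 0
  η := 1 / 2

namespace NetAux

theorem path_add {ι : Type} (q : Lab ι) {r : ℕ} {p : Lab ι} (h : Short r p) :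
    Path (sigH ι) q r (q + p) := by
  induction h with
  | zero r => rw [add_zero]; exact Path.refl _
  | sq f _ ih => rw [← add_assoc]; exact Path.step (f, true) ih
  | dbl f _ ih => rw [← add_assoc]; exact Path.step (f, false) ih

theorem path_of {ι : Type} {q q' : Lab ι} {r : ℕ} (h : Short r (q' - q)) :
    Path (sigH ι) q r q' := by
  have := path_add q h
  rwa [add_sub_cancel] at this

theorem half_mem : (1 / 2 : ℂ) ∈ Subring.closure {(1 / 2 : ℂ)} := Subring.subset_closure rfl

theorem cM_zero {S T : Tri 18} (hS : S ≠ T)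
    (h3 : ¬ ((S.1 ∩ T.1).card = 0 ∨ (S.1 ∩ T.1).card = 2)) : cM S T = 0 := by
  have h4 : (S.1 ∩ T.1).card ≤ 3 := (Finset.card_le_card Finset.inter_subset_left).trans S.2.le
  have h5 : (S.1 ∩ T.1).card ≠ 3 := fun h5 => by
    apply hS
    apply Subtype.ext
    have e1 : S.1 ∩ T.1 = S.1 :=
      Finset.eq_of_subset_of_card_le Finset.inter_subset_left (by rw [h5, S.2])
    have e2 : S.1 ∩ T.1 = T.1 :=
      Finset.eq_of_subset_of_card_le Finset.inter_subset_right (by rw [h5, T.2])
    rw [← e1, e2]
  have h6 : (S.1 ∩ T.1).card = 1 := by omega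
  simp [cM, h6]

/-- The splitting of the identity. -/
noncomputable def desH : Design ℂ (1 / 2) (Tri 18) (Option (Fin 18)) (Orth 18) where
  src p := p.1.1
  dst p := p.1.2
  inc j S := j.elim true fun j => decide (j ∈ S.1)
  mu j T := j.elim (-(1 / 2)) fun j => if j ∈ T.1 then 1 / 2 else 0
  be p := -cM p.1.1 p.1.2
  mu_mem j T := by
    cases j with
    | none => exact Subring.neg_mem _ half_mem
    | some j =>
      simp only [Option.elim]
      split_ifs
      · exact half_mem
      · exact Subring.zero_mem _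
  be_mem p := by
    rcases p.2 with h | h
    · have : -cM p.1.1 p.1.2 = 1 / 2 := by rw [cM, h]; norm_num
      rw [this]
      exact half_mem
    · have : -cM p.1.1 p.1.2 = -(1 / 2) := by rw [cM, h]; norm_num
      rw [this]
      exact Subring.neg_mem _ half_mem
  split S T := by
    have h1 : ∑ j : Option (Fin 18), (if (j.elim true fun j => decide (j ∈ S.1)) = true then
        j.elim (-(1 / 2)) fun j => if j ∈ T.1 then (1 / 2 : ℂ) else 0 else 0) = cM S T := by
      have : ∀ j : Fin 18, (if j ∈ S.1 then if j ∈ T.1 then (1 / 2 : ℂ) else 0 else 0) =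
          (if j ∈ S.1 ∩ T.1 then 1 else 0) / 2 := fun j => by
        by_cases a : j ∈ S.1 <;> by_cases b : j ∈ T.1 <;> simp [a, b]
      simp only [Fintype.sum_option, Option.elim, if_true, decide_eq_true_eq, this]
      rw [← Finset.sum_div, Finset.sum_boole, Finset.filter_mem_eq_inter, Finset.univ_inter, cM]
      ring
    rw [h1]
    by_cases h : (S.1 ∩ T.1).card = 0 ∨ (S.1 ∩ T.1).card = 2
    · rw [Finset.sum_eq_single (⟨(S, T), h⟩ : Orth 18), if_pos ⟨rfl, rfl⟩, if_neg, add_neg_cancel]
      · rintro rfl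
        rw [Finset.inter_self, S.2] at h
        omega
      · intro p _ hp
        exact if_neg fun h' => hp (Subtype.ext (Prod.ext h'.1 h'.2))
      · simp
    · rw [Finset.sum_eq_zero, add_zero]
      · split_ifs with h'
        · subst h'
          rw [cM, Finset.inter_self, S.2]
          norm_num
        · exact cM_zero h' h
      · intro p _
        refine if_neg fun h' => h ?_
        rw [← h'.1, ← h'.2]
        exact p.2

theorem glabH {ι : Type} (lo : Lab ι) (φ : (ι → ZMod 4) →+ (Fin 18 → ZMod 4)) :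
    GLab (sigH ι) desH 18 lo (hi lo φ) (up lo φ) (dn lo φ) where
  lo_up t := path_of ((Short.one ((ell t.1).comp φ)).congr fun z => by simp [up])
  up_dn p := path_of (((short_pair (by norm_num) _ _ p.1.1.2 p.1.2.2 p.2).comp φ).neg.congr
    fun z => by
      simp only [Pi.sub_apply, Pi.neg_apply, up, dn, desH]
      ring)
  up_hi t := path_of (((short_line (by norm_num) _ t.2).comp φ).neg.congr fun z => by
    simp only [Pi.sub_apply, Pi.neg_apply, up, hi]
    ring)
  hi_lo := path_of ((short_nrm.comp φ).congr fun z => by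
    simp only [Pi.sub_apply, hi]
    ring)
  lo_dn t := path_of (((short_line (by norm_num) _ t.2).comp φ).neg.congr fun z => by
    simp only [Pi.sub_apply, Pi.neg_apply, dn]
    ring)
  dn_hi t := path_of ((Short.one ((ell t.1).comp φ)).congr fun z => by
    simp only [Pi.sub_apply, hi, dn, AddMonoidHom.comp_apply]
    ring)

/-- The labels. -/
noncomputable def nlabH : NLab (sigH (Fin 18 × Fin 18)) desH 18 where
  o := 0
  top := nrm
  hi1 t2 := hi 0 (row t2.1)
  up1 t2 := up 0 (row t2.1)
  dn1 t2 := dn 0 (row t2.1)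
  lo2 := lo2
  hi2 t1 := hi (lo2 t1) (col t1.1)
  up2 t1 := up (lo2 t1) (col t1.1)
  dn2 t1 := dn (lo2 t1) (col t1.1)
  fin t1 t2 := nrm + up 0 (row t2.1) t1
  g1 _ := glabH _ _
  g2 _ := glabH _ _
  hi1_up2 t1 t2 := path_of ((short_both (by norm_num) _ _ t1.2 t2.2).congr fun z => by
    simp only [Pi.sub_apply, hi, up, lo2, Pi.zero_apply, ell_row]
    ring)
  dn1_lo2 t1 t2 := path_of ((short_both (by norm_num) _ _ t1.2 t2.2).congr fun z => by
    simp only [Pi.sub_apply, dn, lo2, Pi.zero_apply]
    ring)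
  hi1_top t2 := path_of ((short_row (by norm_num) _ t2.2).congr fun z => by
    simp only [Pi.sub_apply, hi, Pi.zero_apply]
    ring)
  o_lo2 t1 := path_of ((short_col (by norm_num) _ t1.2).congr fun z => by
    simp only [Pi.sub_apply, lo2, Pi.zero_apply]
    ring)
  dn2_fin t1 t2 := path_of ((Short.two ((ell t2.1).comp (col t1.1))).congr fun z => by
    simp only [Pi.sub_apply, Pi.add_apply, up, dn, lo2, Pi.zero_apply, ell_row,
      AddMonoidHom.comp_apply]
    ring)
  hi2_top t1 := path_of ((Short.zero 0).congr fun z => by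
    simp only [Pi.sub_apply, hi, lo2, Pi.zero_apply]
    ring)
  o_top := path_of (((short_coords (Finset.univ : Finset (Fin 18 × Fin 18))).mono
    (by rw [Finset.card_univ, Fintype.card_prod, Fintype.card_fin])).congr fun z => by
      simp only [Pi.sub_apply, Pi.zero_apply, sub_zero, nrm])

end NetAux

open NetAux in
theorem netH : ∃ (w0 r : ℕ) (lab0 : Fin (2 ^ w0) → Lab (Fin 18 × Fin 18)), 0 < w0 ∧
    r < 2 ^ w0 * 324 ∧ ∀ (E : Type) [AddCommGroup E] [Module ℂ E] (d : Fin (2 ^ w0) → E),
      Net (sigH (Fin 18 × Fin 18)) (Set.range fun w => (lab0 w, d w)) r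
        (Set.range fun w => ((fun z => ∑ i, z i ^ 2) + lab0 w, d w)) := by
  have hT : Fintype.card (Tri 18) = 816 := by
    rw [Fintype.card_finset_len, Fintype.card_fin]
    rfl
  obtain ⟨w0, r, lab0, lab1, h1, h2, h3, h4⟩ := network (by norm_num) nlabH (by
    rw [hT, Fintype.card_option, Fintype.card_fin]
    norm_num)
  refine ⟨w0, r, lab0, h1, h2, fun E _ _ d => ?_⟩
  have : ∀ w, (fun z => ∑ i, z i ^ 2) + lab0 w = lab1 w := fun w => by
    obtain ⟨a, b⟩ | ⟨t1, t2, a, b⟩ := h3 w
    · rw [a, b]
      exact add_zero _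
    · rw [a, b]
      rfl
  simp only [this]
  exact h4 E d

end Vale.Agent.P338
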