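import Vale.Agent.P338.ListsA

/-! Linear time functions on lists. -/

namespace Vale.Agent.P338

open Function Vale.Agent.Common.TreeTM Enc ListsAux Vale.Agent.P337

variable {α β γ δ σ ω π : Type} [Enc α] [Enc β] [Enc γ] [Enc δ] [Enc σ] [Enc ω] [Enc π]
  {g : γ → δ} {𝒜 : Amb α} {u : (γ → ℕ∞) → α → ℕ∞}

namespace ListsAux

/-- One computation, linear in `z` and polynomial in `l`. -/
def pol (z l : α → ℕ) (h : ∀ a, sz a ≤ z a + l a + 2) : Amb α :=
  ⟨fun _ => True, z, fun _ => 1, l, 1, fun a _ => by
    have := h a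
    simp only [wt, pow_one]
    omega⟩

theorem sm_pol {z l : α → ℕ} {h} {f : α → β} (hf : Cl g (pol z l h) f)
    (hs : ∀ a, sz (f a) ≤ l a) : Sm g (pol z l h) f :=
  ⟨hf, 1, fun a _ => ⟨le_rfl, by
    have := hs a
    simp only [pol, pow_one]
    omega⟩⟩

theorem wt_le (K n : ℕ) {z z' l l' : ℕ} (hz : z ≤ z') (hl : l ≤ l') :
    wt K z n l ≤ wt K z' n l' :=
  Nat.add_le_add (Nat.mul_le_mul_left _ (by omega))
    (Nat.mul_le_mul_left _ (Nat.pow_le_pow_left (by omega) _))

theorem lin_le_pow (l c k : ℕ) : k * (l + 2) ^ c + k ≤ (l + 2) ^ (c + k + 1) := by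
  have h1 : 1 ≤ (l + 2) ^ c := Nat.one_le_pow _ _ (by omega)
  have h2 : k < 2 ^ k := Nat.lt_two_pow_self
  have h3 : 2 ^ k ≤ (l + 2) ^ k := Nat.pow_le_pow_left (by omega) _
  calc k * (l + 2) ^ c + k ≤ (l + 2) ^ c * k * 2 := by nlinarith
    _ ≤ (l + 2) ^ c * (l + 2) ^ k * (l + 2) :=
      Nat.mul_le_mul (Nat.mul_le_mul_left _ (by omega)) (by omega)
    _ = _ := by rw [pow_succ, pow_add]

theorem scan_idx {β : Type} (l : List β) : ∀ i : ℕ,
    (scan (fun p : β × ℕ => ([p], p.2 + 1)) l i).1 = l.zipIdx i ∧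
    trace (fun p : β × ℕ => ([p], p.2 + 1)) l i = l.zipIdx i := by
  induction l with
  | nil => exact fun _ => ⟨rfl, rfl⟩
  | cons x l ih => intro i; simp [scan, trace, ih]

theorem sum_idx (l : List β) : ∀ i : ℕ,
    ((l.zipIdx i).map fun p => sz p.1 + 1).sum ≤ sz l := by
  induction l with
  | nil => simp
  | cons x l ih =>
    intro i
    have := ih (i + 1)
    simp only [List.zipIdx_cons, List.map_cons, List.sum_cons, sz_lcons]
    omega

/-- The machine for `replicate`. -/
def rpM (β : Type) : SM Bool Bool (β × ℕ) β where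
  cont s := isPos s.2
  wh _ := false
  up1 p := ([p.2.1], p.2.1, p.2.2 - 1)
  up2 p := ([], p.2)

omit [Enc β] in
theorem rpM_tr (x : β) (m : ℕ) : ∀ out : List β,
    ∃ ss t1, STr (rpM β) [] [] (x, m) out (List.replicate m x ++ out, x, 0) ss t1 [] ∧
      ss.length = m + 1 ∧ t1.length = m ∧ (∀ s ∈ ss, s.1 = x ∧ s.2 ≤ m) ∧
      ∀ p ∈ t1, p.1 = [] ∧ p.2.1 = x ∧ p.2.2 ≤ m := by
  induction m with
  | zero => exact fun out => ⟨_, _, STr.stop rfl, rfl, rfl, by simp, by simp⟩
  | succ m ih =>
    intro out
    obtain ⟨ss, t1, h1, h2, h3, h4, h5⟩ := ih (x :: out)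
    refine ⟨_, _, STr.one (by simp [rpM, isPos]) rfl
      (by simpa [rpM, List.replicate_succ'] using h1), by simp [h2], by simp [h3], ?_, ?_⟩
    · intro s hs
      rcases List.mem_cons.1 hs with rfl | hs
      · exact ⟨rfl, le_rfl⟩
      · exact ⟨(h4 s hs).1, (h4 s hs).2.trans (Nat.le_succ _)⟩
    · intro s hs
      rcases List.mem_cons.1 hs with rfl | hs
      · exact ⟨rfl, rfl, le_rfl⟩
      · exact ⟨(h5 s hs).1, (h5 s hs).2.1, (h5 s hs).2.2.trans (Nat.le_succ _)⟩

theorem sum_le_mul {ι : Type} (L : List ι) (w : ι → ℕ) (c : ℕ) (h : ∀ p ∈ L, w p ≤ c) :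
    (L.map w).sum ≤ L.length * c := by
  induction L with
  | nil => simp
  | cons x L ih =>
    have h1 := h x (by simp)
    have h2 := ih fun p hp => h p (by simp [hp])
    rw [List.map_cons, List.sum_cons, List.length_cons, Nat.succ_mul]
    omega

end ListsAux

theorem Oc.zipIdx {l : α → List β} (hl : Oc g 𝒜 u l) {P : α → ℕ}
    (hF : Fit 𝒜 (fun a => (l a).length) P) : Oc g 𝒜 u fun a => (l a).zipIdx := by
  let 𝓑 : Amb (β × ℕ) := pol (fun p => sz p.1) (fun p => sz p.2) fun p => by
    rw [sz_prod]; omega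
  have e1 : Sm g 𝓑 fun p => p.2 := sm_pol (by fun_prop) fun _ => le_rfl
  have e2 : Cl g 𝓑 fun p => p.2 + 1 := (Sm.tc (F := fun n : ℕ => n + 1) (by fun_prop) e1).1
  have e3 : Cl g 𝓑 fun p => ([p], p.2 + 1) := Cl.pair (by fun_prop) e2
  have e4 : Oc g 𝒜 u fun a => (l a, (0 : ℕ)) :=
    (Oc.pair hl (Cl.const 0)).mono fun _ _ _ => by simp
  have e5 : Cl g (lin (List (β × ℕ) × ℕ)) fun r => r.1 := by fun_prop
  obtain ⟨c, hc⟩ := hF
  have hd := Dom.sum (𝒜 := 𝒜) (L := fun a => (l a).zipIdx) (z := fun p => sz p.1)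
    (n := fun _ => 1) (l := fun p => sz p.2) (hl.2.mono fun a _ => sum_idx _ _) (c + 4 + 1)
    fun a ha => ⟨by
      have := (hc a ha).2.1
      simp only [List.map_const', List.sum_replicate, List.length_zipIdx, smul_eq_mul, mul_one]
      nlinarith, fun p hp => by
      have h1 := (List.mem_zipIdx' hp).1
      have h2 := sz_nat_le (h1.trans (hc a ha).2.2)
      have h3 := lin_le_pow (𝒜.l a) c 4
      omega⟩
  have h := oc_scan e3 e4 (fun _ _ _ _ => trivial) fun K => (hd K).mono fun a _ => by
    simp only [(scan_idx _ _).2]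
    exact le_rfl
  exact ((oc_lin e5 h).mono fun T a _ => by simp [sum_u0]).congr fun a _ => (scan_idx _ _).1.symm

theorem Oc.replicate {x : α → β} {m : α → ℕ} (hx : Oc g 𝒜 u x) (hm : Sm g 𝒜 m)
    (hF : Fit 𝒜 m fun a => sz (x a)) : Oc g 𝒜 u fun a => List.replicate (m a) (x a) := by
  let 𝓢 : Amb (β × ℕ) := pol (fun p => sz p.1) (fun p => sz p.2) fun p => by
    rw [sz_prod]; omega
  let 𝓑 : Amb (List Bool × β × ℕ) := pol (fun p => sz p.2.1 + sz p.1) (fun p => sz p.2.2)
    fun p => by rw [sz_prod, sz_prod]; omega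
  have e1 : Sm g 𝓢 fun p => p.2 := sm_pol (by fun_prop) fun _ => le_rfl
  have e2 : Cl g 𝓢 fun p => isPos p.2 := (Sm.tc (F := fun n : ℕ => isPos n) (by fun_prop) e1).1
  have e3 : Sm g 𝓑 fun p => p.2.2 := sm_pol (by fun_prop) fun _ => le_rfl
  have e4 : Cl g 𝓑 fun p => p.2.2 - 1 := (Sm.tc (F := fun n : ℕ => n - 1) (by fun_prop) e3).1
  have e5 : Cl g 𝓑 fun p => ([p.2.1], p.2.1, p.2.2 - 1) :=
    Cl.pair (by fun_prop) (Cl.pair (by fun_prop) e4)
  have e6 : Cl g (lin (List Bool × β × ℕ)) fun p => (([] : List β), p.2) := by fun_prop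
  have e7 : Cl g (lin (β × ℕ)) fun p => (([] : List Bool), ([] : List Bool), p) := by fun_prop
  have e8 : Oc g 𝒜 u fun a => (x a, m a) := (Oc.pair hx hm.1).mono fun _ _ _ => by simp
  have e9 : Cl g (lin (List β × β × ℕ)) fun r => r.1 := by fun_prop
  obtain ⟨c, hc⟩ := hm.2
  have hd := (hF.mono (N' := m) (P' := fun a => sz (x a) + 1) 1 fun a _ => by omega).dom
    (l := fun a => 4 * sz (m a) + 1) (c + 4 + 1) fun a ha => by
      have h2 := (hc a ha).2
      have h3 := lin_le_pow (𝒜.l a) c 4
      omega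
  have h := Oc.stream (rpM β) (u' := u0) e2 (Cl.const false) e5 e6 (oc_lin e7 e8)
    (F := fun a => (List.replicate (m a) (x a) ++ [], x a, 0))
    (Φ := fun K a => 2 * ((m a + 1) * wt K (sz (x a) + 1) 1 (4 * sz (m a) + 1)))
    (fun K => (hd K).mul 2) fun a _ => by
      obtain ⟨ss, t1, h1, h2, h3, h4, h5⟩ := rpM_tr (x a) (m a) []
      refine ⟨ss, t1, [], h1, fun _ _ => trivial, fun _ _ => trivial, fun _ _ => trivial,
        fun K => ?_, fun T => by simp [sum_u0]⟩
      have a1 := sum_le_mul ss (𝓢.wt K) (wt K (sz (x a) + 1) 1 (4 * sz (m a) + 1)) fun s hs =>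
        wt_le K 1 (by
          show sz s.1 ≤ _
          rw [(h4 s hs).1]
          omega) (sz_nat_mono (h4 s hs).2)
      have a2 := sum_le_mul t1 (𝓑.wt K) (wt K (sz (x a) + 1) 1 (4 * sz (m a) + 1)) fun s hs =>
        wt_le K 1 (by
          show sz s.2.1 + sz s.1 ≤ _
          rw [(h5 s hs).1, (h5 s hs).2.1, sz_lnil]) (sz_nat_mono (h5 s hs).2.2)
      rw [h2] at a1
      rw [h3] at a2
      simp only [List.map_nil, List.sum_nil, add_one_mul] at a1 ⊢
      omega
  exact ((oc_lin e9 h).mono fun T a _ => by simp).congr fun a _ => by simp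

/-- Consecutive blocks of length `S`. -/
def chunks {β : Type} (S : ℕ) (l : List β) : List (List β) :=
  (List.range (l.length / S)).map fun j => (l.drop (j * S)).take S

/-- Blocks starting at the flagged positions. -/
def chunksF {β : Type} (fl : List Bool) (l : List β) : List (List β) :=
  (grp (((fl.zip l).map fun q => bif q.1 then [none, some q.2] else [some q.2]).flatten.reverse)).2

@[fun_prop] theorem cl_chunksF {fl : α → List Bool} {l : α → List β} (hf : Cl g 𝒜 fl)
    (hl : Cl g 𝒜 l) : Cl g 𝒜 fun a => chunksF (fl a) (l a) :=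
  (cl_grp (Cl.map (F := fun q : Bool × β => bif q.1 then [none, some q.2] else [some q.2])
    (by fun_prop) (hf.zip hl)).flatten.reverse).snd

namespace ListsAux

theorem chunks_succ {β : Type} {S : ℕ} (hS : 0 < S) {l : List β} (h : S ≤ l.length) :
    chunks S l = l.take S :: chunks S (l.drop S) := by
  have : l.length / S = (l.length - S) / S + 1 := by
    rw [← Nat.sub_add_cancel h, Nat.add_div_right _ hS, Nat.add_sub_cancel]
  simp only [chunks, this, List.range_succ_eq_map, List.map_cons, List.map_map, List.length_drop,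
    zero_mul, List.drop_zero, List.drop_drop]
  congr 1
  refine List.map_congr_left fun j _ => ?_
  simp only [comp_apply, Nat.succ_mul]
  rw [add_comm]

theorem grp_some {β : Type} (xs : List β) (L : List (Option β)) :
    grp ((xs.map some ++ L).reverse) = (xs ++ (grp L.reverse).1, (grp L.reverse).2) := by
  induction xs with
  | nil => rfl
  | cons x xs ih =>
    simp only [grp] at ih ⊢
    rw [List.map_cons, List.cons_append, List.reverse_cons, List.foldl_append, ih]
    rfl

theorem grp_none {β : Type} (L : List (Option β)) :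
    grp ((none :: L).reverse) = ([], (grp L.reverse).1 :: (grp L.reverse).2) := by
  simp only [grp]
  rw [List.reverse_cons, List.foldl_append]
  rfl

theorem exp_false {β : Type} : ∀ (xs : List β) (fl : List Bool), xs.length ≤ fl.length →
    (∀ i < xs.length, fl.getD i false = false) →
    ((fl.zip xs).map fun q => bif q.1 then [none, some q.2] else [some q.2]).flatten =
      xs.map some := by
  intro xs
  induction xs with
  | nil => simp
  | cons x xs ih =>
    intro fl h1 h2
    cases fl with
    | nil => simp at h1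
    | cons b fl =>
      obtain rfl : b = false := h2 0 (by simp)
      have := ih fl (by simpa using h1) fun i hi => h2 (i + 1) (by simpa using hi)
      simpa using this

theorem grp_eq {β : Type} {S : ℕ} (hS : 0 < S) : ∀ (m : ℕ) (fl : List Bool) (l : List β),
    l.length = m * S → l.length ≤ fl.length →
    (∀ i < l.length, fl.getD i false = decide (i % S = 0)) →
    grp (((fl.zip l).map fun q => bif q.1 then [none, some q.2] else [some q.2]).flatten.reverse) =
      ([], chunks S l) := by
  intro m
  induction m with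
  | zero =>
    intro fl l h1 _ _
    obtain rfl : l = [] := List.length_eq_zero_iff.1 (by simpa using h1)
    simp [grp, chunks]
  | succ m ih =>
    intro fl l h1 h2 h3
    rw [Nat.succ_mul] at h1
    obtain ⟨R, rfl⟩ : ∃ R, S = R + 1 := ⟨S - 1, by omega⟩
    have h4 := ih (fl.drop (R + 1)) (l.drop (R + 1)) (by simp; omega) (by simp; omega)
      fun i hi => by
        have := h3 (R + 1 + i) (by simp at hi; omega)
        rw [Nat.add_mod_left] at this
        simpa using this
    rw [chunks_succ hS (by omega)]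
    cases l with
    | nil => simp at h1
    | cons x l =>
    cases fl with
    | nil => simp at h2
    | cons b fl =>
    obtain rfl : b = true := by simpa using h3 0 (by simp)
    simp only [List.length_cons] at h1 h2 h3
    have h5 := exp_false (l.take R) (fl.take R) (by simp; omega) fun i hi => by
      have hi' : i < R := by simp at hi; omega
      have := h3 (i + 1) (by omega)
      rw [Nat.mod_eq_of_lt (by omega)] at this
      simpa [hi'] using this
    have h6 : fl.zip l = (fl.take R).zip (l.take R) ++ (fl.drop R).zip (l.drop R) := by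
      rw [← List.zip_append (by simp; omega), List.take_append_drop, List.take_append_drop]
    simp only [List.drop_succ_cons] at h4
    rw [List.zip_cons_cons, h6, List.map_cons, List.map_append, List.flatten_cons,
      List.flatten_append, h5]
    have h7 := grp_some (x :: l.take R) (((fl.drop R).zip (l.drop R)).map
      fun q => bif q.1 then [none, some q.2] else [some q.2]).flatten
    rw [h4] at h7
    have h8 := grp_none ((x :: l.take R).map some ++ (((fl.drop R).zip (l.drop R)).map
      fun q => bif q.1 then [none, some q.2] else [some q.2]).flatten)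
    rw [h7] at h8
    simpa using h8

end ListsAux

theorem chunksF_eq {β : Type} {S : ℕ} (hS : 0 < S) {fl : List Bool} {l : List β}
    (hd : S ∣ l.length) (hl : l.length ≤ fl.length)
    (h : ∀ i < l.length, fl.getD i false = decide (i % S = 0)) : chunksF fl l = chunks S l := by
  obtain ⟨m, hm⟩ := hd
  rw [chunksF, grp_eq hS m fl l (by rw [hm, mul_comm]) hl h]

theorem oc_chunks {l : α → List β} {S : α → ℕ} (hl : Oc g 𝒜 u l) (hS : Sm g 𝒜 S) {P : α → ℕ}
    (hF : Fit 𝒜 (fun a => (l a).length) P) (h : ∀ a, 𝒜.D a → 0 < S a ∧ S a ∣ (l a).length) :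
    Oc g 𝒜 u fun a => chunks (S a) (l a) := by
  have key : ∀ {α : Type} [Enc α] {𝒜 : Amb α} {l : α → List β} {S P : α → ℕ}, Cl g 𝒜 l →
      Sm g 𝒜 S → Fit 𝒜 (fun a => (l a).length) P →
      (∀ a, 𝒜.D a → 0 < S a ∧ S a ∣ (l a).length) → Cl g 𝒜 fun a => chunks (S a) (l a) := by
    intro α _ 𝒜 l S P hl hS hF h
    let 𝓑 : Amb (ℕ × ℕ) := pol (fun _ => 0) sz fun p => by omega
    have e1 : Sm g 𝓑 fun p => p := sm_pol (by fun_prop) fun _ => le_rfl
    have e2 : Cl g 𝓑 fun p => neq (p.1 % p.2) 0 :=
      (Sm.tc (F := fun p : ℕ × ℕ => neq (p.1 % p.2) 0) (by fun_prop) e1).1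
    have e3 := Cl.map (F := fun q : β × ℕ => q.2) (by fun_prop) (Oc.zipIdx hl hF)
    obtain ⟨c, hc⟩ := hF
    obtain ⟨c', hc'⟩ := hS.2
    have hd := Dom.sum (𝒜 := 𝒜)
      (L := fun a => ((l a).zipIdx.map fun q : β × ℕ => q.2).map fun i => (i, S a))
      (z := fun _ => 0) (n := fun _ => 1) (l := fun p => sz p)
      (hl.2.mono fun a _ => by simpa [comp_def] using length_le_sz (l a)) (c + c' + 5 + 1)
      fun a ha => ⟨by
        have := (hc a ha).2.1
        simp only [List.map_const', List.sum_replicate, List.length_zipIdx, smul_eq_mul, mul_one,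
          List.length_map]
        nlinarith, fun p hp => by
        obtain ⟨i, hi, rfl⟩ := List.mem_map.1 hp
        obtain ⟨q, hq, rfl⟩ := List.mem_map.1 hi
        have h1 := (List.mem_zipIdx' hq).1
        have h2 := sz_nat_le (h1.trans (hc a ha).2.2)
        have h3 := lin_le_pow (𝒜.l a) (c + c') 5
        have h4 := (hc' a ha).2
        have h5 : (𝒜.l a + 2) ^ c ≤ (𝒜.l a + 2) ^ (c + c') :=
          Nat.pow_le_pow_right (by omega) (by omega)
        have h6 : (𝒜.l a + 2) ^ c' ≤ (𝒜.l a + 2) ^ (c + c') :=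
          Nat.pow_le_pow_right (by omega) (by omega)
        rw [sz_pair]
        omega⟩
    have e4 : Cl g 𝒜 fun a => ((l a).zipIdx.map fun q : β × ℕ => q.2).map
        fun i => neq (i % S a) 0 :=
      (Oc.map e2 e3 hS.1 (fun _ _ _ _ => trivial) fun K => (hd K).mono fun a _ => by
        simp only [List.map_map]
        exact le_rfl).mono fun T a _ => by simp
    refine (cl_chunksF e4 hl).congr fun a ha =>
      (chunksF_eq (h a ha).1 (h a ha).2 (by simp) fun i hi => ?_).symm
    simp [List.getD_eq_getElem?_getD, hi, neq]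
  have h1 : Cl g (𝒜.ext l hl.2) fun p => chunks (S p.1) p.2 :=
    key (P := fun p => P p.1) (by fun_prop) hS.ext
      (hF.ext.imp fun c hc p hp => by
        have := hc p hp
        simp only [← hp.2] at this
        exact this)
      fun p hp => by rw [hp.2]; exact h p.1 hp.1
  exact (Oc.bind hl h1).mono fun T a _ => by simp

theorem length_chunks {β : Type} (S : ℕ) (l : List β) : (chunks S l).length = l.length / S := by
  simp [chunks]

theorem flatten_chunks {β : Type} {S : ℕ} (hS : 0 < S) {l : List β} (hd : S ∣ l.length) :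
    (chunks S l).flatten = l := by
  obtain ⟨m, hm⟩ := hd
  induction m generalizing l with
  | zero =>
    obtain rfl : l = [] := List.length_eq_zero_iff.1 (by simpa using hm)
    simp [chunks]
  | succ m ih =>
    rw [Nat.mul_succ] at hm
    rw [chunks_succ hS (by omega), List.flatten_cons, ih (by simp; omega), List.take_append_drop]

theorem chunks_flatten {β : Type} {S : ℕ} (hS : 0 < S) {L : List (List β)}
    (h : ∀ x ∈ L, x.length = S) : chunks S L.flatten = L := by
  induction L with
  | nil => simp [chunks]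
  | cons x L ih =>
    have h1 := h x (by simp)
    rw [List.flatten_cons, chunks_succ hS (by simp; omega), ← h1, List.take_left', List.drop_left',
      h1, ih fun y hy => h y (by simp [hy])] <;> rfl

/-- A list given by a function of the position. -/
def arr {β : Type} (N : ℕ) (f : ℕ → β) : List β := (List.range N).map f

@[simp] theorem length_arr {β : Type} (N : ℕ) (f : ℕ → β) : (arr N f).length = N := by simp [arr]

theorem arr_congr {β : Type} {N : ℕ} {f f' : ℕ → β} (h : ∀ i < N, f i = f' i) :
    arr N f = arr N f' := List.map_congr_left fun i hi => h i (List.mem_range.1 hi)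

theorem getD_arr {β : Type} {N i : ℕ} (f : ℕ → β) (d : β) (h : i < N) :
    (arr N f).getD i d = f i := by
  simp [arr, List.getD_eq_getElem?_getD, h]

theorem eq_arr {β : Type} (l : List β) (d : β) : l = arr l.length fun i => l.getD i d := by
  refine List.ext_getElem (by simp) fun i h1 h2 => ?_
  simp [arr, List.getD_eq_getElem?_getD, h1]

theorem map_arr {β σ : Type} (N : ℕ) (f : ℕ → β) (F : β → σ) :
    (arr N f).map F = arr N fun i => F (f i) := by simp [arr]

theorem zip_arr {β σ : Type} (N : ℕ) (f : ℕ → β) (f' : ℕ → σ) :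
    (arr N f).zip (arr N f') = arr N fun i => (f i, f' i) := by
  simp [arr, List.zip_map']

theorem zipIdx_arr {β : Type} (N : ℕ) (f : ℕ → β) :
    (arr N f).zipIdx = arr N fun i => (f i, i) := by
  refine List.ext_getElem (by simp) fun i h1 h2 => ?_
  simp [arr]

theorem chunks_arr {β : Type} {S : ℕ} (hS : 0 < S) (m : ℕ) (f : ℕ → β) :
    chunks S (arr (m * S) f) = arr m fun j => arr S fun i => f (j * S + i) := by
  unfold chunks
  rw [length_arr, Nat.mul_div_cancel _ hS]
  refine List.map_congr_left fun j hj => ?_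
  have h1 : (j + 1) * S ≤ m * S := Nat.mul_le_mul_right _ (List.mem_range.1 hj)
  rw [Nat.succ_mul] at h1
  refine List.ext_getElem (by simp; omega) fun i h1 h2 => ?_
  simp [arr]

theorem flatten_arr {β : Type} {S : ℕ} (hS : 0 < S) (m : ℕ) (f : ℕ → ℕ → β) :
    (arr m fun j => arr S (f j)).flatten = arr (m * S) fun i => f (i / S) (i % S) := by
  rw [← flatten_chunks hS (l := arr (m * S) fun i => f (i / S) (i % S)) (by simp), chunks_arr hS]
  congr 1
  refine arr_congr fun j _ => arr_congr fun i hi => ?_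
  rw [add_comm, Nat.add_mul_div_right _ _ hS, Nat.add_mul_mod_self_right, Nat.div_eq_of_lt hi,
    Nat.mod_eq_of_lt hi, zero_add]

theorem chunksF_replicate {β : Type} {S m : ℕ} (hS : 0 < S) {l : List β} (hl : l.length = m * S) :
    chunksF (List.replicate m (true :: List.replicate (S - 1) false)).flatten l = chunks S l := by
  have h1 : List.replicate m (true :: List.replicate (S - 1) false) =
      arr m fun _ => arr S fun i => decide (i = 0) := by
    obtain ⟨R, rfl⟩ : ∃ R, S = R + 1 := ⟨S - 1, by omega⟩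
    simp [arr, List.range_succ_eq_map, comp_def]
  rw [h1, flatten_arr hS m fun _ i => decide (i = 0)]
  refine chunksF_eq hS ⟨m, by rw [hl, mul_comm]⟩ (by simp [hl]) fun i hi => ?_
  rw [getD_arr _ _ (hl ▸ hi)]

/-- Capped power: `b ^ e` as long as `e` is at most the binary length of `N`. -/
def pw (N b e : ℕ) : ℕ := b ^ min e N.size

/-- Capped range. -/
def rg (N k : ℕ) : List ℕ := List.range (min k N.size)

theorem pw_eq {N b e : ℕ} (h : e ≤ N.size) : pw N b e = b ^ e := by rw [pw, min_eq_left h]

theorem rg_eq {N k : ℕ} (h : k ≤ N.size) : rg N k = List.range k := by rw [rg, min_eq_left h]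

@[fun_prop] theorem tc_pw {e : ℕ} {N b k : α → ℕ} (hN : TC e N) (hb : TC e b) (hk : TC e k) :
    TC e fun a => pw (N a) (b a) (k a) := by
  have : TC e fun a => b a ^ ((N a).bits.take (k a)).length := by fun_prop
  exact this.of_eq fun a => by rw [pw, List.length_take, Nat.size_eq_bits_len]

@[fun_prop] theorem tc_rg {e : ℕ} {N k : α → ℕ} (hN : TC e N) (hk : TC e k) :
    TC e fun a => rg (N a) (k a) := by
  have : TC e fun a => idx ((N a).bits.take (k a)) := by fun_prop
  exact this.of_eq fun a => by rw [rg, idx, List.length_take, Nat.size_eq_bits_len]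

@[fun_prop] theorem tc_size {e : ℕ} {N : α → ℕ} (hN : TC e N) : TC e fun a => (N a).size := by
  have : TC e fun a => (N a).bits.length := by fun_prop
  exact this.of_eq fun a => (Nat.size_eq_bits_len _).symm

@[fun_prop] theorem tc_prod {e : ℕ} {l : α → List ℕ} (hl : TC e l) : TC e fun a => (l a).prod := by
  refine (TC.foldl_inv (f := fun _ acc x => acc * x) (i := fun _ => 1)
    (by fun_prop) (by fun_prop) hl (S := fun a => 4 * (sz (l a) * sz (l a) + 1) + 1)
    (((Bd.const _ _).mul ((hl.bd.mul hl.bd).add (Bd.const _ _))).add (Bd.const _ _))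
    (fun a k s => s ≤ 2 ^ (k * sz (l a))) (fun _ => by simp) (fun a k s x hx h => ?_)
    fun a k s hk h => ?_).of_eq fun a => List.prod_eq_foldl
  · rw [Nat.succ_mul, pow_add]
    exact Nat.mul_le_mul h ((lt_two_pow_sz x).le.trans
      (Nat.pow_le_pow_right (by norm_num) (sz_mem hx)))
  · refine sz_nat_le (h.trans_lt (Nat.pow_lt_pow_right (by norm_num) ?_))
    have := Nat.mul_le_mul_right (sz (l a)) (hk.trans (length_le_sz _))
    omega

@[fun_prop] theorem tc_isum {e : ℕ} {l : α → List ℤ} (hl : TC e l) : TC e fun a => (l a).sum := by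
  have : TC e fun a => ((((l a).map fun z => z.toNat).sum : ℕ) : ℤ) -
      ((((l a).map fun z => (-z).toNat).sum : ℕ) : ℤ) :=
    TC.isub (TC.natCast (TC.sum (TC.map (f := fun _ z => z.toNat) (by fun_prop) hl)))
      (TC.natCast (TC.sum (TC.map (f := fun _ z => (-z).toNat) (by fun_prop) hl)))
  refine this.of_eq fun a => ?_
  generalize l a = t
  induction t with
  | nil => simp
  | cons z t ih =>
    simp only [List.map_cons, List.sum_cons, Nat.cast_add, ih]
    omega

end Vale.Agent.P338
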