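import Vale.Agent.P338.Net
import Vale.Agent.P338.Lists

/-! Implementation of labelled networks. -/

namespace Vale.Agent.P338

open Vale.Agent.Common.TreeTM Enc

/-- Register contents `X` representing values in `V`, with parameters `π`. `Rep p j v x` says
that `x` represents `v` and that `j` further operations are possible. -/
structure RSys (R π X V : Type) [CommRing R] [Enc π] [Enc X] [AddCommGroup V] [Module R V]
    (η : R) where
  good : ℕ → π → Prop
  good_dvd : ∀ {M M' p}, M ∣ M' → good M' p → good M p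
  z : π → ℕ
  n : π → ℕ
  l : π → ℕ
  Rep : π → ℕ → V → X → Prop
  Rep_mono : ∀ {p j v x}, Rep p (j + 1) v x → Rep p j v x
  szp : ∃ K, ∀ p, good 1 p → sz p ≤ wt K (z p) (n p) (l p)
  szx : ∃ K, ∀ p j v x, good 1 p → Rep p j v x → sz x ≤ wt K (z p) (n p) (l p)
  add : X × X → X
  neg : X → X
  half : X → X
  rep_add : ∀ {p j v v' x x'}, good 1 p → Rep p (j + 1) v x → Rep p (j + 1) v' x' →
    Rep p j (v + v') (add (x, x'))
  rep_neg : ∀ {p j v x}, good 1 p → Rep p (j + 1) v x → Rep p j (-v) (neg x)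
  rep_half : ∀ {p j v x}, good 1 p → Rep p (j + 1) v x → Rep p j (η • v) (half x)

variable {R π X V : Type} [CommRing R] [Enc π] [Enc X] [AddCommGroup V] [Module R V] {η : R}

theorem RSys.bound (S : RSys R π X V η) (c : ℕ) : ∃ K, ∀ (p : π) (xs : List X), S.good 1 p →
    xs.length ≤ c → (∀ x ∈ xs, ∃ j v, S.Rep p j v x) →
      sz (p, xs) ≤ wt K (S.z p) (S.n p) (S.l p) := by
  obtain ⟨K1, h1⟩ := S.szx
  obtain ⟨K, hK⟩ := (bnd_sz (𝒜 := ⟨S.good 1, S.z, S.n, S.l, S.szp⟩)).add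
    ((((bnd_wt K1).add (Bnd.const 1)).mul c).add (Bnd.const 2))
  refine ⟨K, fun p xs hp hc hx => le_trans ?_ (hK p hp)⟩
  have h2 := sz_list_le (l := xs) (b := wt K1 (S.z p) (S.n p) (S.l p)) fun x hm => by
    obtain ⟨j, v, h⟩ := hx x hm
    exact h1 p j v x hp h
  have h3 := Nat.mul_le_mul_right (wt K1 (S.z p) (S.n p) (S.l p) + 1) hc
  rw [sz_pair]
  change _ ≤ sz p + (c * (wt K1 (S.z p) (S.n p) (S.l p) + 1) + 2)
  omega

theorem RSys.rep_le (S : RSys R π X V η) {p j j' v x} (h : S.Rep p j v x) (hj : j' ≤ j) :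
    S.Rep p j' v x := by
  induction j, hj using Nat.le_induction with
  | base => exact h
  | succ j _ ih => exact ih (S.Rep_mono h)

/-- One register. -/
def RSys.amb1 (S : RSys R π X V η) (M : ℕ) : Amb (π × X) :=
  ⟨fun a => S.good M a.1 ∧ ∃ v, S.Rep a.1 1 v a.2, fun a => S.z a.1, fun a => S.n a.1,
    fun a => S.l a.1, (S.bound 1).imp fun _ h a ha => le_trans
      (by rw [sz_prod a, sz_pair, sz_lcons]; omega)
      (h a.1 [a.2] (S.good_dvd (one_dvd _) ha.1) le_rfl fun x hx =>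
        ⟨1, List.mem_singleton.1 hx ▸ ha.2⟩)⟩

/-- A list of `W` registers holding values of the form `f p w v`. -/
def RSys.ambL (S : RSys R π X V η) (M J : ℕ) {W : ℕ} (f : π → Fin W → V → V) :
    Amb (π × List X) :=
  ⟨fun a => S.good M a.1 ∧ ∃ (x : Fin W → X) (v : Fin W → V), a.2 = List.ofFn x ∧
      ∀ w, S.Rep a.1 J (f a.1 w (v w)) (x w), fun a => S.z a.1,
    fun a => S.n a.1, fun a => S.l a.1, (S.bound W).imp fun _ h a ha => by
      obtain ⟨h1, x, v, h2, h3⟩ := ha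
      refine h a.1 a.2 (S.good_dvd (one_dvd _) h1) (by simp [h2]) fun y hy => ?_
      rw [h2] at hy
      obtain ⟨w, rfl⟩ := List.mem_ofFn.1 hy
      exact ⟨_, _, h3 w⟩⟩

namespace SoundAux

variable {L E γ δ : Type} [AddCommGroup E] [Module R E] [Enc γ] [Enc δ]

/-- The registers `xs` hold the labelled data `reg`. -/
def Hold (S : RSys R π X V η) (sem : π → L → V →ₗ[R] V) (p : π) (J : ℕ) (ψ : E →ₗ[R] V)
    (reg : List (L × E)) (xs : List X) : Prop :=
  List.Forall₂ (fun q x => S.Rep p J (sem p q.1 (ψ q.2)) x) reg xs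

theorem forall₂_mem {A B : Type} {P : A → B → Prop} {l : List A} {l' : List B}
    (h : List.Forall₂ P l l') : ∀ x ∈ l', ∃ a, P a x := by
  induction h with
  | nil => simp
  | cons h _ ih =>
    intro x hx
    rcases List.mem_cons.1 hx with rfl | hx
    · exact ⟨_, h⟩
    · exact ih x hx

def amb (S : RSys R π X V η) (sem : π → L → V →ₗ[R] V) (M J : ℕ) (reg : List (L × E)) :
    Amb (π × List X) :=
  ⟨fun a => S.good M a.1 ∧ ∃ ψ : E →ₗ[R] V, Hold S sem a.1 J ψ reg a.2, fun a => S.z a.1,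
    fun a => S.n a.1, fun a => S.l a.1, (S.bound reg.length).imp fun _ h a ha => by
      obtain ⟨h1, ψ, h2⟩ := ha
      exact h a.1 a.2 (S.good_dvd (one_dvd _) h1) h2.length_eq.ge fun y hy =>
        (forall₂_mem h2 y hy).elim fun _ h => ⟨_, _, h⟩⟩

/-- The registers `out` are computed from the registers `reg`. -/
def Res (g : γ → δ) (S : RSys R π X V η) (sem : π → L → V →ₗ[R] V) (U : (γ → ℕ∞) → π → ℕ∞)
    (J r : ℕ) (reg out : List (L × E)) : Prop :=
  ∃ (M : ℕ) (F : π × List X → List X), 0 < M ∧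
    Oc g (amb S sem M J reg) (fun T a => r * U T a.1) F ∧
    ∀ (p : π) (ψ : E →ₗ[R] V) (xs : List X), S.good M p → Hold S sem p J ψ reg xs →
      Hold S sem p 0 ψ out (F (p, xs))

variable {g : γ → δ} {S : RSys R π X V η} {sem : π → L → V →ₗ[R] V} {U : (γ → ℕ∞) → π → ℕ∞}

theorem exists_idx {A B : Type} {a : A} {l : List A} (h : a ∈ l) (d : B) :
    ∃ i, ∀ (P : A → B → Prop) (l' : List B), List.Forall₂ P l l' → P a (l'.getD i d) := by
  induction h with
  | head => exact ⟨0, fun P l' h => by cases h; assumption⟩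
  | tail _ _ ih =>
    obtain ⟨i, hi⟩ := ih
    exact ⟨i + 1, fun P l' h => by cases h; exact hi P _ (by assumption)⟩

theorem res_done (x0 : X) (r : ℕ) {reg out : List (L × E)} (h : ∀ o ∈ out, o ∈ reg) :
    Res g S sem U 0 r reg out := by
  have key : ∃ F : π × List X → List X, Cl g (amb S sem 1 0 reg) F ∧
      ∀ (p : π) (ψ : E →ₗ[R] V) (xs : List X), Hold S sem p 0 ψ reg xs →
        Hold S sem p 0 ψ out (F (p, xs)) := by
    induction out with
    | nil => exact ⟨fun _ => [], Cl.const _, fun _ _ _ _ => List.Forall₂.nil⟩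
    | cons o out ih =>
      obtain ⟨F, h1, h2⟩ := ih fun o ho => h o (List.mem_cons_of_mem _ ho)
      obtain ⟨i, hi⟩ := exists_idx (h o List.mem_cons_self) x0
      exact ⟨fun a => a.2.getD i x0 :: F a, Cl.cons (Cl.getD i (Cl.snd Cl.id) (Cl.const _)) h1,
        fun p ψ xs hx => List.Forall₂.cons (hi _ _ hx) (h2 p ψ xs hx)⟩
  obtain ⟨F, h1, h2⟩ := key
  exact ⟨1, F, one_pos, Oc.mono h1 fun _ _ _ => by simp, fun p ψ xs _ => h2 p ψ xs⟩

theorem res_step {J r c M : ℕ} {reg out : List (L × E)} {o : L × E} (hM : 0 < M)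
    (h : Res g S sem U J r (o :: reg) out) {N : π × List X → X}
    (hN : Oc g (amb S sem M (J + 2) reg) (fun T a => c * U T a.1) N)
    (hs : ∀ (p : π) (ψ : E →ₗ[R] V) (xs : List X), S.good M p → Hold S sem p (J + 2) ψ reg xs →
      S.Rep p J (sem p o.1 (ψ o.2)) (N (p, xs))) : Res g S sem U (J + 2) (r + c) reg out := by
  obtain ⟨M', F, hM', h1, h2⟩ := h
  have h3 : ∀ (p : π) (ψ : E →ₗ[R] V) (xs : List X), S.good (M * M') p →
      Hold S sem p (J + 2) ψ reg xs → Hold S sem p J ψ (o :: reg) (N (p, xs) :: xs) :=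
    fun p ψ xs hp hx => List.Forall₂.cons (hs p ψ xs (S.good_dvd (dvd_mul_right _ _) hp) hx)
      (hx.imp fun _ _ h => S.rep_le h (by omega))
  have hN' : Oc g (amb S sem (M * M') (J + 2) reg) (fun T a => c * U T a.1) N :=
    hN.change (fun a ha => ⟨S.good_dvd (dvd_mul_right _ _) ha.1, ha.2⟩)
      fun K => ⟨K, fun _ _ => le_rfl⟩
  have h4 := Oc.pair (Cl.fst Cl.id) ((Oc.pair hN' (Cl.snd Cl.id)).of_enc
    (f' := fun a => N a :: a.2) fun _ _ => rfl)
  refine ⟨M * M', fun a => F (a.1, N a :: a.2), Nat.mul_pos hM hM',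
    (Oc.app h1 h4 (fun a ha => ?_) fun K => ⟨K, fun _ _ => le_rfl⟩).mono fun T a _ => ?_,
    fun p ψ xs hp hx => h2 p ψ _ (S.good_dvd (dvd_mul_left _ _) hp) (h3 p ψ xs hp hx)⟩
  · obtain ⟨hp, ψ, hx⟩ := ha
    exact ⟨S.good_dvd (dvd_mul_left _ _) hp, ψ, h3 _ ψ _ hp hx⟩
  · simp only [u0_apply, zero_add, add_zero]
    push_cast
    rw [add_mul, add_comm]

theorem res_cheap {J r : ℕ} {reg out : List (L × E)} {o : L × E}
    (h : Res g S sem U J r (o :: reg) out) {N : π × List X → X}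
    (hN : Cl g (amb S sem 1 (J + 2) reg) N)
    (hs : ∀ (p : π) (ψ : E →ₗ[R] V) (xs : List X), S.good 1 p → Hold S sem p (J + 2) ψ reg xs →
      S.Rep p J (sem p o.1 (ψ o.2)) (N (p, xs))) : Res g S sem U (J + 2) r reg out :=
  res_step (c := 0) one_pos h (Oc.mono hN fun _ _ _ => by simp) hs

theorem ins {A : Type} {T : Set A} {reg : List A} (h : ∀ x ∈ T, x ∈ reg) (o : A) :
    ∀ x ∈ insert o T, x ∈ o :: reg := by
  rintro x (rfl | hx)
  · exact List.mem_cons_self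
  · exact List.mem_cons_of_mem _ (h x hx)

theorem sound {R L Mv E : Type} [CommRing R] [AddCommGroup E] [Module R E] {σ : Sig R L Mv}
    {T T' : Set (L × E)} {r : ℕ} (h : Net σ T r T') :
    ∃ J : ℕ, ∀ {π X V γ δ : Type} [Enc π] [Enc X] [Enc γ] [Enc δ] [AddCommGroup V] [Module R V]
      (g : γ → δ) (S : RSys R π X V σ.η) (sem : π → L → V →ₗ[R] V) (U : (γ → ℕ∞) → π → ℕ∞),
      Cl g (lin _) S.add → Cl g (lin _) S.neg → Cl g (lin _) S.half →
      (∀ m q, ∃ (M : ℕ) (F : π × X → X), 0 < M ∧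
        Oc g (S.amb1 M) (fun T a => σ.cost m * U T a.1) F ∧ ∀ p j v x, S.good M p →
          S.Rep p (j + 1) (sem p q v) x → S.Rep p j (sem p (σ.act m q) v) (F (p, x))) →
      X → ∀ reg out : List (L × E), (∀ x ∈ T, x ∈ reg) → (∀ x ∈ out, x ∈ T') →
        Res g S sem U J r reg out := by
  induction h with
  | done h =>
    exact ⟨0, fun g S sem U _ _ _ _ x0 reg out h1 h2 =>
      res_done x0 _ fun o ho => h1 o (h (h2 o ho))⟩
  | @mv T T' r q d m hq _ ih =>
    obtain ⟨J, ih⟩ := ih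
    refine ⟨J + 2, fun g S sem U h1 h2 h3 h4 x0 reg out h5 h6 => ?_⟩
    obtain ⟨i, hi⟩ := exists_idx (h5 _ hq) x0
    obtain ⟨M, F, hM, hF, hs⟩ := h4 m q
    refine res_step hM (ih g S sem U h1 h2 h3 h4 x0 _ out (ins h5 _) h6)
      (N := fun a => F (a.1, a.2.getD i x0))
      ((Oc.app hF (Cl.pair (Cl.fst Cl.id) (Cl.getD i (Cl.snd Cl.id) (Cl.const _)))
        (fun a ha => ?_) fun K => ⟨K, fun _ _ => le_rfl⟩).mono fun _ _ _ => by simp)
      fun p ψ xs hp hx => S.Rep_mono (hs p _ _ _ hp (hi _ _ hx))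
    obtain ⟨hp, ψ, hx⟩ := ha
    exact ⟨hp, _, S.rep_le (hi _ _ hx) (by omega)⟩
  | @add T T' r q d d' hq hq' _ ih =>
    obtain ⟨J, ih⟩ := ih
    refine ⟨J + 2, fun g S sem U h1 h2 h3 h4 x0 reg out h5 h6 => ?_⟩
    obtain ⟨i, hi⟩ := exists_idx (h5 _ hq) x0
    obtain ⟨i', hi'⟩ := exists_idx (h5 _ hq') x0
    refine res_cheap (ih g S sem U h1 h2 h3 h4 x0 _ out (ins h5 _) h6)
      (N := fun a => S.add (a.2.getD i x0, a.2.getD i' x0))
      (oc_lin h1 (Cl.pair (Cl.getD i (Cl.snd Cl.id) (Cl.const _))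
        (Cl.getD i' (Cl.snd Cl.id) (Cl.const _)))) fun p ψ xs hp hx => ?_
    rw [map_add, map_add]
    exact S.Rep_mono (S.rep_add hp (hi _ _ hx) (hi' _ _ hx))
  | @neg T T' r q d hq _ ih =>
    obtain ⟨J, ih⟩ := ih
    refine ⟨J + 2, fun g S sem U h1 h2 h3 h4 x0 reg out h5 h6 => ?_⟩
    obtain ⟨i, hi⟩ := exists_idx (h5 _ hq) x0
    refine res_cheap (ih g S sem U h1 h2 h3 h4 x0 _ out (ins h5 _) h6)
      (N := fun a => S.neg (a.2.getD i x0))
      (oc_lin h2 (Cl.getD i (Cl.snd Cl.id) (Cl.const _))) fun p ψ xs hp hx => ?_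
    rw [map_neg, map_neg]
    exact S.Rep_mono (S.rep_neg hp (hi _ _ hx))
  | @smul T T' r q d hq _ ih =>
    obtain ⟨J, ih⟩ := ih
    refine ⟨J + 2, fun g S sem U h1 h2 h3 h4 x0 reg out h5 h6 => ?_⟩
    obtain ⟨i, hi⟩ := exists_idx (h5 _ hq) x0
    refine res_cheap (ih g S sem U h1 h2 h3 h4 x0 _ out (ins h5 _) h6)
      (N := fun a => S.half (a.2.getD i x0))
      (oc_lin h3 (Cl.getD i (Cl.snd Cl.id) (Cl.const _))) fun p ψ xs hp hx => ?_
    rw [map_smul, map_smul]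
    exact S.Rep_mono (S.rep_half hp (hi _ _ hx))
  | @zero T T' r q d q' hq _ ih =>
    obtain ⟨J, ih⟩ := ih
    refine ⟨J + 2, fun g S sem U h1 h2 h3 h4 x0 reg out h5 h6 => ?_⟩
    obtain ⟨i, hi⟩ := exists_idx (h5 _ hq) x0
    refine res_cheap (ih g S sem U h1 h2 h3 h4 x0 _ out (ins h5 _) h6)
      (N := fun a => S.add (a.2.getD i x0, S.neg (a.2.getD i x0)))
      (oc_lin h1 (Cl.pair (Cl.getD i (Cl.snd Cl.id) (Cl.const _))
        (oc_lin h2 (Cl.getD i (Cl.snd Cl.id) (Cl.const _))))) fun p ψ xs hp hx => ?_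
    have := S.rep_add hp (S.Rep_mono (hi _ _ hx)) (S.rep_neg hp (hi _ _ hx))
    rwa [add_neg_cancel, ← map_zero (sem p q'), ← map_zero ψ] at this

theorem forall₂_ofFn {A B : Type} {P : A → B → Prop} {W : ℕ} {f : Fin W → A} {l : List B} :
    List.Forall₂ P (List.ofFn f) l ↔ ∃ y : Fin W → B, l = List.ofFn y ∧ ∀ w, P (f w) (y w) := by
  induction W generalizing l with
  | zero => simp
  | succ W ih =>
    rw [List.ofFn_succ, List.forall₂_cons_left_iff]
    constructor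
    · rintro ⟨b, u, h1, h2, rfl⟩
      obtain ⟨y, rfl, hy⟩ := ih.1 h2
      exact ⟨Fin.cons b y, by simp [List.ofFn_succ], fun w => Fin.cases h1 hy w⟩
    · rintro ⟨y, rfl, hy⟩
      exact ⟨y 0, _, hy 0, ih.2 ⟨_, rfl, fun w => hy w.succ⟩, List.ofFn_succ⟩

/-- The linear map with prescribed values on the basis. -/
def comb {W : ℕ} (v : Fin W → V) : (Fin W → R) →ₗ[R] V where
  toFun c := ∑ w, c w • v w
  map_add' _ _ := by simp [add_smul, Finset.sum_add_distrib]
  map_smul' _ _ := by simp [Finset.smul_sum, mul_smul]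

theorem comb_single {W : ℕ} (v : Fin W → V) (w : Fin W) :
    comb v (Pi.single w 1 : Fin W → R) = v w := by
  simp [comb, Pi.single_apply]

end SoundAux

open SoundAux

theorem Net.sound {R L Mv : Type} [CommRing R] {σ : Sig R L Mv} {W r : ℕ} {lab0 lab1 : Fin W → L}
    (h : Net σ (Set.range fun w => (lab0 w, (Pi.single w 1 : Fin W → R))) r
      (Set.range fun w => (lab1 w, (Pi.single w 1 : Fin W → R)))) :
    ∃ J : ℕ, ∀ {π X V γ δ : Type} [Enc π] [Enc X] [Enc γ] [Enc δ] [AddCommGroup V] [Module R V]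
      (g : γ → δ) (S : RSys R π X V σ.η) (sem : π → L → V →ₗ[R] V) (U : (γ → ℕ∞) → π → ℕ∞),
      Cl g (lin _) S.add → Cl g (lin _) S.neg → Cl g (lin _) S.half →
      (∀ m q, ∃ (M : ℕ) (F : π × X → X), 0 < M ∧
        Oc g (S.amb1 M) (fun T a => σ.cost m * U T a.1) F ∧ ∀ p j v x, S.good M p →
          S.Rep p (j + 1) (sem p q v) x → S.Rep p j (sem p (σ.act m q) v) (F (p, x))) →
      ∃ (M : ℕ) (F : π × List X → List X), 0 < M ∧
        Oc g (S.ambL M J fun p w => sem p (lab0 w)) (fun T a => r * U T a.1) F ∧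
        ∀ (p : π) (v : Fin W → V) (x : Fin W → X), S.good M p →
          (∀ w, S.Rep p J (sem p (lab0 w) (v w)) (x w)) →
          ∃ y : Fin W → X, F (p, List.ofFn x) = List.ofFn y ∧
            ∀ w, S.Rep p 0 (sem p (lab1 w) (v w)) (y w) := by
  obtain ⟨J, hJ⟩ := SoundAux.sound h
  refine ⟨J, @fun π X V γ δ _ _ _ _ _ _ g S sem U h1 h2 h3 h4 => ?_⟩
  rcases isEmpty_or_nonempty X with hX | ⟨⟨x0⟩⟩
  · exact ⟨1, fun a => a.2, one_pos, Oc.mono (Cl.snd Cl.id) fun _ _ _ => by simp,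
      fun p v x _ _ => ⟨x, rfl, fun w => isEmptyElim (x w)⟩⟩
  obtain ⟨M, F, hM, hF, hs⟩ := hJ g S sem U h1 h2 h3 h4 x0
    (List.ofFn fun w => (lab0 w, (Pi.single w 1 : Fin W → R)))
    (List.ofFn fun w => (lab1 w, (Pi.single w 1 : Fin W → R)))
    (fun x hx => List.mem_ofFn.2 hx) fun x hx => List.mem_ofFn.1 hx
  have key : ∀ (p : π) (v : Fin W → V) (x : Fin W → X),
      (∀ w, S.Rep p J (sem p (lab0 w) (v w)) (x w)) → Hold S sem p J (comb v)
        (List.ofFn fun w => (lab0 w, (Pi.single w 1 : Fin W → R))) (List.ofFn x) :=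
    fun p v x hx => forall₂_ofFn.2 ⟨x, rfl, fun w => by rw [comb_single]; exact hx w⟩
  refine ⟨M, F, hM, hF.change (fun a ha => ?_) fun K => ⟨K, fun _ _ => le_rfl⟩,
    fun p v x hp hx => ?_⟩
  · obtain ⟨hp, x, v, e, hx⟩ := ha
    exact ⟨hp, comb v, e ▸ key _ v x hx⟩
  · obtain ⟨y, e, hy⟩ := forall₂_ofFn.1 (hs p _ _ hp (key p v x hx))
    exact ⟨y, e, fun w => by have := hy w; rwa [comb_single] at this⟩

end Vale.Agent.P338
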