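import Vale.Agent.P338.HadA
import Vale.Agent.P338.NetH
import Vale.Agent.P338.Sound

/-! Tensor powers of `C2` in sublinearly many passes. -/

namespace Vale.Agent.P338

namespace HadAux

open Function Finset Vale.Agent.P344 Vale.Agent.Common.TreeTM

theorem hd_add (q : ℕ) {s : ℕ} (hs : 0 < s) (n k : ℕ) :
    ∀ v, hd q s (n + k) v = hd q s n (hd (q + s * n) s k v) := by
  induction k with
  | zero => intro v; rw [hd_zero, add_zero]
  | succ k ih =>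
    intro v
    rw [← add_assoc, (hd_succ q hs _ v).2, ih, (hd_succ _ hs k v).2, mul_add, add_assoc]

theorem hd_demux (q : ℕ) {s : ℕ} (hs : 0 < s) (n : ℕ) {w0 w : ℕ} (hw : w < 2 ^ w0) (v : ℕ → ℂ)
    (i : ℕ) : hd (q + w0) s n v (i * 2 ^ w0 + w) = hd q s n (fun i => v (i * 2 ^ w0 + w)) i := by
  rw [hd, hd, ← lft_demux (LayAux.sep_hd q hs n) hw]
  exact congrArg (fun z => lft z (tpow n C2) v _) (funext fun j => by ring)

section gen
variable {α γ δ : Type} [Enc α] [Enc γ] [Enc δ] {g : γ → δ} {𝒜 : Amb α}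
  {u : (γ → ℕ∞) → α → ℕ∞}

theorem oc_small (c : ℕ) {x : α → CArr} {v : α → ℕ → ℂ} {m q s N P : α → ℕ} (hx : Oc g 𝒜 u x)
    (hq : Sm g 𝒜 q) (hs : Sm g 𝒜 s) (hF : Fit 𝒜 N P) : ∀ {k : α → ℕ}, Sm g 𝒜 k →
    (∀ a, 𝒜.D a → 2 ^ m a ≤ N a ∧ x a = encC (2 ^ m a) (P a) (v a) ∧
      RepC (2 ^ m a) (P a) (3 + k a) (v a) ∧ 0 < s a ∧ k a ≤ c ∧ ∀ j < k a, q a + s a * j < m a) →
    Oc g 𝒜 u fun a => encC (2 ^ m a) (P a) (hd (q a) (s a) (k a) (v a)) := by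
  induction c with
  | zero =>
    intro k _ h
    exact hx.congr fun a ha => by
      rw [Nat.le_zero.1 (h a ha).2.2.2.2.1, hd_zero, (h a ha).2.1]
  | succ c ih =>
    intro k hk h
    have h1 := ih (Sm.tc (F := fun k : ℕ => min k c) (by fun_prop) hk) fun a ha => by
      obtain ⟨a1, a2, a3, a4, -, a6⟩ := h a ha
      exact ⟨a1, a2, a3.mono (by omega), a4, min_le_right _ _, fun j hj => a6 j (by omega)⟩
    have h2 := oc_cbit (h1.sub fun a => decide (c < k a) = true) (q := fun a => q a + s a * c)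
      ((Sm.tc (F := fun z : ℕ × ℕ => z.1 + z.2 * c) (by fun_prop) (hq.pair hs)).sub _) (hF.sub _)
      fun a ha => by
        obtain ⟨a1, -, a3, a4, -, a6⟩ := h a ha.1
        exact ⟨a1, a6 c (of_decide_eq_true ha.2), rfl,
          (a3.mono (by omega)).hd a4 fun j hj => a6 j (by omega)⟩
    refine ((Oc.cond (Sm.tc (F := fun k : ℕ => decide (c < k)) (show TC 0 fun k => nlt c k by fun_prop) hk).1 h2
      (h1.sub _)).congr fun a ha => ?_).mono fun T a _ => by simp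
    obtain ⟨-, -, -, a4, a5, -⟩ := h a ha
    by_cases hc : c < k a
    · rw [decide_eq_true hc, cond_true, min_eq_right hc.le, ← (hd_succ _ a4 _ _).1,
        show k a = c + 1 by omega]
    · rw [decide_eq_false hc, cond_false, min_eq_left (by omega)]

theorem cl_demuxC {W : ℕ} (hW : 0 < W) {x : α → CArr} {v : α → ℕ → ℂ} {n N P : α → ℕ}
    (hx : Cl g 𝒜 x) (hF : Fit 𝒜 N P)
    (h : ∀ a, 𝒜.D a → x a = encC (n a * W) (P a) (v a) ∧ 0 < n a ∧ n a * W ≤ N a) :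
    Cl g 𝒜 fun a => List.ofFn fun w : Fin W => encC (n a) (P a) fun i => v a (i * W + w) := by
  have key : ∀ a, 𝒜.D a → ∀ y, Wf (P a) (encA (n a * W) (P a) y) ∧ encA (n a * W) (P a) y ≠ [] ∧
      (encA (n a * W) (P a) y).length ≤ N a := fun a ha y =>
    ⟨wf_encA _ _ _, List.ne_nil_of_length_pos (by
      rw [length_encA]; exact Nat.mul_pos (h a ha).2.1 hW), by rw [length_encA]; exact (h a ha).2.2⟩
  refine (Cl.zip (oc_demux W hW hx.fst hF fun a ha => by rw [(h a ha).1]; exact key a ha _)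
    (oc_demux W hW hx.snd hF fun a ha => by rw [(h a ha).1]; exact key a ha _)).congr
    fun a ha => ?_
  rw [(h a ha).1, encC, encA, encA, demux_arr hW, demux_arr hW]
  exact List.ext_getElem (by simp) fun i _ _ => by simp [encC, encA]

theorem oc_muxC {W : ℕ} (hW : 0 < W) {Z : α → List CArr} {G : α → ℕ → ℕ → ℂ} {n N P : α → ℕ}
    (hZ : Oc g 𝒜 u Z) (hF : Fit 𝒜 N P) (h : ∀ a, 𝒜.D a →
      Z a = (List.ofFn fun w : Fin W => encC (n a) (P a) (G a w)) ∧ 0 < n a ∧ n a * W ≤ N a) :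
    Oc g 𝒜 u fun a => encC (n a * W) (P a) fun i => G a (i % W) (i / W) := by
  have key : ∀ a, 𝒜.D a → ∀ (y : Fin W → ℕ → ℤ) L, L = (List.ofFn fun w => encA (n a) (P a) (y w)) →
      Wf (P a) L.flatten ∧ L.flatten ≠ [] ∧ L.flatten.length ≤ N a ∧ W ∣ L.flatten.length := by
    rintro a ha y _ rfl
    have h1 : (List.ofFn fun w => encA (n a) (P a) (y w)).flatten.length = n a * W := by
      simp [List.length_flatten, List.map_ofFn, List.sum_ofFn, mul_comm]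
    refine ⟨fun x hx => ?_, List.ne_nil_of_length_pos (h1 ▸ Nat.mul_pos (h a ha).2.1 hW),
      h1 ▸ (h a ha).2.2, h1 ▸ Dvd.intro_left _ rfl⟩
    obtain ⟨l, hl, hx⟩ := List.mem_flatten.1 hx
    obtain ⟨w, rfl⟩ := List.mem_ofFn.1 hl
    exact wf_encA _ _ _ x hx
  have h1 := oc_mux (g := g) (𝒜 := 𝒜.ext Z hZ.2) W hW (L := fun a => a.2.map fun z => z.1)
    (show Cl g _ _ by fun_prop) hF.ext fun a ha => key _ ha.1 _ _ (by
      rw [ha.2, (h _ ha.1).1, List.map_ofFn]; rfl)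
  have h2 := oc_mux (g := g) (𝒜 := 𝒜.ext Z hZ.2) W hW (L := fun a => a.2.map fun z => z.2)
    (show Cl g _ _ by fun_prop) hF.ext fun a ha => key _ ha.1 _ _ (by
      rw [ha.2, (h _ ha.1).1, List.map_ofFn]; rfl)
  refine ((hZ.bind (Cl.pair h1 h2)).congr fun a ha => ?_).mono fun _ _ _ => by simp
  simp only [(h a ha).1, List.map_ofFn]
  exact (Prod.ext (mux_arr hW fun w i => toBits (P a) ⌊(G a w i).re⌋)
    (mux_arr hW fun w i => toBits (P a) ⌊(G a w i).im⌋)).symm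

end gen

/-- The specification. -/
noncomputable def ff (a : Par × CArr) : CArr :=
  encC (2 ^ a.1.1) (wid a.2) (hd a.1.2.1 a.1.2.2.1 a.1.2.2.2.1 (decC a.2))

def Pre (w1 : ℕ) (p : Par) : Prop := HadPre w1 p.1 p.2.1 p.2.2.1 p.2.2.2.1 p.2.2.2.2

def Dm (w1 E0 : ℕ) (a : Par × CArr) : Prop := Pre w1 a.1 ∧ ∃ v,
  a.2 = encC (2 ^ a.1.1) (wid a.2) v ∧ RepC (2 ^ a.1.1) (wid a.2) (E0 * (a.1.2.2.2.1 + 1)) v

variable {w1 E0 : ℕ}

theorem Pre.lt {p : Par} (h : Pre w1 p) : ∀ j < p.2.2.2.1, p.2.1 + p.2.2.1 * j < p.1 :=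
  fun j hj => by have := h.2.2.2.2.1 j hj; omega

theorem Pre.ke {p : Par} (h : Pre w1 p) : p.2.2.2.1 * p.2.2.2.2 ≤ p.1 := by
  rcases Nat.eq_zero_or_pos p.2.2.2.1 with h0 | h0
  · simp [h0]
  · have := h.2.2.2.2.1 0 h0; omega

theorem dm_enc {p : Par} {P : ℕ} {v : ℕ → ℂ} (h : Pre w1 p)
    (hv : RepC (2 ^ p.1) P (E0 * (p.2.2.2.1 + 1)) v) : Dm w1 E0 (p, encC (2 ^ p.1) P v) ∧
      ff (p, encC (2 ^ p.1) P v) = encC (2 ^ p.1) P (hd p.2.1 p.2.2.1 p.2.2.2.1 v) := by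
  refine ⟨⟨h, v, by rw [wid_encC], by rwa [wid_encC]⟩, ?_⟩
  rw [ff, wid_encC]
  exact encC_congr fun i hi => hd_congr h.1 h.lt hi fun i hi => hv.decC hi

theorem Dm.dec {a : Par × CArr} (h : Dm w1 E0 a) : a.2 = encC (2 ^ a.1.1) (wid a.2) (decC a.2) ∧
    RepC (2 ^ a.1.1) (wid a.2) (E0 * (a.1.2.2.2.1 + 1)) (decC a.2) := by
  obtain ⟨-, v, h1, h2⟩ := h
  have := dec_self h2
  rwa [← h1] at this

def amb (w1 E0 : ℕ) {t : ℕ → ℕ} (ht : ∀ e, 1 ≤ t e) : Amb (Par × CArr) :=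
  ⟨Dm w1 E0, fun a => nn t a.1 * (wid a.2 + 1), fun a => nn t a.1, fun a => lv a.1, 9,
    fun a ha => by
      rw [sz_prod]
      refine ok_aux ht _ _ ?_
      conv_lhs => rw [ha.dec.1]
      exact sz_encC _ _ _⟩

noncomputable def UU (w1 E0 : ℕ) (T : Par × CArr → ℕ∞) (p : Par × ℕ) : ℕ∞ :=
  ⨆ x : {x : Par × CArr // Dm w1 E0 x ∧ x.1.1 = p.1.1 ∧ x.1.2.2.2 = p.1.2.2.2 ∧ wid x.2 = p.2 ∧
    lv x.1 ≤ p.1.1}, T x.1

noncomputable def sys (w1 E0 r : ℕ) {t : ℕ → ℕ} (ht : ∀ e, 1 ≤ t e) :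
    RSys ℂ (Par × ℕ) CArr (ℕ → ℂ) (1 / 2) where
  good _ p := Geo w1 r p.1
  good_dvd _ h := h
  z p := nn t p.1 * (p.2 + 1)
  n p := nn t p.1
  l p := lv p.1
  Rep p j v x := x = encC (2 ^ p.1.1) p.2 v ∧ RepC (2 ^ p.1.1) p.2 ((E0 + j) * (p.1.2.2.2.1 + 1)) v
  Rep_mono h := ⟨h.1, h.2.mono (Nat.mul_le_mul_right _ (by omega))⟩
  szp := ⟨9, fun p _ => by
    rw [sz_prod]
    refine ok_aux ht _ _ ((sz_nat_self _).trans ?_)
    have := Nat.le_mul_of_pos_left (p.2 + 1) (Nat.two_pow_pos p.1.1)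
    omega⟩
  szx := ⟨9, fun p _ v x _ h => le_trans (by omega)
    (ok_aux ht p.1 p.2 (y := sz x) (h.1 ▸ sz_encC _ _ _))⟩
  add z := (addA z.1.1 z.2.1, addA z.1.2 z.2.2)
  neg x := (negA x.1, negA x.2)
  half x := (halfA x.1, halfA x.2)
  rep_add _ h h' := ⟨by rw [h.1, h'.1]; exact h.2.encC_add h'.2,
    (h.2.mono (by nlinarith)).add (h'.2.mono (by nlinarith))⟩
  rep_neg _ h := ⟨by rw [h.1]; exact h.2.encC_neg,
    (h.2.mono (Nat.mul_le_mul_right _ (by omega))).neg⟩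
  rep_half _ h := ⟨by rw [h.1]; exact (h.2.mono (j' := 0 + 1) (by nlinarith)).encC_half,
    (h.2.mono (by nlinarith)).half⟩

section net
variable {I : Type} [Fintype I] [DecidableEq I] {r : ℕ} {ε : I ≃ Fin r} {τ : ℕ → ℕ}

/-- The parameters of a recursive call. -/
def sub (ε : I ≃ Fin r) (i : I) (p : Par) : Par :=
  (p.1, p.2.1 + p.2.2.1 * ε i, p.2.2.1 * r, p.2.2.2)

omit [Fintype I] [DecidableEq I] in
theorem Geo.sub {p : Par} (h : Geo w1 r p) (hr : 2 ≤ r) (i : I) :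
    Pre w1 (sub ε i p) ∧ lv (sub ε i p) ≤ p.1 := by
  obtain ⟨h1, h2, h3, h4, h5, h6, h7⟩ := h
  have h8 : ∀ j < p.2.2.2.1, p.2.1 + p.2.2.1 * ε i + p.2.2.1 * r * j +
      p.2.2.2.1 * p.2.2.2.2 < p.1 := fun j hj => by
    have := h6 _ (idx_lt (ε := ε) i hj)
    linarith
  refine ⟨⟨Nat.mul_pos h1 (by omega), h2, h4.trans (Nat.pow_le_pow_right two_pos
    (Nat.le_mul_of_pos_right _ (by omega))), h5, h8, le_add_right h7⟩, ?_⟩
  have a1 := h8 1 h3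
  have a2 := Nat.le_mul_of_pos_right p.2.2.2.1 h2
  have a3 := Nat.le_mul_of_pos_left p.2.2.2.2 (show 0 < p.2.2.2.1 by omega)
  have := size_le_self (p.2.1 + p.2.2.1 * ε i)
  have := size_le_self (p.2.2.1 * r)
  have := size_le_self p.2.2.2.1
  have := size_le_self p.2.2.2.2
  simp only [lv, HadAux.sub]
  omega

theorem op_cAt {p : Par} (h : Geo w1 r p) (i : I) :
    op ε p (cAt i) = hd (p.2.1 + p.2.2.1 * ε i) (p.2.2.1 * r) p.2.2.2.1 :=
  lft2_cAt (sep_wts h) fun _ => congrArg (2 ^ ·) (by ring)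

theorem moves (hS : SwapOK w1 τ) (hτ : Grow τ) (hr : 2 ≤ r)
    (mv : ((I → ZMod 4) →+ ZMod 4) × Bool) (q : Lab I) :
    ∃ (M : ℕ) (F : (Par × ℕ) × CArr → CArr), 0 < M ∧
      Oc ff ((sys w1 E0 r (grow_succ hτ).2.1).amb1 M)
        (fun T a => (sigH I).cost mv * UU w1 E0 T a.1) F ∧
      ∀ p j v x, (sys w1 E0 r (grow_succ hτ).2.1).good M p →
        (sys w1 E0 r (grow_succ hτ).2.1).Rep p (j + 1) (op ε p.1 (Lam q) v) x →
        (sys w1 E0 r (grow_succ hτ).2.1).Rep p j (op ε p.1 (Lam ((sigH I).act mv q)) v)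
          (F (p, x)) := by
  set 𝒜 := (sys w1 E0 r (grow_succ hτ).2.1).amb1 1 with h𝒜
  suffices h : ∃ A, (Lam fun x => if mv.2 then mv.1 x ^ 2 else 2 * mv.1 x ^ 2) = A ∧
      Oc ff 𝒜 (fun T a => (sigH I).cost mv * UU w1 E0 T a.1)
        (fun a => encC (2 ^ a.1.1.1) a.1.2 (op ε a.1.1 A (decC a.2))) ∧
      ∀ (p : Par) P j v, Geo w1 r p → RepC (2 ^ p.1) P (j + p.2.2.2.1) v →
        RepC (2 ^ p.1) P j (op ε p A v) by
    obtain ⟨A, h1, h2, h3⟩ := h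
    refine ⟨1, _, one_pos, h2, fun p j v x hp hx => ?_⟩
    have e : op ε p.1 (Lam ((sigH I).act mv q)) v = op ε p.1 A (op ε p.1 (Lam q) v) := by
      rw [← op_mul hp, ← h1, ← Lam_add, add_comm]; rfl
    rw [e]
    refine ⟨encC_congr fun i hi => op_congr hp _ (fun i hi => ?_) hi,
      h3 _ _ _ _ hp (hx.2.mono (by nlinarith))⟩
    rw [hx.1]
    exact hx.2.decC hi
  have hD : ∀ a, 𝒜.D a → (a.2 = encC (2 ^ a.1.1.1) a.1.2 (decC a.2) ∧ Geo w1 r a.1.1) ∧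
      RepC (2 ^ a.1.1.1) a.1.2 (E0 * (a.1.1.2.2.2.1 + 1)) (decC a.2) := by
    rintro a ⟨h1, v, h2, h3⟩
    have := dec_self h3
    rw [← h2] at this
    exact ⟨⟨this.1, h1⟩, this.2.mono (Nat.mul_le_mul_right _ (by omega))⟩
  have hx : Cl ff 𝒜 fun a => a.2 := by fun_prop
  have hp : Sm ff 𝒜 fun a => a.1.1 := sm_par (grow_succ hτ).2.1 (by fun_prop) fun _ _ => ⟨rfl, rfl⟩
  have hF : Fit 𝒜 (fun a => nn (fun e => τ (e + 1)) a.1.1) fun a => a.1.2 :=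
    fit_nn (grow_succ hτ) fun a ha => ⟨rfl, rfl, rfl,
      ((hD a ha).1.2.sub (ε := ε) hr (ε.symm ⟨0, by omega⟩)).1.ke⟩
  obtain ⟨f, _ | _⟩ := mv
  · exact ⟨_, lam_two f (ε.symm ⟨0, by omega⟩), ((pok_tr hS hτ.2.1 hr false _ _ (by simp)).out hx hp
      hF fun a ha => (hD a ha).1).mono fun _ _ _ => by simp,
      fun p P j v h hv => rep_mono h _ (hv.mono (by omega))⟩
  by_cases h0 : vec f = 0
  · refine ⟨1, (Lam_sq f).trans ?_, (Oc.congr hx fun a ha => ?_).mono fun _ _ _ => by simp,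
      fun p P j v h hv => by rw [op_one]; exact hv.mono (by omega)⟩
    · ext x y
      rw [h0, Matrix.of_apply, add_zero, Matrix.one_apply]
      split_ifs <;> ring
    · rw [op_one, ← (hD a ha).1.1]
  obtain ⟨i, hi, hm⟩ := exists_max_image (univ.filter fun i => vec f i = 1) ε (by
    obtain ⟨i, hi⟩ := ne_iff.1 h0
    exact ⟨i, mem_filter.2 ⟨mem_univ _, (zmod2_cases _).resolve_left hi⟩⟩)
  replace hi := (mem_filter.1 hi).2
  have hν := pok_tr (g := ff) (ε := ε) hS hτ.2.1 hr true i (vec f + Pi.single i 1) fun _ j hj => by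
    have hji : j ≠ i := by
      rintro rfl
      simp [hi, CharTwo.add_self_eq_zero] at hj
    exact (hm j (by simpa [hji] using hj)).lt_of_ne (ε.injective.ne hji)
  set ν := mono (tr true i (vec f + Pi.single i 1)) with hν'
  refine ⟨_, lam_piv f hi, ?_, fun p P j v h hv => ?_⟩
  · have h1 := hν.out hx hp hF fun a ha => (hD a ha).1
    have h2 : ∀ a, 𝒜.D a → _ := fun a ha => dm_enc (E0 := E0) ((hD a ha).1.2.sub (ε := ε) hr i).1
      (rep_mono (ε := ε) (hD a ha).1.2 (tr true i (vec f + Pi.single i 1)) (hD a ha).2)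
    have h3 := Oc.call (Cl.pair (Sm.tc (F := sub ε i) (by unfold sub; fun_prop) hp).1 h1)
      ((Bnd.mul 8 (hF.bnd.add (Bnd.const 1))).mono fun a ha => by
        refine (congrArg sz (h2 a ha).2).trans_le ((sz_encC _ _ _).trans ?_)
        have := le_nn (grow_succ hτ).2.1 a.1.1
        gcongr
        exact this.trans (Nat.le_succ _))
    refine ((hν.out h3 hp hF (v := fun a => op ε a.1.1 (cAt i) (op ε a.1.1 ν (decC a.2)))
      fun a ha => ⟨by rw [op_cAt (hD a ha).1.2]; exact (h2 a ha).2, (hD a ha).1.2⟩).congr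
      fun a ha => by rw [op_mul (hD a ha).1.2, op_mul (hD a ha).1.2]).mono fun T a ha => ?_
    simp only [sigH, if_true, Nat.cast_one, one_mul, u0_apply, zero_add]
    exact le_iSup_of_le ⟨_, (h2 a ha).1, rfl, rfl, wid_encC _ _ _,
      ((hD a ha).1.2.sub (ε := ε) hr i).2⟩ le_rfl
  · rw [op_mul h, op_mul h, op_cAt h]
    exact rep_mono h _ ((rep_mono h _ hv).hd (h.sub (ε := ε) hr i).1.1 (h.sub (ε := ε) hr i).1.lt)

/-- The parameters of the registers. -/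
def low (w0 r : ℕ) (p : Par) : Par := (p.1 - w0, p.2.1 - w0, p.2.2.1, p.2.2.2.1 / r, p.2.2.2.2)

theorem Pre.low {p : Par} {w0 : ℕ} (h : Pre w1 p) (hr : 2 ≤ r) (hk : r * (w0 + 2) ≤ p.2.2.2.1) :
    Geo w1 r (low w0 r p) ∧ w0 ≤ p.2.1 ∧ w0 ≤ p.1 ∧ p.2.2.2.1 / r < p.2.2.2.1 := by
  obtain ⟨m, q, s, k, e⟩ := p
  obtain ⟨h1, h2, h3, h4, h5, h6⟩ := h
  simp only [Geo, HadAux.low] at *
  have a1 : w0 + 2 ≤ k / r := (Nat.le_div_iff_mul_le (by omega)).2 (by rwa [mul_comm])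
  have a2 := Nat.mul_div_le k r
  have a3 := Nat.mul_le_mul_right (k / r) hr
  have a4 : k / r * e + w0 ≤ k * e := by
    obtain ⟨d, hd⟩ := Nat.exists_eq_add_of_le (show k / r + w0 ≤ k by omega)
    have := Nat.le_mul_of_pos_right w0 h2
    conv_rhs => rw [hd, add_mul, add_mul]
    omega
  have a5 := Nat.mul_le_mul_left w1 (Nat.size_le_size (show k / r * e + 3 ≤ k * e + 3 by omega))
  have a6 := h5 0 (by omega)
  refine ⟨⟨h1, h2, by omega, by omega, by omega, fun j hj => ?_, by omega⟩, by omega, by omega,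
    by omega⟩
  have := h5 j (by omega)
  omega

theorem lv_low (w0 r : ℕ) (p : Par) : lv (low w0 r p) ≤ lv p := by
  have := Nat.size_le_size (Nat.sub_le p.2.1 w0)
  have := Nat.size_le_size (Nat.div_le_self p.2.2.2.1 r)
  simp only [lv, low]
  omega

theorem nn_low {t : ℕ → ℕ} (ht : Monotone t) (w0 r : ℕ) (p : Par) : nn t (low w0 r p) ≤ nn t p :=
  Nat.mul_le_mul (Nat.pow_le_pow_right two_pos (Nat.sub_le _ _))
    (ht (Nat.add_le_add_right (Nat.mul_le_mul_right _ (Nat.div_le_self _ _)) _))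

theorem body {t : ℕ → ℕ} (ht : Grow t) (hr : 4 ≤ r) {w0 R J M k0 : ℕ} (hJ : J + 3 ≤ E0)
    (hk0 : r * (w0 + 2) ≤ k0) {lab0 : Fin (2 ^ w0) → Lab I} {F : (Par × ℕ) × List CArr → List CArr}
    (hF1 : Oc ff ((sys w1 E0 r ht.2.1).ambL M J fun p w => op ε p.1 (Lam (lab0 w)))
      (fun T a => R * UU w1 E0 T a.1) F)
    (hF2 : ∀ (p : Par × ℕ) (v : Fin (2 ^ w0) → ℕ → ℂ) (x : Fin (2 ^ w0) → CArr),
      (sys w1 E0 r ht.2.1).good M p →
      (∀ w, (sys w1 E0 r ht.2.1).Rep p J (op ε p.1 (Lam (lab0 w)) (v w)) (x w)) →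
      ∃ y : Fin (2 ^ w0) → CArr, F (p, List.ofFn x) = List.ofFn y ∧ ∀ w, (sys w1 E0 r ht.2.1).Rep p 0
        (op ε p.1 (Lam ((fun z => ∑ i, z i ^ 2) + lab0 w)) (v w)) (y w)) :
    Oc ff (amb w1 E0 ht.2.1) (fun T a => bif nlt a.1.2.2.2.1 k0 then 0 else
      R * UU w1 E0 T (low w0 r a.1, wid a.2)) ff := by
  set 𝒜 := amb w1 E0 ht.2.1 with h𝒜
  have hx : Cl ff 𝒜 fun a => a.2 := by fun_prop
  have hp : Sm ff 𝒜 fun a => a.1 := sm_par ht.2.1 (by fun_prop) fun _ _ => ⟨rfl, rfl⟩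
  have hF : Fit 𝒜 (fun a => nn t a.1) fun a => wid a.2 :=
    fit_nn ht fun a ha => ⟨rfl, rfl, rfl, ha.1.ke⟩
  have hs := Sm.tc (F := fun p : Par => p.2.2.1) (by fun_prop) hp
  have h0 := oc_small k0 (hx.sub fun a => nlt a.1.2.2.2.1 k0 = true)
    ((Sm.tc (F := fun p : Par => p.2.1) (by fun_prop) hp).sub _) (hs.sub _) (hF.sub _)
    ((Sm.tc (F := fun p : Par => p.2.2.2.1) (by fun_prop) hp).sub _) fun a ha =>
      ⟨le_nn ht.2.1 _, ha.1.dec.1, ha.1.dec.2.mono (by nlinarith), ha.1.1.1,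
        (of_decide_eq_true ha.2).le, ha.1.1.lt⟩
  set 𝓑 := 𝒜.sub fun a => nlt a.1.2.2.2.1 k0 = false with h𝓑
  have hl : ∀ a, 𝓑.D a → _ := fun a ha => Pre.low (w0 := w0) ha.1.1 (show 2 ≤ r by omega)
    (hk0.trans (not_lt.1 (of_decide_eq_false ha.2)))
  have e2 : ∀ a, 𝓑.D a → 2 ^ (a.1.1 - w0) * 2 ^ w0 = 2 ^ a.1.1 := fun a ha => by
    rw [← pow_add, Nat.sub_add_cancel (hl a ha).2.2.1]
  let v1 : Par × CArr → ℕ → ℂ := fun a => hd (a.1.2.1 + a.1.2.2.1 * (r * (a.1.2.2.2.1 / r)))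
    a.1.2.2.1 (a.1.2.2.2.1 % r) (decC a.2)
  have hlt : ∀ a, 𝓑.D a → ∀ j < a.1.2.2.2.1 % r,
      a.1.2.1 + a.1.2.2.1 * (r * (a.1.2.2.2.1 / r)) + a.1.2.2.1 * j < a.1.1 := fun a ha j hj => by
    have := ha.1.1.lt (r * (a.1.2.2.2.1 / r) + j) (by have := Nat.div_add_mod a.1.2.2.2.1 r; omega)
    linarith
  have h1 : Cl ff 𝓑 fun a => encC (2 ^ a.1.1) (wid a.2) (v1 a) := oc_small r (hx.sub _)
    ((Sm.tc (F := fun p : Par => p.2.1 + p.2.2.1 * (r * (p.2.2.2.1 / r))) (by fun_prop) hp).sub _)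
    (hs.sub _) (hF.sub _) ((Sm.tc (F := fun p : Par => p.2.2.2.1 % r) (by fun_prop) hp).sub _)
    fun a ha => ⟨le_nn ht.2.1 _, ha.1.dec.1, ha.1.dec.2.mono (by
      nlinarith [Nat.mod_le a.1.2.2.2.1 r]), ha.1.1.1, (Nat.mod_lt _ (by omega)).le, hlt a ha⟩
  have h2 := cl_demuxC (Nat.two_pow_pos w0) h1 (n := fun a => 2 ^ (a.1.1 - w0)) (v := v1) (hF.sub _)
    fun a ha => by rw [e2 a ha]; exact ⟨rfl, Nat.two_pow_pos _, le_nn ht.2.1 _⟩
  have h3 : Cl ff 𝓑 fun a => (low w0 r a.1, wid a.2) :=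
    ((Sm.tc (F := low w0 r) (by unfold low; fun_prop) hp).1.pair (cl_zer hx.fst).length).sub _
  have e3 : ∀ a, 𝓑.D a → ∀ (l l' : Lab I) v, op ε (low w0 r a.1) (Lam (l' + l))
      (op ε (low w0 r a.1) (Lam (-l)) v) = op ε (low w0 r a.1) (Lam l') v := fun a ha l l' v => by
    rw [← op_mul (hl a ha).1, ← Lam_add, add_neg_cancel_right]
  have key : ∀ a, 𝓑.D a → ∀ w : Fin (2 ^ w0), (sys w1 E0 r ht.2.1).Rep (low w0 r a.1, wid a.2) J
      (op ε (low w0 r a.1) (Lam (lab0 w)) (op ε (low w0 r a.1) (Lam (-lab0 w))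
        fun i => v1 a (i * 2 ^ w0 + w)))
      (encC (2 ^ (a.1.1 - w0)) (wid a.2) fun i => v1 a (i * 2 ^ w0 + w)) := fun a ha w => by
    have := e3 a ha (lab0 w) 0
    rw [zero_add] at this
    rw [this, Lam_zero, op_one]
    refine ⟨rfl, RepC.comp (N := 2 ^ a.1.1) ((ha.1.dec.2.mono ?_).hd ha.1.1.1 (hlt a ha))
      fun i hi => ?_⟩
    · have a1 := Nat.div_add_mod a.1.2.2.2.1 r
      have a2 : 2 ≤ a.1.2.2.2.1 / r := (hl a ha).1.2.2.1
      show (E0 + J) * (a.1.2.2.2.1 / r + 1) + _ ≤ _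
      generalize a.1.2.2.2.1 / r = k', a.1.2.2.2.1 % r = d at *
      have a3 := Nat.mul_le_mul_right k' hr
      have a4 := Nat.mul_le_mul_left E0 (show 2 * (k' + 1) + d ≤ a.1.2.2.2.1 + 1 by omega)
      have a5 := Nat.mul_le_mul_right (k' + 1) (show E0 + J ≤ E0 * 2 by omega)
      have a6 := Nat.le_mul_of_pos_left d (show 0 < E0 by omega)
      linarith
    · rw [← e2 a ha]
      have := Nat.mul_le_mul_right (2 ^ w0) (show i + 1 ≤ 2 ^ (a.1.1 - w0) from hi)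
      have := w.2
      linarith
  have h4 := Oc.app hF1 (h3.pair h2) (fun a ha => ⟨(hl a ha).1, _, _, rfl, key a ha⟩)
    (Dom.of (Bnd.z.mono fun a _ => Nat.mul_le_mul_right _ (nn_low ht.1 w0 r a.1)) 1 fun a _ =>
      ⟨(nn_low ht.1 w0 r a.1).trans (one_mul _).ge,
        ((lv_low w0 r a.1).trans (Nat.le_add_right _ 2)).trans (pow_one _).ge⟩)
  have h5 := oc_muxC (Nat.two_pow_pos w0) h4 (n := fun a => 2 ^ (a.1.1 - w0)) (hF.sub _)
    (G := fun a w => hd (a.1.2.1 - w0) a.1.2.2.1 (r * (a.1.2.2.2.1 / r))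
      fun i => v1 a (i * 2 ^ w0 + w)) fun a ha => by
      refine ⟨?_, Nat.two_pow_pos _, (e2 a ha).trans_le (le_nn ht.2.1 _)⟩
      obtain ⟨y, a1, a2⟩ := hF2 (low w0 r a.1, wid a.2) _ _ (hl a ha).1 (key a ha)
      rw [a1]
      refine congrArg _ (funext fun w => (a2 w).1.trans ?_)
      rw [e3 a ha, Lam_norm, op]
      exact congrArg (fun L : (ℕ → ℂ) →ₗ[ℂ] (ℕ → ℂ) => encC _ _ (L _)) (lft2_all ε _ ha.1.1.1 _).2
  have h6 : Oc ff 𝓑 _ ff := h5.congr fun a ha => by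
    rw [e2 a ha, ff]
    refine encC_congr fun i _ => ?_
    rw [← hd_demux _ ha.1.1.1 _ (Nat.mod_lt _ (Nat.two_pow_pos _)), Nat.div_add_mod',
      Nat.sub_add_cancel (hl a ha).2.1, ← hd_add _ ha.1.1.1, Nat.div_add_mod]
  refine ((Oc.cond (Sm.tc (F := fun p : Par => nlt p.2.2.2.1 k0) (by fun_prop) hp).1 h0 h6).congr
    fun a _ => ?_).mono fun T a _ => by simp
  exact (Bool.cond_self _ _).symm

theorem wt_le {n : ℕ} (hn : 1 ≤ n) (K P l : ℕ) :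
    wt K (n * (P + 1)) n l ≤ n * (K * (P + 2) + (l + 2) ^ K) := by
  have := Nat.mul_le_mul_left K hn
  rw [wt]
  nlinarith

theorem main (hS : SwapOK w1 τ) (hτ : Grow τ) (ε : I ≃ Fin r) (hr : 4 ≤ r) {w0 R : ℕ}
    {lab0 : Fin (2 ^ w0) → Lab I} (hR : R < 2 ^ w0 * r)
    (hN : Net (sigH I) (Set.range fun w => (lab0 w, (Pi.single w 1 : Fin (2 ^ w0) → ℂ))) R
      (Set.range fun w => ((fun z => ∑ i, z i ^ 2) + lab0 w, (Pi.single w 1 : Fin (2 ^ w0) → ℂ)))) :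
    ∃ (E0 : ℕ) (t : ℕ → ℕ) (ht : Grow t), 0 < E0 ∧ ∀ {γ δ : Type} [Enc γ] [Enc δ] (g : γ → δ),
      Cl g (amb w1 E0 ht.2.1) ff := by
  obtain ⟨J, hJ⟩ := hN.sound
  obtain ⟨E, e0, t, ht, hE, h1, h2⟩ := exists_tau hr (Nat.two_pow_pos w0) hR (grow_succ hτ)
  refine ⟨J + 3, t, ht, by omega, fun g => ?_⟩
  obtain ⟨M, F, -, hF1, hF2⟩ := hJ ff (sys w1 (J + 3) r (grow_succ hτ).2.1)
    (fun p q => op ε p.1 (Lam q)) (UU w1 (J + 3))
    (show Cl _ _ fun z : CArr × CArr => (addA z.1.1 z.2.1, addA z.1.2 z.2.2) by fun_prop)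
    (show Cl _ _ fun x : CArr => (negA x.1, negA x.2) by fun_prop)
    (show Cl _ _ fun x : CArr => (halfA x.1, halfA x.2) by fun_prop) (moves hS hτ (by omega))
  refine (body (grow_succ hτ) hr le_rfl (Nat.le_add_right _ e0) hF1 hF2).mu (fun _ h => h)
    (fun a => a.1.2.2.2.1) (fun K a => nn t a.1 * (K * (wid a.2 + 2) + (lv a.1 + 2) ^ K))
    (fun K => ⟨2 * K, fun a _ => ?_⟩) (fun K => ⟨K, fun a ha T hT => ?_⟩)
    ⟨8, fun a _ => le_add_right ((sz_encC _ _ _).trans ?_)⟩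
  · have a1 := Nat.mul_le_mul_left (nn t a.1) (AmbAux.pw_mono (lv a.1) (show K ≤ 2 * K by omega))
    show _ ≤ wt (2 * K) (nn t a.1 * (wid a.2 + 1)) (nn t a.1) (lv a.1)
    rw [wt]
    nlinarith [Nat.zero_le (K * (nn t a.1 * wid a.2))]
  · have a1 := wt_le (nn_pos (grow_succ hτ).2.1 a.1) K (wid a.2) (lv a.1)
    set X := K * (wid a.2 + 2) + (lv a.1 + 2) ^ K with hX
    cases hc : nlt a.1.2.2.2.1 (r * (w0 + 2) + e0)
    · have hk : r * (w0 + 2) + e0 ≤ a.1.2.2.2.1 := not_lt.1 (of_decide_eq_false hc)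
      obtain ⟨-, -, b3, b4⟩ := Pre.low (w0 := w0) ha.1 (show 2 ≤ r by omega) (le_of_add_le_left hk)
      have a2 : UU w1 (J + 3) T (low w0 r a.1, wid a.2) ≤ (nn t (low w0 r a.1) * X : ℕ) := by
        refine iSup_le fun ⟨x, c1, c2, c3, c4, c5⟩ => ?_
        rw [hT x c1 (by rw [c3]; exact b4), Nat.cast_le, nn, nn, c2, c3, c4]
        have : lv x.1 ≤ lv a.1 := c5.trans ((Nat.sub_le _ _).trans (le_max_left _ _))
        exact Nat.mul_le_mul_left _ (Nat.add_le_add_left (Nat.pow_le_pow_left (by omega) _) _)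
      refine (add_le_add (Nat.cast_le.2 a1) (mul_le_mul_right a2 _)).trans ?_
      rw [← Nat.cast_mul, ← Nat.cast_add, Nat.cast_le, ← mul_assoc, ← add_mul]
      refine Nat.mul_le_mul_right _ ?_
      have a3 := h2 (a.1.2.2.2.1 * a.1.2.2.2.2 + 2) (by
        have := Nat.le_mul_of_pos_right a.1.2.2.2.1 ha.1.2.1
        omega) (a.1.2.2.2.1 / r * a.1.2.2.2.2 + 2) (Nat.add_le_add_right
          ((Nat.le_div_iff_mul_le (by omega)).2 (by
            rw [mul_right_comm]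
            exact le_add_right (Nat.mul_le_mul_right _ (Nat.div_mul_le_self _ _)))) _)
      rw [nn, nn, nn, ← Nat.sub_add_cancel b3, pow_add]
      refine Nat.le_of_mul_le_mul_left ?_ hE
      have a4 := Nat.mul_le_mul_left (2 ^ (a.1.1 - w0)) a3
      simp only [low]
      nlinarith [Nat.zero_le (2 ^ (a.1.1 - w0) * R * t (a.1.2.2.2.1 / r * a.1.2.2.2.2 + 2))]
    · simp only [cond_true, add_zero, Nat.cast_le]
      exact a1.trans (Nat.mul_le_mul_right _ (Nat.mul_le_mul_left _ (h1 _)))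
  · have := le_nn ht.2.1 a.1
    show _ ≤ 8 * (nn t a.1 * (wid a.2 + 1) + 1)
    gcongr

end net

end HadAux

open HadAux Vale.Agent.Common.TreeTM in
theorem had_ok {w1 : ℕ} {τs : ℕ → ℕ} (hS : SwapOK w1 τs) (hτ : Grow τs) :
    ∃ (E0 : ℕ) (τ : ℕ → ℕ), 0 < E0 ∧ Grow τ ∧ HadOK w1 E0 τ := by
  obtain ⟨w0, R, lab0, -, hR, hN⟩ := netH
  obtain ⟨E0, t, ht, hE, h⟩ := main hS hτ (finProdFinEquiv : Fin 18 × Fin 18 ≃ Fin (18 * 18))
    (by norm_num) hR (hN _ _)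
  refine ⟨E0, t, hE, ht, fun {α γ δ _ _ _ g 𝒜 u x v m q s k e N P} hx hm hq hs hk he hF hD => ?_⟩
  have hp := hm.pair (hq.pair (hs.pair (hk.pair he)))
  have h1 : ∀ a, 𝒜.D a → _ := fun a ha =>
    dm_enc (p := (m a, q a, s a, k a, e a)) (hD a ha).2.2.2 (hD a ha).2.2.1
  have h2 : ∀ a, 𝒜.D a → nn t (m a, q a, s a, k a, e a) ≤ N a * t (k a * e a + 2) :=
    fun a ha => Nat.mul_le_mul_right _ (hD a ha).1
  obtain ⟨c, hc⟩ := id hF
  obtain ⟨c', hc'⟩ := hp.2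
  refine ((Oc.appc (h g) (Oc.pair hp.1 hx) (fun a ha => by rw [(hD a ha).2.1]; exact (h1 a ha).1)
    (Dom.of (hF.bnd.mono fun a ha => ?_) (c + c' + 1) fun a ha => ⟨?_, ?_⟩)).congr
    fun a ha => by rw [(hD a ha).2.1]; exact (h1 a ha).2.symm).mono fun _ _ _ => by simp
  · show nn t _ * (wid (x a) + 1) ≤ _
    rw [(hD a ha).2.1, wid_encC]
    exact Nat.mul_le_mul_right _ ((h2 a ha).trans (Nat.le_succ _))
  · exact ((h2 a ha).trans (Nat.le_succ _)).trans ((hc a ha).2.1.trans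
      (Nat.mul_le_mul_right _ (by omega)))
  · refine (lv_le _).trans ((Nat.add_le_add ?_ (hc' a ha).2).trans (AmbAux.pw_add _ c c'))
    exact ((Nat.pow_lt_pow_iff_right one_lt_two).1
      (((le_nn ht.2.1 _).trans (h2 a ha)).trans_lt (hc a ha).2.2)).le

end Vale.Agent.P338
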