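import Mathlib.Analysis.SpecialFunctions.Pow.Real
import Mathlib.Analysis.SpecialFunctions.Pow.Asymptotics
import Mathlib.Analysis.SpecialFunctions.Pow.Continuity

/-! Sublinear solutions of the network recurrences. -/

namespace Vale.Agent.P338

/-- Monotone, positive and of sublinear power growth. -/
def Grow (τ : ℕ → ℕ) : Prop :=
  Monotone τ ∧ (∀ e, 1 ≤ τ e) ∧ ∃ θ c : ℝ, 0 < θ ∧ θ < 1 ∧ ∀ e, (τ e : ℝ) ≤ c * ((e : ℝ) + 1) ^ θ

theorem grow_one : Grow fun _ => 1 :=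
  ⟨monotone_const, fun _ => le_rfl, 1 / 2, 1, by norm_num, by norm_num, fun e => by
    simpa using Real.one_le_rpow (x := (e : ℝ) + 1) (by simp) (show (0 : ℝ) ≤ 1 / 2 by norm_num)⟩

theorem exists_tau {r R W : ℕ} (hr : 4 ≤ r) (hW : 0 < W) (h : R < W * r) {τ₁ : ℕ → ℕ}
    (h₁ : Grow τ₁) : ∃ (E e₀ : ℕ) (τ : ℕ → ℕ), Grow τ ∧ 0 < E ∧ (∀ e, τ₁ e ≤ τ e) ∧
      ∀ e, e₀ ≤ e → ∀ e' ≤ e / r + 2, (E + 1) * R * τ e' + E * W * τ₁ e ≤ E * W * τ e := by
  obtain ⟨-, h1, θ₁, c₁, h2, h3, h4⟩ := h₁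
  have hc₁ : 1 ≤ c₁ := by
    have := h4 0
    have h5 : (1 : ℝ) ≤ τ₁ 0 := by exact_mod_cast h1 0
    simp at this
    linarith
  set A : ℝ := (R + 1 + 1 : ℕ) * R with hA
  set B : ℝ := (R + 1 : ℕ) * W with hB
  have hA0 : 0 ≤ A := by positivity
  have hB0 : 0 < B := by positivity
  have hr' : (4 : ℝ) ≤ r := by exact_mod_cast hr
  have hAB : A / B < r := by
    rw [div_lt_iff₀ hB0, hA, hB]
    have : (R + 1 + 1) * R < r * ((R + 1) * W) := by nlinarith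
    exact_mod_cast this
  set ρ := (A / B + r) / 2 with hρ
  have hAB0 : 0 ≤ A / B := by positivity
  have hρ0 : 0 < ρ := by linarith
  have hρ1 : ρ < r := by linarith
  have h5 : ∀ᶠ θ in nhds (1 : ℝ), A / B < ρ ^ θ ∧ θ₁ < θ :=
    (((Real.continuousAt_const_rpow hρ0.ne').tendsto.eventually_const_lt
      (by rw [Real.rpow_one]; linarith))).and (eventually_gt_nhds h3)
  obtain ⟨θ, ⟨h6, h7⟩, h8⟩ := ((h5.filter_mono nhdsWithin_le_nhds).and
    (self_mem_nhdsWithin (s := Set.Iio (1 : ℝ)))).exists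
  have hθ : 0 < θ := h2.trans h7
  have hρθ : 0 < ρ ^ θ := by positivity
  set s := A / B / ρ ^ θ with hs
  have hs0 : 0 ≤ s := by positivity
  have hs1 : s < 1 := (div_lt_one hρθ).mpr h6
  set c := (A / B + c₁) / (1 - s) with hc
  have hc' : c * (1 - s) = A / B + c₁ := div_mul_cancel₀ _ (by linarith)
  have hc0 : 0 ≤ c := div_nonneg (by linarith) (by linarith)
  have hx : ∀ e : ℕ, 1 ≤ ((e : ℝ) + 1) ^ θ := fun e => Real.one_le_rpow (by simp) hθ.le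
  have h9 : ∀ e, (τ₁ e : ℝ) ≤ c₁ * ((e : ℝ) + 1) ^ θ := fun e => (h4 e).trans
    (mul_le_mul_of_nonneg_left (Real.rpow_le_rpow_of_exponent_le (by simp) h7.le) (by linarith))
  have h10 : ∀ e, τ₁ e ≤ ⌈c * ((e : ℝ) + 1) ^ θ⌉₊ := fun e => by
    rw [← Nat.cast_le (α := ℝ)]
    refine (h9 e).trans (le_trans ?_ (Nat.le_ceil _))
    exact mul_le_mul_of_nonneg_right (by nlinarith) (by positivity)
  have hd : 0 < ρ⁻¹ - (r : ℝ)⁻¹ := sub_pos.mpr (inv_strictAnti₀ hρ0 hρ1)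
  refine ⟨R + 1, ⌈3 / (ρ⁻¹ - (r : ℝ)⁻¹)⌉₊, fun e => ⌈c * ((e : ℝ) + 1) ^ θ⌉₊, ⟨fun a b hab =>
    Nat.ceil_mono (by gcongr), fun e => (h1 e).trans (h10 e), θ, c + 1, hθ, h8, fun e => ?_⟩,
    R.succ_pos, h10, fun e he e' he' => ?_⟩
  · have := Nat.ceil_lt_add_one (show 0 ≤ c * ((e : ℝ) + 1) ^ θ by positivity)
    have := hx e
    linarith
  · rw [Nat.ceil_le, div_le_iff₀ hd] at he
    have h11 : (e' : ℝ) + 1 ≤ (e + 1) / ρ := by
      have h12 : (e' : ℝ) ≤ (e / r : ℕ) + 2 := by exact_mod_cast he'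
      have h13 : ((e / r : ℕ) : ℝ) ≤ e / r := Nat.cast_div_le
      have : 0 < ρ⁻¹ := by positivity
      rw [div_eq_mul_inv] at h13 ⊢
      linarith
    have h12 := Real.rpow_le_rpow (by positivity) h11 hθ.le
    rw [Real.div_rpow (by positivity) hρ0.le] at h12
    have h13 := (Nat.ceil_lt_add_one (show 0 ≤ c * ((e' : ℝ) + 1) ^ θ by positivity)).le
    have h14 := Nat.le_ceil (c * ((e : ℝ) + 1) ^ θ)
    rw [← Nat.cast_le (α := ℝ), Nat.cast_add, Nat.cast_mul, Nat.cast_mul, Nat.cast_mul,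
      Nat.cast_mul, Nat.cast_mul, Nat.cast_mul, ← hA, ← hB]
    have h15 := h9 e
    have h16 := hx e
    set x := ((e : ℝ) + 1) ^ θ
    have h17 : A = B * (A / B) := by field_simp
    have h18 : A / B * (c * (x / ρ ^ θ)) = s * c * x := by rw [hs]; ring
    have h19 : A / B * (⌈c * ((e' : ℝ) + 1) ^ θ⌉₊ : ℝ) ≤ s * c * x + A / B := by
      rw [← h18, ← mul_add_one]
      exact mul_le_mul_of_nonneg_left (h13.trans (by gcongr)) hAB0
    rw [h17, mul_assoc, ← mul_add]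
    refine mul_le_mul_of_nonneg_left (le_trans ?_ h14) hB0.le
    nlinarith

end Vale.Agent.P338
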