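import Vale.Agent.P338.XorA

/-! Many controlled bit flips of the position at the cost of four exchanges. -/

namespace Vale.Agent.P338

open Vale.Agent.Common.TreeTM

/-- Geometry: `k` bits at the positions `q + s j`, controls `c` positions higher, `k * e` spare
bits at the top and a little more below `q`. -/
def XorPre (w1 : ℕ) (fl : Bool) (m q s k e c : ℕ) : Prop :=
  0 < k ∧ k ≤ 2 ^ e ∧ k ≤ 2 ^ c ∧ 0 < c ∧ c < s ∧
    (∀ j < k, q + s * j + (if fl then c else 0) + k * e < m) ∧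
      k * e + 2 + w1 * (k * e + 3).size ≤ q

variable {α γ δ : Type} [Enc α] [Enc γ] [Enc δ] {g : γ → δ} {𝒜 : Amb α}
  {u : (γ → ℕ∞) → α → ℕ∞}

namespace XorAux

open Vale.Agent.P337 Finset

theorem tc_nm {e : ℕ} {t : α → List ℕ} {B top : α → ℕ} {d : α → ℕ → ℕ} (ht : TC e t)
    (hB : TC e B) (hd : TC e fun p : α × ℕ => d p.1 p.2) (htop : TC e top) :
    TC e fun a => nm (B a) (t a).length (d a) (top a) := by
  have h1 : TC e fun p : α × ℕ => d p.1 p.2 * B p.1 ^ ((t p.1).take p.2).length :=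
    TC.mul hd (tc_powLen (TC.comp hB TC.fst') (tc_take (TC.comp ht TC.fst') TC.snd'))
  have h2 : TC e fun a => ((idx (t a)).map fun j => d a j * B a ^ ((t a).take j).length).sum +
      top a * B a ^ (t a).length :=
    TC.add (TC.sum (TC.map (f := fun a j => d a j * B a ^ ((t a).take j).length) h1
      (TC.idx ht))) (TC.mul htop (tc_powLen hB ht))
  refine h2.of_eq fun a => ?_
  rw [nm_eq, idx, ← sum_congr rfl fun j (hj : j ∈ range (t a).length) =>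
    show d a j * B a ^ ((t a).take j).length = d a j * B a ^ j by
      rw [List.length_take, min_eq_left (mem_range.1 hj).le]]
  rfl

theorem tc_gam {e : ℕ} (fl : Bool) {h : α → ℕ} (hh : TC e h) :
    TC e fun a => gam fl (h a) :=
  TC.cond (TC.const fl) (tc_mod hh (TC.const 2)) (TC.const 1)

theorem tc_spv {e : ℕ} (i : ℕ × ℕ × ℕ) {U h j : α → ℕ} (hU : TC e U) (hh : TC e h)
    (hj : TC e j) : TC e fun a => spv i (U a) (h a) (j a) :=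
  have h := tc_mod (tc_dg hU hh hj) (TC.const 2)
  TC.add (TC.mul (TC.const _) h) (TC.mul (TC.const _) (TC.sub (TC.const 1) h))

theorem tc_smv {e : ℕ} (i : ℕ × ℕ × ℕ) {U h j : α → ℕ} (hU : TC e U) (hh : TC e h)
    (hj : TC e j) : TC e fun a => smv i (U a) (h a) (j a) :=
  TC.mul (TC.const _) (tc_mod (tc_dg hU hh hj) (TC.const 2))

theorem tc_lowd {e : ℕ} (fl : Bool) {L sp sm x : α → ℕ} (hL : TC e L) (hp : TC e sp)
    (hm : TC e sm) (hx : TC e x) : TC e fun a => lowd fl (L a) (sp a) (sm a) (x a) :=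
  have h := tc_gam fl (TC.div hx hL)
  TC.sub (TC.add (tc_mod hx hL) (TC.mul h hp)) (TC.mul h hm)

theorem tc_okd {e : ℕ} (fl : Bool) {L L' sp sm x : α → ℕ} (hL : TC e L)
    (hL' : TC e L') (hp : TC e sp) (hm : TC e sm) (hx : TC e x) :
    TC e fun a => okd fl (L a) (L' a) (sp a) (sm a) (x a) :=
  have h := tc_gam fl (TC.div hx hL)
  TC.and (TC.nlt (TC.mul h hm) (TC.add (TC.add (tc_mod hx hL) (TC.mul h hp)) (TC.const 1)))
    (TC.nlt (tc_lowd fl hL hp hm hx) hL')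

theorem tc_up {β σ : Type} [Enc β] [Enc σ] {e : ℕ} {x : α → σ} (hx : TC e x) :
    TC e fun p : α × β => x p.1 := TC.comp hx TC.fst'

theorem tc_phi {e : ℕ} (fl : Bool) (i : ℕ × ℕ × ℕ) {t : α → List ℕ} {D L L' U h y : α → ℕ}
    (ht : TC e t) (hD : TC e D) (hL : TC e L) (hL' : TC e L') (hU : TC e U) (hh : TC e h)
    (hy : TC e y) : TC e fun a => phi fl i (t a).length (D a) (L a) (L' a) (U a) (h a) (y a) :=
  have hz := tc_dg (tc_up (TC.mul hD hL)) (tc_up hy) TC.snd'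
  tc_nm (d := fun a j => dg (D a * L a) (y a) j / L a * L' a + lowd fl (L a)
    (spv i (U a) (h a) j) (smv i (U a) (h a) j) (dg (D a * L a) (y a) j)) ht (TC.mul hD hL')
    (TC.add (TC.mul (TC.div hz (tc_up hL)) (tc_up hL')) (tc_lowd fl (tc_up hL)
      (tc_spv i (tc_up hU) (tc_up hh) TC.snd') (tc_smv i (tc_up hU) (tc_up hh) TC.snd') hz))
    (TC.div hy (tc_powLen (TC.mul hD hL) ht))

theorem tc_kap {e : ℕ} (fl : Bool) (i : ℕ × ℕ × ℕ) {t : α → List ℕ} {D L L' U X' h y : α → ℕ}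
    (ht : TC e t) (hD : TC e D) (hL : TC e L) (hL' : TC e L') (hU : TC e U) (hX : TC e X')
    (hh : TC e h) (hy : TC e y) :
    TC e fun a => kap fl i (t a).length (D a) (L a) (L' a) (U a) (X' a) (h a) (y a) :=
  TC.cond (TC.and (TC.all (f := fun a j => okd fl (L a) (L' a) (spv i (U a) (h a) j)
    (smv i (U a) (h a) j) (dg (D a * L a) (y a) j)) (tc_okd fl (tc_up hL) (tc_up hL')
      (tc_spv i (tc_up hU) (tc_up hh) TC.snd') (tc_smv i (tc_up hU) (tc_up hh) TC.snd')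
      (tc_dg (tc_up (TC.mul hD hL)) (tc_up hy) TC.snd')) (TC.idx ht))
    (TC.nlt (tc_phi fl i ht hD hL hL' hU hh hy) hX)) (TC.const 0) (TC.const 1)

theorem tc_sh {e : ℕ} (fl : Bool) (i : ℕ) {t : α → List ℕ} {D L U Y h : α → ℕ}
    (ht : TC e t) (hD : TC e D) (hL : TC e L) (hU : TC e U) (hY : TC e Y) (hh : TC e h) :
    TC e fun a => sh fl i (t a).length (D a) (L a) (U a) (Y a) (h a) :=
  have hz := tc_dg (tc_up (TC.mul hD hL)) (tc_up (tc_mod hh hY)) TC.snd'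
  tc_nm (d := fun a j => gam fl (dg (D a * L a) (h a % Y a) j / L a) *
    ((dg (D a * L a) (h a % Y a) j % L a + i) % 2)) ht hU
    (TC.mul (tc_gam fl (TC.div hz (tc_up hL)))
      (tc_mod (TC.add (tc_mod hz (tc_up hL)) (TC.const i)) (TC.const 2))) (TC.const 0)

/-- The rearrangement `ψ` of arrays of length `n'` into arrays of length `n` is cheap. -/
def Pass (g : γ → δ) (𝒜 : Amb α) (P n n' : α → ℕ) (ψ : α → ℕ → ℕ) : Prop :=
  ∀ l : α → Arr, Cl g 𝒜 l → (∀ a, 𝒜.D a → Wf (P a) (l a) ∧ l a ≠ [] ∧ (l a).length = n' a) →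
    Cl g 𝒜 fun a => pull (n a) (ψ a) (l a)

variable {P N n n' n'' : α → ℕ}

theorem Pass.comp {ψ ψ' : α → ℕ → ℕ} (h1 : Pass g 𝒜 P n n' ψ) (h2 : Pass g 𝒜 P n' n'' ψ')
    (h : ∀ a, 𝒜.D a → 0 < n' a ∧ ∀ o < n a, ψ a o < n' a) :
    Pass g 𝒜 P n n'' fun a o => ψ' a (ψ a o) := fun l hl hw =>
  (h1 _ (h2 l hl hw) fun a ha => ⟨wf_pull (hw a ha).1 (hw a ha).2.1 _ _,
    List.length_pos_iff.1 (by rw [length_pull]; exact (h a ha).1), length_pull _ _ _⟩).congr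
      fun a ha => (pull_pull _ (h a ha).2).symm

theorem pass_px (fl : Bool) (i : ℕ × ℕ × ℕ) {k D L L' U H w X X' : α → ℕ}
    (hk : Sm g 𝒜 fun a => List.range (k a)) (hD : Sm g 𝒜 D) (hL : Sm g 𝒜 L) (hL' : Sm g 𝒜 L')
    (hU : Sm g 𝒜 U) (hH : Sm g 𝒜 H) (hw : Sm g 𝒜 w) (hX : Sm g 𝒜 X) (hX' : Sm g 𝒜 X')
    (hF : Fit 𝒜 N P) (h : ∀ a, 𝒜.D a → n a = H a * X a * w a ∧ n' a = H a * X' a * w a ∧
      n a ≤ N a ∧ n' a ≤ N a ∧ 0 < D a * L a) :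
    Pass g 𝒜 P n n' fun a =>
      px fl i (k a) (D a) (L a) (L' a) (U a) (H a) (w a) (X a) (X' a) := by
  intro l hl hwf
  have t0 : TC 0 fun p : List ℕ × ℕ × ℕ × ℕ × ℕ × ℕ × ℕ × ℕ × ℕ => p.2 := TC.snd'
  have t1 := TC.snd t0
  have t2 := TC.snd t1
  have t3 := TC.snd t2
  have t4 := TC.snd t3
  have t5 := TC.snd t4
  have t6 := TC.snd t5
  refine Cl.congr (oc_dig (π := List ℕ × ℕ × ℕ × ℕ × ℕ × ℕ × ℕ × ℕ × ℕ)
    (H := fun p => p.2.2.2.2.2.1) (w := fun p => p.2.2.2.2.2.2.1) (X := fun p => p.2.2.2.2.2.2.2.1)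
    (X' := fun p => p.2.2.2.2.2.2.2.2)
    (φ := fun p => phi fl i p.1.length p.2.1 p.2.2.1 p.2.2.2.1 p.2.2.2.2.1)
    (κ := fun p => kap fl i p.1.length p.2.1 p.2.2.1 p.2.2.2.1 p.2.2.2.2.1 p.2.2.2.2.2.2.2.2)
    1 hl (hk.pair (hD.pair (hL.pair (hL'.pair (hU.pair (hH.pair (hw.pair (hX.pair hX'))))))))
    (TC.fst t4) (TC.fst t5) (TC.fst t6) (TC.snd t6)
    (tc_phi fl i (tc_up TC.fst') (tc_up (TC.fst t0)) (tc_up (TC.fst t1)) (tc_up (TC.fst t2))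
      (tc_up (TC.fst t3)) (TC.fst TC.snd') (TC.snd TC.snd'))
    (tc_kap fl i (tc_up TC.fst') (tc_up (TC.fst t0)) (tc_up (TC.fst t1)) (tc_up (TC.fst t2))
      (tc_up (TC.fst t3)) (tc_up (TC.snd t6)) (TC.fst TC.snd') (TC.snd TC.snd'))
    hF fun a ha => ?_) fun a ha => ?_
  · obtain ⟨h1, h2, h3, h4, h5⟩ := h a ha
    obtain ⟨e1, e2, e3⟩ := hwf a ha
    exact ⟨e1, e2, e3 ▸ h4, e3.trans h2, h1 ▸ h3, fun _ _ => ⟨fun x _ hx => (kap_lt.1 hx).2,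
      fun x x' hx _ e4 e5 => phi_mono h5 hx e5 (e4 ▸ e5)⟩⟩
  · obtain ⟨h1, h2, -⟩ := h a ha
    simp only [List.length_range, (hwf a ha).2.2, h1, h2]
    rfl

theorem pass_rot {π : Type} [Enc π] {p : α → π} {w X : α → ℕ} {r : π → ℕ → ℕ} (hp : Sm g 𝒜 p)
    (hw : Sm g 𝒜 w) (hX : Sm g 𝒜 X) (hr : TC 0 fun q : π × ℕ => r q.1 q.2) (hF : Fit 𝒜 N P)
    (h : ∀ a, 𝒜.D a → n a ≤ N a ∧ w a * X a ∣ n a) :
    Pass g 𝒜 P n n fun a => rotIx (w a) (X a) (r (p a)) := by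
  intro l hl hwf
  refine Cl.congr (oc_rot (π := π × ℕ × ℕ) (w := fun q => q.2.1) (X := fun q => q.2.2)
    (r := fun q => r q.1) hl (hp.pair (hw.pair hX)) (by fun_prop) (by fun_prop)
    (TC.comp (g := fun q : (π × ℕ × ℕ) × ℕ => (q.1.1, q.2)) hr (by fun_prop)) hF fun a ha => ?_)
    fun a ha => by rw [(hwf a ha).2.2]
  obtain ⟨e1, e2, e3⟩ := hwf a ha
  exact ⟨e1, e2, e3 ▸ (h a ha).1, e3 ▸ (h a ha).2⟩

/-- The parameters of the network. -/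
def pm (fl : Bool) (m q s k e c : ℕ) : Pm :=
  ⟨fl, k, 2 ^ (s - c), 2 ^ c, 2 ^ e, 2 ^ (m - k * e - q), 2 ^ (k * e + 2), 2 ^ (q - (k * e + 2))⟩

section
variable {w1 : ℕ} {fl : Bool} {m q s k e c : ℕ}

theorem pre_le (h : XorPre w1 fl m q s k e c) : q + k * e < m ∧ k * e + 2 ≤ q ∧ k ≤ m ∧ e ≤ m := by
  obtain ⟨h0, -, -, h1, h2, h3, h4⟩ := h
  have e1 := h3 0 h0
  have e2 := h3 (k - 1) (by omega)
  have e3 : 1 * (k - 1) ≤ s * (k - 1) := Nat.mul_le_mul_right _ (by omega)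
  have e4 : 1 * e ≤ k * e := Nat.mul_le_mul_right _ h0
  omega

theorem pre_dvd (h : XorPre w1 fl m q s k e c) :
    ∀ j < k, 2 * ((2 ^ s) ^ j * if fl then 2 ^ c else 1) ∣ 2 ^ (m - k * e - q) := by
  intro j hj
  have := h.2.2.2.2.2.1 j hj
  rw [← pow_mul, show (if fl then 2 ^ c else 1) = 2 ^ (if fl then c else 0) by
    split_ifs <;> rfl, ← pow_add, ← pow_succ']
  exact pow_dvd_pow _ (by omega)

theorem pm_ok (h : XorPre w1 fl m q s k e c) : (pm fl m q s k e c).Ok := by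
  refine ⟨Nat.two_pow_pos _, Nat.two_pow_pos _, dvd_pow_self _ h.2.2.2.1.ne', h.2.2.1,
    Nat.two_pow_pos _, (pow_bound h.2.1).trans ?_, fun j hj => ?_⟩
  · dsimp only [pm]
    rw [← pow_mul, mul_comm e, pow_add]
    omega
  · dsimp only [pm]
    rw [← pow_add, Nat.sub_add_cancel h.2.2.2.2.1.le]
    exact (Nat.mul_dvd_mul_left 2 (dvd_mul_right _ _)).trans (pre_dvd h j hj)

theorem pm_n (h : XorPre w1 fl m q s k e c) : (pm fl m q s k e c).n0 = 2 ^ m ∧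
    (pm fl m q s k e c).n1 = 4 * 2 ^ m ∧ (pm fl m q s k e c).n2 = 64 * 2 ^ m := by
  have h1 := pre_le h
  have h2 : 2 ^ m = 2 ^ (k * e) * 2 ^ (m - k * e - q) * 2 ^ (k * e + 2) * 2 ^ (q - (k * e + 2)) := by
    simp only [← pow_add]
    congr 1
    omega
  simp only [Pm.n0, Pm.n1, Pm.n2, pm]
  rw [← pow_mul, mul_comm e]
  refine ⟨h2.symm, ?_, ?_⟩ <;> conv_rhs => rw [h2]
  · conv_lhs => lhs; lhs; lhs; rw [pow_add]
    ring
  · conv_lhs => lhs; lhs; lhs; rw [pow_add]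
    ring

theorem xorIx_pos (h : XorPre w1 fl m q s k e c) {y w r : ℕ} (u : ℕ)
    (hw : w < 2 ^ (k * e + 2)) (hr : r < 2 ^ (q - (k * e + 2))) :
    xorIx q s k fl (q + c) (((u * 2 ^ (m - k * e - q) + y) * 2 ^ (k * e + 2) + w) *
      2 ^ (q - (k * e + 2)) + r) = ((u * 2 ^ (m - k * e - q) +
        flp fl k (2 ^ (s - c)) (2 ^ c) y) * 2 ^ (k * e + 2) + w) * 2 ^ (q - (k * e + 2)) + r := by
  have h1 : 2 ^ (k * e + 2) * 2 ^ (q - (k * e + 2)) = 2 ^ q := by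
    rw [← pow_add, Nat.add_sub_cancel' (pre_le h).2.1]
  have h2 : w * 2 ^ (q - (k * e + 2)) + r < 2 ^ q := by
    simpa [h1] using ix_lt (H := 1) Nat.one_pos hw hr
  rw [add_mul, add_mul _ w, mul_assoc, mul_assoc, h1, add_assoc, add_assoc]
  exact xorIx_eq u y h.2.2.2.1 h.2.2.2.2.1 (pre_dvd h) h2

end

theorem pass_sh (fl : Bool) (i : ℕ) {F : ℕ × ℕ → ℕ} (hF' : TC 0 F) {k D L U Y w X : α → ℕ}
    (hk : Sm g 𝒜 fun a => List.range (k a)) (hD : Sm g 𝒜 D) (hL : Sm g 𝒜 L) (hU : Sm g 𝒜 U)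
    (hY : Sm g 𝒜 Y) (hw : Sm g 𝒜 w) (hX : Sm g 𝒜 X) (hF : Fit 𝒜 N P)
    (h : ∀ a, 𝒜.D a → n a ≤ N a ∧ w a * X a ∣ n a) :
    Pass g 𝒜 P n n fun a => rotIx (w a) (X a) fun h =>
      F (X a, sh fl i (k a) (D a) (L a) (U a) (Y a) h) := by
  have h1 : TC 0 fun p : (List ℕ × ℕ × ℕ × ℕ × ℕ × ℕ) × ℕ =>
      sh fl i p.1.1.length p.1.2.1 p.1.2.2.1 p.1.2.2.2.1 p.1.2.2.2.2.1 p.2 :=
    tc_sh fl i (tc_up TC.fst') (tc_up (TC.fst TC.snd')) (tc_up (TC.fst (TC.snd TC.snd')))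
      (tc_up (TC.fst (TC.snd (TC.snd TC.snd')))) (tc_up (TC.fst (TC.snd (TC.snd (TC.snd TC.snd')))))
      TC.snd'
  intro l hl hwf
  exact Cl.congr (pass_rot (π := List ℕ × ℕ × ℕ × ℕ × ℕ × ℕ) (r := fun p h => F (p.2.2.2.2.2,
    sh fl i p.1.length p.2.1 p.2.2.1 p.2.2.2.1 p.2.2.2.2.1 h))
    (hk.pair (hD.pair (hL.pair (hU.pair (hY.pair hX))))) hw hX
    (TC.comp hF' (TC.pair (by fun_prop) h1)) hF h l hl hwf) fun a _ => by
      simp only [List.length_range]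

theorem sm_mul {x y : α → ℕ} (hx : Sm g 𝒜 x) (hy : Sm g 𝒜 y) : Sm g 𝒜 fun a => x a * y a :=
  Sm.tc (F := fun p : ℕ × ℕ => p.1 * p.2) (by fun_prop) (hx.pair hy)

theorem sm_sub {x y : α → ℕ} (hx : Sm g 𝒜 x) (hy : Sm g 𝒜 y) : Sm g 𝒜 fun a => x a - y a :=
  Sm.tc (F := fun p : ℕ × ℕ => p.1 - p.2) (by fun_prop) (hx.pair hy)

theorem sm_add (n : ℕ) {x : α → ℕ} (hx : Sm g 𝒜 x) : Sm g 𝒜 fun a => x a + n :=
  Sm.tc (F := fun p : ℕ => p + n) (by fun_prop) hx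

theorem pass_all {Q : α → Pm} {fl : Bool} (hfl : ∀ a, (Q a).fl = fl)
    (ht : Sm g 𝒜 fun a => List.range (Q a).k) (hD : Sm g 𝒜 fun a => (Q a).D)
    (hL : Sm g 𝒜 fun a => (Q a).L) (hE : Sm g 𝒜 fun a => (Q a).E) (hY : Sm g 𝒜 fun a => (Q a).Y)
    (hK : Sm g 𝒜 fun a => (Q a).K) (hC : Sm g 𝒜 fun a => (Q a).C)
    (hEk : Sm g 𝒜 fun a => (Q a).E ^ (Q a).k) (hF : Fit 𝒜 N P)
    (PS : Pass g 𝒜 P (fun a => (Q a).n2) (fun a => (Q a).n2) fun a => (Q a).sw)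
    (hok : ∀ a, 𝒜.D a → (Q a).Ok)
    (hn : ∀ a, 𝒜.D a → (Q a).n0 ≤ N a ∧ (Q a).n1 ≤ N a ∧ (Q a).n2 ≤ N a ∧
      0 < (Q a).n1 ∧ 0 < (Q a).n2) {χ : α → ℕ → ℕ}
    (hχ : ∀ a, 𝒜.D a → ∀ u y w c, w < (Q a).K → c < (Q a).C →
      χ a (((u * (Q a).Y + y) * (Q a).K + w) * (Q a).C + c) = ((u * (Q a).Y +
        flp (Q a).fl (Q a).k (Q a).D (Q a).L y) * (Q a).K + w) * (Q a).C + c) :
    Pass g 𝒜 P (fun a => (Q a).n0) (fun a => (Q a).n0) χ := by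
  have h1 : Sm g 𝒜 fun _ => 1 := Sm.tc (F := fun _ : ℕ => 1) (by fun_prop) hD
  have hY' : Sm g 𝒜 fun a => 16 * (Q a).Y := Sm.tc (F := fun p : ℕ => 16 * p) (by fun_prop) hY
  have P1 : Pass g 𝒜 P (fun a => (Q a).n0) (fun a => (Q a).n1) fun a => (Q a).s1 := by
    simp only [Pm.s1, hfl]
    exact pass_px fl _ ht h1 hE (sm_add 1 hE) (sm_add 1 hE) h1 (sm_mul (sm_mul hY hK) hC) hEk hK hF
      fun a ha => ⟨by rw [Pm.n0]; ring, by rw [Pm.n1]; ring, (hn a ha).1, (hn a ha).2.1,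
        Nat.mul_pos one_pos (hok a ha).2.2.2.2.1⟩
  have P2 : Pass g 𝒜 P (fun a => (Q a).n1) (fun a => (Q a).n2) fun a => (Q a).s2 := by
    simp only [Pm.s2, hfl]
    exact pass_px fl _ ht hD hL (sm_add 1 hL) (sm_add 1 hE) hK (sm_mul hK hC) hY hY' hF
      fun a ha => ⟨by rw [Pm.n1]; ring, by rw [Pm.n2]; ring, (hn a ha).2.1, (hn a ha).2.2.1,
        Nat.mul_pos (hok a ha).1 (hok a ha).2.1⟩
  have P4 : Pass g 𝒜 P (fun a => (Q a).n2) (fun a => (Q a).n2) fun a => (Q a).s4 := by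
    simp only [Pm.s4, hfl]
    exact pass_px fl _ ht hD (sm_add 1 hL) (sm_add 1 hL) (sm_add 1 hE) hK (sm_mul hK hC) hY' hY' hF
      fun a ha => ⟨by rw [Pm.n2]; ring, by rw [Pm.n2]; ring, (hn a ha).2.2.1, (hn a ha).2.2.1,
        Nat.mul_pos (hok a ha).1 (Nat.succ_pos _)⟩
  have P6 : Pass g 𝒜 P (fun a => (Q a).n2) (fun a => (Q a).n1) fun a => (Q a).s6 := by
    simp only [Pm.s6, hfl]
    exact pass_px fl _ ht hD (sm_add 1 hL) hL (sm_add 1 hE) hK (sm_mul hK hC) hY' hY hF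
      fun a ha => ⟨by rw [Pm.n2]; ring, by rw [Pm.n1]; ring, (hn a ha).2.2.1, (hn a ha).2.1,
        Nat.mul_pos (hok a ha).1 (Nat.succ_pos _)⟩
  have P7 : Pass g 𝒜 P (fun a => (Q a).n1) (fun a => (Q a).n0) fun a => (Q a).s7 := by
    simp only [Pm.s7, hfl]
    exact pass_px fl _ ht h1 (sm_add 1 hE) hE (sm_add 1 hE) h1 (sm_mul (sm_mul hY hK) hC) hK hEk hF
      fun a ha => ⟨by rw [Pm.n1]; ring, by rw [Pm.n0]; ring, (hn a ha).2.1, (hn a ha).1,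
        Nat.mul_pos one_pos (Nat.succ_pos _)⟩
  have hdv : ∀ a, 𝒜.D a → (Q a).n2 ≤ N a ∧ (Q a).C * (Q a).K ∣ (Q a).n2 := fun a ha =>
    ⟨(hn a ha).2.2.1, (Q a).K * (16 * (Q a).Y), by rw [Pm.n2]; ring⟩
  have P3 : Pass g 𝒜 P (fun a => (Q a).n2) (fun a => (Q a).n2) fun a => (Q a).s3 := by
    simp only [Pm.s3, hfl]
    exact pass_sh fl 0 (F := fun p => p.2) (by fun_prop) ht hD (sm_add 1 hL) (sm_add 1 hE) hY' hC
      hK hF hdv
  have P5 : Pass g 𝒜 P (fun a => (Q a).n2) (fun a => (Q a).n2) fun a => (Q a).s5 := by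
    simp only [Pm.s5, hfl]
    exact pass_sh fl 1 (F := fun p => p.1 - p.2) (by fun_prop) ht hD (sm_add 1 hL) (sm_add 1 hE) hY'
      hC hK hF hdv
  have hch : ∀ a, 𝒜.D a → ∀ o < (Q a).n0, ∃ p1 p2 p3 p4 p5 p6 p7 p8 p9 p10,
      ((Q a).s1 o = p1 ∧ (Q a).s2 p1 = p2 ∧ (Q a).sw p2 = p3 ∧ (Q a).s3 p3 = p4 ∧
      (Q a).sw p4 = p5 ∧ (Q a).s4 p5 = p6 ∧ (Q a).sw p6 = p7 ∧ (Q a).s5 p7 = p8 ∧
      (Q a).sw p8 = p9 ∧ (Q a).s6 p9 = p10 ∧ (Q a).s7 p10 = χ a o) ∧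
      p1 < (Q a).n1 ∧ p2 < (Q a).n2 ∧ p3 < (Q a).n2 ∧ p4 < (Q a).n2 ∧ p5 < (Q a).n2 ∧
      p6 < (Q a).n2 ∧ p7 < (Q a).n2 ∧ p8 < (Q a).n2 ∧ p9 < (Q a).n2 ∧ p10 < (Q a).n1 := by
    intro a ha o ho
    obtain ⟨u, y, w, r, hu, hy, hw, hr, rfl⟩ := decomp ho
    rw [hχ a ha u y w r hw hr]
    exact (Q a).chain (hok a ha) hu hy hw hr
  simp only [and_assoc, exists_and_left, exists_eq_left'] at hch
  have hP := (((((((((P1.comp P2 fun a ha => ⟨(hn a ha).2.2.2.1, fun o ho => (hch a ha o ho).2.1⟩).comp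
    PS fun a ha => ⟨(hn a ha).2.2.2.2, fun o ho => (hch a ha o ho).2.2.1⟩).comp
    P3 fun a ha => ⟨(hn a ha).2.2.2.2, fun o ho => (hch a ha o ho).2.2.2.1⟩).comp
    PS fun a ha => ⟨(hn a ha).2.2.2.2, fun o ho => (hch a ha o ho).2.2.2.2.1⟩).comp
    P4 fun a ha => ⟨(hn a ha).2.2.2.2, fun o ho => (hch a ha o ho).2.2.2.2.2.1⟩).comp
    PS fun a ha => ⟨(hn a ha).2.2.2.2, fun o ho => (hch a ha o ho).2.2.2.2.2.2.1⟩).comp
    P5 fun a ha => ⟨(hn a ha).2.2.2.2, fun o ho => (hch a ha o ho).2.2.2.2.2.2.2.1⟩).comp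
    PS fun a ha => ⟨(hn a ha).2.2.2.2, fun o ho => (hch a ha o ho).2.2.2.2.2.2.2.2.1⟩).comp
    P6 fun a ha => ⟨(hn a ha).2.2.2.2, fun o ho => (hch a ha o ho).2.2.2.2.2.2.2.2.2.1⟩).comp
    P7 fun a ha => ⟨(hn a ha).2.2.2.1, fun o ho => (hch a ha o ho).2.2.2.2.2.2.2.2.2.2⟩
  exact fun l hl hw => (hP l hl hw).congr fun a ha =>
    pull_congr fun o ho => Or.inl (hch a ha o ho).1.symm

theorem cl_xor {w1 : ℕ} {τ : ℕ → ℕ} (hS : SwapOK w1 τ) (hτ : ∀ e, 1 ≤ τ e) (fl : Bool)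
    {l : α → Arr} {m q s k e c N P : α → ℕ} (hl : Cl g 𝒜 l) (hm : Sm g 𝒜 m) (hq : Sm g 𝒜 q)
    (hs : Sm g 𝒜 s) (hk : Sm g 𝒜 k) (he : Sm g 𝒜 e) (hc : Sm g 𝒜 c)
    (hF : Fit 𝒜 (fun a => N a * τ (k a * e a + 3)) P)
    (h : ∀ a, 𝒜.D a → Wf (P a) (l a) ∧ (l a).length = 2 ^ m a ∧ 2 ^ m a ≤ N a ∧
      XorPre w1 fl (m a) (q a) (s a) (k a) (e a) (c a)) (h' : ∀ a, 𝒜.D a → s a ≤ m a + 1) :
    Cl g 𝒜 fun a => pull (2 ^ m a) (xorIx (q a) (s a) (k a) fl (q a + c a)) (l a) := by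
  have hF1 : Fit 𝒜 (fun a => 64 * N a) P := hF.mono 64 fun a _ =>
    ⟨by have := Nat.mul_le_mul_left (N a) (hτ (k a * e a + 3)); omega, by omega⟩
  have hN : Sm g 𝒜 fun a => (l a).length := Sm.of_fit hF1 (Cl.length hl) fun a ha => by
    have := h a ha; omega
  have hsz : ∀ a, 𝒜.D a → (l a).length.size = m a + 1 := fun a ha => by
    rw [(h a ha).2.1, Nat.size_pow]
  have hp : ∀ {x : α → ℕ}, Sm g 𝒜 x → (∀ a, 𝒜.D a → x a ≤ m a + 1) →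
      Sm g 𝒜 fun a => 2 ^ x a := fun hx hle =>
    (Sm.tc (F := fun p : ℕ × ℕ => pw p.1 2 p.2) (by fun_prop) (hN.pair hx)).congr fun a ha =>
      (pw_eq (hsz a ha ▸ hle a ha)).symm
  have hle := fun a ha => pre_le (h a ha).2.2.2
  have ht : Sm g 𝒜 fun a => List.range (k a) :=
    (Sm.tc (F := fun p : ℕ × ℕ => rg p.1 p.2) (by fun_prop) (hN.pair hk)).congr fun a ha =>
      (rg_eq (N := (l a).length) (by have := hle a ha; have := hsz a ha; omega)).symm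
  have hY := hp (sm_sub (sm_sub hm (sm_mul hk he)) hq) fun a ha => by omega
  have hK := hp (sm_add 2 (sm_mul hk he)) fun a ha => by have := hle a ha; omega
  have hC := hp (sm_sub hq (sm_add 2 (sm_mul hk he))) fun a ha => by have := hle a ha; omega
  have hn := fun a ha => pm_n (h a ha).2.2.2
  refine (pass_all (Q := fun a => pm fl (m a) (q a) (s a) (k a) (e a) (c a)) (fun _ => rfl) ht
    (hp (sm_sub hs hc) fun a ha => by have := h' a ha; omega)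
    (hp hc fun a ha => by have := h' a ha; have := (h a ha).2.2.2.2.2.2.2.1; omega)
    (hp he fun a ha => by have := hle a ha; omega) hY hK hC
    ((hp (sm_mul hk he) fun a ha => by have := hle a ha; omega).congr fun a _ => by
      simp only [pm]; rw [← pow_mul, mul_comm]) hF1 (fun l' hl' hw => ?_)
    (fun a ha => pm_ok (h a ha).2.2.2) (fun a ha => ?_)
    (χ := fun a => xorIx (q a) (s a) (k a) fl (q a + c a))
    (fun a ha u y w r hw hr => xorIx_pos (h a ha).2.2.2 u hw hr) l hl fun a ha =>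
      ⟨(h a ha).1, List.length_pos_iff.1 ?_, (h a ha).2.1.trans (hn a ha).1.symm⟩).congr
    fun a ha => by simp only [(hn a ha).1]
  · refine Cl.congr (hS (N := fun a => 64 * N a) (P := P) hl' hK
      (Sm.tc (F := fun p : ℕ => 16 * p) (by fun_prop) hY) hC
      (hF.mono 64 fun a _ => ⟨?_, by omega⟩) fun a ha => ?_) fun a ha => by rw [(hw a ha).2.2]; rfl
    · rw [Nat.size_pow, mul_assoc, add_assoc]
      omega
    · obtain ⟨e1, e2, e3⟩ := hw a ha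
      have e4 := (h a ha).2.2.2.2.2.2.2.2.2
      have e5 := (h a ha).2.2.1
      refine ⟨e1, e2, by rw [e3.trans (hn a ha).2.2]; omega, by rw [e3]; exact dvd_rfl, ?_⟩
      rw [Nat.size_pow, add_assoc]
      exact pow_dvd_pow _ (by norm_num; omega)
  · have := (h a ha).2.2.1
    have := Nat.two_pow_pos (m a)
    rw [(hn a ha).1, (hn a ha).2.1, (hn a ha).2.2]
    omega
  · rw [(h a ha).2.1]; exact Nat.two_pow_pos _

theorem pre_min {w1 : ℕ} {fl : Bool} {m q s k e c : ℕ} (h : XorPre w1 fl m q s k e c) :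
    XorPre w1 fl m q (min s (m + 1)) k e (min c m) ∧
      xorIx q (min s (m + 1)) k fl (q + min c m) = xorIx q s k fl (q + c) := by
  have hle := pre_le h
  obtain ⟨h0, h1, h2, h3, h4, h5, h6⟩ := h
  have hs : ∀ j < k, min s (m + 1) * j = s * j := fun j hj => by
    rcases Nat.eq_zero_or_pos j with rfl | hj0
    · rfl
    · have := h5 j hj
      have := Nat.mul_le_mul_left s (Nat.succ_le_of_lt hj0)
      rw [min_eq_left (by omega)]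
  have hc : fl = true → min c m = c := fun hf => by
    have := h5 0 h0
    rw [if_pos hf] at this
    omega
  refine ⟨⟨h0, h1, ?_, by omega, by omega, fun j hj => ?_, h6⟩, funext fun p => ?_⟩
  · rcases le_total c m with h7 | h7
    · rwa [min_eq_left h7]
    · rw [min_eq_right h7]
      exact hle.2.2.1.trans Nat.lt_two_pow_self.le
  · have := h5 j hj
    rw [hs j hj]
    split_ifs at this ⊢ <;> omega
  · rw [xorIx, xorIx, sum_congr rfl fun j hj => ?_]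
    rw [hs j (mem_range.1 hj)]
    cases fl
    · rfl
    · rw [hc rfl]

end XorAux

open XorAux

theorem oc_xor {w1 : ℕ} {τ : ℕ → ℕ} (hS : SwapOK w1 τ) (hτ : ∀ e, 1 ≤ τ e) (fl : Bool)
    {l : α → Arr} {m q s k e c N P : α → ℕ} (hl : Oc g 𝒜 u l) (hm : Sm g 𝒜 m) (hq : Sm g 𝒜 q)
    (hs : Sm g 𝒜 s) (hk : Sm g 𝒜 k) (he : Sm g 𝒜 e) (hc : Sm g 𝒜 c)
    (hF : Fit 𝒜 (fun a => N a * τ (k a * e a + 3)) P)
    (h : ∀ a, 𝒜.D a → Wf (P a) (l a) ∧ (l a).length = 2 ^ m a ∧ 2 ^ m a ≤ N a ∧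
      XorPre w1 fl (m a) (q a) (s a) (k a) (e a) (c a)) :
    Oc g 𝒜 u fun a => pull (2 ^ m a) (xorIx (q a) (s a) (k a) fl (q a + c a)) (l a) := by
  have hs' := Sm.tc (F := fun p : ℕ × ℕ => min p.1 (p.2 + 1)) (by fun_prop) (hs.pair hm)
  have hc' := Sm.tc (F := fun p : ℕ × ℕ => min p.1 p.2) (by fun_prop) (hc.pair hm)
  refine ArrAux.oc_wrap hl (F := fun p =>
    pull (2 ^ m p.1) (xorIx (q p.1) (s p.1) (k p.1) fl (q p.1 + c p.1)) p.2)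
    ((cl_xor hS hτ fl (Cl.snd Cl.id) hm.ext hq.ext hs'.ext hk.ext he.ext hc'.ext hF.ext
      (fun p hp => ?_) fun p _ => min_le_right _ _).congr fun p hp => ?_)
  · obtain ⟨h1, h2, h3, h4⟩ := h p.1 hp.1
    rw [hp.2]
    exact ⟨h1, h2, h3, (pre_min h4).1⟩
  · rw [(pre_min (h p.1 hp.1).2.2.2).2]

theorem xorIx_lt {w1 : ℕ} {fl : Bool} {m q s k e c p : ℕ} (h : XorPre w1 fl m q s k e c)
    (hp : p < 2 ^ m) : xorIx q s k fl (q + c) p < 2 ^ m := by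
  rw [← (pm_n h).1] at hp ⊢
  obtain ⟨u, y, w, r, hu, hy, hw, hr, rfl⟩ := decomp hp
  obtain ⟨h1, h2, h3, -, -, -, h4⟩ := pm_ok h
  exact (xorIx_pos h u hw hr).trans_lt (pos_lt hu (flp_lt h1 h2 h3 h4 hy) hw hr)

end Vale.Agent.P338
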