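import Vale.Agent.P338.CRep
import Vale.Agent.P338.Xor
import Vale.Agent.P338.Tau

/-! Permutations of positions by additive maps on groups of bits. -/

namespace Vale.Agent.P338.HadAux

open Function Finset Vale.Agent.P344 Vale.Agent.Common.TreeTM

/-- The parameters `m, q, s, k, e`. -/
abbrev Par : Type := ℕ × ℕ × ℕ × ℕ × ℕ

def lv (p : Par) : ℕ :=
  max p.1 (max p.2.1.size (max p.2.2.1.size (max p.2.2.2.1.size p.2.2.2.2.size)))

theorem sz_size (n : ℕ) : sz n ≤ 4 * n.size + 1 := sz_nat_le (Nat.lt_size_self n)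

theorem size_le_self (n : ℕ) : n.size ≤ n := Nat.size_le.2 Nat.lt_two_pow_self

theorem size_le_sz (n : ℕ) : n.size ≤ sz n := Nat.size_le.2 (lt_two_pow_sz n)

theorem sz_par (p : Par) : sz p ≤ 20 * lv p + 9 := by
  obtain ⟨m, q, s, k, e⟩ := p
  have := sz_size m
  have := sz_size q
  have := sz_size s
  have := sz_size k
  have := sz_size e
  have := size_le_self m
  simp only [sz_pair, lv]
  omega

theorem lv_le (p : Par) : lv p ≤ p.1 + sz p := by
  obtain ⟨m, q, s, k, e⟩ := p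
  have := size_le_sz q
  have := size_le_sz s
  have := size_le_sz k
  have := size_le_sz e
  simp only [sz_pair, lv]
  omega

theorem lin_pw (l : ℕ) : 20 * l + 9 ≤ (l + 2) ^ 6 := by
  have : 2 ^ 5 ≤ (l + 2) ^ 5 := Nat.pow_le_pow_left (by omega) 5
  rw [pow_succ]
  nlinarith

def nn (t : ℕ → ℕ) (p : Par) : ℕ := 2 ^ p.1 * t (p.2.2.2.1 * p.2.2.2.2 + 2)

theorem le_nn {t : ℕ → ℕ} (ht : ∀ e, 1 ≤ t e) (p : Par) : 2 ^ p.1 ≤ nn t p :=
  Nat.le_mul_of_pos_right _ (ht _)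

theorem nn_pos {t : ℕ → ℕ} (ht : ∀ e, 1 ≤ t e) (p : Par) : 1 ≤ nn t p :=
  Nat.one_le_two_pow.trans (le_nn ht p)

def wid (x : CArr) : ℕ := (zer x.1).length

theorem wid_encC (m P : ℕ) (v : ℕ → ℂ) : wid (encC (2 ^ m) P v) = P := by
  rw [wid, encC, (wf_encA _ _ _).zer_eq (List.ne_nil_of_length_pos (by simp)),
    List.length_replicate]

theorem sz_encC (N P : ℕ) (v : ℕ → ℂ) : sz (encC N P v) ≤ 8 * (N * (P + 1) + 1) := by
  have h1 := (wf_encA N P fun i => ⌊(v i).re⌋).sz_le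
  have h2 := (wf_encA N P fun i => ⌊(v i).im⌋).sz_le
  rw [length_encA] at h1 h2
  rw [encC, sz_pair]
  nlinarith [Nat.zero_le N]

theorem dec_self {N P j : ℕ} {v : ℕ → ℂ} (h : RepC N P j v) :
    encC N P v = encC N P (decC (encC N P v)) ∧ RepC N P j (decC (encC N P v)) :=
  ⟨encC_congr fun _ hi => (h.decC hi).symm, h.congr fun _ hi => h.decC hi⟩

theorem grow_lin {t : ℕ → ℕ} (ht : Grow t) : ∃ c : ℕ, ∀ e, t e ≤ c * (e + 1) := by
  obtain ⟨-, -, θ, c, h1, h2, h3⟩ := ht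
  refine ⟨⌈c⌉₊, fun e => ?_⟩
  have h4 : ((e : ℝ) + 1) ^ θ ≤ e + 1 := by
    simpa using Real.rpow_le_rpow_of_exponent_le (x := (e : ℝ) + 1) (by simp) h2.le
  have := (h3 e).trans ((mul_le_mul_of_nonneg_right (Nat.le_ceil c) (by positivity)).trans
    (mul_le_mul_of_nonneg_left h4 (by positivity)))
  exact_mod_cast this

theorem grow_succ {t : ℕ → ℕ} (ht : Grow t) : Grow fun e => t (e + 1) := by
  obtain ⟨h0, h0', θ, c, h1, h2, h3⟩ := ht
  refine ⟨fun a b h => h0 (by omega), fun e => h0' _, θ, c * 2, h1, h2, fun e => ?_⟩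
  have hc : 0 ≤ c := by
    have h4 := h3 0
    have h5 : (0 : ℝ) ≤ t 0 := by positivity
    simp at h4
    linarith
  refine (h3 _).trans ?_
  rw [mul_assoc]
  refine mul_le_mul_of_nonneg_left ?_ hc
  have h4 : (2 : ℝ) ^ θ ≤ 2 := by
    simpa using Real.rpow_le_rpow_of_exponent_le (x := (2 : ℝ)) (by simp) h2.le
  calc (((e + 1 : ℕ) : ℝ) + 1) ^ θ ≤ (2 * ((e : ℝ) + 1)) ^ θ :=
        Real.rpow_le_rpow (by positivity) (by push_cast; linarith [Nat.cast_nonneg (α := ℝ) e]) h1.le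
    _ = 2 ^ θ * ((e : ℝ) + 1) ^ θ := Real.mul_rpow (by norm_num) (by positivity)
    _ ≤ _ := mul_le_mul_of_nonneg_right h4 (by positivity)

section amb
variable {α γ δ : Type} [Enc α] [Enc γ] [Enc δ] {g : γ → δ} {𝒜 : Amb α} {t : ℕ → ℕ}
  {p : α → Par} {P : α → ℕ}

theorem fit_nn (ht : Grow t) (h : ∀ a, 𝒜.D a → 𝒜.z a = nn t (p a) * (P a + 1) ∧
    𝒜.n a = nn t (p a) ∧ 𝒜.l a = lv (p a) ∧ (p a).2.2.2.1 * (p a).2.2.2.2 ≤ (p a).1) :
    Fit 𝒜 (fun a => nn t (p a)) P := by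
  obtain ⟨c, hc⟩ := grow_lin ht
  refine ⟨c + 5, fun a ha => ?_⟩
  obtain ⟨h1, h2, h3, h4⟩ := h a ha
  have h5 := nn_pos ht.2.1 (p a)
  rw [h1, h2, h3]
  refine ⟨by nlinarith [Nat.zero_le (c * (nn t (p a) * (P a + 1))), Nat.zero_le (P a)],
    by nlinarith, ?_⟩
  have h6 : (p a).1 ≤ lv (p a) := le_max_left _ _
  generalize lv (p a) = l at *
  have h7 := Nat.mul_lt_mul'' (Nat.lt_two_pow_self (n := c)) (Nat.lt_two_pow_self (n := l + 3))
  calc nn t (p a) ≤ 2 ^ l * (c * (l + 3)) := Nat.mul_le_mul (Nat.pow_le_pow_right two_pos h6)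
        ((hc _).trans (Nat.mul_le_mul_left _ (by omega)))
    _ < 2 ^ l * (2 ^ c * 2 ^ (l + 3)) := by gcongr
    _ ≤ _ := by
      rw [← pow_add, ← pow_add]
      refine Nat.pow_le_pow_right two_pos ?_
      have a1 := AmbAux.pw_add l 1 1
      have a2 := AmbAux.pw_add l c (1 + 1 + 1)
      have a3 := AmbAux.le_pw l c
      have a4 := AmbAux.pw_mono l (show c + (1 + 1 + 1) + 1 ≤ c + 5 by omega)
      rw [pow_one] at a1
      omega

theorem sm_par (ht : ∀ e, 1 ≤ t e) (hp : Cl g 𝒜 p)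
    (h : ∀ a, 𝒜.D a → 𝒜.n a = nn t (p a) ∧ 𝒜.l a = lv (p a)) : Sm g 𝒜 p :=
  ⟨hp, 6, fun a ha => by
    rw [(h a ha).1, (h a ha).2]
    exact ⟨nn_pos ht _, (sz_par _).trans (lin_pw _)⟩⟩

end amb

theorem ok_aux {t : ℕ → ℕ} (ht : ∀ e, 1 ≤ t e) (p : Par) (P : ℕ) {y : ℕ}
    (h : y ≤ 8 * (2 ^ p.1 * (P + 1) + 1)) :
    sz p + y + 1 ≤ wt 9 (nn t p * (P + 1)) (nn t p) (lv p) := by
  have h1 := Nat.mul_le_mul_right (P + 1) (le_nn ht p)
  have h2 := (((sz_par p).trans (lin_pw _)).trans (AmbAux.pw_mono _ (show 6 ≤ 9 by omega))).trans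
    (Nat.le_mul_of_pos_left _ (nn_pos ht p))
  rw [wt]
  omega

section perm
variable {I : Type} [Fintype I] [DecidableEq I] {r : ℕ} (ε : I ≃ Fin r)

def wts (p : Par) (j : Fin p.2.2.2.1) (i : I) : ℕ := 2 ^ (p.2.1 + p.2.2.1 * (ε i + r * j))

noncomputable def op (p : Par) (A : Matrix (I → ZMod 2) (I → ZMod 2) ℂ) :
    (ℕ → ℂ) →ₗ[ℂ] (ℕ → ℂ) := lft2 (wts ε p) (tpow p.2.2.2.1 A)

def Geo (w1 r : ℕ) (p : Par) : Prop :=
  0 < p.2.2.1 ∧ 0 < p.2.2.2.2 ∧ 2 ≤ p.2.2.2.1 ∧ p.2.2.2.1 ≤ 2 ^ p.2.2.1 ∧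
    p.2.2.2.1 ≤ 2 ^ p.2.2.2.2 ∧
    (∀ j < r * p.2.2.2.1, p.2.1 + p.2.2.1 * j + p.2.2.2.1 * p.2.2.2.2 < p.1) ∧
    p.2.2.2.1 * p.2.2.2.2 + 2 + w1 * (p.2.2.2.1 * p.2.2.2.2 + 3).size ≤ p.2.1

variable {ε} {w1 : ℕ} {p : Par}

theorem sep_wts (h : Geo w1 r p) : Sep 2 (uncurry (wts ε p)) := (lft2_all ε _ h.1 _).1

omit [Fintype I] [DecidableEq I] in
theorem idx_lt {k j : ℕ} (i : I) (hj : j < k) : ε i + r * j < r * k := by
  have := (ε i).2
  nlinarith

omit [Fintype I] [DecidableEq I] in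
theorem wts_dvd (h : Geo w1 r p) (j) : uncurry (wts ε p) j * 2 ∣ 2 ^ p.1 := by
  have := h.2.2.2.2.2.1 _ (idx_lt (ε := ε) j.2 j.1.2)
  rw [uncurry, wts, ← pow_succ]
  exact pow_dvd_pow _ (by omega)

theorem op_mul (h : Geo w1 r p) (A B : Matrix (I → ZMod 2) (I → ZMod 2) ℂ) (v : ℕ → ℂ) :
    op ε p (A * B) v = op ε p A (op ε p B v) := by
  rw [op, op, op, ← lft2_mul (sep_wts h), tpow, tpow, tpow, tprod_mul]

theorem op_one (v : ℕ → ℂ) : op ε p 1 v = v := by rw [op, tpow, P344.tprod_one, lft2_one]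

theorem op_congr (h : Geo w1 r p) (A : Matrix (I → ZMod 2) (I → ZMod 2) ℂ) {v v' : ℕ → ℂ}
    (hv : ∀ i < 2 ^ p.1, v i = v' i) {i : ℕ} (hi : i < 2 ^ p.1) : op ε p A v i = op ε p A v' i :=
  lft_congr (sep_wts h) (wts_dvd h) hi _ hv

def mono (φ : (I → ZMod 2) → I → ZMod 2) : Matrix (I → ZMod 2) (I → ZMod 2) ℂ :=
  Matrix.of fun x y => if y = φ x then 1 else 0

theorem mono_mul (φ) (A : Matrix (I → ZMod 2) (I → ZMod 2) ℂ) (x y : I → ZMod 2) :
    (mono φ * A : Matrix (I → ZMod 2) (I → ZMod 2) ℂ) x y = A (φ x) y := by simp [mono, Matrix.mul_apply]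

theorem op_mono (φ : (I → ZMod 2) → I → ZMod 2) (v : ℕ → ℂ) (i : ℕ) : op ε p (mono φ) v i =
    v (upd (uncurry (wts ε p)) i
      (uncurry fun j => φ (curry (dX 2 (uncurry (wts ε p)) i) j))) := by
  have := lft_mono (w := uncurry (wts ε p)) (fun X => uncurry fun j => φ (curry X j))
    (fun _ => 1) v i
  rw [one_mul] at this
  rw [← this, op, lft2]
  refine congrArg (fun M => lft (uncurry (wts ε p)) M v i) ?_
  ext X Y
  simp only [Matrix.submatrix_apply, tpow, P344.tprod_apply, mono, Matrix.of_apply]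
  rw [prod_ite_eq_fun (curry Y) fun j => φ (curry X j)]
  exact if_congr ⟨fun h => by rw [← h, uncurry_curry], fun h => by rw [h, curry_uncurry]⟩ rfl rfl

theorem rep_mono (h : Geo w1 r p) (φ : (I → ZMod 2) → I → ZMod 2) {P j : ℕ} {v : ℕ → ℂ}
    (hv : RepC (2 ^ p.1) P j v) : RepC (2 ^ p.1) P j (op ε p (mono φ) v) :=
  (hv.comp fun _ hi => upd_lt (sep_wts h) (wts_dvd h) hi _).congr fun i _ => op_mono φ v i

/-- Translation by `b`, possibly controlled by the coordinate `i₀`. -/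
def tr (fl : Bool) (i₀ : I) (b X : I → ZMod 2) : I → ZMod 2 := X + (if fl then X i₀ else 1) • b

theorem cAt_apply (i : I) (X Y : I → ZMod 2) : cAt i X Y =
    (if X = Y then (1 + Complex.I) / 2 else 0) +
      if X = Y + Pi.single i 1 then (1 - Complex.I) / 2 else 0 := by
  rw [cAt, P344.tprod_apply]
  by_cases h : ∀ j, j ≠ i → X j = Y j
  · have h1 : ∀ c, X = Y + Pi.single i c ↔ X i = Y i + c := fun c =>
      ⟨fun h => by simp [h], fun h' => funext fun j => by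
        by_cases hj : j = i
        · simp [hj, h']
        · simp [hj, h j hj]⟩
    have h2 := h1 0
    rw [Pi.single_zero, add_zero, add_zero] at h2
    rw [prod_eq_single i (fun j _ hj => by rw [if_neg hj, h j hj, Matrix.one_apply_eq]) (by simp)]
    simp only [h1, h2, if_true, C2, Matrix.of_apply]
    rcases zmod2_cases (X i) with h3 | h3 <;> rcases zmod2_cases (Y i) with h4 | h4 <;>
      simp [h3, h4, CharTwo.add_self_eq_zero]
  · push Not at h
    obtain ⟨j, hj, h⟩ := h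
    rw [prod_eq_zero (mem_univ j) (by rw [if_neg hj, Matrix.one_apply_ne h]),
      if_neg fun h' => h (by rw [h']), if_neg fun h' => h (by simp [h', hj]), add_zero]

omit [Fintype I] [DecidableEq I] in
theorem add_self (x : I → ZMod 2) : x + x = 0 := funext fun _ => CharTwo.add_self_eq_zero _

theorem lam_two (f : (I → ZMod 4) →+ ZMod 4) (i : I) :
    Lam (fun x => 2 * f x ^ 2) = mono (tr false i (vec f)) := by
  rw [Lam_two_sq]
  ext x y
  simp only [mono, tr, Matrix.of_apply, Bool.false_eq_true, if_false, one_smul]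
  exact if_congr ⟨fun h => by rw [h, add_assoc, add_self, add_zero],
    fun h => by rw [h, add_assoc, add_self, add_zero]⟩ rfl rfl

theorem lam_piv (f : (I → ZMod 4) →+ ZMod 4) {i : I} (hi : vec f i = 1) :
    Lam (fun x => f x ^ 2) = mono (tr true i (vec f + Pi.single i 1)) *
      (cAt i * mono (tr true i (vec f + Pi.single i 1))) := by
  set ν := tr true i (vec f + Pi.single i 1) with hν
  have h0 : (vec f + Pi.single i 1 : I → ZMod 2) i = 0 := by simp [hi]; rfl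
  have h1 : ∀ x, ν (ν x) = x := fun x => by
    simp only [hν, tr, if_true, Pi.add_apply x, Pi.smul_apply, h0, smul_zero, add_zero]
    rw [add_assoc, add_self, add_zero]
  have h2 : ∀ x, ν (x + vec f) = ν x + Pi.single i 1 := fun x => by
    simp only [hν, tr, if_true, Pi.add_apply x, hi, add_smul, one_smul]
    rw [← sub_eq_zero]
    exact Eq.trans (by abel) (add_self (vec f))
  have h3 : Injective ν := LeftInverse.injective h1
  rw [Lam_sq]
  ext x y
  rw [mono_mul, Matrix.mul_apply, sum_eq_single (ν y) (fun z _ hz => by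
    rw [mono, Matrix.of_apply, if_neg fun h => hz (by rw [h, h1]), mul_zero]) (by simp), mono,
    Matrix.of_apply, Matrix.of_apply, h1, if_pos rfl, mul_one, cAt_apply, ← h2]
  simp only [h3.eq_iff]

variable {γ δ : Type} [Enc γ] [Enc δ] (g : γ → δ) (ε) (w1) (τ : ℕ → ℕ)

/-- The map `φ` on all groups of bits is cheap. -/
structure POK (φ : (I → ZMod 2) → I → ZMod 2) : Prop where
  out : ∀ {α : Type} [Enc α] {𝒜 : Amb α} {u : (γ → ℕ∞) → α → ℕ∞} {x : α → CArr} {v : α → ℕ → ℂ}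
    {p : α → Par} {P : α → ℕ}, Oc g 𝒜 u x → Sm g 𝒜 p →
    Fit 𝒜 (fun a => nn (fun e => τ (e + 1)) (p a)) P →
    (∀ a, 𝒜.D a → x a = encC (2 ^ (p a).1) (P a) (v a) ∧ Geo w1 r (p a)) →
    Oc g 𝒜 u fun a => encC (2 ^ (p a).1) (P a) (op ε (p a) (mono φ) (v a))

variable {g ε w1 τ}

theorem pok_id : POK ε w1 g τ fun x => x := ⟨fun hx _ _ h => hx.congr fun a ha => by
  rw [show mono (fun x : I → ZMod 2 => x) = 1 by
    ext x y; simp [mono, Matrix.one_apply, eq_comm], op_one, (h a ha).1]⟩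

theorem POK.comp {φ φ' : (I → ZMod 2) → I → ZMod 2} (h1 : POK ε w1 g τ φ) (h2 : POK ε w1 g τ φ') :
    POK ε w1 g τ fun x => φ' (φ x) := ⟨fun hx hp hF h =>
  (h1.out (h2.out hx hp hF h) hp hF fun a ha => ⟨rfl, (h a ha).2⟩).congr fun a ha => by
    rw [← op_mul (h a ha).2]
    congr 3
    ext x y
    rw [mono_mul]; rfl⟩

theorem pok_single (hS : SwapOK w1 τ) (hτ : ∀ e, 1 ≤ τ e) (hr : 2 ≤ r) (fl : Bool) {i i₀ : I}
    (hi : fl = true → ε i < ε i₀) : POK ε w1 g τ (tr fl i₀ (Pi.single i 1)) := by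
  refine ⟨fun {α _ 𝒜 u x v p P} hx hp hF h => ?_⟩
  let c : ℕ := if fl then ε i₀ - ε i else 1
  have hc : 0 < c ∧ c < r ∧ (fl = true → ε i + c = ε i₀) := by
    have := (ε i₀).2
    cases fl
    · exact ⟨one_pos, hr, by simp⟩
    · have : (ε i : ℕ) < ε i₀ := hi rfl
      simp only [c, if_true]
      omega
  have hX : ∀ a, 𝒜.D a → XorPre w1 fl (p a).1 ((p a).2.1 + (p a).2.2.1 * ε i) ((p a).2.2.1 * r)
      (p a).2.2.2.1 (p a).2.2.2.2 ((p a).2.2.1 * c) := fun a ha => by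
    obtain ⟨h1, h2, h3, h4, h5, h6, h7⟩ := (h a ha).2
    refine ⟨by omega, h5, h4.trans (Nat.pow_le_pow_right two_pos (Nat.le_mul_of_pos_right _ hc.1)),
      Nat.mul_pos h1 hc.1, Nat.mul_lt_mul_of_pos_left hc.2.1 h1, fun j hj => ?_, by omega⟩
    cases fl
    · have := h6 _ (idx_lt (ε := ε) i hj)
      simp only [Bool.false_eq_true, if_false]
      linarith
    · have := h6 _ (idx_lt (ε := ε) i₀ hj)
      rw [← hc.2.2 rfl] at this
      simp only [if_true]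
      linarith
  have hp' := hp.ext (f := x) (h := hx.2)
  have key : ∀ {l : α × CArr → Arr}, Cl g (𝒜.ext x hx.2) l →
      (∀ a, (𝒜.ext x hx.2).D a → Wf (P a.1) (l a) ∧ (l a).length = 2 ^ (p a.1).1) →
      Cl g (𝒜.ext x hx.2) fun a => pull (2 ^ (p a.1).1) (xorIx ((p a.1).2.1 + (p a.1).2.2.1 * ε i)
        ((p a.1).2.2.1 * r) (p a.1).2.2.2.1 fl
        ((p a.1).2.1 + (p a.1).2.2.1 * ε i + (p a.1).2.2.1 * c)) (l a) := fun h1 h2 =>
    oc_xor hS hτ fl h1 (Sm.tc (F := fun s : Par => s.1) (by fun_prop) hp')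
      (Sm.tc (F := fun s : Par => s.2.1 + s.2.2.1 * ε i) (by fun_prop) hp')
      (Sm.tc (F := fun s : Par => s.2.2.1 * r) (by fun_prop) hp')
      (Sm.tc (F := fun s : Par => s.2.2.2.1) (by fun_prop) hp')
      (Sm.tc (F := fun s : Par => s.2.2.2.2) (by fun_prop) hp')
      (Sm.tc (F := fun s : Par => s.2.2.1 * c) (by fun_prop) hp')
      (N := fun a => 2 ^ (p a.1).1) hF.ext fun a ha =>
        ⟨(h2 a ha).1, (h2 a ha).2, le_rfl, hX _ ha.1⟩
  have h1 := key (l := fun a => a.2.1) (by fun_prop) fun a ha => by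
    rw [ha.2, (h _ ha.1).1]; exact ⟨wf_encA _ _ _, length_encA ..⟩
  have h2 := key (l := fun a => a.2.2) (by fun_prop) fun a ha => by
    rw [ha.2, (h _ ha.1).1]; exact ⟨wf_encA _ _ _, length_encA ..⟩
  refine ((hx.bind (h1.pair h2)).congr fun a ha => ?_).mono fun _ _ _ => by simp
  simp only [(h a ha).1]
  rw [pull_encC _ fun i hi => xorIx_lt (hX a ha) hi]
  refine encC_congr fun n _ => ?_
  rw [op_mono]
  refine congrArg _ (upd_xor (sep_wts (h a ha).2) fl (t := fun j => (j, i)) (c := fun j => (j, i₀))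
    (fun _ _ h => congrArg Prod.fst h) (fun j => ?_) (fun h0 j => ?_) n (fun j => ?_)
    fun j hj => ?_)
  · exact congrArg (2 ^ ·) (by ring)
  · exact congrArg (2 ^ ·) (by rw [← hc.2.2 h0]; ring)
  · cases fl <;> simp [tr]
  · have : j.2 ≠ i := fun h => hj ⟨j.1, Prod.ext rfl h.symm⟩
    cases fl <;> simp [tr, uncurry, this]

theorem pok_tr (hS : SwapOK w1 τ) (hτ : ∀ e, 1 ≤ τ e) (hr : 2 ≤ r) (fl : Bool) (i₀ : I)
    (b : I → ZMod 2) (hb : fl = true → ∀ i, b i = 1 → ε i < ε i₀) :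
    POK ε w1 g τ (tr fl i₀ b) := by
  have h0 : POK ε w1 g τ (tr fl i₀ 0) := by
    rw [show tr fl i₀ 0 = fun x => x from funext fun x => by simp [tr]]
    exact pok_id
  rw [← univ_sum_single b]
  refine (sum_induction _ (fun b => (fl = true → b i₀ = 0) ∧ POK ε w1 g τ (tr fl i₀ b))
    (fun b b' h h' => ⟨fun h0 => by simp [h.1 h0, h'.1 h0], ?_⟩) ⟨fun _ => rfl, h0⟩
    fun i _ => ?_).2
  · rw [show tr fl i₀ (b + b') = fun x => tr fl i₀ b' (tr fl i₀ b x) from funext fun x => by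
      cases fl
      · simp [tr, add_assoc]
      · simp [tr, add_assoc, h.1 rfl]]
    exact POK.comp h.2 h'.2
  · rcases zmod2_cases (b i) with h | h
    · rw [h, Pi.single_zero]; exact ⟨fun _ => rfl, h0⟩
    · rw [h]
      exact ⟨fun h1 => Pi.single_eq_of_ne (fun h2 => (hb h1 i h).ne (by rw [h2])) _,
        pok_single hS hτ hr fl fun h1 => hb h1 i h⟩

end perm

end Vale.Agent.P338.HadAux
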