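import Vale.Agent.P338.Amb

/-! Linear time passes over lists. -/

namespace Vale.Agent.P338

open Function Vale.Agent.Common.TreeTM Enc

variable {α β γ δ σ ω π : Type} [Enc α] [Enc β] [Enc γ] [Enc δ] [Enc σ] [Enc ω] [Enc π]
  {g : γ → δ} {𝒜 : Amb α} {u : (γ → ℕ∞) → α → ℕ∞}

/-- A left to right pass with state and output. -/
def scan {β σ ω : Type} (F : β × σ → List ω × σ) : List β → σ → List ω × σ
  | [], s => ([], s)
  | x :: l, s => ((F (x, s)).1 ++ (scan F l (F (x, s)).2).1, (scan F l (F (x, s)).2).2)

/-- The arguments of the step function during a pass. -/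
def trace {β σ ω : Type} (F : β × σ → List ω × σ) : List β → σ → List (β × σ)
  | [], _ => []
  | x :: l, s => (x, s) :: trace F l (F (x, s)).2

namespace ListsAux

theorem lin_wt (K : ℕ) (a : α) : (lin α).wt K a = K * (sz a + 1) := by
  simp [Amb.wt, wt, lin]

theorem bnd_sum {ι : Type} [Enc ι] {𝓑 : Amb ι} {L : α → List ι}
    (hD : ∀ a, 𝒜.D a → ∀ p ∈ L a, 𝓑.D p) (hd : Dom 𝒜 fun K a => ((L a).map (𝓑.wt K)).sum)
    {y : ι → ℕ} (hy : Bnd 𝓑 y) : Bnd 𝒜 fun a => ((L a).map y).sum := by
  obtain ⟨K, hK⟩ := hy
  exact (hd K).mono fun a ha => List.sum_le_sum fun p hp => hK p (hD a ha p hp)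

theorem sum_lin {ι : Type} [Enc ι] (K : ℕ) (L : List ι) :
    (L.map ((lin ι).wt K)).sum = K * (L.map fun p => sz p + 1).sum := by
  rw [← List.sum_map_mul_left]
  exact congrArg List.sum (List.map_congr_left fun p _ => lin_wt K p)

theorem dom_lin {ι : Type} [Enc ι] {L : α → List ι}
    (h : Bnd 𝒜 fun a => ((L a).map fun p => sz p + 1).sum) :
    Dom 𝒜 fun K a => ((L a).map ((lin ι).wt K)).sum := fun K =>
  (h.mul K).mono fun a _ => (sum_lin K (L a)).le

theorem sum_sz (l : List β) : (l.map fun p => sz p + 1).sum + 1 = sz l := by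
  induction l with
  | nil => rfl
  | cons x l ih => rw [List.map_cons, List.sum_cons, sz_lcons]; omega

theorem sum_u0 {γ ι : Type} (T : γ → ℕ∞) (L : List ι) : (L.map (u0 T)).sum = 0 := by
  induction L with
  | nil => rfl
  | cons x L ih => simp [ih]

/-- The machine of a pass. -/
def scM (F : β × σ → List ω × σ) (d : β) : SM β Bool (Bool × σ) ω where
  cont s := s.1
  wh _ := false
  up1 p := bif isCons p.1 then ((F (p.1.headD d, p.2.2)).1, true, (F (p.1.headD d, p.2.2)).2)
    else ([], false, p.2.2)
  up2 p := ([], p.2)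

omit [Enc β] [Enc σ] [Enc ω] in
theorem scM_tr (F : β × σ → List ω × σ) (d : β) : ∀ (l : List β) (s : σ) (out : List ω),
    STr (scM F d) l [] (true, s) out ((scan F l s).1.reverse ++ out, false, (scan F l s).2)
      ((trace F l s).map (fun p => (true, p.2)) ++
        [(true, (scan F l s).2), (false, (scan F l s).2)])
      ((trace F l s).map (fun p => ([p.1], true, p.2)) ++ [([], true, (scan F l s).2)]) [] := by
  intro l
  induction l with
  | nil => exact fun s out => STr.one rfl rfl (STr.stop rfl)
  | cons x l ih =>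
    intro s out
    have := ih (F (x, s)).2 ((F (x, s)).1.reverse ++ out)
    rw [← List.append_assoc, ← List.reverse_append] at this
    exact STr.one rfl rfl this

omit [Enc β] in
theorem sz_scan (F : β × σ → List ω × σ) : ∀ (l : List β) (s : σ),
    sz (scan F l s).2 ≤ sz s + ((trace F l s).map fun p => sz (F p)).sum := by
  intro l
  induction l with
  | nil => intro s; simp [scan, trace]
  | cons x l ih =>
    intro s
    have := ih (F (x, s)).2
    have h2 := sz_prod (F (x, s))
    simp only [scan, trace, List.map_cons, List.sum_cons]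
    omega

/-- The ambient of the step function of `scM`. -/
def scA (𝓑 : Amb (β × σ)) (d : β) : Amb (List β × Bool × σ) where
  D p := p.1 = [] ∨ (𝓑.D (p.1.headD d, p.2.2) ∧ p.1.tail = [])
  z p := bif isCons p.1 then 𝓑.z (p.1.headD d, p.2.2) else sz p
  n p := bif isCons p.1 then 𝓑.n (p.1.headD d, p.2.2) else 0
  l p := 𝓑.l (p.1.headD d, p.2.2)
  ok := by
    obtain ⟨K, hK⟩ := (bnd_sz (𝒜 := 𝓑)).add (Bnd.const 6)
    refine ⟨K + 1, ?_⟩
    rintro ⟨l, b, s⟩ hp
    cases l with
    | nil =>
      simp only [isCons, List.isEmpty_nil, Bool.not_true, Bool.cond_false, wt]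
      nlinarith
    | cons x l =>
      obtain h | ⟨h1, h2⟩ := hp
      · simp at h
      · have h3 := (hK _ h1).trans (wt_mono (Nat.le_succ K) _ _ _)
        simp only [List.tail_cons] at h2
        subst h2
        refine le_trans ?_ h3
        have := sz_bool b
        simp only [List.headD_cons, sz_pair, sz_lcons, sz_lnil]
        omega

theorem oc_rscan {𝓑 : Amb (β × σ)} {F : β × σ → List ω × σ} {uF} (hF : Oc g 𝓑 uF F)
    {x : α → List β × σ} (hx : Oc g 𝒜 u x)
    (hD : ∀ a, 𝒜.D a → ∀ p ∈ trace F (x a).1 (x a).2, 𝓑.D p)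
    (hd : Dom 𝒜 fun K a => ((trace F (x a).1 (x a).2).map (𝓑.wt K)).sum) :
    Oc g 𝒜 (fun T a => u T a + ((trace F (x a).1 (x a).2).map (uF T)).sum)
      fun a => ((scan F (x a).1 (x a).2).1.reverse, (scan F (x a).1 (x a).2).2) := by
  cases isEmpty_or_nonempty β with
  | inl he =>
    have h0 : ∀ l : List β, l = [] := fun l => by
      cases l with
      | nil => rfl
      | cons x _ => exact he.elim x
    have : Cl g (lin (List β × σ)) fun p => (([] : List ω), p.2) := by fun_prop
    refine ((oc_lin this hx).mono fun T a _ => le_self_add).congr fun a _ => ?_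
    rw [h0 (x a).1]
    rfl
  | inr hn =>
    obtain ⟨d⟩ := hn
    have e1 : Cl g (lin (List ω × σ)) fun r => (r.1, true, r.2) := by fun_prop
    have e2 : Cl g ((scA 𝓑 d).sub fun p => isCons p.1 = true)
        fun p => (p.1.headD d, p.2.2) := by fun_prop
    have e3 := oc_lin e1 (Oc.app hF e2 (by
      rintro ⟨l, b, s⟩ ⟨h | h, h'⟩
      · simp only at h
        simp [h, isCons] at h'
      · exact h.1) (fun K => ⟨K, by
      rintro ⟨l, b, s⟩ ⟨-, h'⟩
      simp only at h'
      simp [Amb.wt, Amb.sub, scA, h']⟩))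
    have e4 : Cl g ((scA 𝓑 d).sub fun p => isCons p.1 = false)
        fun p => (([] : List ω), false, p.2.2) := by fun_prop
    have h1 := Oc.cond (p := fun p : List β × Bool × σ => isCons p.1) (by fun_prop) e3 e4
    have h2 : Cl g (lin (List Bool × Bool × σ)) fun p => (([] : List ω), p.2) := by fun_prop
    have e5 : Cl g (lin (List β × σ)) fun p => (p.1, ([] : List Bool), true, p.2) := by fun_prop
    have hfin : Bnd 𝒜 fun a => sz (scan F (x a).1 (x a).2).2 :=
      (hx.2.add (bnd_sum hD hd hF.2)).mono fun a _ => (sz_scan F _ _).trans (by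
        have := sz_prod (x a)
        omega)
    have hst := Oc.stream (scM F d) (𝓢 := lin _) (𝓑₁ := scA 𝓑 d) (𝓑₂ := lin _)
      (u' := fun T a => ((trace F (x a).1 (x a).2).map (uF T)).sum)
      (show Cl g _ fun s : Bool × σ => s.1 by fun_prop)
      (show Cl g _ fun _ : Bool × σ => false by fun_prop) h1 h2 (oc_lin e5 hx)
      (F := fun a => ((scan F (x a).1 (x a).2).1.reverse ++ [], false, (scan F (x a).1 (x a).2).2))
      (Φ := fun K a => ((trace F (x a).1 (x a).2).map fun p => K * (sz p + 5)).sum +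
        ((trace F (x a).1 (x a).2).map (𝓑.wt K)).sum +
        3 * K * (sz (scan F (x a).1 (x a).2).2 + 7))
      (fun K => ((bnd_sum hD hd ((bnd_sz.add (Bnd.const 5)).mul K)).add (hd K)).add
        ((hfin.add (Bnd.const 7)).mul _))
      (fun a ha => ⟨_, _, _, scM_tr F d _ _ _, fun _ _ => trivial, ?_, fun _ _ => trivial, ?_, ?_⟩)
    · have e6 : Cl g (lin (List ω × Bool × σ)) fun r => (r.1, r.2.2) := by fun_prop
      exact (oc_lin e6 hst).congr fun a _ => by simp
    · intro p hp
      simp only [List.mem_append, List.mem_map, List.mem_singleton] at hp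
      obtain ⟨q, hq, rfl⟩ | rfl := hp
      · exact Or.inr ⟨hD a ha q hq, rfl⟩
      · exact Or.inl rfl
    · intro K
      generalize (scan F (x a).1 (x a).2).2 = s
      generalize trace F (x a).1 (x a).2 = t
      have a1 : ((t.map fun p => (true, p.2)).map ((lin (Bool × σ)).wt K)).sum ≤
          (t.map fun p => K * (sz p + 5)).sum := by
        rw [List.map_map]
        refine List.sum_le_sum fun p _ => ?_
        rw [comp_apply, lin_wt, sz_pair, sz_prod p]
        have := sz_bool true
        exact Nat.mul_le_mul_left _ (by omega)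
      have a2 : (t.map fun p => ([p.1], true, p.2)).map ((scA 𝓑 d).wt K) = t.map (𝓑.wt K) := by
        rw [List.map_map]
        rfl
      have a3 : (scA 𝓑 d).wt K ([], true, s) = K * (sz s + 7) := by
        have : sz true = 3 := rfl
        simp [Amb.wt, scA, isCons, wt, sz_pair, sz_lnil, this]
        omega
      have b1 : sz true = 3 := rfl
      have b2 : sz false = 1 := rfl
      simp only [List.map_append, List.sum_append, a2, List.map_cons, List.map_nil, List.sum_cons,
        List.sum_nil, a3, lin_wt, sz_pair, b1, b2]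
      nlinarith
    · intro T
      simp [List.map_map, comp_def, isCons]

omit [Enc ω] in
theorem sum_fin {F : β × σ → List ω × σ} {c : ℕ} (hc : ∀ p, sz (F p).2 ≤ c) :
    ∀ (l : List β) (s : σ), sz s ≤ c →
      ((trace F l s).map fun p => sz p + 1).sum ≤ (c + 2) * sz l := by
  intro l
  induction l with
  | nil => intro s _; simp [trace]
  | cons x l ih =>
    intro s hs
    have := ih _ (hc (x, s))
    simp only [trace, List.map_cons, List.sum_cons, sz_pair, sz_lcons]
    nlinarith

theorem cl_rscan_fin {F : β × σ → List ω × σ} (hF : Cl g (lin _) F) (c : ℕ)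
    (hc : ∀ p, sz (F p).2 ≤ c) {l : α → List β} (hl : Cl g 𝒜 l) (s : σ) :
    Cl g 𝒜 fun a => ((scan F (l a) s).1.reverse, (scan F (l a) s).2) :=
  (oc_rscan (x := fun a => (l a, s)) hF (Cl.pair hl (Cl.const s)) (fun _ _ _ _ => trivial)
    (dom_lin ((hl.2.mul (c + sz s + 2)).mono fun a _ =>
      sum_fin (fun p => (hc p).trans (Nat.le_add_right _ _)) _ _ (Nat.le_add_left _ _)))).mono
    fun T a _ => by simp [sum_u0]

theorem scan_copy {β : Type} (l : List β) :
    scan (fun p : β × Bool => ([p.1], false)) l false = (l, false) := by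
  induction l with
  | nil => rfl
  | cons x l ih => simp [scan, ih]

end ListsAux

open ListsAux

@[fun_prop] theorem Cl.reverse {l : α → List β} (hl : Cl g 𝒜 l) :
    Cl g 𝒜 fun a => (l a).reverse :=
  (cl_rscan_fin (F := fun p : β × Bool => ([p.1], false)) (by fun_prop) 1 (fun _ => le_rfl)
    hl false).fst.congr fun a _ => by rw [scan_copy]

theorem oc_scan {𝓑 : Amb (β × σ)} {F : β × σ → List ω × σ} {uF} (hF : Oc g 𝓑 uF F)
    {x : α → List β × σ} (hx : Oc g 𝒜 u x)
    (hD : ∀ a, 𝒜.D a → ∀ p ∈ trace F (x a).1 (x a).2, 𝓑.D p)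
    (hd : Dom 𝒜 fun K a => ((trace F (x a).1 (x a).2).map (𝓑.wt K)).sum) :
    Oc g 𝒜 (fun T a => u T a + ((trace F (x a).1 (x a).2).map (uF T)).sum)
      fun a => scan F (x a).1 (x a).2 := by
  have e : Cl g (lin (List ω × σ)) fun r => (r.1.reverse, r.2) := by fun_prop
  exact (oc_lin e (oc_rscan hF hx hD hd)).congr fun a _ => by simp

/-- A pass whose states have bounded size is linear. -/
theorem cl_scan_fin {F : β × σ → List ω × σ} (hF : Cl g (lin _) F) (c : ℕ)
    (hc : ∀ p, sz (F p).2 ≤ c) {l : α → List β} (hl : Cl g 𝒜 l) (s : σ) :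
    Cl g 𝒜 fun a => scan F (l a) s := by
  have h := cl_rscan_fin hF c hc hl s
  exact (Cl.pair h.fst.reverse h.snd).congr fun a _ => by simp

namespace ListsAux

theorem scan_map {β π σ : Type} (F : β × π → σ) (p : π) (l : List β) :
    scan (fun q : β × π => ([F q], q.2)) l p = (l.map fun x => F (x, p), p) ∧
    trace (fun q : β × π => ([F q], q.2)) l p = l.map fun x => (x, p) := by
  induction l with
  | nil => exact ⟨rfl, rfl⟩
  | cons x l ih => simp [scan, trace, ih]

theorem scan_foldl {β σ : Type} (F : β × σ → σ) (l : List β) : ∀ s : σ,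
    (scan (fun q : β × σ => (([] : List Bool), F q)) l s).2 = l.foldl (fun t x => F (x, t)) s := by
  induction l with
  | nil => exact fun _ => rfl
  | cons x l ih => intro s; simp [scan, ih]

theorem trace_inv {β σ ω : Type} (G : β × σ → List ω × σ) : ∀ (l : List β) (s : σ)
    (I : ℕ → σ → Prop) (Q : ℕ → β × σ → Prop), I 0 s →
    (∀ (i : ℕ) (hi : i < l.length) (t : σ), I i t → I (i + 1) (G (l[i], t)).2 ∧ Q i (l[i], t)) →
    List.Forall₂ Q (List.range l.length) (trace G l s) := by
  intro l
  induction l with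
  | nil => exact fun _ _ _ _ _ => List.Forall₂.nil
  | cons x l ih =>
    intro s I Q h0 h
    have h1 := h 0 (by simp) s h0
    rw [List.length_cons, List.range_succ_eq_map, trace]
    refine List.Forall₂.cons h1.2 ?_
    rw [List.forall₂_map_left_iff]
    exact ih _ (fun i => I (i + 1)) (fun i => Q (i + 1)) h1.1 fun i hi t ht =>
      h (i + 1) (by simpa using hi) t ht

theorem forall₂_sum {ι κ M : Type} [AddCommMonoid M] [PartialOrder M] [IsOrderedAddMonoid M]
    {f : ι → M} {w : κ → M} {l : List ι} {t : List κ}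
    (h : List.Forall₂ (fun i p => w p ≤ f i) l t) : (t.map w).sum ≤ (l.map f).sum := by
  induction h with
  | nil => simp
  | cons h _ ih => simpa using add_le_add h ih

theorem forall₂_mem {ι κ : Type} {Q : κ → Prop} {l : List ι} {t : List κ}
    (h : List.Forall₂ (fun _ p => Q p) l t) : ∀ p ∈ t, Q p := by
  induction h with
  | nil => simp
  | cons h _ ih => simpa using ⟨h, ih⟩

theorem sum_range_eq {M : Type} [AddCommMonoid M] (f : ℕ → M) (n : ℕ) :
    ((List.range n).map f).sum = ∑ i ∈ Finset.range n, f i := by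
  induction n with
  | zero => simp
  | succ n ih => rw [List.range_succ, Finset.sum_range_succ, ← ih]; simp

end ListsAux

theorem Oc.map {𝓑 : Amb (β × π)} {F : β × π → σ} {uF} (hF : Oc g 𝓑 uF F) {l : α → List β}
    {p : α → π} (hl : Oc g 𝒜 u l) (hp : Cl g 𝒜 p)
    (hD : ∀ a, 𝒜.D a → ∀ x ∈ l a, 𝓑.D (x, p a))
    (hd : Dom 𝒜 fun K a => ((l a).map fun x => 𝓑.wt K (x, p a)).sum) :
    Oc g 𝒜 (fun T a => u T a + ((l a).map fun x => uF T (x, p a)).sum)
      fun a => (l a).map fun x => F (x, p a) := by
  have e1 : Cl g (lin σ) fun y => [y] := by fun_prop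
  have e2 : Cl g 𝓑 fun q => q.2 := by fun_prop
  have e3 : Oc g 𝓑 uF fun q => ([F q], q.2) :=
    (Oc.pair (oc_lin e1 hF) e2).mono fun _ _ _ => by simp
  have e4 : Oc g 𝒜 u fun a => (l a, p a) := (Oc.pair hl hp).mono fun _ _ _ => by simp
  have e5 : Cl g (lin (List σ × π)) fun r => r.1 := by fun_prop
  have h := oc_scan e3 e4 (fun a ha q hq => by
      rw [(scan_map F _ _).2] at hq
      obtain ⟨x, hx, rfl⟩ := List.mem_map.1 hq
      exact hD a ha x hx)
    (fun K => (hd K).mono fun a _ => by
      simp only [(scan_map F _ _).2, List.map_map, comp_def, le_refl])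
  refine ((oc_lin e5 h).mono fun T a _ => ?_).congr fun a _ => ?_
  · simp only [(scan_map F _ _).2, List.map_map, comp_def, le_refl]
  · simp only [(scan_map F _ _).1]

/-- A linear function with a parameter that is copied for each element. -/
theorem Cl.mapP {F : β × π → σ} (hF : Cl g (lin _) F) {l : α → List β} {p : α → π}
    (hl : Cl g 𝒜 l) (hp : Cl g 𝒜 p) (hb : Bnd 𝒜 fun a => (l a).length * sz (p a)) :
    Cl g 𝒜 fun a => (l a).map fun x => F (x, p a) := by
  refine (Oc.map hF hl hp (fun _ _ _ _ => trivial) fun K =>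
    (((hl.2.mul 2).add hb).mul K).mono fun a _ => ?_).mono fun T a _ => by simp
  simp only [lin_wt, List.sum_map_mul_left]
  refine Nat.mul_le_mul_left _ ?_
  generalize l a = t
  induction t with
  | nil => simp
  | cons x t ih =>
    simp only [List.map_cons, List.sum_cons, sz_pair, sz_lcons, List.length_cons] at ih ⊢
    nlinarith

@[fun_prop] theorem Cl.map {F : β → σ} (hF : Cl g (lin _) F) {l : α → List β} (hl : Cl g 𝒜 l) :
    Cl g 𝒜 fun a => (l a).map F :=
  Cl.mapP (F := fun q : β × Bool => F q.1) (oc_lin hF (Cl.fst Cl.id)) hl (Cl.const false)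
    (hl.2.mono fun a _ => by
      show _ * 1 ≤ _
      simpa using length_le_sz (l a))

theorem Oc.foldl {𝓑 : Amb (β × σ)} {F : β × σ → σ} {uF} (hF : Oc g 𝓑 uF F) {l : α → List β}
    {s : α → σ} (hl : Cl g 𝒜 l) (hs : Oc g 𝒜 u s) (I : α → ℕ → σ → Prop)
    (Φ : ℕ → α → ℕ → ℕ) (U : (γ → ℕ∞) → α → ℕ → ℕ∞) (h0 : ∀ a, 𝒜.D a → I a 0 (s a))
    (h : ∀ a, 𝒜.D a → ∀ (i : ℕ) (hi : i < (l a).length) (t : σ), I a i t →
      𝓑.D ((l a)[i], t) ∧ I a (i + 1) (F ((l a)[i], t)) ∧
        (∀ K, 𝓑.wt K ((l a)[i], t) ≤ Φ K a i) ∧ ∀ T, uF T ((l a)[i], t) ≤ U T a i)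
    (hd : Dom 𝒜 fun K a => ∑ i ∈ Finset.range (l a).length, Φ K a i) :
    Oc g 𝒜 (fun T a => u T a + ∑ i ∈ Finset.range (l a).length, U T a i)
      fun a => (l a).foldl (fun t x => F (x, t)) (s a) := by
  have e1 : Cl g (lin σ) fun y => (([] : List Bool), y) := by fun_prop
  have e4 : Oc g 𝒜 u fun a => (l a, s a) := (Oc.pair hl hs).mono fun _ _ _ => by simp
  have e5 : Cl g (lin (List Bool × σ)) fun r => r.2 := by fun_prop
  have h' := oc_scan (oc_lin e1 hF) e4 (fun a ha => forall₂_mem
      (trace_inv _ (l a) (s a) (I a) (fun _ p => 𝓑.D p) (h0 a ha) fun i hi t ht =>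
        ⟨(h a ha i hi t ht).2.1, (h a ha i hi t ht).1⟩))
    (fun K => (hd K).mono fun a ha => (forall₂_sum
      (trace_inv _ (l a) (s a) (I a) (fun i p => 𝓑.wt K p ≤ Φ K a i) (h0 a ha) fun i hi t ht =>
        ⟨(h a ha i hi t ht).2.1, (h a ha i hi t ht).2.2.1 K⟩)).trans (sum_range_eq _ _).le)
  refine ((oc_lin e5 h').mono fun T a ha => add_le_add le_rfl ?_).congr fun a _ => ?_
  · exact (forall₂_sum
      (trace_inv _ (l a) (s a) (I a) (fun i p => uF T p ≤ U T a i) (h0 a ha) fun i hi t ht =>
        ⟨(h a ha i hi t ht).2.1, (h a ha i hi t ht).2.2.2 T⟩)).trans (sum_range_eq _ _).le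
  · exact (scan_foldl F _ _).symm

@[fun_prop] theorem Cl.flatten {l : α → List (List β)} (hl : Cl g 𝒜 l) :
    Cl g 𝒜 fun a => (l a).flatten := by
  have key : ∀ t : List (List β),
      (scan (fun p : List β × Bool => (p.1, false)) t false).1 = t.flatten := by
    intro t
    induction t with
    | nil => rfl
    | cons x t ih => simp [scan, ih]
  exact (cl_scan_fin (F := fun p : List β × Bool => (p.1, false)) (by fun_prop) 1
    (fun _ => le_rfl) hl false).fst.congr fun a _ => (key _).symm

@[fun_prop] theorem Cl.append {l l' : α → List β} (hl : Cl g 𝒜 l) (hl' : Cl g 𝒜 l') :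
    Cl g 𝒜 fun a => l a ++ l' a :=
  (Cl.flatten (hl.cons (hl'.cons (Cl.const [])))).congr fun a _ => by simp

namespace ListsAux

theorem cl_stream_lin {β₁ β₂ : Type} [Enc β₁] [Enc β₂] (M : SM β₁ β₂ σ ω)
    (hc : Cl g (lin _) M.cont) (hw : Cl g (lin _) M.wh) (h1 : Cl g (lin _) M.up1)
    (h2 : Cl g (lin _) M.up2) {x : α → List β₁ × List β₂ × σ} (hx : Cl g 𝒜 x)
    {F : α → List ω × σ} {y : α → ℕ} (hy : Bnd 𝒜 y)
    (h : ∀ a, ∃ ss t1 t2, STr M (x a).1 (x a).2.1 (x a).2.2 [] (F a) ss t1 t2 ∧
      (ss.map fun p => sz p + 1).sum + (t1.map fun p => sz p + 1).sum +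
        (t2.map fun p => sz p + 1).sum ≤ y a) : Cl g 𝒜 F := by
  refine (Oc.stream M (u' := u0) hc hw h1 h2 hx (Φ := fun K a => K * y a) (fun K => hy.mul K)
    fun a _ => ?_).mono fun T a _ => by simp
  obtain ⟨ss, t1, t2, h3, h4⟩ := h a
  refine ⟨ss, t1, t2, h3, fun _ _ => trivial, fun _ _ => trivial, fun _ _ => trivial,
    fun K => ?_, fun T => by simp [sum_u0]⟩
  rw [sum_lin, sum_lin, sum_lin, ← mul_add, ← mul_add]
  exact Nat.mul_le_mul_left _ h4

/-- The machine for `zip`. -/
def zpM (d : β) (d' : σ) : SM β σ (Bool × List β) (β × σ) where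
  cont s := s.1
  wh s := isCons s.2
  up1 p := ([], isCons p.1, p.1)
  up2 p := bif isCons p.1 then ([(p.2.2.headD d, p.1.headD d')], true, []) else ([], false, [])

theorem zpM_tr (d : β) (d' : σ) : ∀ (l : List β) (l' : List σ) (out : List (β × σ)),
    ∃ ss t1 t2, STr (zpM d d') l l' (true, []) out ((l.zip l').reverse ++ out, false, []) ss t1 t2 ∧
      (ss.map fun p => sz p + 1).sum + (t1.map fun p => sz p + 1).sum +
        (t2.map fun p => sz p + 1).sum ≤ 30 * (sz l + sz l') := by
  have b1 : sz true = 3 := rfl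
  have b2 : sz false = 1 := rfl
  intro l
  induction l with
  | nil =>
    intro l' out
    refine ⟨_, _, _, STr.one rfl rfl (STr.stop rfl), ?_⟩
    have := one_le_sz l'
    simp [zpM, isCons, sz_pair, sz_lnil, b1, b2]
    omega
  | cons x l ih =>
    intro l' out
    cases l' with
    | nil =>
      refine ⟨_, _, _, STr.one rfl rfl (STr.two rfl rfl (STr.stop rfl)), ?_⟩
      have := one_le_sz l
      simp [zpM, isCons, sz_pair, sz_lnil, sz_lcons, b1, b2]
      omega
    | cons y l' =>
      obtain ⟨ss, t1, t2, h1, h2⟩ := ih l' ((x, y) :: out)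
      refine ⟨_, _, _, STr.one rfl rfl (STr.two rfl rfl (by simpa [zpM, isCons] using h1)), ?_⟩
      have := one_le_sz x
      have := one_le_sz y
      simp [zpM, isCons, sz_pair, sz_lnil, sz_lcons, b1] at h2 ⊢
      omega

theorem eq_nil {β : Type} (he : IsEmpty β) (l : List β) : l = [] := by
  cases l with
  | nil => rfl
  | cons x _ => exact he.elim x

end ListsAux

@[fun_prop] theorem Cl.zip {l : α → List β} {l' : α → List σ} (hl : Cl g 𝒜 l) (hl' : Cl g 𝒜 l') :
    Cl g 𝒜 fun a => (l a).zip (l' a) := by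
  cases isEmpty_or_nonempty β with
  | inl he => exact (Cl.const []).congr fun a _ => by rw [eq_nil he (l a)]; rfl
  | inr hn =>
  cases isEmpty_or_nonempty σ with
  | inl he => exact (Cl.const []).congr fun a _ => by rw [eq_nil he (l' a)]; simp
  | inr hn' =>
  obtain ⟨d⟩ := hn
  obtain ⟨d'⟩ := hn'
  have h := cl_stream_lin (g := g) (zpM d d') (by unfold zpM; fun_prop) (by unfold zpM; fun_prop)
    (by unfold zpM; fun_prop) (by unfold zpM; fun_prop)
    (x := fun a => (l a, l' a, true, [])) (by fun_prop)
    (F := fun a => (((l a).zip (l' a)).reverse ++ [], false, []))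
    ((hl.2.add hl'.2).mul 30) fun a => zpM_tr d d' _ _ _
  exact h.fst.reverse.congr fun a _ => by simp

/-- Take as many elements as the template has. -/
def takeL {β σ : Type} (t : List σ) (l : List β) : List β := l.take t.length

/-- Drop as many elements as the template has. -/
def dropL {β σ : Type} (t : List σ) (l : List β) : List β := l.drop t.length

@[fun_prop] theorem cl_takeL {t : α → List σ} {l : α → List β} (ht : Cl g 𝒜 t) (hl : Cl g 𝒜 l) :
    Cl g 𝒜 fun a => takeL (t a) (l a) := by
  have key : ∀ (t : List σ) (l : List β), takeL t l = (t.zip l).map fun q => q.2 := by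
    intro t
    induction t with
    | nil => simp [takeL]
    | cons x t ih =>
      intro l
      cases l with
      | nil => simp [takeL]
      | cons y l => simpa [takeL] using ih l
  exact (Cl.map (F := fun q : σ × β => q.2) (by fun_prop) (ht.zip hl)).congr fun a _ => key _ _

@[fun_prop] theorem cl_dropL {t : α → List σ} {l : α → List β} (ht : Cl g 𝒜 t) (hl : Cl g 𝒜 l) :
    Cl g 𝒜 fun a => dropL (t a) (l a) := by
  have k0 : ∀ (l t : List β), l.length ≤ t.length → (((t.map fun _ => false).zip l).map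
      fun q : Bool × β => bif q.1 then [] else [q.2]).flatten = l := by
    intro l
    induction l with
    | nil => simp
    | cons y l ih =>
      intro t ht
      cases t with
      | nil => simp at ht
      | cons x t => simpa using ih t (by simpa using ht)
  have key : ∀ (t : List σ) (l l' : List β), l.length ≤ l'.length → dropL t l =
      ((((t.map fun _ => true) ++ l'.map fun _ => false).zip l).map
        fun q : Bool × β => bif q.1 then [] else [q.2]).flatten := by
    intro t
    induction t with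
    | nil => intro l l' h; simpa [dropL] using (k0 l l' h).symm
    | cons x t ih =>
      intro l l' h
      cases l with
      | nil => simp [dropL]
      | cons y l => simpa [dropL] using ih l l' (by simp at h; omega)
  have h1 := Cl.map (F := fun _ : σ => true) (by fun_prop) ht
  have h2 := Cl.map (F := fun _ : β => false) (by fun_prop) hl
  exact (Cl.map (F := fun q : Bool × β => bif q.1 then [] else [q.2]) (by fun_prop)
    ((h1.append h2).zip hl)).flatten.congr fun a _ => key _ _ _ le_rfl

@[fun_prop] theorem Cl.getD {l : α → List β} {d : α → β} (i : ℕ) (hl : Cl g 𝒜 l)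
    (hd : Cl g 𝒜 d) : Cl g 𝒜 fun a => (l a).getD i (d a) := by
  induction i generalizing l with
  | zero => exact (hl.headD hd).congr fun a _ => by cases l a <;> rfl
  | succ i ih => exact (ih hl.tail).congr fun a _ => by cases l a <;> simp

@[fun_prop] theorem Cl.getLastD {l : α → List β} {d : α → β} (hl : Cl g 𝒜 l) (hd : Cl g 𝒜 d) :
    Cl g 𝒜 fun a => (l a).getLastD (d a) :=
  (hl.reverse.headD hd).congr fun a _ => by
    simp [List.getLastD_eq_getLast?, List.headD_eq_head?_getD]

namespace ListsAux

/-- Every second element is kept; the state is the parity. -/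
def hf (p : Bool × Bool) : List Bool × Bool := bif p.2 then ([false], false) else ([], true)

theorem scan_hf (n : ℕ) : ∀ b : Bool, scan hf (List.replicate n false) b =
    (List.replicate ((n + b.toNat) / 2) false, (n + b.toNat).bodd) := by
  induction n with
  | zero => intro b; cases b <;> rfl
  | succ n ih =>
    intro b
    cases b
    · simp [List.replicate_succ, scan, hf, ih]
    · have : (n + 1 + 1) / 2 = n / 2 + 1 := by omega
      simp [List.replicate_succ, scan, hf, ih, this]

/-- The machine for the length. -/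
def lnM : SM Bool Bool (List Bool) Bool where
  cont s := isCons s
  wh _ := false
  up1 p := ([(scan hf p.2 false).2], (scan hf p.2 false).1)
  up2 p := ([], p.2)

theorem sz_rep (n : ℕ) : sz (List.replicate n false) = 2 * n + 1 := by
  induction n with
  | zero => rfl
  | succ n ih =>
    have b2 : sz false = 1 := rfl
    rw [List.replicate_succ, sz_lcons, ih, b2]
    omega

theorem lnM_tr (n : ℕ) : ∀ out : List Bool,
    ∃ ss t1 t2, STr lnM [] [] (List.replicate n false) out (n.bits.reverse ++ out, []) ss t1 t2 ∧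
      (ss.map fun p => sz p + 1).sum + (t1.map fun p => sz p + 1).sum +
        (t2.map fun p => sz p + 1).sum ≤ 20 * n + 2 := by
  induction n using Nat.strong_induction_on with
  | _ n ih =>
    intro out
    rcases Nat.eq_zero_or_pos n with rfl | hn
    · exact ⟨_, _, _, STr.stop rfl, by simp [sz_lnil]⟩
    · obtain ⟨ss, t1, t2, h1, h2⟩ := ih (n / 2) (by omega) (n.bodd :: out)
      have hb : n.bits = n.bodd :: (n / 2).bits := by
        conv_lhs => rw [← Nat.bit_bodd_div2 n]
        rw [Nat.bits_append_bit, Nat.div2_val]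
        intro h
        rw [Nat.div2_val] at h
        obtain rfl : n = 1 := by omega
        rfl
      refine ⟨_, _, _, STr.one ?_ rfl (by simpa [lnM, scan_hf, hb] using h1), ?_⟩
      · obtain ⟨m, rfl⟩ : ∃ m, n = m + 1 := ⟨n - 1, by omega⟩
        rfl
      · simp only [List.map_cons, List.sum_cons, sz_pair, sz_rep, List.take_nil, sz_lnil]
        omega

end ListsAux

/-- The length in binary, in linear time (repeated halving). -/
@[fun_prop] theorem Cl.length {l : α → List β} (hl : Cl g 𝒜 l) :
    Cl g 𝒜 fun a => (l a).length := by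
  have h0 : Cl g (lin (List Bool × List Bool)) fun p => scan hf p.2 false :=
    cl_scan_fin (by unfold hf; fun_prop) 3 (fun _ => sz_bool _) (by fun_prop) _
  have h1 := Cl.map (F := fun _ : β => false) (by fun_prop) hl
  have h := cl_stream_lin (g := g) lnM (by unfold lnM; fun_prop) (by unfold lnM; fun_prop)
    ((h0.snd.cons (Cl.const [])).pair h0.fst) (by unfold lnM; fun_prop)
    (x := fun a => ([], [], (l a).map fun _ => false)) (by fun_prop)
    (F := fun a => ((l a).length.bits.reverse ++ [], []))
    ((hl.2.mul 20).add (Bnd.const 2)) fun a => by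
      obtain ⟨ss, t1, t2, h1, h2⟩ := lnM_tr (l a).length []
      have := length_le_sz (l a)
      exact ⟨ss, t1, t2, by simpa using h1, by omega⟩
  exact Oc.of_enc h.fst.reverse fun a _ => by simp; rfl

end Vale.Agent.P338
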