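import Vale.Agent.P338.SwapB
import Vale.Agent.P338.SwapD

/-! Exchange of two digits of size `K` in time sublinear in `log K` per entry. -/

namespace Vale.Agent.P338

namespace SwapAux

open Vale.Agent.Common.TreeTM Enc Matrix Function

variable {ι : Type} [Fintype ι] [DecidableEq ι] {r : ℕ} (e : ι ≃ Fin r)

noncomputable def sem (p : Q4 × ℕ) (q : Matrix ι ι ℚ) :
    (ℕ → ℕ → ZMod 2) →ₗ[ZMod 2] (ℕ → ℕ → ZMod 2) := LinearMap.funLeft _ _ (pl e p.1 (GG q))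

theorem sem_sem (w0 : ℕ) (q q' : Matrix ι ι ℚ) : EvK fun K => ∀ p : Q4 × ℕ, p.1.1 = K →
    Gd w0 r p.1 → ∀ v, sem e p q (sem e p q' v) = sem e p (q' * q) v :=
  (pl_mul e w0 (GG q') (GG q)).mono fun _ h p hp hs v => funext fun i => by
    simp only [sem, LinearMap.funLeft_apply, GG_mul, h p.1 hp hs]

theorem move_ok (w0 : ℕ) (hr : 0 < r) (m q) : ∃ (M : ℕ) (F : (Q4 × ℕ) × Arr → Arr), 0 < M ∧
    Oc sw ((RS w0 hr).amb1 M)
      (fun T a => (sigS ι).cost m * UU w0 T a.1.1.1 a.1.1.2.2.2 a.1.2) F ∧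
    ∀ p j v x, (RS w0 hr).good M p → (RS w0 hr).Rep p (j + 1) (sem e p q v) x →
      (RS w0 hr).Rep p j (sem e p ((sigS ι).act m q) v) (F (p, x)) := by
  have h1 : Injective (rk e) := by
    rintro (i | i) (j | j) h <;> simp only [rk, Sum.elim_inl, Sum.elim_inr] at h
    · rw [e.injective (Fin.ext (by omega : (e i : ℕ) = e j))]
    · have := (e j).2; omega
    · have := (e i).2; omega
    · rw [e.injective (Fin.ext h)]
  obtain ⟨M, h0, h⟩ := ok_gen (w0 := w0) e hr (gen_refl h1 (fun i j => (e i).2.trans_le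
    (Nat.le_add_right _ _)) m.2)
  obtain ⟨M', h0', h'⟩ := sem_sem e w0 (1 - (2 : ℚ) • vecMulVec m.1.1 m.1.2) q
  refine ⟨M * M', _, by positivity, h.change (fun a ha => ⟨⟨ha.1.1.of_dvd (dvd_mul_right _ _),
    ha.1.2⟩, ha.2⟩) bnd_wt, fun p j v x hp hx => ?_⟩
  obtain rfl : x = _ := hx
  exact (pull_arr _ fun o ho => pl_lt e hp.2 _ ho).trans
    (congrArg (enc2 _ _) (h' _ (hp.1.of_dvd (dvd_mul_left _ _)) p rfl hp.2 v))

include e in
theorem net_ok (w0 : ℕ) (hr : 0 < r) {W R : ℕ} (hW : 0 < W) {lab : Fin W → Matrix ι ι ℚ}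
    (hl : ∀ w, lab w * lab w = 1)
    (hN : Net (sigS ι) (Set.range fun w => (lab w, (Pi.single w 1 : Fin W → ZMod 2))) R
      (Set.range fun w => (-lab w, (Pi.single w 1 : Fin W → ZMod 2)))) :
    ∃ M, 0 < M ∧ ∀ {𝒜 : Amb In} {l : In → Arr} {K B C N P : In → ℕ}, Cl sw 𝒜 l → Sm sw 𝒜 K →
      Sm sw 𝒜 B → Sm sw 𝒜 C → Fit 𝒜 N P → (∀ a, 𝒜.D a → Wf (P a) (l a) ∧ l a ≠ [] ∧
        (l a).length ≤ N a ∧ K a ≡ 1 [MOD M] ∧ 0 < K a ∧
        K a ^ r * B a * K a ^ r * (C a * W) ∣ (l a).length ∧ 2 ^ (w0 * (K a).size.size) ∣ C a) →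
      Oc sw 𝒜 (fun T a => R * UU w0 T (K a) ((l a).length / W) (P a))
        fun a => pull (l a).length (swapIx (K a ^ r) (B a) (C a * W)) (l a) := by
  obtain ⟨J, hJ⟩ := hN.sound
  obtain ⟨M, F, h0, hF, hs⟩ := hJ sw (RS w0 hr) (sem e)
    (fun T p => UU w0 T p.1.1 p.1.2.2.2 p.2) (cl_xorA (Cl.fst Cl.id) (Cl.snd Cl.id)) Cl.id Cl.id
    (move_ok e w0 hr)
  obtain ⟨M', h0', h'⟩ := EvK.forall fun w => (sem_sem e w0 (lab w) (lab w)).and
    (sem_sem e w0 (-lab w) (lab w))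
  refine ⟨M * M', by positivity, fun {𝒜 l K B C N P} hl' hK hB hC hFit h => ?_⟩
  have key : ∀ a, 𝒜.D a → ∃ n v, (l a).length / W = n ∧ (zer (l a)).length = P a ∧ 0 < n ∧
      l a = enc2 (n * W) (P a) v ∧ (RS w0 hr).good M ((K a, B a, C a, n), P a) ∧
      (∀ w, sem e ((K a, B a, C a, n), P a) (lab w) (sem e ((K a, B a, C a, n), P a) (lab w)
        fun i => v (i * W + w)) = fun i => v (i * W + w)) ∧
      demux W (l a) = (List.ofFn fun w : Fin W => enc2 n (P a) fun i => v (i * W + w)) ∧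
      F (((K a, B a, C a, n), P a), demux W (l a)) = List.ofFn fun w : Fin W =>
        enc2 n (P a) fun i => v (swapIx (K a ^ r) (B a) (C a) i * W + w) := by
    intro a ha
    obtain ⟨h1, h2, -, h4, h5, ⟨c, h6⟩, h7⟩ := h a ha
    obtain ⟨v, hv⟩ := exists_enc2 h1
    obtain ⟨n, hn⟩ : ∃ n, n = K a ^ r * B a * K a ^ r * C a * c := ⟨_, rfl⟩
    have h8 : (l a).length = n * W := by rw [h6, hn]; ring
    have h9 : 0 < n := Nat.pos_of_mul_pos_right (h8 ▸ List.length_pos_iff.2 h2)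
    rw [h8] at hv
    have hG : Gd w0 r (K a, B a, C a, n) := ⟨h5, h9, ⟨c, hn⟩, h7⟩
    have hM := h' _ (h4.of_dvd (dvd_mul_left _ _))
    have hd : demux W (l a) = _ := (congrArg _ hv).trans (demux_arr hW _)
    have h10 : ∀ w, sem e ((K a, B a, C a, n), P a) (lab w) (sem e ((K a, B a, C a, n), P a) (lab w)
        fun i => v (i * W + w)) = fun i => v (i * W + w) := fun w => by
      rw [(hM w).1 _ rfl hG, hl]
      funext i
      rw [sem, LinearMap.funLeft_apply, GG_one, pl_one]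
    obtain ⟨y, hy, hy'⟩ := hs ((K a, B a, C a, n), P a) (fun w => sem e _ (lab w) fun i =>
      v (i * W + w)) (fun w => enc2 n (P a) fun i => v (i * W + w))
      ⟨h4.of_dvd (dvd_mul_right _ _), hG⟩ fun w => congrArg (enc2 _ _) (h10 w).symm
    refine ⟨n, v, by rw [h8, Nat.mul_div_cancel _ hW], len_zer h1 h2, h9, hv,
      ⟨h4.of_dvd (dvd_mul_right _ _), hG⟩, h10, hd, hd ▸ hy.trans (congrArg _ (funext fun w =>
        (hy' w).trans (congrArg (enc2 _ _) ?_)))⟩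
    rw [(hM w).2 _ rfl hG, mul_neg, hl]
    funext i
    have : NeZero (K a) := ⟨h5.ne'⟩
    rw [sem, LinearMap.funLeft_apply, GG_neg_one, pl, rd_perm]
    exact congrArg (fun x => v (x * W + w))
      (upd_fields e (le4 h9 hG.2.2.1).1.1 (le4 h9 hG.2.2.1).1.2 i).2
  have hn : Sm sw 𝒜 fun a => (l a).length / W :=
    (Sm.of_fit hFit hl'.length fun a ha => (h a ha).2.2.1).tc (F := fun x => x / W) (by fun_prop)
  have h1 := Oc.app hF (Cl.pair (Cl.pair (hK.1.pair (hB.1.pair (hC.1.pair hn.1)))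
    (cl_zer hl').length) (oc_demux W hW hl' hFit fun a ha => ⟨(h a ha).1, (h a ha).2.1,
      (h a ha).2.2.1⟩)) (fun a ha => by
      obtain ⟨n, v, a1, a2, -, -, a5, a6, a7, -⟩ := key a ha
      rw [a1, a2]
      exact ⟨a5, _, _, a7, fun w => congrArg (enc2 _ _) (a6 w).symm⟩)
    (fit_dom hFit fun a ha => ⟨(Nat.div_le_self _ _).trans (h a ha).2.2.1,
      (len_zer (h a ha).1 (h a ha).2.1).le⟩)
  refine ((oc_mux W hW h1 hFit fun a ha => ?_).congr fun a ha => ?_).mono fun T a ha => ?_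
  · obtain ⟨n, v, a1, a2, a3, a4, -, -, -, a8⟩ := key a ha
    have a9 : (l a).length = n * W := by rw [a4]; exact length_arr _ _
    rw [a1, a2, a8]
    have : (List.ofFn fun w : Fin W => enc2 n (P a) fun i =>
        v (swapIx (K a ^ r) (B a) (C a) i * W + w)).flatten.length = n * W := by
      simp [enc2, List.sum_ofFn, mul_comm]
    refine ⟨fun x hx => ?_, fun h0 => ?_, (this.trans a9.symm).trans_le (h a ha).2.2.1,
      this ▸ dvd_mul_left _ _⟩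
    · obtain ⟨y, hy, hx⟩ := List.mem_flatten.1 hx
      obtain ⟨w, rfl⟩ := List.mem_ofFn.1 hy
      exact wf_enc2 _ _ _ x hx
    · rw [h0] at this
      exact (Nat.mul_pos a3 hW).ne this
  · obtain ⟨n, v, a1, a2, a3, a4, -, -, -, a8⟩ := key a ha
    have a9 : (l a).length = n * W := by rw [a4]; exact length_arr _ _
    have a10 := (h a ha).2.2.2.2.2.1
    rw [a9] at a10
    rw [a1, a2, a8, a9, a4]
    refine (pull_arr _ fun o ho => swapIx_lt a10 ho).trans (Eq.trans ?_ (mux_arr hW fun w i =>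
      arr (P a) fun b => decide (v (swapIx (K a ^ r) (B a) (C a) i * W + w) b = 1)).symm)
    simp only [swapIx_mul]
  · simp [len_zer (h a ha).1 (h a ha).2.1]

def ambN (w0 : ℕ) (N : In → ℕ) (h : ∀ a, a.2.length ≤ N a) : Amb In where
  D := SD w0
  z a := N a * ((zer a.2).length + 1)
  n := N
  l a := (N a).size
  ok := ⟨20, fun a ha => le_add_right (by
    have h1 := List.length_pos_iff.2 ha.2.1
    obtain ⟨-, h3, h4, h5⟩ := le4 h1 ha.2.2.1
    have := sz_nat_self a.1.1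
    have := sz_nat_self a.1.2.1
    have := sz_nat_self a.1.2.2
    have := ha.1.sz_le
    have := Nat.mul_le_mul_right ((zer a.2).length + 1) (h a)
    simp only [sz_prod, mul_add, mul_left_comm a.2.length] at *
    omega)⟩

variable {w0 : ℕ} {N : In → ℕ} {hN : ∀ a, a.2.length ≤ N a}

theorem fitN : Fit (ambN w0 N hN) N fun a => (zer a.2).length :=
  fit_self fun a h => ⟨(List.length_pos_iff.2 h.2.1).trans_le (hN a), rfl, rfl, rfl⟩

theorem bnd_sw : Bnd (ambN w0 N hN) fun a => sz (sw a) := by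
  refine (Bnd.mul 4 fitN.bnd).mono fun a ha => (wf_pull ha.1 ha.2.1 _ _).sz_le.trans ?_
  rw [length_pull]
  nlinarith [hN a]

theorem smN : Sm sw (ambN w0 N hN) fun a => (a.1.1, a.1.2.1, a.1.2.2, a.2.length) := by
  have h : ∀ a, (ambN w0 N hN).D a → _ := fun a h =>
    (le4 (List.length_pos_iff.2 h.2.1) h.2.2.1).2
  exact (Sm.of_fit fitN (by fun_prop) fun a ha => (h a ha).1.trans (hN a)).pair
    ((Sm.of_fit fitN (by fun_prop) fun a ha => (h a ha).2.1.trans (hN a)).pair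
    ((Sm.of_fit fitN (by fun_prop) fun a ha => (h a ha).2.2.trans (hN a)).pair
    (Sm.of_fit fitN (by fun_prop) fun a _ => hN a)))

theorem swap_mono {K B C N K₀ o o' : ℕ} (a3 : K * B * K * C ∣ N) (a6 : K < K₀) (h3 : o < o')
    (h4 : o' < N) (h5 : o / (C * K * B) % K * K₀ + o / C % K =
      o' / (C * K * B) % K * K₀ + o' / C % K) : swapIx K B C o < swapIx K B C o' := by
  have e : ∀ {h x b y c : ℕ}, x < K → b < B → y < K → c < C →
      ((((h * K + x) * B + b) * K + y) * C + c) / (C * K * B) % K = x ∧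
      ((((h * K + x) * B + b) * K + y) * C + c) / C % K = y := fun hx hb hy hc =>
    ⟨by rw [← Nat.div_div_eq_div_mul, (ix_parts hy hc).1, (ix_parts hx hb).2.1],
      (ix_parts hy hc).2.1⟩
  have h6 := h3.trans h4
  rw [eq5 a3] at h4 h6
  obtain ⟨h, x, b, y, c, -, b2, b3, b4, b5, rfl⟩ := digits5 h6
  obtain ⟨h', x', b', y', c', -, c2, c3, c4, c5, rfl⟩ := digits5 h4
  rw [(e b2 b3 b4 b5).1, (e b2 b3 b4 b5).2, (e c2 c3 c4 c5).1, (e c2 c3 c4 c5).2] at h5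
  have d1 := congrArg (· / K₀) h5
  have d2 := congrArg (· % K₀) h5
  have hK : 0 < K₀ := by omega
  simp only [mul_comm _ K₀, Nat.mul_add_div hK, Nat.mul_add_mod, Nat.div_eq_of_lt (b4.trans a6),
    Nat.div_eq_of_lt (c4.trans a6), Nat.mod_eq_of_lt (b4.trans a6),
    Nat.mod_eq_of_lt (c4.trans a6), add_zero] at d1 d2
  subst d1 d2
  rw [swapIx_mk b2 b3 b4 b5, swapIx_mk b2 c3 b4 c5, ArrAux.ix_lt_iff b2 b5 b2 c5,
    ArrAux.ix_lt_iff b4 b3 b4 c3]
  rw [ArrAux.ix_lt_iff b4 b5 b4 c5, ArrAux.ix_lt_iff b2 b3 b2 c3] at h3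
  rcases h3 with (h3 | ⟨h3, h7 | ⟨-, h7⟩⟩) | ⟨h3, h7 | ⟨-, h7⟩⟩
  · exact .inl (.inl h3)
  · omega
  · exact .inl (.inr ⟨h3, .inr ⟨rfl, h7⟩⟩)
  · omega
  · have d3 := ix_parts (h := h) b2 b3
    rw [h3, (ix_parts b2 c3).1, (ix_parts b2 c3).2.2] at d3
    exact .inr ⟨by rw [d3.1, d3.2.2], .inr ⟨rfl, h7⟩⟩

theorem base_ok (K₀ : ℕ) :
    Cl sw ((ambN w0 N hN).sub fun a => nlt a.1.1 K₀ = true) sw := by
  have tK : TC 0 fun q : Q4 × ℕ => q.1.1 := TC.fst TC.fst'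
  have tB : TC 0 fun q : Q4 × ℕ => q.1.2.1 := TC.fst (TC.snd TC.fst')
  have tC : TC 0 fun q : Q4 × ℕ => q.1.2.2.1 := TC.fst (TC.snd (TC.snd TC.fst'))
  have t1 := P337.tc_mod (TC.snd'.div tC) tK
  have t2 := P337.tc_mod (TC.snd'.div ((tC.mul tK).mul tB)) tK
  have h1 : TC 0 fun q : Q4 × ℕ => swapIx q.1.1 q.1.2.1 q.1.2.2.1 q.2 := by
    unfold swapIx
    exact ((((((((TC.snd'.div (((tC.mul tK).mul tB).mul tK)).mul tK).add t1).mul tB).add
      (P337.tc_mod (TC.snd'.div (tC.mul tK)) tB)).mul tK).add t2).mul tC).add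
      (P337.tc_mod TC.snd' tC)
  have h2 := (t2.mul (TC.const K₀)).add t1
  have h3 := oc_pull (𝒜 := (ambN w0 N hN).sub fun a => nlt a.1.1 K₀ = true)
    (n := fun s : Q4 => s.2.2.2) (ψ := fun s => swapIx s.1 s.2.1 s.2.2.1)
    (κ := fun s o => o / (s.2.2.1 * s.1 * s.2.1) % s.1 * K₀ + o / s.2.2.1 % s.1) (K₀ * K₀)
    (Cl.snd Cl.id) (smN.sub _) (TC.snd (TC.snd TC.snd')) h1 h2 (fitN.sub _) fun a ha => by
    obtain ⟨⟨a1, a2, a3, -⟩, a5⟩ := ha
    have a6 : a.1.1 < K₀ := of_decide_eq_true a5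
    dsimp only
    refine ⟨a1, a2, hN a, hN a, fun o ho => ?_, fun o o' h3 h4 h5 _ => swap_mono a3 a6 h3 h4 h5⟩
    have hK : 0 < a.1.1 := Nat.pos_of_dvd_of_pos
      ((((dvd_mul_right _ _).mul_right _).mul_right _).trans a3) (List.length_pos_iff.2 a2)
    rw [if_pos ((Nat.add_lt_add_left ((Nat.mod_lt _ hK).trans a6) _).trans_le
      ((Nat.succ_mul _ _).ge.trans (Nat.mul_le_mul_right _ ((Nat.mod_lt _ hK).trans a6))))]
    exact swapIx_lt a3 ho
  exact h3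

theorem wf_pull' {P n : ℕ} {l : Arr} (h : Wf P l ∧ l ≠ []) (ψ) (hn : 0 < n) :
    Wf P (pull n ψ l) ∧ pull n ψ l ≠ [] :=
  ⟨wf_pull h.1 h.2 _ _, fun h => hn.ne' ((length_pull _ _ _).symm.trans (congrArg List.length h))⟩

/-- The length after padding both digits to size `X`. -/
def padN (X : ℕ) (a : In) : ℕ :=
  a.2.length / (a.1.1 * a.1.2.1 * a.1.1 * a.1.2.2) * X * (a.1.2.1 * X * a.1.2.2)

theorem padN_le {E X : ℕ} {a : In} (ha : SD w0 a) (h : E * (X * X) ≤ (E + 1) * (a.1.1 * a.1.1)) :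
    E * padN X a ≤ (E + 1) * a.2.length := by
  have := Nat.mul_le_mul_right
    (a.2.length / (a.1.1 * a.1.2.1 * a.1.1 * a.1.2.2) * a.1.2.1 * a.1.2.2) h
  conv_rhs => rw [eq5 ha.2.2.1]
  exact (le_of_eq (by rw [padN]; ring)).trans (this.trans (le_of_eq (by ring)))

theorem rec_ok {r M R K₀ : ℕ} {f : ℕ → ℕ} (hf : TC 0 f)
    (hK : ∀ K, K₀ ≤ K → f K ≡ 1 [MOD M] ∧ 0 < f K ∧ K ≤ f K ^ r ∧
      1 * (f K ^ r * f K ^ r) ≤ (1 + 1) * (K * K) ∧ (f K).size.size < K.size.size)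
    (hM : ∀ {𝒜 : Amb In} {l : In → Arr} {K B C N P : In → ℕ}, Cl sw 𝒜 l → Sm sw 𝒜 K →
      Sm sw 𝒜 B → Sm sw 𝒜 C → Fit 𝒜 N P → (∀ a, 𝒜.D a → Wf (P a) (l a) ∧ l a ≠ [] ∧
        (l a).length ≤ N a ∧ K a ≡ 1 [MOD M] ∧ 0 < K a ∧
        K a ^ r * B a * K a ^ r * (C a * 2 ^ w0) ∣ (l a).length ∧
          2 ^ (w0 * (K a).size.size) ∣ C a) →
      Oc sw 𝒜 (fun T a => R * UU w0 T (K a) ((l a).length / 2 ^ w0) (P a))
        fun a => pull (l a).length (swapIx (K a ^ r) (B a) (C a * 2 ^ w0)) (l a)) :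
    Oc sw ((ambN w0 (fun a => a.2.length) fun _ => le_rfl).sub fun a => nlt a.1.1 K₀ = false)
      (fun T a => R * UU w0 T (f a.1.1) (padN (f a.1.1 ^ r) a / 2 ^ w0) (zer a.2).length) sw := by
  have tK : TC 0 fun s : Q4 => s.1 := TC.fst'
  have tB : TC 0 fun s : Q4 => s.2.1 := TC.fst TC.snd'
  have tC : TC 0 fun s : Q4 => s.2.2.1 := TC.fst (TC.snd TC.snd')
  have tH := (TC.snd (TC.snd TC.snd')).div (((tK.mul tB).mul tK).mul tC)
  have tX := tc_powc (hf.comp tK) r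
  have t1 := (tH.mul tK).mul tB
  have t2 := (tB.mul tX).mul tC
  obtain ⟨𝒜, h𝒜⟩ : ∃ 𝒜, 𝒜 = (ambN w0 (fun a => a.2.length) fun _ => le_rfl).sub
    fun a => nlt a.1.1 K₀ = false := ⟨_, rfl⟩
  have hp : Sm sw 𝒜 fun a => (a.1.1, a.1.2.1, a.1.2.2, a.2.length) := h𝒜 ▸ smN.sub _
  have hF : Fit 𝒜 (fun a => 2 * a.2.length) fun a => (zer a.2).length :=
    h𝒜 ▸ (fitN.sub _).mono 2 fun a _ => ⟨by omega, by omega⟩
  have h : ∀ a, 𝒜.D a → ∃ H X, a.2.length / (a.1.1 * a.1.2.1 * a.1.1 * a.1.2.2) = H ∧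
      f a.1.1 ^ r = X ∧ (Wf (zer a.2).length a.2 ∧ a.2 ≠ []) ∧
      a.2.length = H * a.1.1 * a.1.2.1 * a.1.1 * a.1.2.2 ∧ a.1.1 ≤ X ∧
      a.1.2.2 / 2 ^ w0 * 2 ^ w0 = a.1.2.2 ∧
      (0 < H * a.1.1 * a.1.2.1 * X * a.1.2.2 ∧ 0 < H * X * (a.1.2.1 * X * a.1.2.2) ∧
        0 < H * a.1.1 * (a.1.2.1 * X * a.1.2.2)) ∧
      (H * a.1.1 * a.1.2.1 * X * a.1.2.2 ≤ 2 * a.2.length ∧
        H * X * (a.1.2.1 * X * a.1.2.2) ≤ 2 * a.2.length ∧
        H * a.1.1 * (a.1.2.1 * X * a.1.2.2) ≤ 2 * a.2.length) ∧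
      H * a.1.1 * a.1.2.1 * X * a.1.2.2 = H * a.1.1 * (a.1.2.1 * X * a.1.2.2) ∧
      f a.1.1 ≡ 1 [MOD M] ∧ 0 < f a.1.1 ∧ 2 ^ (w0 * (f a.1.1).size.size) ∣ a.1.2.2 / 2 ^ w0 := by
    subst h𝒜
    intro a ⟨ha, hb⟩
    obtain ⟨b1, b2, b3, b4, b5⟩ := hK a.1.1 (not_lt.1 (of_decide_eq_false hb))
    have b6 := padN_le ha b4
    have b7 : 2 ^ (w0 * (f a.1.1).size.size) * 2 ^ w0 ∣ a.1.2.2 := by
      rw [← pow_add, ← Nat.mul_succ]
      exact (pow_dvd_pow _ (Nat.mul_le_mul_left _ b5)).trans ha.2.2.2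
    have b8 := eq5 ha.2.2.1
    have b9 := List.length_pos_iff.2 ha.2.1
    rw [padN, one_mul] at b6
    refine ⟨_, _, rfl, rfl, ⟨ha.1, ha.2.1⟩, b8, b3, Nat.div_mul_cancel ((dvd_mul_left _ _).trans b7),
      ?_, ?_, by ring, b1, b2, (Nat.dvd_div_iff_mul_dvd ((dvd_mul_left _ _).trans b7)).2
        (by rwa [mul_comm])⟩ <;>
    generalize a.2.length / (a.1.1 * a.1.2.1 * a.1.1 * a.1.2.2) = H at * <;>
    generalize f a.1.1 ^ r = X at *
    · have c1 : a.2.length ≤ H * a.1.1 * a.1.2.1 * X * a.1.2.2 := by rw [b8]; gcongr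
      have c2 : H * a.1.1 * (a.1.2.1 * X * a.1.2.2) ≤ H * X * (a.1.2.1 * X * a.1.2.2) := by gcongr
      simp only [← mul_assoc] at *
      omega
    · have c2 : H * a.1.1 * (a.1.2.1 * X * a.1.2.2) ≤ H * X * (a.1.2.1 * X * a.1.2.2) := by gcongr
      simp only [← mul_assoc] at *
      omega
  have h1 := oc_rsz (Cl.snd Cl.id) hp t1 tC tX tK hF fun a ha => by
    obtain ⟨H, X, a1, a2, a3, a4, a5, a6, a7, a8, a9, -⟩ := h a ha
    simp only [a1, a2]
    exact ⟨a3.1, a3.2, by omega, a4, a8.1⟩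
  have h2 := oc_rsz h1 hp tH t2 tX tK hF fun a ha => by
    obtain ⟨H, X, a1, a2, a3, a4, a5, a6, a7, a8, a9, -⟩ := h a ha
    simp only [a1, a2, length_rsz]
    exact ⟨(wf_pull' a3 _ a7.1).1, (wf_pull' a3 _ a7.1).2, a8.1, a9, a8.2.1⟩
  have h3 := hM h2 (hp.tc (hf.comp tK)) (hp.tc tB) (hp.tc (tC.div (TC.const (2 ^ w0)))) hF
    fun a ha => by
    obtain ⟨H, X, a1, a2, a3, a4, a5, a6, a7, a8, a9, a10, a11, a12⟩ := h a ha
    simp only [a1, a2, a6, length_rsz]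
    exact and_assoc.1 ⟨wf_pull' (wf_pull' a3 _ a7.1) _ a7.2.1, a8.2.1, a10, a11, ⟨H, by ring⟩, a12⟩
  have h4 := oc_rsz h3 hp tH t2 tK tX hF fun a ha => by
    obtain ⟨H, X, a1, a2, a3, a4, a5, a6, a7, a8, a9, -⟩ := h a ha
    simp only [a1, a2, length_rsz, length_pull]
    exact and_assoc.1 ⟨wf_pull' (wf_pull' (wf_pull' a3 _ a7.1) _ a7.2.1) _ a7.2.1, a8.2.1, trivial,
      a8.2.2⟩
  have h5 := oc_rsz h4 hp t1 tC tK tX hF fun a ha => by
    obtain ⟨H, X, a1, a2, a3, a4, a5, a6, a7, a8, a9, -⟩ := h a ha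
    simp only [a1, a2, length_rsz]
    exact and_assoc.1 ⟨wf_pull' (wf_pull' (wf_pull' (wf_pull' a3 _ a7.1) _ a7.2.1) _ a7.2.1) _
      a7.2.2, a8.2.2, a9.symm, by omega⟩
  rw [← h𝒜]
  refine (h5.congr fun a ha => ?_).mono fun T a _ => by simp only [length_rsz, padN, le_refl]
  obtain ⟨H, X, a1, a2, a3, a4, a5, a6, -⟩ := h a ha
  simp only [a1, a2, a6, length_rsz]
  exact (pad_swap a5 a4).symm

theorem arith {E W R t t' N n G G' : ℕ} (hE : 0 < E) (hW : 0 < W)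
    (h1 : (E + 1) * R * t' + E * W * 1 ≤ E * W * t) (h2 : E * (n * W) ≤ (E + 1) * N)
    (h3 : G' ≤ G) : N * G + R * (t' * n * G') ≤ t * N * G := by
  refine Nat.le_of_mul_le_mul_left ?_ (Nat.mul_pos hE hW)
  have h4 := Nat.mul_le_mul_right (N * G) h1
  have h5 := Nat.mul_le_mul (Nat.mul_le_mul_left (R * t') h2) h3
  nlinarith

end SwapAux

open SwapAux Vale.Agent.Common.TreeTM

theorem swap_ok : ∃ (w1 : ℕ) (τ : ℕ → ℕ), Grow τ ∧ SwapOK w1 τ := by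
  obtain ⟨w0, R, lab, hw, hR, hl, hN⟩ := netS
  obtain ⟨M, hM, hnet⟩ := net_ok (r := 18 * 18) finProdFinEquiv w0 (by norm_num) (by positivity) hl
    (hN _ _)
  obtain ⟨E, e₀, τ, hτ, hE, -, he⟩ := exists_tau (r := 18 * 18) (by norm_num) (by positivity) hR
    grow_one
  obtain ⟨f, K₀, hf, hK⟩ := exists_kp (r := 18 * 18) (by norm_num) hM E e₀
  generalize 18 * 18 = r at hnet he hK
  have h1 := Oc.cond (smN.tc (TC.nlt TC.fst' (TC.const K₀))).1 (base_ok K₀)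
    (rec_ok hf (fun K h => by
      obtain ⟨a1, a2, a3, a4, -, -, a5, -⟩ := hK K h
      exact ⟨a1, a2, a3, Nat.le_of_mul_le_mul_left (by nlinarith) hE, a5⟩) hnet)
  have hτ1 : ∀ a : In, a.2.length ≤ a.2.length * τ a.1.1.size := fun a =>
    Nat.le_mul_of_pos_right _ (hτ.2.1 _)
  have h2 : Cl (fun b : Bool => b) (ambN w0 _ hτ1) sw := by
    refine Oc.mu (h1.congr fun a _ => (Bool.cond_self _ _).symm) (fun _ h => h) (fun a => a.1.1)
      (fun K a => τ a.1.1.size * a.2.length *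
        (K * ((zer a.2).length + 2) + (a.2.length.size + 2) ^ K)) (fun K => ?_)
      (fun K => ⟨K, fun a ha T hT => ?_⟩) bnd_sw
    · refine ((Bnd.mul (2 * K) Bnd.z).add (Bnd.poly (m := fun a => a.2.length * τ a.1.1.size)
        (y := fun a => a.2.length.size) 1 K fun a _ => ⟨(one_mul _).ge, ?_⟩)).mono fun a _ => ?_
      · exact (Nat.size_le_size (hτ1 a)).trans (by simp [ambN])
      · simp only [ambN]
        nlinarith [Nat.zero_le (K * τ a.1.1.size * a.2.length * (zer a.2).length)]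
    · have h3 : (ambN w0 (fun a => a.2.length) fun _ => le_rfl).wt K a ≤ a.2.length *
          (K * ((zer a.2).length + 2) + (a.2.length.size + 2) ^ K) := by
        have := Nat.le_mul_of_pos_left K (List.length_pos_iff.2 ha.2.1)
        simp only [Amb.wt, wt, ambN]
        nlinarith
      cases hb : nlt a.1.1 K₀
      · obtain ⟨-, -, -, a4, a5, a6, -, a7⟩ := hK a.1.1 (not_lt.1 (of_decide_eq_false hb))
        have a8 : E * (padN (f a.1.1 ^ r) a / 2 ^ w0 * 2 ^ w0) ≤ (E + 1) * a.2.length :=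
          (Nat.mul_le_mul_left _ (Nat.div_mul_le_self _ _)).trans (padN_le ha a4)
        generalize padN (f a.1.1 ^ r) a / 2 ^ w0 = n at a8 ⊢
        have a9 : n ≤ a.2.length := by
          have := Nat.mul_le_mul_left (E * n) (Nat.pow_le_pow_right (n := 2) (by omega) hw)
          exact Nat.le_of_mul_le_mul_left (c := 2 * E) (by nlinarith) (by omega)
        have a10 : UU w0 T (f a.1.1) n (zer a.2).length ≤ (τ (f a.1.1).size * n *
            (K * ((zer a.2).length + 2) + (n.size + 2) ^ K) : ℕ) :=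
          iSup_le fun ⟨x, b1, b2, b3, b4⟩ => by
            rw [hT x b1 (by rw [b2]; exact a7), b2, b3, b4]
        refine (add_le_add (Nat.cast_le.2 h3) (mul_le_mul_right a10 _)).trans ?_
        exact_mod_cast arith hE (by positivity) (he _ a5 _ a6) a8 (Nat.add_le_add_left
          (Nat.pow_le_pow_left (Nat.add_le_add_right (Nat.size_le_size a9) _) _) _)
      · simp only [cond_true, u0_apply, add_zero, Nat.cast_le, mul_assoc]
        exact h3.trans (Nat.le_mul_of_pos_left _ (hτ.2.1 _))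
  refine ⟨w0, τ, hτ, fun {α γ δ _ _ _ g 𝒜 u l K B C N P} hl hK hB hC hF h => ?_⟩
  have h3 : Cl g (ambN w0 _ hτ1) sw := ⟨h2.1.imp fun _ h => AmbAux.at_indep h g, h2.2⟩
  refine (Oc.appc h3 (Oc.pair (hK.1.pair (hB.1.pair hC.1)) hl) (fun a ha => ?_)
    (fit_dom hF fun a ha => ⟨Nat.mul_le_mul_right _ (h a ha).2.2.1,
      (len_zer (h a ha).1 (h a ha).2.1).le⟩)).mono fun _ _ _ => by simp
  obtain ⟨a1, a2, -, a3⟩ := h a ha
  exact ⟨(len_zer a1 a2).symm ▸ a1, a2, a3⟩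

end Vale.Agent.P338
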