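import Vale.Agent.P338.PrimA

/-! Functions on trees computed by stack programs, with exact accounting of recursive calls. -/

namespace Vale.Agent.P338

open Function Vale.Agent.Common.TreeTM Enc PrimAux
open Vale.Agent.Common.LoopTM (isT)

instance {β : Type} [Enc β] : Enc (Option β) := ⟨fun o => enc o.toList⟩

variable {α β γ δ σ ω β₁ β₂ : Type} [Enc α] [Enc β] [Enc γ] [Enc δ] [Enc σ] [Enc ω] [Enc β₁]
  [Enc β₂]

/-- The body of the current recursion computes `g` within time `T`. -/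
def OK (E : Cmd Rk) (g : γ → δ) (T : γ → ℕ∞) : Prop :=
  ∀ x, T x ≠ ⊤ → Impl E E (enc x) (enc (g x)) (T x)

/-- On the domain `D`, `f` is computed in time `c a + u T a`, when recursive calls compute `g`
in time `T`. -/
def At (g : γ → δ) (D : α → Prop) (f : α → β) (c : α → ℕ) (u : (γ → ℕ∞) → α → ℕ∞) : Prop :=
  ∃ P : Cmd Rk, ∀ (E : Cmd Rk) (T : γ → ℕ∞), OK E g T → ∀ a, D a → u T a ≠ ⊤ →
    Impl E P (enc a) (enc (f a)) (c a + u T a)

/-- No recursive calls. -/
def u0 {γ α : Type} : (γ → ℕ∞) → α → ℕ∞ := fun _ _ => 0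

@[simp] theorem u0_apply {γ α : Type} (T : γ → ℕ∞) (a : α) : u0 T a = 0 := rfl

variable {g : γ → δ}

namespace PrimAux

theorem at_tl {D : α → Prop} {f : α → β} {c u} (h : At g D f c u) : ∃ P : Cmd Rk,
    ∀ (E : Cmd Rk) (T : γ → ℕ∞), OK E g T → ∀ a, D a → ∀ {σ : TS} {l}, σ.get .D = enc a :: l →
      TL E P σ (σ.set .D (enc (f a) :: l)) (c a) (u T a) :=
  h.imp fun _ h E T hE a ha _ _ hs => TL.of_impl (h E T hE a ha) hs

theorem tl_at {D : α → Prop} {f : α → β} {c : α → ℕ} {u : (γ → ℕ∞) → α → ℕ∞} (P : Cmd Rk)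
    (h : ∀ (E : Cmd Rk) (T : γ → ℕ∞), OK E g T → ∀ a, D a →
      TL E P ⟨[enc a], [], [], []⟩ ⟨[enc (f a)], [], [], []⟩ (c a) (u T a)) : At g D f c u :=
  ⟨P, fun E T hE a ha hu => (h E T hE a ha).impl hu⟩

theorem esz (a : α) : (enc a).sz = sz a := rfl

def pushT : Tr → Cmd Rk
  | .nil => .push Q.D.rk false
  | .cons a b => .seq (pushT b) (.seq (pushT a) (.push Q.D.rk true))

theorem tl_pushT (E : Cmd Rk) (t : Tr) : ∀ d r1 r2 r3,
    TL E (pushT t) ⟨d, r1, r2, r3⟩ ⟨t :: d, r1, r2, r3⟩ (5 * t.sz) 0 := by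
  induction t with
  | nil => exact fun _ _ _ _ => (TL.nil .D).mono (by simp) le_rfl
  | cons a b iha ihb =>
    exact fun _ _ _ _ => ((ihb _ _ _ _).seq ((iha _ _ _ _).seq (TL.mkc .D rfl))).mono
      (by rw [sz_cons]; omega) (by simp)

def swap : Cmd Rk := .seq (move .D .R1) (.seq (move .D .R2) (.seq (move .R1 .D) (move .R2 .D)))

theorem tl_swap (E : Cmd Rk) (x y : Tr) (d r1 r2 r3) : TL E swap ⟨x :: y :: d, r1, r2, r3⟩
    ⟨y :: x :: d, r1, r2, r3⟩ (34 * (x.sz + y.sz) + 34) 0 :=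
  ((TL.move .D .R1 rfl).seq ((TL.move .D .R2 rfl).seq ((TL.move .R1 .D rfl).seq
    (TL.move .R2 .D rfl)))).mono (by omega) (by simp)

/-! Embedding of the loop language. -/

open Vale.Agent.Common.LoopTM

def rg : Rg → Rk
  | .D => .D
  | .A => .A
  | .B => .B
  | .C => .C

def pushes (r : Rk) : List Bool → Cmd Rk
  | [] => .skip
  | b :: w => .seq (pushes r w) (.push r b)

theorem ex_pushes (E : Cmd Rk) (r : Rk) (w : List Bool) (s : Rk → List Bool) :
    Ex E (pushes r w) s (update s r (w ++ s r)) (3 * w.length + 1) := by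
  induction w with
  | nil => exact ex_cast (Ex.skip _ _) (by simp) rfl
  | cons b w ih => exact ex_cast (ih.seq (Ex.push _ _ _ _)) (by simp) (by simp; ring)

def emb : Prog Rg → Cmd Rk
  | .push r w => pushes (rg r) w
  | .pop r => .pop (rg r)
  | .seq P P' => .seq (emb P) (emb P')
  | .loop r c P => .loop (rg r) c (emb P)
  | .cond r c P P' => .cond (rg r) c (emb P) (emb P')

def ext (r1 r2 r3 : List Bool) (s : Rg → List Bool) : Rk → List Bool :=
  st (s .D) (s .A) (s .B) (s .C) r1 r2 r3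

theorem ext_rg (r1 r2 r3 s r) : ext r1 r2 r3 s (rg r) = s r := by cases r <;> rfl

theorem ext_up (r1 r2 r3 s r x) :
    update (ext r1 r2 r3 s) (rg r) x = ext r1 r2 r3 (update s r x) := by
  funext k; cases r <;> cases k <;> rfl

theorem ex_emb (P : Prog Rg) : ∃ k, ∀ (E : Cmd Rk) (r1 r2 r3 : List Bool) (b : ℕ) s s',
    Run b P s s' → ∃ t ≤ (b + 2) ^ k, Ex E (emb P) (ext r1 r2 r3 s) (ext r1 r2 r3 s') t := by
  have h2 : ∀ b k l : ℕ, (b + 2) ^ k ≤ (b + 2) ^ (k + l) ∧ (b + 2) ^ l ≤ (b + 2) ^ (k + l) ∧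
      1 ≤ (b + 2) ^ (k + l) ∧ 4 * (b + 2) ^ (k + l) ≤ (b + 2) ^ (k + l + 2) := fun b k l =>
    ⟨Nat.pow_le_pow_right (by omega) (by omega), Nat.pow_le_pow_right (by omega) (by omega),
      Nat.one_le_pow _ _ (by omega), by
        rw [pow_add _ _ 2, mul_comm]; exact Nat.mul_le_mul_left _ (Nat.pow_le_pow_left (by omega : 2 ≤ b + 2) 2)⟩
  induction P with
  | push r w =>
    refine ⟨3 * w.length + 1, fun E r1 r2 r3 b s s' h => ⟨_, Nat.lt_two_pow_self.le.trans
      (Nat.pow_le_pow_left (by omega) _), ex_cast (ex_pushes E _ w _) ?_ rfl⟩⟩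
    rw [ext_rg, ext_up, show s' = _ from h]
  | pop r =>
    refine ⟨0, fun E r1 r2 r3 b s s' h => ⟨1, le_rfl, ex_cast (Ex.pop _ _ _) ?_ rfl⟩⟩
    rw [ext_rg, ext_up, show s' = _ from h]
  | seq P P' ih ih' =>
    obtain ⟨k, hk⟩ := ih
    obtain ⟨l, hl⟩ := ih'
    refine ⟨k + l + 2, fun E r1 r2 r3 b s s' ⟨t, h, h'⟩ => ?_⟩
    obtain ⟨t1, a1, a2⟩ := hk E r1 r2 r3 b _ _ h
    obtain ⟨t2, b1, b2⟩ := hl E r1 r2 r3 b _ _ h'
    exact ⟨_, by have := h2 b k l; omega, a2.seq b2⟩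
  | loop r c P ih =>
    obtain ⟨k, hk⟩ := ih
    refine ⟨k + 0 + 2 + 1, fun E r1 r2 r3 b s s' ⟨m, hm, I, i1, i2, i3, i4⟩ => ?_⟩
    have key : ∀ i ≤ m, ∃ t ≤ i * ((b + 2) ^ k + 2) + 1,
        Ex E (.loop (rg r) c (emb P)) (ext r1 r2 r3 (I i)) (ext r1 r2 r3 s') t := by
      intro i
      induction i with
      | zero => exact fun _ => ⟨1, by omega, i2 ▸ Ex.loopF (by rw [ext_rg, i2, i3])⟩
      | succ i ih =>
        intro hi
        obtain ⟨t1, a1, a2⟩ := hk E r1 r2 r3 b _ _ (i4 i hi).2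
        obtain ⟨t2, b1, b2⟩ := ih (by omega)
        exact ⟨_, by rw [Nat.succ_mul]; omega,
          Ex.loopT (by rw [ext_rg]; exact (i4 i hi).1) a2 b2⟩
    obtain ⟨t, a1, a2⟩ := key m le_rfl
    refine ⟨t, a1.trans ?_, i1 ▸ a2⟩
    have := h2 b k 0
    rw [pow_succ]
    nlinarith
  | cond r c P P' ih ih' =>
    obtain ⟨k, hk⟩ := ih
    obtain ⟨l, hl⟩ := ih'
    refine ⟨k + l + 2, fun E r1 r2 r3 b s s' h => ?_⟩
    have := h2 b k l
    rcases h with ⟨h, h'⟩ | ⟨h, h'⟩
    · obtain ⟨t, a1, a2⟩ := hk E r1 r2 r3 b _ _ h'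
      exact ⟨_, by omega, Ex.condT (by rw [ext_rg, h]) a2⟩
    · obtain ⟨t, a1, a2⟩ := hl E r1 r2 r3 b _ _ h'
      exact ⟨_, by omega, Ex.condF (by rw [ext_rg, h]) a2⟩

end PrimAux

theorem At.mono {D D' : α → Prop} {f f' : α → β} {c c' : α → ℕ} {u u'} (h : At g D f c u)
    (hD : ∀ a, D' a → D a) (hf : ∀ a, D' a → enc (f' a) = enc (f a))
    (hc : ∀ T a, D' a → c a + u T a ≤ c' a + u' T a) : At g D' f' c' u' := by
  obtain ⟨P, hP⟩ := h
  refine ⟨P, fun E T hE a ha hu d r1 r2 r3 => ?_⟩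
  have h1 := hc T a ha
  obtain ⟨t, h2, h3⟩ := hP E T hE a (hD a ha)
    (ne_r (ne_top_of_le_ne_top (WithTop.add_ne_top.2 ⟨ENat.natCast_ne_top _, hu⟩) h1)) d r1 r2 r3
  exact ⟨t, h2.trans h1, hf a ha ▸ h3⟩

/-- Change of the encoded input type. -/
theorem At.pre {α' : Type} [Enc α'] {D : α → Prop} {f : α → β} {c u} (h : At g D f c u)
    (e : α' → α) (he : ∀ a, enc (e a) = enc a) :
    At g (fun a => D (e a)) (fun a => f (e a)) (fun a => c (e a)) (fun T a => u T (e a)) := by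
  obtain ⟨P, hP⟩ := h
  exact ⟨P, fun E T hE a ha hu => he a ▸ hP E T hE (e a) ha hu⟩

theorem At.id : At g (fun _ => True) (fun a : α => a) (fun _ => 1) u0 := by
  exact tl_at .skip fun _ _ _ _ _ => TL.skip

theorem At.const (b : β) :
    ∃ k, At g (fun _ => True) (fun _ : α => b) (fun a => k * (sz a + 1)) u0 := by
  refine ⟨10 + 5 * sz b, tl_at (.seq (drop .D) (pushT (enc b))) fun E _ _ a _ =>
    ((TL.drop .D rfl).seq (tl_pushT E _ _ _ _ _)).mono ?_ (by simp)⟩
  simp only [esz]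
  nlinarith [Nat.zero_le (sz a * sz b)]

theorem At.fst : At g (fun _ => True) (fun p : α × β => p.1) (fun p => 100 * (sz p + 1)) u0 := by
  refine tl_at _ fun E _ _ p _ => ((TL.unc .D rfl).seq ((TL.move .D .R1 rfl).seq
    ((TL.drop .D rfl).seq (TL.move .R1 .D rfl)))).mono ?_ (by simp)
  simp only [esz, sz_prod p]
  omega

theorem At.snd : At g (fun _ => True) (fun p : α × β => p.2) (fun p => 100 * (sz p + 1)) u0 := by
  refine tl_at _ fun E _ _ p _ => ((TL.unc .D rfl).seq (TL.drop .D rfl)).mono ?_ (by simp)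
  simp only [esz, sz_prod p]
  omega

theorem At.comp {D : α → Prop} {D' : β → Prop} {f : α → β} {F : β → σ} {c c' u u'}
    (hF : At g D' F c' u') (hf : At g D f c u) (hD : ∀ a, D a → D' (f a)) :
    At g D (fun a => F (f a)) (fun a => c a + c' (f a) + 2) (fun T a => u T a + u' T (f a)) := by
  obtain ⟨P, hP⟩ := at_tl hF
  obtain ⟨P', hP'⟩ := at_tl hf
  exact tl_at (.seq P' P) fun E T hE a ha =>
    (hP' E T hE a ha rfl).seq (hP E T hE (f a) (hD a ha) rfl)

theorem At.pair {D : α → Prop} {f : α → β} {f' : α → σ} {c c' u u'}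
    (hf : At g D f c u) (hf' : At g D f' c' u') :
    At g D (fun a => (f a, f' a)) (fun a => c a + c' a + 100 * (sz a + sz (f' a) + 1))
      (fun T a => u T a + u' T a) := by
  obtain ⟨P, hP⟩ := at_tl hf
  obtain ⟨P', hP'⟩ := at_tl hf'
  refine tl_at (.seq (dup .D) (.seq P' (.seq swap (.seq P (.push Q.D.rk true)))))
    fun E T hE a ha => ((TL.dup .D rfl).seq ((hP' E T hE a ha rfl).seq
      ((tl_swap E _ _ _ _ _ _).seq ((hP E T hE a ha rfl).seq (TL.mkc .D rfl))))).mono ?_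
      (by simp [add_comm])
  simp only [esz]
  omega

theorem At.cond {D : α → Prop} {p : α → Bool} {f f' : α → β} {cp c c' u u'}
    (hp : At g D p cp u0) (hf : At g (fun a => D a ∧ p a = true) f c u)
    (hf' : At g (fun a => D a ∧ p a = false) f' c' u') :
    At g D (fun a => bif p a then f a else f' a)
      (fun a => cp a + (bif p a then c a else c' a) + 100 * (sz a + 1))
      (fun T a => bif p a then u T a else u' T a) := by
  obtain ⟨P₀, hP₀⟩ := at_tl hp
  obtain ⟨P, hP⟩ := at_tl hf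
  obtain ⟨P', hP'⟩ := at_tl hf'
  refine tl_at (.seq (dup .D) (.seq P₀ (.cond Q.D.rk isT (.seq (drop .D) P) (.seq (drop .D) P'))))
    fun E T hE a ha => ?_
  have h0 := hP₀ E T hE a ha (σ := ⟨[enc a, enc a], [], [], []⟩) rfl
  cases hb : p a
  · rw [hb] at h0
    refine ((TL.dup .D rfl).seq (h0.seq (TL.condF .D rfl ((TL.drop .D rfl).seq
      (hP' E T hE a ⟨ha, hb⟩ rfl))))).mono ?_ (by simp)
    have := sz_bool false
    simp only [esz, cond_false]
    omega
  · rw [hb] at h0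
    refine ((TL.dup .D rfl).seq (h0.seq (TL.condT .D rfl ((TL.drop .D rfl).seq
      (hP E T hE a ⟨ha, hb⟩ rfl))))).mono ?_ (by simp)
    have := sz_bool true
    simp only [esz, cond_true]
    omega

theorem at_isCons :
    At g (fun _ => True) (fun l : List α => isCons l) (fun l => 100 * (sz l + 1)) u0 := by
  refine tl_at (.cond Q.D.rk isT (.seq (drop .D) (pushT (tb true)))
    (.seq (drop .D) (pushT (tb false)))) fun E T _ l _ => ?_
  cases l with
  | nil =>
    refine (TL.condF .D rfl ((TL.drop .D rfl).seq (tl_pushT E _ _ _ _ _))).mono ?_ (by simp)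
    exact (show 22 ≤ 200 by omega)
  | cons x l =>
    refine (TL.condT .D rfl ((TL.drop .D rfl).seq (tl_pushT E _ _ _ _ _))).mono ?_ (by simp)
    have : (tb true).sz = 3 := rfl
    simp only [esz]
    omega

theorem At.tc {f : α → β} (hf : TC 0 f) :
    ∃ k, At g (fun _ => True) f (fun a => (sz a + 2) ^ k) u0 := by
  obtain ⟨F, m, ⟨k, hk⟩, -, h⟩ := hf
  obtain ⟨l, hl⟩ := ex_emb (compile F)
  refine ⟨(2 * k + 1) * l, emb (compile F), fun E T _ a _ _ d r1 r2 r3 => ?_⟩
  have h0 := one_le_sz a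
  have h1 : m a ≤ (sz a + 2) ^ (2 * k) := by
    refine (hk a).trans ?_
    rw [zero_add, pow_one, mul_comm k, pow_mul, pow_mul]
    refine Nat.pow_le_pow_left ?_ _
    have := Nat.pow_log_le_self 2 (show sz a ≠ 0 by omega)
    rw [ell, pow_add]
    nlinarith
  obtain ⟨t, h2, h3⟩ := hl E r1 r2 r3 _ _ _ ((h a _ h1).run d)
  refine ⟨t, ?_, h3⟩
  rw [u0_apply, add_zero, Nat.cast_le]
  refine h2.trans ((Nat.pow_le_pow_left ?_ _).trans (pow_mul _ _ _).ge)
  have := Nat.one_le_pow (2 * k) (sz a + 2) (by omega)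
  rw [pow_succ]
  nlinarith

theorem At.call : At g (fun _ => True) g (fun _ => 1) (fun T a => T a) := by
  refine ⟨.call, fun E T hE a _ hu d r1 r2 r3 => ?_⟩
  obtain ⟨t, h1, h2⟩ := hE a hu d r1 r2 r3
  refine ⟨_, ?_, Ex.call h2⟩
  rw [add_comm]
  push_cast
  gcongr

/-- Recursion along a measure. -/
theorem At.mu {D : α → Prop} {f : α → β} {c u} (h : At f D f c u) (μ B : α → ℕ)
    (hB : ∀ a, D a → ∀ T : α → ℕ∞, (∀ x, D x → μ x < μ a → T x = B x) → c a + u T a ≤ B a) :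
    At g D f (fun a => B a + 1) u0 := by
  classical
  obtain ⟨P, hP⟩ := h
  have key : ∀ n a, μ a < n → D a → Impl P P (enc a) (enc (f a)) (B a) := by
    intro n
    induction n with
    | zero => exact fun _ h => absurd h (Nat.not_lt_zero _)
    | succ n ih =>
      intro a hn ha d r1 r2 r3
      have h1 := hB a ha (fun x => if D x ∧ μ x < μ a then B x else ⊤) fun x h h' => if_pos ⟨h, h'⟩
      obtain ⟨t, h2, h3⟩ := hP P (fun x => if D x ∧ μ x < μ a then B x else ⊤) (fun x hx => by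
        by_cases h : D x ∧ μ x < μ a
        · simp only [if_pos h]
          exact ih x (by omega) h.1
        · simp [h] at hx) a ha (ne_r (ne_top_of_le_ne_top (ENat.natCast_ne_top _) h1)) d r1 r2 r3
      exact ⟨t, h2.trans h1, h3⟩
  refine ⟨.mu P, fun E T _ a ha _ d r1 r2 r3 => ?_⟩
  obtain ⟨t, h1, h2⟩ := key _ a (Nat.lt_succ_self _) ha d r1 r2 r3
  refine ⟨_, ?_, Ex.mu h2⟩
  rw [u0_apply, add_zero]
  exact_mod_cast Nat.succ_le_succ (by exact_mod_cast h1)

/-! ### Streams -/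

/-- A machine reading two lists: `cont` says whether to go on, `wh` which list is read next
(`false`: the first); the step functions see at most one element. -/
structure SM (β₁ β₂ σ ω : Type) where
  cont : σ → Bool
  wh : σ → Bool
  up1 : List β₁ × σ → List ω × σ
  up2 : List β₂ × σ → List ω × σ

/-- A run with reversed output `out`, result `r`; `ss` lists the visited states, `t1`, `t2` the
arguments of the step functions. -/
inductive STr (M : SM β₁ β₂ σ ω) : List β₁ → List β₂ → σ → List ω → List ω × σ → List σ →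
    List (List β₁ × σ) → List (List β₂ × σ) → Prop
  | stop {l1 l2 s out} : M.cont s = false → STr M l1 l2 s out (out, s) [s] [] []
  | one {l1 l2 s out r ss t1 t2} : M.cont s = true → M.wh s = false →
      STr M l1.tail l2 (M.up1 (l1.take 1, s)).2 ((M.up1 (l1.take 1, s)).1.reverse ++ out)
        r ss t1 t2 → STr M l1 l2 s out r (s :: ss) ((l1.take 1, s) :: t1) t2
  | two {l1 l2 s out r ss t1 t2} : M.cont s = true → M.wh s = true →
      STr M l1 l2.tail (M.up2 (l2.take 1, s)).2 ((M.up2 (l2.take 1, s)).1.reverse ++ out)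
        r ss t1 t2 → STr M l1 l2 s out r (s :: ss) t1 ((l2.take 1, s) :: t2)

namespace PrimAux

def emit : Cmd Rk :=
  .loop Q.D.rk isT (.seq (.pop Q.D.rk) (.seq (move .D .R3) (.push Q.R3.rk true)))

theorem tl_emit (E : Cmd Rk) (em out : List ω) (d r1 r2) :
    TL E emit ⟨enc em :: d, r1, r2, [enc out]⟩ ⟨.nil :: d, r1, r2, [enc (em.reverse ++ out)]⟩
      (20 * sz em) 0 := by
  induction em generalizing out with
  | nil => exact (TL.loopF .D rfl).mono (show 1 ≤ 20 by omega) le_rfl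
  | cons x em ih =>
    rw [List.reverse_cons, List.append_assoc]
    refine (TL.loopT .D rfl ((TL.unc .D rfl).seq ((TL.move .D .R3 rfl).seq (TL.mkc .R3 rfl)))
      (ih (x :: out))).mono ?_ (by simp)
    simp only [esz, sz_lcons]
    omega

def take1 (q : Q) : Cmd Rk := .cond q.rk isT
  (.seq (.push Q.D.rk false) (.seq (.pop q.rk) (.seq (move q .D) (.push Q.D.rk true))))
  (.push Q.D.rk false)

def step (q : Q) (P : Cmd Rk) : Cmd Rk := .seq (drop .D) (.seq (take1 q)
  (.seq (.push Q.D.rk true) (.seq P (.seq (.pop Q.D.rk) (.seq emit (drop .D))))))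

theorem tl_step (E : Cmd Rk) (q : Q) (hq : q = .R1 ∨ q = .R2) {P : Cmd Rk} {c u} {l : List β}
    {s : σ} {r : List ω × σ} (b : Bool) (out : List ω) (x y : Tr)
    (hP : ∀ {τ : TS} {k}, τ.get .D = enc (l.take 1, s) :: k →
      TL E P τ (τ.set .D (enc r :: k)) c u) (h : (⟨[], [x], [y], []⟩ : TS).get q = [enc l]) :
    TL E (step q P) ⟨[enc b, enc s], [x], [y], [enc out]⟩
      (TS.set ⟨[enc r.2], [x], [y], [enc (r.1.reverse ++ out)]⟩ q [enc l.tail])
      (c + 20 * (sz (l.take 1, s) + sz r) + 80) u := by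
  have h1 : TL E (take1 q) ⟨[enc s], [x], [y], [enc out]⟩
      (TS.set ⟨[enc (l.take 1), enc s], [x], [y], [enc out]⟩ q [enc l.tail])
      (20 * sz (l.take 1)) 0 := by
    rcases hq with rfl | rfl <;> cases h <;> cases l
    any_goals exact (TL.condF _ rfl (TL.nil .D)).mono (show 2 ≤ 20 by omega) le_rfl
    all_goals
      refine (TL.condT _ rfl ((TL.nil .D).seq ((TL.unc _ rfl).seq ((TL.move _ .D rfl).seq
        (TL.mkc .D rfl))))).mono ?_ (by simp)
      simp only [esz, List.take_succ_cons, sz_lcons]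
      omega
  have := sz_bool b
  rcases hq with rfl | rfl
  all_goals
    refine ((TL.drop .D rfl).seq (h1.seq ((TL.mkc .D rfl).seq ((hP rfl).seq ((TL.unc .D rfl).seq
      ((tl_emit E r.1 out _ _ _).seq (TL.drop .D rfl))))))).mono ?_ (by simp)
    simp only [esz, sz_prod, sz_nil]
    omega

end PrimAux

theorem At.stream (M : SM β₁ β₂ σ ω) {Ds : σ → Prop} {D1 D2 cc cw c1 c2 u1 u2}
    (hc : At g Ds M.cont cc u0) (hw : At g Ds M.wh cw u0) (h1 : At g D1 M.up1 c1 u1)
    (h2 : At g D2 M.up2 c2 u2) {D : List β₁ × List β₂ × σ → Prop}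
    {F : List β₁ × List β₂ × σ → List ω × σ} {c : _ → ℕ} {u : (γ → ℕ∞) → _ → ℕ∞}
    (h : ∀ a, D a → ∃ ss t1 t2, STr M a.1 a.2.1 a.2.2 [] (F a) ss t1 t2 ∧ (∀ s ∈ ss, Ds s) ∧
      (∀ p ∈ t1, D1 p) ∧ (∀ p ∈ t2, D2 p) ∧
      (ss.map fun s => cc s + cw s + 100 * (sz s + 1)).sum +
        (t1.map fun p => c1 p + 100 * (sz p + sz (M.up1 p) + 1)).sum +
        (t2.map fun p => c2 p + 100 * (sz p + sz (M.up2 p) + 1)).sum +
        100 * (sz a + sz (F a) + 1) ≤ c a ∧
      ∀ T, (t1.map (u1 T)).sum + (t2.map (u2 T)).sum ≤ u T a) : At g D F c u := by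
  obtain ⟨Pc, hPc⟩ := at_tl hc
  obtain ⟨Pw, hPw⟩ := at_tl hw
  obtain ⟨P1, hP1⟩ := at_tl h1
  obtain ⟨P2, hP2⟩ := at_tl h2
  let W : Cmd Rk := wh .D (.seq (dup .D) Pc) (.seq (drop .D) (.seq (dup .D) (.seq Pw
    (.cond Q.D.rk isT (step .R2 P2) (step .R1 P1)))))
  refine tl_at (.seq (.pop Q.D.rk) (.seq (move .D .R1) (.seq (.pop Q.D.rk) (.seq (move .D .R2)
    (.seq (.push Q.R3.rk false) (.seq W (.seq (drop .D) (.seq (drop .R1) (.seq (drop .R2)
    (.seq (move .R3 .D) (.push Q.D.rk true))))))))))) fun E T hE a ha => ?_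
  have key : ∀ {l1 l2 s out r ss t1 t2}, STr M l1 l2 s out r ss t1 t2 → (∀ s ∈ ss, Ds s) →
      (∀ p ∈ t1, D1 p) → (∀ p ∈ t2, D2 p) → ∃ (k1 : List β₁) (k2 : List β₂),
      sz k1 ≤ sz l1 ∧ sz k2 ≤ sz l2 ∧ TL E W ⟨[enc s], [enc l1], [enc l2], [enc out]⟩
        ⟨[.nil, enc r.2], [enc k1], [enc k2], [enc r.1]⟩
        ((ss.map fun s => cc s + cw s + 100 * (sz s + 1)).sum +
        (t1.map fun p => c1 p + 100 * (sz p + sz (M.up1 p) + 1)).sum +
        (t2.map fun p => c2 p + 100 * (sz p + sz (M.up2 p) + 1)).sum)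
        ((t1.map (u1 T)).sum + (t2.map (u2 T)).sum) := by
    intro l1 l2 s out r ss t1 t2 hr
    have fl : ∀ {s b x y z}, Ds s → M.cont s = b → TL E (.seq (dup .D) Pc) ⟨[enc s], x, y, z⟩
        ⟨[enc b, enc s], x, y, z⟩ (cc s + 27 * sz s + 12) 0 := fun hs hb =>
      hb ▸ ((TL.dup .D rfl).seq (hPc E T hE _ hs rfl)).mono (by rw [esz]; omega) (by simp)
    induction hr with
    | @stop l1 l2 s out hs =>
      intro d0 _ _
      refine ⟨l1, l2, le_rfl, le_rfl, ((fl (d0 s (by simp)) hs).seq (TL.loopF .D rfl)).mono ?_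
        (by simp)⟩
      simp only [List.map_cons, List.sum_cons]
      omega
    | @one l1 l2 s out r ss t1 t2 hs hw' _ ih =>
      intro d0 d1 d2
      obtain ⟨k1, k2, a1, a2, a3⟩ := ih (fun s h => d0 s (by simp [h]))
        (fun s h => d1 s (by simp [h])) d2
      have h0 := hPw E T hE s (d0 s (by simp))
        (σ := ⟨[enc s, enc s], [enc l1], [enc l2], [enc out]⟩) rfl
      rw [hw'] at h0
      refine ⟨k1, k2, a1.trans (by simpa using sz_drop l1 1), a2, (TL.whT .D (fl (d0 s (by simp)) hs)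
        rfl ((TL.drop .D rfl).seq ((TL.dup .D rfl).seq (h0.seq (TL.condF .D rfl
          (tl_step E .R1 (.inl rfl) false out _ _ (hP1 E T hE _ (d1 _ (by simp))) rfl))))) a3).mono
        ?_ (by simp [add_assoc])⟩
      have := sz_bool true
      have := one_le_sz (l1.take 1, s)
      simp only [List.map_cons, List.sum_cons, esz]
      omega
    | @two l1 l2 s out r ss t1 t2 hs hw' _ ih =>
      intro d0 d1 d2
      obtain ⟨k1, k2, a1, a2, a3⟩ := ih (fun s h => d0 s (by simp [h])) d1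
        (fun s h => d2 s (by simp [h]))
      have h0 := hPw E T hE s (d0 s (by simp))
        (σ := ⟨[enc s, enc s], [enc l1], [enc l2], [enc out]⟩) rfl
      rw [hw'] at h0
      refine ⟨k1, k2, a1, a2.trans (by simpa using sz_drop l2 1), (TL.whT .D (fl (d0 s (by simp)) hs)
        rfl ((TL.drop .D rfl).seq ((TL.dup .D rfl).seq (h0.seq (TL.condT .D rfl
          (tl_step E .R2 (.inr rfl) true out _ _ (hP2 E T hE _ (d2 _ (by simp))) rfl))))) a3).mono
        ?_ (by simp [add_left_comm])⟩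
      have := sz_bool true
      have := one_le_sz (l2.take 1, s)
      simp only [List.map_cons, List.sum_cons, esz]
      omega
  obtain ⟨ss, t1, t2, b1, b2, b3, b4, b5, b6⟩ := h a ha
  obtain ⟨k1, k2, a1, a2, a3⟩ := key b1 b2 b3 b4
  refine ((TL.unc .D rfl).seq ((TL.move .D .R1 rfl).seq ((TL.unc .D rfl).seq
    ((TL.move .D .R2 rfl).seq ((TL.nil .R3).seq (a3.seq ((TL.drop .D rfl).seq
    ((TL.drop .R1 rfl).seq ((TL.drop .R2 rfl).seq ((TL.move .R3 .D rfl).seq
    (TL.mkc .D rfl))))))))))).mono (le_trans ?_ b5) (by simpa using b6 T)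
  simp only [esz, sz_nil, sz_prod a, sz_prod a.2, sz_prod (F a)]
  omega

/-- One step of grouping: a separator closes the current list. -/
def grpStep (s : List β × List (List β)) : Option β → List β × List (List β)
  | none => ([], s.1 :: s.2)
  | some x => (x :: s.1, s.2)

def grp (l : List (Option β)) : List β × List (List β) := l.foldl grpStep ([], [])

theorem at_grp :
    At g (fun _ => True) (fun l : List (Option β) => grp l) (fun l => 100 * (sz l + 1)) u0 := by
  let L : Cmd Rk := .loop Q.D.rk isT (.seq (.pop Q.D.rk) (.cond Q.D.rk isT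
    (.seq (.pop Q.D.rk) (.seq (move .D .R1) (.seq (.push Q.R1.rk true) (drop .D))))
    (.seq (drop .D) (.seq (move .R1 .R2) (.seq (.push Q.R2.rk true) (.push Q.R1.rk false))))))
  refine tl_at (.seq (.push Q.R1.rk false) (.seq (.push Q.R2.rk false) (.seq L (.seq (drop .D)
    (.seq (move .R2 .D) (.seq (move .R1 .D) (.push Q.D.rk true))))))) fun E T _ l _ => ?_
  have key : ∀ (l : List (Option β)) (s : List β × List (List β)),
      sz (l.foldl grpStep s) ≤ sz l + sz s ∧ TL E L ⟨[enc l], [enc s.1], [enc s.2], []⟩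
        ⟨[.nil], [enc (l.foldl grpStep s).1], [enc (l.foldl grpStep s).2], []⟩
        (40 * sz l + 17 * sz s.1) 0 := by
    intro l
    induction l with
    | nil =>
      exact fun s => ⟨by simp, (TL.loopF .D rfl).mono (by rw [sz_lnil]; omega) le_rfl⟩
    | cons x l ih =>
      intro s
      obtain ⟨i1, i2⟩ := ih (grpStep s x)
      cases x with
      | none =>
        have : sz (none : Option β) = 1 := rfl
        refine ⟨i1.trans ?_, (TL.loopT .D rfl ((TL.unc .D rfl).seq (TL.condF .D rfl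
          ((TL.drop .D rfl).seq ((TL.move .R1 .R2 rfl).seq ((TL.mkc .R2 rfl).seq (TL.nil .R1))))))
          i2).mono ?_ (by simp)⟩ <;>
        simp only [esz, grpStep, sz_prod, sz_lcons, sz_lnil, sz_nil] <;> omega
      | some x =>
        have : sz (some x) = sz x + 2 := sz_lcons x []
        have : (encL enc ([] : List β)).sz = 1 := rfl
        refine ⟨i1.trans ?_, (TL.loopT .D rfl ((TL.unc .D rfl).seq (TL.condT .D rfl
          ((TL.unc .D rfl).seq ((TL.move .D .R1 rfl).seq ((TL.mkc .R1 rfl).seq (TL.drop .D rfl))))))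
          i2).mono ?_ (by simp)⟩ <;>
        simp only [esz, grpStep, sz_prod, sz_lcons] <;> omega
  obtain ⟨i1, i2⟩ := key l ([], [])
  refine ((TL.nil .R1).seq ((TL.nil .R2).seq (i2.seq ((TL.drop .D rfl).seq ((TL.move .R2 .D rfl).seq
    ((TL.move .R1 .D rfl).seq (TL.mkc .D rfl))))))).mono ?_ (by simp)
  simp only [esz, sz_prod, sz_lnil, sz_nil] at i1 ⊢
  omega

end Vale.Agent.P338
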