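import Vale.Agent.P338.Sim
import Vale.Agent.P338.Prim

/-! From tree functions to multitape machines. -/

namespace Vale.Agent.P338

open Vale.Agent.Common.TreeTM

namespace TopAux

open Function PrimAux Enc
open Vale.Agent.Common.LoopTM (isT)

variable (d a b c r1 r2 r3 x : List Bool)

theorem upD : update (st d a b c r1 r2 r3) .D x = st x a b c r1 r2 r3 := by
  funext r; cases r <;> rfl
theorem upA : update (st d a b c r1 r2 r3) .A x = st d x b c r1 r2 r3 := by
  funext r; cases r <;> rfl
theorem upB : update (st d a b c r1 r2 r3) .B x = st d a x c r1 r2 r3 := by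
  funext r; cases r <;> rfl
theorem upC : update (st d a b c r1 r2 r3) .C x = st d a b x r1 r2 r3 := by
  funext r; cases r <;> rfl

def build : Cmd Rk := .loop .C Option.isSome (.cond .C isT
  (.seq (.pop .C) (pushes .D [true, true, false, false])) (.seq (.pop .C) (pushes .D [true, false])))

theorem ex_build (E : Cmd Rk) (l : List Bool) : ∀ m : List Bool, ∃ t ≤ 19 * l.length + 1,
    Ex E build (st ((enc m).enc ++ d) a b l r1 r2 r3)
      (st ((enc (l.reverse ++ m)).enc ++ d) a b [] r1 r2 r3) t := by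
  induction l with
  | nil => exact fun m => ⟨1, by simp, Ex.loopF rfl⟩
  | cons y l ih =>
    intro m
    obtain ⟨t, h1, h2⟩ := ih (y :: m)
    rw [List.reverse_cons, List.append_assoc, List.length_cons]
    cases y
    · exact ⟨_, by simp only [List.length_cons, List.length_nil]; omega,
        Ex.loopT rfl (Ex.condF rfl ((Ex.pop _ _ _).seq
          (ex_cast (ex_pushes E _ _ _) (by rw [upC, upD]; rfl) rfl))) h2⟩
    · exact ⟨_, by simp only [List.length_cons, List.length_nil]; omega,
        Ex.loopT rfl (Ex.condT rfl ((Ex.pop _ _ _).seq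
          (ex_cast (ex_pushes E _ _ _) (by rw [upC, upD]; rfl) rfl))) h2⟩

def decode : Cmd Rk := .loop .D isT (.seq (.pop .D) (.cond .D isT
  (.seq (.pop .D) (.seq (.pop .D) (.seq (.pop .D) (.push .A true))))
  (.seq (.pop .D) (.push .A false))))

theorem ex_decode (E : Cmd Rk) (l : List Bool) : ∀ m : List Bool, ∃ t ≤ 16 * l.length + 1,
    Ex E decode (st ((enc l).enc ++ d) m b c r1 r2 r3)
      (st (false :: d) (l.reverse ++ m) b c r1 r2 r3) t := by
  induction l with
  | nil => exact fun m => ⟨1, by simp, Ex.loopF rfl⟩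
  | cons y l ih =>
    intro m
    obtain ⟨t, h1, h2⟩ := ih (y :: m)
    rw [List.reverse_cons, List.append_assoc, List.length_cons]
    cases y
    · exact ⟨_, by omega, Ex.loopT rfl ((Ex.pop _ _ _).seq (Ex.condF (by rw [upD]; rfl)
        ((Ex.pop _ _ _).seq (ex_cast (Ex.push _ _ _ _) (by rw [upD, upD, upA]; rfl) rfl)))) h2⟩
    · exact ⟨_, by omega, Ex.loopT rfl ((Ex.pop _ _ _).seq (Ex.condT (by rw [upD]; rfl)
        ((Ex.pop _ _ _).seq ((Ex.pop _ _ _).seq ((Ex.pop _ _ _).seq
          (ex_cast (Ex.push _ _ _ _) (by rw [upD, upD, upD, upD, upA]; rfl) rfl)))))) h2⟩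

def whole (P : Cmd Rk) : Cmd Rk :=
  .seq (flush .A .C) (.seq (.push .D false) (.seq build (.seq (flush .B .C) (.seq (.push .D false)
    (.seq build (.seq (.push .D true) (.seq P (.seq decode (flush .A .B)))))))))

theorem ex_whole {E P : Cmd Rk} {u v w : List Bool} {t : ℕ}
    (h : Ex E P (st ((enc (v, u)).enc ++ []) [] [] [] [] [] [])
      (st ((enc w).enc ++ []) [] [] [] [] [] []) t) :
    ∃ t' ≤ t + 30 * (u.length + v.length + w.length + 1),
      Ex E (whole P) (st [] u v [] [] [] []) (st [false] [] w [] [] [] []) t' := by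
  have a1 := ex_flush (E := E) (r := .A) (r' := .C) (fun l d => st [] l v d [] [] [])
    (fun _ _ => rfl) (fun _ _ => rfl) (fun _ _ _ => upA ..) (fun _ _ _ => upC ..) u []
  obtain ⟨t2, b2, a2⟩ := ex_build [] [] v [] [] [] E (u.reverse ++ []) []
  have a3 := ex_flush (E := E) (r := .B) (r' := .C) (fun l d => st (enc u).enc [] l d [] [] [])
    (fun _ _ => rfl) (fun _ _ => rfl) (fun _ _ _ => upB ..) (fun _ _ _ => upC ..) v []
  obtain ⟨t4, b4, a4⟩ := ex_build (enc u).enc [] [] [] [] [] E (v.reverse ++ []) []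
  obtain ⟨t5, b5, a5⟩ := ex_decode [] [] [] [] [] [] E w []
  have a6 := ex_flush (E := E) (r := .A) (r' := .B) (fun l d => st [false] l d [] [] [] [])
    (fun _ _ => rfl) (fun _ _ => rfl) (fun _ _ _ => upA ..) (fun _ _ _ => upB ..)
    (w.reverse ++ []) []
  simp only [List.append_nil, List.reverse_reverse, List.length_reverse] at a1 a2 a3 a4 a5 a6 b2 b4 h
  exact ⟨_, by omega, a1.seq ((ex_cast (Ex.push _ _ _ _) (upD ..) rfl).seq (a2.seq (a3.seq
    ((ex_cast (Ex.push _ _ _ _) (upD ..) rfl).seq (a4.seq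
      ((ex_cast (Ex.push _ _ _ _) (upD ..) rfl).seq (h.seq (a5.seq a6))))))))⟩

end TopAux

/-- If `f` is computed without recursive calls from outside, a machine maps the input `x`, `y`
to `f (y.reverse, x.reverse)`. -/
theorem At.machine {D : List Bool × List Bool → Prop} {f : List Bool × List Bool → List Bool}
    {c : List Bool × List Bool → ℕ} (h : At (fun b : Bool => b) D f c u0) :
    ∃ A : MTM, A.out ≠ A.inp ∧ ∀ x y : List Bool, D (y.reverse, x.reverse) →
      ∃ t ≤ 2 * c (y.reverse, x.reverse) +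
        200 * (x.length + y.length + (f (y.reverse, x.reverse)).length + 1), ∃ cfg : A.Cfg,
        A.HaltsIn (A.input x y) t cfg ∧
          cfg.tape A.out = A.written (A.word (f (y.reverse, x.reverse))) := by
  obtain ⟨P, hP⟩ := h
  obtain ⟨A, hA, hA'⟩ := exists_MTM Rk.A Rk.B Rk.B (by decide) (TopAux.whole P)
  refine ⟨A, hA, fun x y hD => ?_⟩
  obtain ⟨t, h1, h2⟩ := hP (TopAux.whole P) (fun _ => ⊤) (fun _ h => absurd rfl h) _ hD
    (by simp) [] [] [] []
  rw [u0_apply, add_zero, Nat.cast_le] at h1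
  obtain ⟨t', h3, h4⟩ := TopAux.ex_whole h2
  have e : Function.update (Function.update (fun _ => []) Rk.A x.reverse) Rk.B y.reverse =
      st [] x.reverse y.reverse [] [] [] [] := by
    funext r; cases r <;> rfl
  obtain ⟨t'', h5, h6⟩ := hA' x y _ t' (e ▸ h4)
  refine ⟨t'', h5.trans ?_, h6⟩
  simp only [List.length_reverse] at h3
  show 2 * (t' + x.length + y.length + (f (y.reverse, x.reverse)).length + 5) ≤ _
  omega

end Vale.Agent.P338
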