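import Vale.Agent.P338.Core
import Vale.Agent.P338.Had
import Vale.Agent.P338.Swap
import Vale.Agent.P338.Top

/-! The recursive multiplication algorithm and its running time. -/

namespace Vale.Agent.P338

open Vale.Agent.Common.TreeTM Vale.Agent.P337 CoreAux

namespace MainAux

variable {τH τS : ℕ → ℕ} {w1 E0 ex n b : ℕ}

theorem pow_pM (n b : ℕ) : 8 * (n / b + 1) ≤ 2 ^ pM n b ∧ 2 ^ pM n b ≤ 16 * (n / b + 1) := by
  have h1 := Nat.lt_size_self (n / b + 1)
  have h2 : 2 ^ (n / b + 1).size ≤ 2 * (n / b + 1) := by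
    obtain ⟨k, hk⟩ : ∃ k, (n / b + 1).size = k + 1 :=
      ⟨(n / b + 1).size - 1, by have := Nat.size_pos.2 (Nat.add_one_pos (n / b)); omega⟩
    have := Nat.lt_size.1 (show k < (n / b + 1).size by omega)
    rw [hk, pow_succ]
    omega
  rw [pM, pow_add]
  omega

theorem pow_mul_le (h : Pre τH τS w1 E0 ex n b) : 2 ^ pM n b * b ≤ 32 * n := by
  have h1 := Nat.mul_le_mul_right b (pow_pM n b).2
  have h2 := Nat.div_mul_le_self n b
  have h3 := h.b_n
  nlinarith

theorem le_pow_mul (h : Pre τH τS w1 E0 ex n b) : n ≤ 2 ^ pM n b * b := by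
  have h1 := Nat.mul_le_mul_right b (pow_pM n b).1
  have h2 := Nat.lt_div_mul_add (a := n) (show 0 < b by have := h.b_ge; omega)
  nlinarith

theorem geo (h : Pre τH τS w1 E0 ex n b) : Geo w1 E0 ex (pM n b) (pA ex n b) (pN ex n b) (pE n)
    (pD n) (2 ^ pA ex n b / (pD n).factorial - 1) (pD n).factorial b := by
  have h1 : 0 < pD n := Nat.two_pow_pos _
  have h2 : pD n ≤ pA ex n b := (Nat.le_mul_of_pos_right _ h.e_pos).trans h.de_le
  have h3 : pA ex n b * (pD n + 2 * ex + 2) ≤ pM n b := Nat.div_mul_le_self _ _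
  have h4 : pA ex n b * (pD n + 2 * ex + 2) =
      pA ex n b * (pD n + 1) + pA ex n b + 2 * pA ex n b * ex := by ring
  have h5 := crt_choice h1 (Nat.factorial_pos _)
    (fun x hx hd => Nat.dvd_factorial hx hd.le) h.fac_le
  have h6 := h.b_le
  refine ⟨by unfold pN; omega, by omega, h1, h.e_pos, h5.1, h5.2, h.de_le, le_rfl,
    by unfold pN; omega, h.had, h.swp, ?_, by omega, h.b_ge⟩
  calc (2 ^ pA ex n b + 8 * b + pM n b + 2) ^ ex ≤ (2 ^ (2 * pA ex n b)) ^ ex := by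
        refine Nat.pow_le_pow_left ?_ _
        have h7 : 2 ≤ 2 ^ pA ex n b := Nat.le_self_pow (by omega) 2
        rw [two_mul, pow_add]
        nlinarith
    _ ≤ 2 ^ (pN ex n b - pD n) := by
        rw [← pow_mul]
        exact Nat.pow_le_pow_right two_pos (by unfold pN; omega)

theorem phi_pos (h1 : ∀ e, 1 ≤ τS e) (ex n b : ℕ) : 1 ≤ pPhi τH τS ex n b :=
  le_add_left (Nat.mul_pos (by omega) (h1 _))

/-- The ambient of the algorithm with the block length as a parameter. -/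
def coreAmb (τH τS : ℕ → ℕ) (h1 : ∀ e, 1 ≤ τS e) (w1 E0 ex : ℕ) :
    Amb (ℕ × List Bool × List Bool) :=
  ⟨fun p => p.2.1.length = p.2.2.length ∧ Pre τH τS w1 E0 ex p.2.1.length p.1,
    fun p => 2 ^ pM p.2.1.length p.1 * pPhi τH τS ex p.2.1.length p.1 * (8 * p.1 + 1),
    fun p => 2 ^ pM p.2.1.length p.1 * pPhi τH τS ex p.2.1.length p.1,
    fun p => p.2.1.length.size, 20, fun p hp => by
      have h2 := le_pow_mul hp.2
      have h3 := phi_pos (τH := τH) h1 ex p.2.1.length p.1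
      have h4 := sz_nat_self p.1
      have h5 := sz_bools p.2.1
      have h6 := sz_bools p.2.2
      have h7 := hp.2.b_n
      have h8 : 2 ^ pM p.2.1.length p.1 * p.1 ≤
          2 ^ pM p.2.1.length p.1 * pPhi τH τS ex p.2.1.length p.1 * (8 * p.1 + 1) :=
        Nat.mul_le_mul (Nat.le_mul_of_pos_right _ h3) (by omega)
      rw [sz_prod, sz_prod, wt]
      have h9 := hp.1
      omega⟩

theorem sz_le_size {x n : ℕ} (h : x ≤ n) : sz x ≤ (n.size + 2) ^ 2 := by
  have := sz_nat_le (h.trans_lt (Nat.lt_size_self n))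
  nlinarith

theorem core_ok (hS : SwapOK w1 τS) (h1 : ∀ e, 1 ≤ τS e) (hF : FftOK w1 E0 ex τH) :
    Oc mulB (coreAmb τH τS h1 w1 E0 ex) (fun T p =>
      (24 * 2 ^ pM p.2.1.length p.1 * pT ex p.2.1.length p.1 : ℕ) * That T (5 * (8 * p.1)) +
      (4 * (2 ^ pA ex p.2.1.length p.1) ^ pD p.2.1.length : ℕ) * That T (pL ex p.2.1.length p.1))
      fun p => mulB p.2 := by
  set 𝒜 := coreAmb τH τS h1 w1 E0 ex with h𝒜
  have hpos : ∀ p, 1 ≤ 𝒜.n p := fun p => Nat.mul_pos (Nat.two_pow_pos _) (phi_pos h1 _ _ _)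
  have sn : Sm mulB 𝒜 fun p => p.2.1.length :=
    ⟨by fun_prop, 2, fun p _ => ⟨hpos p, sz_le_size le_rfl⟩⟩
  have sb : Sm mulB 𝒜 fun p => p.1 :=
    ⟨by fun_prop, 2, fun p hp => ⟨hpos p, sz_le_size hp.2.b_n⟩⟩
  have c := fun k : ℕ => sm_const sn k
  have sm : Sm mulB 𝒜 fun p => pM p.2.1.length p.1 :=
    sm_add (sm_size (sm_add (sm_div sn sb) (c 1))) (c 3)
  have sN : Sm mulB 𝒜 fun p => 2 ^ pM p.2.1.length p.1 :=
    sm_pw (sm_mul (c 16) (sm_add (sm_div sn sb) (c 1))) (c 2) sm fun p _ =>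
      (Nat.lt_size.2 (pow_pM _ _).2).le
  have se : Sm mulB 𝒜 fun p => pE p.2.1.length := sm_div (sm_size (sm_size sn)) (c 4)
  have hle : ∀ p, 𝒜.D p → pD p.2.1.length ≤ pM p.2.1.length p.1 ∧
      pA ex p.2.1.length p.1 ≤ pM p.2.1.length p.1 := fun p hp => by
    have h2 := (geo hp.2).hm
    have h3 := (geo hp.2).a_le
    have h4 := Geo.d_le_a (geo hp.2)
    omega
  have sd : Sm mulB 𝒜 fun p => pD p.2.1.length :=
    sm_pw sN (c 2) se fun p hp => by
      have h2 := (hle p hp).1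
      have h3 : pE p.2.1.length < pD p.2.1.length := Nat.lt_two_pow_self
      rw [Nat.size_pow]
      omega
  have sa : Sm mulB 𝒜 fun p => pA ex p.2.1.length p.1 :=
    sm_div sm (sm_add (sm_add sd (c (2 * ex))) (c 2))
  have sν : Sm mulB 𝒜 fun p => pN ex p.2.1.length p.1 := sm_sub sm (sm_mul sa (sm_add sd (c 1)))
  have sD : Sm mulB 𝒜 fun p => (pD p.2.1.length).factorial :=
    (Sm.tc (F := fun q : ℕ × ℕ => ((rg q.1 q.2).map fun i => i + 1).prod) (by fun_prop)
      (sN.pair sd)).congr fun p hp => by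
        have h2 := (hle p hp).1
        rw [rg_eq (by rw [Nat.size_pow]; omega), ← Finset.prod_range_add_one_eq_factorial]
        rfl
  have st : Sm mulB 𝒜 fun p => 2 ^ pA ex p.2.1.length p.1 :=
    sm_pw sN (c 2) sa fun p hp => by
      have h2 := (hle p hp).2
      rw [Nat.size_pow]
      omega
  refine Env.oc_core (𝒜 := 𝒜) ⟨sN, sm, sa, sν, se, sd, sm_sub (sm_div st sD) (c 1), sD, sb,
    ⟨2, fun p hp => ⟨?_, ?_, ?_⟩⟩, fun p hp => geo hp.2, hS, h1, hF⟩ (x := fun p => p.2.1)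
    (y := fun p => p.2.2) (by fun_prop) (by fun_prop) fun p hp => ⟨hp.1, (pow_pM _ _).1⟩
  · have h2 := hpos p
    show (𝒜.n p + 1) * (8 * p.1 + 1) ≤ 2 * (𝒜.n p * (8 * p.1 + 1) + 1)
    nlinarith
  · have h2 := hpos p
    show 𝒜.n p + 1 ≤ 2 * 𝒜.n p
    omega
  · have h2 := pow_mul_le hp.2
    have h3 := hp.2.phi_le
    have h4 := Nat.lt_size_self p.2.1.length
    have h5 : 1 ≤ p.1 := by have := hp.2.b_ge; omega
    have h6 : 1 ≤ p.2.1.length.size := Nat.size_pos.2 (h5.trans hp.2.b_n)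
    show 2 ^ pM p.2.1.length p.1 * pPhi τH τS ex p.2.1.length p.1 < 2 ^ (p.2.1.length.size + 2) ^ 2
    calc 2 ^ pM p.2.1.length p.1 * pPhi τH τS ex p.2.1.length p.1
        ≤ (32 * p.2.1.length) * p.2.1.length := Nat.mul_le_mul (by nlinarith) h3
      _ < (32 * 2 ^ p.2.1.length.size) * 2 ^ p.2.1.length.size := by gcongr
      _ = 2 ^ (2 * p.2.1.length.size + 5) := by ring
      _ ≤ _ := Nat.pow_le_pow_right two_pos (by nlinarith)

theorem freeze {α β σ γ δ : Type} [Enc α] [Enc β] [Enc σ] [Enc γ] [Enc δ] {g : γ → δ} {𝓑 : Amb β}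
    {F : β → σ} {u'} (hF : Oc g 𝓑 u' F) : ∃ K, ∀ (𝒜 : Amb α) (f : α → β), Cl g 𝒜 f →
      (∀ a, 𝒜.D a → 𝓑.D (f a)) → (Bnd 𝒜 fun a => 𝓑.wt K (f a)) →
      Oc g 𝒜 (fun T a => u' T (f a)) fun a => F (f a) := by
  obtain ⟨⟨K, h⟩, K', h'⟩ := hF
  refine ⟨K + K', fun 𝒜 f ⟨⟨L, h1⟩, _⟩ hD hd => ?_⟩
  exact (Oc.of_at (h.comp h1 hD) (((bnd_wt L).add
    (hd.mono fun a _ => wt_mono (by omega) _ _ _)).add (Bnd.const 2))
    (hd.mono fun a ha => (h' _ (hD a ha)).trans (wt_mono (by omega) _ _ _))).mono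
    fun _ _ _ => by simp

theorem pow_size_le (K : ℕ) : ∃ c, ∀ n : ℕ, (n.size + 2) ^ K ≤ c * (n + 1) := by
  refine ⟨(K + 1) ^ K * 8, fun n => ?_⟩
  have h1 : n.size + 2 ≤ (K + 1) * 2 ^ ((n.size + 2) / (K + 1)) := by
    have h2 := Nat.lt_div_mul_add (a := n.size + 2) (show 0 < K + 1 by omega)
    have h3 : (n.size + 2) / (K + 1) < 2 ^ ((n.size + 2) / (K + 1)) := Nat.lt_two_pow_self
    nlinarith
  have h4 : 2 ^ n.size ≤ 2 * (n + 1) := by
    rcases Nat.eq_zero_or_pos n.size with h | h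
    · rw [h]; omega
    · have := Nat.lt_size.1 (show n.size - 1 < n.size by omega)
      rw [show n.size = n.size - 1 + 1 by omega, pow_succ]
      omega
  calc (n.size + 2) ^ K ≤ ((K + 1) * 2 ^ ((n.size + 2) / (K + 1))) ^ K := Nat.pow_le_pow_left h1 _
    _ = (K + 1) ^ K * 2 ^ ((n.size + 2) / (K + 1) * K) := by rw [mul_pow, ← pow_mul]
    _ ≤ (K + 1) ^ K * 2 ^ (n.size + 2) := by
        gcongr
        · exact one_le_two
        · exact (Nat.mul_le_mul_left _ (Nat.le_succ K)).trans (Nat.div_mul_le_self _ _)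
    _ ≤ _ := by
        rw [pow_add, mul_assoc]
        exact Nat.mul_le_mul_left _ (by omega)

/-- The ambient of the recursion. -/
def topAmb (φ : ℕ → ℕ) (h1 : ∀ e, 1 ≤ φ e) : Amb (List Bool × List Bool) :=
  ⟨fun p => p.1.length = p.2.length, fun p => (p.1.length + 1) * φ p.1.length.size, fun _ => 1,
    fun p => p.1.length.size, 8, fun p hp => by
      have h5 := sz_bools p.1
      have h6 := sz_bools p.2
      have h7 := Nat.le_mul_of_pos_right (p.1.length + 1) (h1 p.1.length.size)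
      rw [sz_prod, wt]
      omega⟩

theorem that_le {φ : ℕ → ℕ} {T : List Bool × List Bool → ℕ∞} {K n L : ℕ}
    (h : ∀ x : List Bool × List Bool, x.1.length = x.2.length → x.1.length < n →
      T x = (K * ((x.1.length + 1) * φ x.1.length.size) : ℕ)) (hL : L < n) :
    That T L ≤ (K * ((L + 1) * φ L.size) : ℕ) :=
  iSup_le fun ⟨x, h1, h2⟩ => by rw [h x (h1.trans h2.symm) (h1 ▸ hL), h1]

theorem top_ok : ∃ (φ : ℕ → ℕ) (h : Grow φ),
    Cl (fun b : Bool => b) (topAmb φ h.2.1) fun p => (mulB p).reverse := by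
  obtain ⟨w1, τS, gS, hS⟩ := swap_ok
  obtain ⟨E0, τH, hE, gH, hH⟩ := had_ok hS gS
  obtain ⟨ex, hF⟩ := fft_ok hE hH gH.1 gH.2.1
  obtain ⟨φ, gφ, hφ⟩ := exists_par gH gS
  obtain ⟨K0, hK0⟩ := freeze (α := List Bool × List Bool)
    (core_ok (τH := τH) (E0 := E0) (ex := ex) hS gS.2.1 hF)
  obtain ⟨n0, hn0⟩ := hφ w1 E0 ex (K0 + 3) 125952 (by omega)
  obtain ⟨e, he⟩ := exists_tc_exp tc_mulB
  refine ⟨φ, gφ, Cl.reverse ?_⟩
  set 𝒜 := topAmb φ gφ.2.1 with h𝒜
  have sn : Sm mulB 𝒜 fun p => p.1.length := ⟨by fun_prop, 2, fun p _ => ⟨le_rfl, sz_le_size le_rfl⟩⟩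
  have sb : Sm mulB 𝒜 fun p => (p.1.length.size + 2) ^ (K0 + 3) :=
    (Sm.tc (F := fun q : ℕ => (q.size + 2) ^ (List.replicate (K0 + 3) false).length) (by fun_prop)
      sn).congr fun p _ => by simp
  have hc : Cl mulB 𝒜 fun p => nlt p.1.length n0 :=
    (Sm.tc (F := fun q : ℕ => nlt q n0) (by fun_prop) sn).1
  have h1 : Oc mulB (𝒜.sub fun p => nlt p.1.length n0 = true) u0 fun p => mulB p :=
    he mulB _ (fun p => p) u0 Cl.id ((Bnd.const ((8 * n0 + 5) ^ e)).mono fun p hp => by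
      have h5 := sz_bools p.1
      have h6 := sz_bools p.2
      have h7 : p.1.length < n0 := of_decide_eq_true hp.2
      have h8 : p.1.length = p.2.length := hp.1
      rw [sz_prod]
      exact Nat.pow_le_pow_left (by omega) _)
  have hge : ∀ p : List Bool × List Bool, nlt p.1.length n0 = false → n0 ≤ p.1.length :=
    fun p hp => not_lt.1 (of_decide_eq_false hp)
  have h2 := hK0 (𝒜.sub fun p => nlt p.1.length n0 = false)
    (fun p => ((p.1.length.size + 2) ^ (K0 + 3), p)) (Cl.pair (sb.1.sub _) Cl.id)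
    (fun p hp => ⟨hp.1, (hn0 _ (hge p hp.2) _ rfl).1⟩)
    (((Bnd.z.mul (288 * K0 + 32)).add (Bnd.const K0)).mono fun p hp => by
      obtain ⟨h3, h4, -⟩ := hn0 _ (hge p hp.2) _ rfl
      have h5 := pow_mul_le h3
      have h6 : (p.1.length.size + 2) ^ K0 ≤ (p.1.length.size + 2) ^ (K0 + 3) :=
        Nat.pow_le_pow_right (by omega) (by omega)
      have h7 : 1 ≤ (p.1.length.size + 2) ^ (K0 + 3) := Nat.pow_pos (by omega)
      simp only [Amb.wt, wt, coreAmb, Amb.sub, h𝒜, topAmb]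
      generalize (p.1.length.size + 2) ^ (K0 + 3) = b at *
      generalize pPhi τH τS ex p.1.length b = Φ at *
      have h8 : 2 ^ pM p.1.length b * b * Φ ≤ 32 * ((p.1.length + 1) * φ p.1.length.size) := by
        rw [← mul_assoc]
        exact Nat.mul_le_mul (by omega) h4
      have h9 : 2 ^ pM p.1.length b * Φ * (8 * b + 1) ≤ 2 ^ pM p.1.length b * Φ * (9 * b) :=
        Nat.mul_le_mul_left _ (by omega)
      have h10 := Nat.mul_le_mul_left (2 ^ pM p.1.length b * Φ) h6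
      have h11 : 2 ^ pM p.1.length b * Φ * (8 * b + 1) ≤
          288 * ((p.1.length + 1) * φ p.1.length.size) := by nlinarith
      have h12 := Nat.mul_le_mul_left K0 h11
      nlinarith)
  have h3 := (Oc.cond hc h1 h2).congr (f' := mulB) fun p _ => by
    cases nlt p.1.length n0 <;> rfl
  refine Oc.mu h3 (fun _ h => h) (fun p => p.1.length)
    (fun K p => K * ((p.1.length + 1) * φ p.1.length.size)) (fun K => Bnd.z.mul K) (fun K => ?_) h3.2
  obtain ⟨c, hc⟩ := pow_size_le K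
  refine ⟨2 * (2 * K + c), fun p hp T hT => ?_⟩
  have h4 : 𝒜.wt K p ≤ (2 * K + c) * ((p.1.length + 1) * φ p.1.length.size) := by
    have h5 := hc p.1.length
    have h6 := Nat.le_mul_of_pos_right (p.1.length + 1) (gφ.2.1 p.1.length.size)
    have h7 := Nat.mul_le_mul_left c h6
    have h8 : K * 1 ≤ K * ((p.1.length + 1) * φ p.1.length.size) :=
      Nat.mul_le_mul_left _ (by omega)
    simp only [Amb.wt, wt, h𝒜, topAmb]
    nlinarith
  cases hn : nlt p.1.length n0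
  · obtain ⟨h5, -, h6, h7, h8⟩ := hn0 _ (hge p hn) _ rfl
    have h9 := pow_mul_le h5
    have h10 := Geo.pow_eq (geo h5)
    have h11 : 1 ≤ (p.1.length.size + 2) ^ (K0 + 3) := Nat.pow_pos (by omega)
    simp only [cond_false]
    generalize (p.1.length.size + 2) ^ (K0 + 3) = b at *
    have h12 : 5 * (8 * b) ≤ pL ex p.1.length b :=
      Nat.le_mul_of_pos_right _ (by positivity)
    refine le_trans (add_le_add le_rfl (add_le_add
      (mul_le_mul_right (that_le hT (h12.trans_lt h6)) _) (mul_le_mul_right (that_le hT h6) _))) ?_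
    norm_cast
    have h13 : 2 ^ pM p.1.length b * (5 * (8 * b) + 1) ≤ 1312 * (p.1.length + 1) := by nlinarith
    have h14 : (2 ^ pA ex p.1.length b) ^ pD p.1.length * (pL ex p.1.length b + 1) ≤
        1312 * (p.1.length + 1) := by
      refine le_trans ?_ h13
      have h15 : 1 ≤ 2 ^ pA ex p.1.length b * 2 ^ pN ex p.1.length b := by
        exact Nat.one_le_iff_ne_zero.2 (by positivity)
      rw [h10, pL, mul_assoc ((2 ^ pA ex p.1.length b) ^ pD p.1.length)]
      exact Nat.mul_le_mul_left _ (by nlinarith)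
    have h15 := Nat.mul_le_mul h13 h7
    have h16 := Nat.mul_le_mul h14 h8
    have h17 := Nat.mul_le_mul_left (2 * K + c) h15
    have h18 := Nat.mul_le_mul_left (2 * K + c) h16
    nlinarith
  · simp only [cond_true, u0_apply, add_zero]
    norm_cast
    nlinarith

end MainAux

theorem main : ∃ A : MTM, A.out ≠ A.inp ∧ A.Multiplies ∧ ∃ κ C : ℝ, 0 < κ ∧
    ∀ n : ℕ, 2 ≤ n → (A.T n : ℝ) ≤ C * n * Real.log n ^ (1 - κ) := by
  obtain ⟨φ, gφ, ⟨K, h⟩, -⟩ := MainAux.top_ok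
  obtain ⟨A, hA, h1⟩ := h.machine
  obtain ⟨κ, C, hκ, hC⟩ := gφ.log_bound
  obtain ⟨c, hc⟩ := MainAux.pow_size_le K
  have key : ∀ (n : ℕ) (x y : List Bool), x.length = n → y.length = n →
      ∃ t ≤ (4 * K + 2 * c + 800) * ((n + 1) * φ n.size), ∃ cfg : A.Cfg,
        A.HaltsIn (A.input x y) t cfg ∧
          cfg.tape A.out = A.written (A.word (bin (2 * n) (val x * val y))) := by
    intro n x y hx hy
    obtain ⟨t, h2, cfg, h3, h4⟩ := h1 x y (by simp [MainAux.topAmb, hx, hy])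
    refine ⟨t, h2.trans ?_, cfg, h3, ?_⟩
    · have h5 := hc n
      have h6 := Nat.le_mul_of_pos_right (n + 1) (gφ.2.1 n.size)
      have h7 := Nat.mul_le_mul_left c h6
      have h8 : K * 1 ≤ K * ((n + 1) * φ n.size) := Nat.mul_le_mul_left _ (by omega)
      simp only [Amb.wt, wt, MainAux.topAmb, mulB, List.length_reverse, length_toBits, hx, hy]
      nlinarith
    · rw [h4, mulB, reverse_toBits]
      simp only [List.length_reverse, hx, hy, ofBits_reverse, two_mul, mul_comm (val y)]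
  refine ⟨A, hA, fun n _ x y hx hy => ?_, κ, (4 * K + 2 * c + 800 : ℕ) * C, hκ, fun n hn => ?_⟩
  · obtain ⟨t, -, cfg, h2, h3⟩ := key n x y hx hy
    exact ⟨t, cfg, h2, h3⟩
  · have h2 : A.T n ≤ (4 * K + 2 * c + 800) * ((n + 1) * φ n.size) :=
      Finset.sup_le fun p _ => by
        obtain ⟨t, h3, cfg, h4, -⟩ := key n (List.ofFn p.1) (List.ofFn p.2) (by simp) (by simp)
        exact (Nat.sInf_le (s := {t | ∃ c, A.HaltsIn _ t c}) ⟨cfg, h4⟩).trans h3
    calc (A.T n : ℝ) ≤ ((4 * K + 2 * c + 800 : ℕ) : ℝ) * (((n : ℝ) + 1) * φ n.size) := by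
          exact_mod_cast h2
      _ ≤ ((4 * K + 2 * c + 800 : ℕ) : ℝ) * (C * n * Real.log n ^ (1 - κ)) :=
          mul_le_mul_of_nonneg_left (hC n hn) (Nat.cast_nonneg _)
      _ = _ := by ring

end Vale.Agent.P338
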