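import Mathlib.Algebra.Module.LinearMap.Defs
import Mathlib.Algebra.BigOperators.Group.Finset.Basic
import Mathlib.Algebra.Module.BigOperators
import Mathlib.Algebra.Ring.Subring.Basic
import Mathlib.Data.Fintype.BigOperators
import Mathlib.Tactic.Ring
import Mathlib.Tactic.Abel
import Mathlib.Tactic.Linarith

/-! Labelled networks: registers carry labels, moving a register to another label costs
recursive calls, combining registers with the same label is cheap. -/

namespace Vale.Agent.P338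

open Finset

/-- Labels, moves with their costs, and the only scalar that may be used. -/
structure Sig (R L M : Type) where
  act : M → L → L
  cost : M → ℕ
  η : R

variable {R L M E : Type} [CommRing R] [AddCommGroup E] [Module R E]

/-- From the labelled data `T`, moves of total cost at most `r` and finitely many cheap
operations produce the labelled data `S`. -/
inductive Net (σ : Sig R L M) : Set (L × E) → ℕ → Set (L × E) → Prop
  | done {T S r} : S ⊆ T → Net σ T r S
  | mv {T S r q d} (m : M) : (q, d) ∈ T → Net σ (insert (σ.act m q, d) T) r S →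
      Net σ T (r + σ.cost m) S
  | add {T S r q d d'} : (q, d) ∈ T → (q, d') ∈ T → Net σ (insert (q, d + d') T) r S → Net σ T r S
  | neg {T S r q d} : (q, d) ∈ T → Net σ (insert (q, -d) T) r S → Net σ T r S
  | smul {T S r q d} : (q, d) ∈ T → Net σ (insert (q, σ.η • d) T) r S → Net σ T r S
  | zero {T S r q d} (q' : L) : (q, d) ∈ T → Net σ (insert (q', 0) T) r S → Net σ T r S

/-- The label `q'` is reached from `q` by moves of total cost at most `r`. -/
inductive Path (σ : Sig R L M) (q : L) : ℕ → L → Prop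
  | refl (r : ℕ) : Path σ q r q
  | step {r q'} (m : M) : Path σ q r q' → Path σ q (r + σ.cost m) (σ.act m q')

omit [CommRing R] in
theorem Path.mono {σ : Sig R L M} {q q' : L} {r r' : ℕ} (h : Path σ q r q') (hr : r ≤ r') :
    Path σ q r' q' := by
  induction h generalizing r' with
  | refl => exact Path.refl _
  | @step r q' m _ ih =>
    obtain ⟨k, rfl⟩ : ∃ k, r' = k + σ.cost m := ⟨r' - σ.cost m, by omega⟩
    exact Path.step m (ih (by omega))

omit [CommRing R] in
theorem Path.trans {σ : Sig R L M} {q q' q'' : L} {r r' : ℕ} (h : Path σ q r q')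
    (h' : Path σ q' r' q'') : Path σ q (r + r') q'' := by
  induction h' with
  | refl => exact h.mono (Nat.le_add_right _ _)
  | step m _ ih => exact (Path.step m ih).mono (by omega)

section
variable {σ : Sig R L M} {T S U : Set (L × E)}

theorem Net.left {r : ℕ} (h : Net σ T r S) : ∀ {T'}, T ⊆ T' → Net σ T' r S := by
  induction h with
  | done h => exact fun h' => .done (h.trans h')
  | mv m h _ ih => exact fun h' => .mv m (h' h) (ih (Set.insert_subset_insert h'))
  | add h1 h2 _ ih => exact fun h' => .add (h' h1) (h' h2) (ih (Set.insert_subset_insert h'))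
  | neg h _ ih => exact fun h' => .neg (h' h) (ih (Set.insert_subset_insert h'))
  | smul h _ ih => exact fun h' => .smul (h' h) (ih (Set.insert_subset_insert h'))
  | zero q' h _ ih => exact fun h' => .zero q' (h' h) (ih (Set.insert_subset_insert h'))

theorem Net.mono_le {r : ℕ} (h : Net σ T r S) : ∀ {r'}, r ≤ r' → Net σ T r' S := by
  induction h with
  | done h => exact fun _ => .done h
  | mv m h _ ih =>
    intro r' hr
    obtain ⟨k, rfl⟩ : ∃ k, r' = k + σ.cost m := ⟨r' - σ.cost m, by omega⟩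
    exact .mv m h (ih (by omega))
  | add h1 h2 _ ih => exact fun h' => .add h1 h2 (ih h')
  | neg h _ ih => exact fun h' => .neg h (ih h')
  | smul h _ ih => exact fun h' => .smul h (ih h')
  | zero q' h _ ih => exact fun h' => .zero q' h (ih h')

theorem Net.seq {a b : ℕ} (h : Net σ T a S) (h' : Net σ (T ∪ S) b U) : Net σ T (a + b) U := by
  have key : ∀ {T S : Set (L × E)} (z), T ∪ S ⊆ insert z T ∪ S := fun z =>
    Set.union_subset_union_left _ (Set.subset_insert _ _)
  induction h with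
  | done h => exact (h'.left (Set.union_subset le_rfl h)).mono_le (Nat.le_add_left _ _)
  | mv m h _ ih => exact (Net.mv m h (ih (h'.left (key _)))).mono_le (by omega)
  | add h1 h2 _ ih => exact .add h1 h2 (ih (h'.left (key _)))
  | neg h _ ih => exact .neg h (ih (h'.left (key _)))
  | smul h _ ih => exact .smul h (ih (h'.left (key _)))
  | zero q' h _ ih => exact .zero q' h (ih (h'.left (key _)))

theorem Net.mem {z : L × E} (h : z ∈ T) : Net σ T 0 {z} := .done (Set.singleton_subset_iff.2 h)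

theorem Net.move {q q' : L} {d : E} {r : ℕ} (hd : (q, d) ∈ T) (hr : Path σ q r q') :
    Net σ T r {(q', d)} := by
  induction hr with
  | refl => exact .done (Set.singleton_subset_iff.2 hd)
  | step m _ ih =>
    exact (ih.seq (Net.mv m (Or.inr rfl) (Net.mem (Set.mem_insert _ _)))).mono_le (by omega)

theorem Net.step {q q' : L} {d : E} {r : ℕ} (hd : Net σ T 0 {(q, d)}) (hr : Path σ q r q') :
    Net σ T r {(q', d)} := (hd.seq (Net.move (Or.inr rfl) hr)).mono_le (by omega)

theorem Net.add' {q : L} {d d' : E} (h : Net σ T 0 {(q, d)}) (h' : Net σ T 0 {(q, d')}) :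
    Net σ T 0 {(q, d + d')} :=
  h.seq (b := 0) ((h'.left Set.subset_union_left).seq (b := 0)
    (.add (Or.inl (Or.inr rfl)) (Or.inr rfl) (Net.mem (Set.mem_insert _ _))))

theorem Net.neg' {q : L} {d : E} (h : Net σ T 0 {(q, d)}) : Net σ T 0 {(q, -d)} :=
  h.seq (b := 0) (.neg (Or.inr rfl) (Net.mem (Set.mem_insert _ _)))

theorem Net.sub' {q : L} {d d' : E} (h : Net σ T 0 {(q, d)}) (h' : Net σ T 0 {(q, d')}) :
    Net σ T 0 {(q, d - d')} := by
  rw [sub_eq_add_neg]
  exact h.add' h'.neg'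

theorem Net.zero' (hT : T.Nonempty) (q : L) : Net σ T 0 {(q, 0)} :=
  .zero (q := hT.some.1) (d := hT.some.2) q hT.some_mem (Net.mem (Set.mem_insert _ _))

theorem Net.smul' {c : R} (hc : c ∈ Subring.closure {σ.η}) {q : L} :
    ∀ {d : E}, Net σ T 0 {(q, d)} → Net σ T 0 {(q, c • d)} := by
  induction hc using Subring.closure_induction with
  | mem x hx =>
    intro d h
    rw [show x = σ.η from hx]
    exact h.seq (b := 0) (.smul (Or.inr rfl) (Net.mem (Set.mem_insert _ _)))
  | zero => intro d h; simpa using h.sub' h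
  | one => intro d h; simpa using h
  | add x y _ _ i1 i2 => intro d h; rw [add_smul]; exact (i1 h).add' (i2 h)
  | neg x _ i1 => intro d h; rw [neg_smul]; exact (i1 h).neg'
  | mul x y _ _ i1 i2 => intro d h; rw [mul_smul]; exact i1 (i2 h)

theorem Net.sum' {J : Type} (hT : T.Nonempty) {q : L} {f : J → E} (s : Finset J)
    (h : ∀ j, Net σ T 0 {(q, f j)}) : Net σ T 0 {(q, ∑ j ∈ s, f j)} := by
  classical
  induction s using Finset.induction_on with
  | empty => simpa using Net.zero' hT q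
  | insert a s ha ih => rw [Finset.sum_insert ha]; exact (h a).add' ih

theorem Net.nextU {J : Type} [Fintype J] (S : J → Set (L × E)) {r b : ℕ}
    (h : ∀ j, Net σ T r (S j)) (h' : ∀ T', T ⊆ T' → (∀ j, S j ⊆ T') → Net σ T' b U) :
    Net σ T (Fintype.card J * r + b) U := by
  classical
  have key : ∀ (s : Finset J) (b : ℕ), (∀ T', T ⊆ T' → (∀ j ∈ s, S j ⊆ T') → Net σ T' b U) →
      Net σ T (s.card * r + b) U := by
    intro s
    induction s using Finset.induction_on with
    | empty => intro b h'; simpa using h' T le_rfl (by simp)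
    | insert a s ha ih =>
      intro b h'
      rw [Finset.card_insert_of_notMem ha, Nat.succ_mul, add_assoc]
      refine ih _ fun T' h1 h2 => ((h a).left h1).seq (h' _ (h1.trans Set.subset_union_left) ?_)
      intro j hj
      rcases Finset.mem_insert.1 hj with rfl | hj
      · exact Set.subset_union_right
      · exact (h2 j hj).trans Set.subset_union_left
  exact key Finset.univ b fun T' h1 h2 => h' T' h1 fun j => h2 j (Finset.mem_univ _)

theorem Net.next {J : Type} [Fintype J] (z : J → L × E) (r : ℕ) {b : ℕ}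
    (h : ∀ j, Net σ T r {z j}) (h' : ∀ T', T ⊆ T' → (∀ j, z j ∈ T') → Net σ T' b U) :
    Net σ T (Fintype.card J * r + b) U :=
  Net.nextU (fun j => {z j}) h fun T' hT hz => h' T' hT fun j => hz j rfl

end

/-- A splitting of the identity on `Tri` through central wires `Cn` and pairs `Or`. -/
structure Design (R : Type) [CommRing R] (η : R) (Tri Cn Or : Type) [Fintype Tri] [Fintype Cn]
    [Fintype Or] [DecidableEq Tri] where
  src : Or → Tri
  dst : Or → Tri
  inc : Cn → Tri → Bool
  mu : Cn → Tri → R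
  be : Or → R
  mu_mem : ∀ j t, mu j t ∈ Subring.closure {η}
  be_mem : ∀ p, be p ∈ Subring.closure {η}
  split : ∀ S T : Tri, ∑ j, (if inc j S then mu j T else 0) +
    ∑ p, (if src p = S ∧ dst p = T then be p else 0) = if S = T then 1 else 0

variable {Tri Cn Or : Type} [Fintype Tri] [Fintype Cn] [Fintype Or] [DecidableEq Tri]

/-- The labels of one gadget and their distances. -/
structure GLab (σ : Sig R L M) (D : Design R σ.η Tri Cn Or) (h : ℕ) (lo hi : L)
    (up dn : Tri → L) : Prop where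
  lo_up : ∀ t, Path σ lo 1 (up t)
  up_dn : ∀ p, Path σ (up (D.src p)) (h - 2) (dn (D.dst p))
  up_hi : ∀ t, Path σ (up t) (h - 1) hi
  hi_lo : Path σ hi h lo
  lo_dn : ∀ t, Path σ lo (h - 1) (dn t)
  dn_hi : ∀ t, Path σ (dn t) 1 hi

/-- The registers of the network. -/
abbrev Regs (Tri Or : Type) : Type := (Tri × Tri) ⊕ (Tri × Tri) ⊕ (Tri × Or) ⊕ (Tri × Or)

/-- The labels of the two stages of the network and their distances; `o` is the start label,
`top` the final label. -/
structure NLab (σ : Sig R L M) (D : Design R σ.η Tri Cn Or) (h : ℕ) where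
  o : L
  top : L
  hi1 : Tri → L
  up1 : Tri → Tri → L
  dn1 : Tri → Tri → L
  lo2 : Tri → L
  hi2 : Tri → L
  up2 : Tri → Tri → L
  dn2 : Tri → Tri → L
  fin : Tri → Tri → L
  g1 : ∀ t2, GLab σ D h o (hi1 t2) (up1 t2) (dn1 t2)
  g2 : ∀ t1, GLab σ D h (lo2 t1) (hi2 t1) (up2 t1) (dn2 t1)
  hi1_up2 : ∀ t1 t2, Path σ (hi1 t2) ((h - 1) * (h - 1)) (up2 t1 t2)
  dn1_lo2 : ∀ t1 t2, Path σ (dn1 t2 t1) ((h - 1) * (h - 1)) (lo2 t1)
  hi1_top : ∀ t2, Path σ (hi1 t2) (h * (h - 1)) top
  o_lo2 : ∀ t1, Path σ o (h * (h - 1)) (lo2 t1)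
  dn2_fin : ∀ t1 t2, Path σ (dn2 t1 t2) 0 (fin t1 t2)
  hi2_top : ∀ t1, Path σ (hi2 t1) 0 top
  o_top : Path σ o (h * h) top

namespace NetAux

theorem split_smul {η : R} (D : Design R η Tri Cn Or) (x : Tri → E) (T : Tri) :
    ∑ j, D.mu j T • (∑ S, if D.inc j S then x S else 0) +
      ∑ p, (if D.dst p = T then D.be p • x (D.src p) else 0) = x T := by
  have h0 : x T = ∑ S, (if S = T then (1 : R) else 0) • x S := by simp
  rw [h0]
  simp only [← D.split, add_smul, Finset.sum_add_distrib, Finset.sum_smul, Finset.smul_sum]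
  congr 1
  · rw [Finset.sum_comm]
    refine Finset.sum_congr rfl fun S _ => Finset.sum_congr rfl fun j _ => ?_
    split_ifs <;> simp
  · rw [Finset.sum_comm]
    refine Finset.sum_congr rfl fun p _ => ?_
    rw [Finset.sum_eq_single (D.src p)]
    · split_ifs <;> simp_all
    · intro S _ hS
      rw [if_neg fun h => hS h.1.symm, zero_smul]
    · simp

/-- The number of moves in one gadget. -/
def gCost (v c s h : ℕ) : ℕ :=
  s * 1 + (s * (h - 2) + (v * (h - 1) + (c * h + (v * (h - 1) + (v * 0 + (s * 1 + (s * 0 + 0)))))))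

theorem gadget {σ : Sig R L M} {D : Design R σ.η Tri Cn Or} {h : ℕ} {lo hi : L} {up dn : Tri → L}
    (G : GLab σ D h lo hi up dn) (x y : Tri → E) (a : Or → E) (T : Set (L × E)) (hT : T.Nonempty)
    (hx : ∀ t, (up t, x t) ∈ T) (hy : ∀ t, (lo, y t) ∈ T) (ha : ∀ p, (lo, a p) ∈ T) :
    Net σ T (gCost (Fintype.card Tri) (Fintype.card Cn) (Fintype.card Or) h)
      (Set.range (fun t => (hi, x t)) ∪
        Set.range (fun t => (dn t, y t + x t)) ∪ Set.range (fun p => (hi, a p))) := by
  refine Net.next (fun p : Or => (up (D.src p), a p)) 1 (fun p => Net.move (ha p) (G.lo_up _))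
    fun T1 h1 z1 => ?_
  refine Net.next (fun p : Or => (dn (D.dst p), a p + x (D.src p))) (h - 2)
    (fun p => ((Net.mem (z1 p)).add' (Net.mem (h1 (hx _)))).step (G.up_dn p)) fun T2 h2 z2 => ?_
  refine Net.next (fun t : Tri => (hi, x t)) (h - 1)
    (fun t => Net.move (h2 (h1 (hx t))) (G.up_hi t)) fun T3 h3 z3 => ?_
  have n3 : T3.Nonempty := hT.mono fun _ h => h3 (h2 (h1 h))
  refine Net.next (fun j : Cn => (lo, ∑ S, if D.inc j S then x S else 0)) h
    (fun j => (Net.sum' n3 _ fun S => ?_).step G.hi_lo) fun T4 h4 z4 => ?_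
  · split_ifs
    · exact Net.mem (z3 S)
    · exact Net.zero' n3 _
  have n4 := n3.mono h4
  refine Net.next (fun t : Tri => (dn t, y t -
      ∑ p, (if D.dst p = t then D.be p • a p else 0) +
      ∑ j, D.mu j t • (∑ S, if D.inc j S then x S else 0))) (h - 1)
    (fun t => (((Net.mem (h4 (h3 (h2 (h1 (hy t)))))).sub' (Net.sum' n4 _ fun p => ?_)).add'
      (Net.sum' n4 _ fun j => Net.smul' (D.mu_mem j t) (Net.mem (z4 j)))).step (G.lo_dn t))
    fun T5 h5 z5 => ?_
  · split_ifs
    · exact Net.smul' (D.be_mem p) (Net.mem (h4 (h3 (h2 (h1 (ha p))))))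
    · exact Net.zero' n4 _
  have n5 := n4.mono h5
  refine Net.next (fun t : Tri => (dn t, y t + x t)) 0 (fun t => ?_) fun T6 h6 z6 => ?_
  · have e : y t + x t = (y t - ∑ p, (if D.dst p = t then D.be p • a p else 0) +
        ∑ j, D.mu j t • (∑ S, if D.inc j S then x S else 0)) +
        ∑ p, (if D.dst p = t then D.be p • (a p + x (D.src p)) else 0) := by
      have e2 : ∑ p, (if D.dst p = t then D.be p • (a p + x (D.src p)) else 0) =
          ∑ p, (if D.dst p = t then D.be p • a p else 0) +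
            ∑ p, (if D.dst p = t then D.be p • x (D.src p) else 0) := by
        rw [← Finset.sum_add_distrib]
        refine Finset.sum_congr rfl fun p _ => ?_
        split_ifs <;> simp
      conv_lhs => rw [← split_smul D x t]
      rw [e2]
      abel
    rw [e]
    refine (Net.mem (z5 t)).add' (Net.sum' n5 _ fun p => ?_)
    split_ifs with hp
    · subst hp
      exact Net.smul' (D.be_mem p) (Net.mem (h5 (h4 (h3 (z2 p)))))
    · exact Net.zero' n5 _
  refine Net.next (fun p : Or => (hi, a p + x (D.src p))) 1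
    (fun p => Net.move (h6 (h5 (h4 (h3 (z2 p))))) (G.dn_hi _)) fun T7 h7 z7 => ?_
  refine Net.next (fun p : Or => (hi, a p)) 0 (fun p => ?_) fun T8 h8 z8 => ?_
  · have e : a p = (a p + x (D.src p)) - x (D.src p) := by abel
    rw [e]
    exact (Net.mem (z7 p)).sub' (Net.mem (h7 (h6 (h5 (h4 (z3 _))))))
  refine Net.done ?_
  rintro _ ((⟨t, rfl⟩ | ⟨t, rfl⟩) | ⟨p, rfl⟩)
  · exact h8 (h7 (h6 (h5 (h4 (z3 t)))))
  · exact h8 (h7 (z6 t))
  · exact z8 p

/-- The number of moves in the network with `k` idle registers. -/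
def nCost (v c s h k : ℕ) : ℕ :=
  v * gCost v c s h + (v * v * 1 + (v * v * ((h - 1) * (h - 1)) + (v * v * ((h - 1) * (h - 1)) +
    (v * s * (h * (h - 1)) + (v * s * (h * (h - 1)) + (v * gCost v c s h + (k * (h * h) + 0)))))))

theorem nCost_eq (v c s k : ℕ) {h : ℕ} (hh : 2 ≤ h) : nCost v c s h k + v * v =
    (v * v + (v * v + (v * s + v * s)) + k) * (h * h) + v * (2 * (c * h)) := by
  obtain ⟨m, rfl⟩ : ∃ m, h = m + 2 := ⟨h - 2, by omega⟩
  simp only [nCost, gCost]
  rw [show m + 2 - 1 = m + 1 from rfl, show m + 2 - 2 = m from rfl]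
  ring

variable {σ : Sig R L M} {D : Design R σ.η Tri Cn Or} {h : ℕ}

/-- The initial labels. -/
def l0 (N : NLab σ D h) {k : ℕ} : Regs Tri Or ⊕ Fin k → L
  | .inl (.inl t) => N.up1 t.2 t.1
  | _ => N.o

/-- The final labels. -/
def l1 (N : NLab σ D h) {k : ℕ} : Regs Tri Or ⊕ Fin k → L
  | .inl (.inl t) => N.fin t.1 t.2
  | _ => N.top

theorem net (N : NLab σ D h) (k : ℕ) (d : Regs Tri Or ⊕ Fin k → E) :
    Net σ (Set.range fun w => (l0 N w, d w))
      (nCost (Fintype.card Tri) (Fintype.card Cn) (Fintype.card Or) h k)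
      (Set.range fun w => (l1 N w, d w)) := by
  set X : Tri × Tri → E := fun t => d (.inl (.inl t)) with hX
  set Y : Tri × Tri → E := fun t => d (.inl (.inr (.inl t))) with hY
  set A1 : Tri × Or → E := fun t => d (.inl (.inr (.inr (.inl t)))) with hA1
  set A2 : Tri × Or → E := fun t => d (.inl (.inr (.inr (.inr t)))) with hA2
  unfold nCost
  rw [← Fintype.card_prod Tri Tri, ← Fintype.card_prod Tri Or]
  refine Net.nextU _ (fun t2 : Tri => gadget (N.g1 t2) (fun t1 => X (t1, t2))
    (fun t1 => Y (t1, t2)) (fun p => A1 (t2, p)) _ ⟨_, .inl (.inl (t2, t2)), rfl⟩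
    (fun t1 => ⟨.inl (.inl (t1, t2)), rfl⟩) (fun t1 => ⟨.inl (.inr (.inl (t1, t2))), rfl⟩)
    (fun p => ⟨.inl (.inr (.inr (.inl (t2, p)))), rfl⟩)) fun T1 h1 z1 => ?_
  have z1x : ∀ t : Tri × Tri, (N.hi1 t.2, X t) ∈ T1 := fun t => z1 t.2 (.inl (.inl ⟨t.1, rfl⟩))
  have z1y : ∀ t : Tri × Tri, (N.dn1 t.2 t.1, Y t + X t) ∈ T1 :=
    fun t => z1 t.2 (.inl (.inr ⟨t.1, rfl⟩))
  have z1a : ∀ t : Tri × Or, (N.hi1 t.1, A1 t) ∈ T1 := fun t => z1 t.1 (.inr ⟨t.2, rfl⟩)
  have z1b : ∀ t : Tri × Or, (N.o, A2 t) ∈ T1 :=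
    fun t => h1 ⟨.inl (.inr (.inr (.inr t))), rfl⟩
  have z1c : ∀ i : Fin k, (N.o, d (.inr i)) ∈ T1 := fun i => h1 ⟨.inr i, rfl⟩
  refine Net.next (fun t : Tri × Tri => (N.hi1 t.2, Y t + X t)) 1
    (fun t => Net.move (z1y t) ((N.g1 t.2).dn_hi t.1)) fun T2 h2 z2 => ?_
  refine Net.next (fun t : Tri × Tri => (N.up2 t.1 t.2, -Y t)) ((h - 1) * (h - 1))
    (fun t => Net.step ?_ (N.hi1_up2 t.1 t.2)) fun T3 h3 z3 => ?_
  · have e : -Y t = X t - (Y t + X t) := by abel
    rw [e]
    exact (Net.mem (h2 (z1x t))).sub' (Net.mem (z2 t))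
  refine Net.next (fun t : Tri × Tri => (N.lo2 t.1, Y t + X t)) ((h - 1) * (h - 1))
    (fun t => Net.move (h3 (h2 (z1y t))) (N.dn1_lo2 t.1 t.2)) fun T4 h4 z4 => ?_
  refine Net.next (fun t : Tri × Or => (N.top, A1 t)) (h * (h - 1))
    (fun t => Net.move (h4 (h3 (h2 (z1a t)))) (N.hi1_top t.1)) fun T5 h5 z5 => ?_
  refine Net.next (fun t : Tri × Or => (N.lo2 t.1, A2 t)) (h * (h - 1))
    (fun t => Net.move (h5 (h4 (h3 (h2 (z1b t))))) (N.o_lo2 t.1)) fun T6 h6 z6 => ?_
  refine Net.nextU _ (fun t1 : Tri => gadget (N.g2 t1) (fun t2 => -Y (t1, t2))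
    (fun t2 => Y (t1, t2) + X (t1, t2)) (fun p => A2 (t1, p)) _
    ⟨_, h6 (h5 (z4 (t1, t1)))⟩
    (fun t2 => h6 (h5 (h4 (z3 (t1, t2))))) (fun t2 => h6 (h5 (z4 (t1, t2))))
    (fun p => z6 (t1, p))) fun T7 h7 z7 => ?_
  have hk := Net.next (σ := σ) (T := T7) (U := Set.range fun w => (l1 N w, d w))
    (fun i : Fin k => (N.top, d (.inr i))) (h * h)
    (b := Fintype.card (Regs Tri Or ⊕ Fin k) * 0 + 0)
    (fun i => Net.move (h7 (h6 (h5 (h4 (h3 (h2 (z1c i))))))) N.o_top) fun T8 h8 z8 => ?_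
  · simpa using hk
  refine Net.next (fun w => (l1 N w, d w)) 0 (fun w => ?_) fun T9 h9 z9 => Net.done ?_
  · rcases w with (t | t | t | t) | i
    · refine Net.step ?_ (N.dn2_fin t.1 t.2)
      have e : d (.inl (.inl t)) = Y t + X t + -Y t := by simp only [hX]; abel
      rw [e]
      exact Net.mem (h8 (z7 t.1 (.inl (.inr ⟨t.2, rfl⟩))))
    · refine Net.step ?_ (N.hi2_top t.1)
      have e : d (.inl (.inr (.inl t))) = -(-Y t) := by simp only [hY, neg_neg]
      rw [e]
      exact (Net.mem (h8 (z7 t.1 (.inl (.inl ⟨t.2, rfl⟩))))).neg'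
    · exact Net.mem (h8 (h7 (h6 (z5 t))))
    · exact Net.move (h8 (z7 t.1 (.inr ⟨t.2, rfl⟩))) (N.hi2_top t.1)
    · exact Net.mem (z8 i)
  · rintro _ ⟨w, rfl⟩
    exact z9 w

end NetAux

open NetAux in
/-- The network, padded to a power of two many registers. Each register starts at `o` and ends
at `top`, or starts at `up1 t2 t1` and ends at `fin t1 t2`. -/
theorem network {σ : Sig R L M} {D : Design R σ.η Tri Cn Or} {h : ℕ} (hh : 2 ≤ h)
    (N : NLab σ D h) (hc : 2 * (Fintype.card Cn * h) < Fintype.card Tri) :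
    ∃ (w0 r : ℕ) (lab0 lab1 : Fin (2 ^ w0) → L), 0 < w0 ∧ r < 2 ^ w0 * (h * h) ∧
      (∀ w, (lab0 w = N.o ∧ lab1 w = N.top) ∨
        ∃ t1 t2, lab0 w = N.up1 t2 t1 ∧ lab1 w = N.fin t1 t2) ∧
      ∀ (E : Type) [AddCommGroup E] [Module R E] (d : Fin (2 ^ w0) → E),
        Net σ (Set.range fun w => (lab0 w, d w)) r (Set.range fun w => (lab1 w, d w)) := by
  set W := Fintype.card (Regs Tri Or) with hW
  have hW' : W = Fintype.card Tri * Fintype.card Tri + (Fintype.card Tri * Fintype.card Tri +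
      (Fintype.card Tri * Fintype.card Or + Fintype.card Tri * Fintype.card Or)) := by
    simp only [hW, Fintype.card_sum, Fintype.card_prod]
  have hv : 0 < Fintype.card Tri := by omega
  have hlt : W < 2 ^ W := Nat.lt_two_pow_self
  have hcard : Fintype.card (Regs Tri Or ⊕ Fin (2 ^ W - W)) = 2 ^ W := by
    rw [Fintype.card_sum, Fintype.card_fin, ← hW]
    omega
  let e := Fintype.equivFinOfCardEq hcard
  refine ⟨W, nCost (Fintype.card Tri) (Fintype.card Cn) (Fintype.card Or) h (2 ^ W - W),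
    fun w => l0 N (e.symm w), fun w => l1 N (e.symm w), ?_, ?_, fun w => ?_, fun E _ _ d => ?_⟩
  · have := Nat.mul_pos hv hv
    omega
  · have h1 := nCost_eq (Fintype.card Tri) (Fintype.card Cn) (Fintype.card Or) (2 ^ W - W) hh
    rw [← hW', show W + (2 ^ W - W) = 2 ^ W by omega] at h1
    have h2 := Nat.mul_lt_mul_of_pos_left hc hv
    omega
  · dsimp only
    rcases e.symm w with (t | t | t | t) | i
    · exact .inr ⟨t.1, t.2, rfl, rfl⟩
    all_goals exact .inl ⟨rfl, rfl⟩
  · have h1 := net N (2 ^ W - W) fun w => d (e w)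
    have h2 : ∀ l : Regs Tri Or ⊕ Fin (2 ^ W - W) → L, (Set.range fun w => (l (e.symm w), d w)) =
        Set.range fun w => (l w, d (e w)) := fun l => by
      rw [← e.surjective.range_comp]
      simp [Function.comp_def]
    rwa [h2, h2]

end Vale.Agent.P338
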