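import Vale.Agent.P338.Net
import Mathlib.Data.ZMod.Basic
import Mathlib.LinearAlgebra.Matrix.Trace
import Mathlib.LinearAlgebra.Matrix.Kronecker
import Mathlib.LinearAlgebra.Trace
import Mathlib.LinearAlgebra.Projection
import Mathlib.Data.Fintype.Powerset
import Mathlib.LinearAlgebra.FreeModule.PID
import Mathlib.Tactic.Module
import Mathlib.Tactic.IntervalCases

/-! The network for the exchange of two fields. -/

namespace Vale.Agent.P338

open Matrix

/-- Moves multiply the label by a reflection. -/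
def sigS (ι : Type) [Fintype ι] [DecidableEq ι] :
    Sig (ZMod 2) (Matrix ι ι ℚ) {p : (ι → ℚ) × (ι → ℚ) // p.2 ⬝ᵥ p.1 = 1} where
  act m q := q * (1 - (2 : ℚ) • vecMulVec m.1.1 m.1.2)
  cost _ := 1
  η := 1

namespace NetSAux

open Kronecker

section Generic
variable {ι : Type} [Fintype ι] [DecidableEq ι]

/-- The reflection attached to an idempotent. -/
def Rf (A : Matrix ι ι ℚ) : Matrix ι ι ℚ := 1 - (2 : ℚ) • A

theorem Rf_mul {A B : Matrix ι ι ℚ} (h : A * B = 0) : Rf A * Rf B = Rf (A + B) := by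
  simp only [Rf, Matrix.sub_mul, Matrix.mul_sub, Matrix.one_mul, Matrix.mul_one, Matrix.smul_mul,
    Matrix.mul_smul, h]
  module

theorem Rf_sq {A : Matrix ι ι ℚ} (h : A * A = A) : Rf A * Rf A = 1 := by
  simp only [Rf, Matrix.sub_mul, Matrix.mul_sub, Matrix.one_mul, Matrix.mul_one, Matrix.smul_mul,
    Matrix.mul_smul, h]
  module

omit [Fintype ι] in
theorem Rf_one_sub (A : Matrix ι ι ℚ) : Rf (1 - A) = -Rf A := by
  simp only [Rf]
  module

omit [Fintype ι] in
theorem Rf_one : Rf (1 : Matrix ι ι ℚ) = -1 := by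
  simp only [Rf]
  module

theorem path_idem (ρ : ℕ) : ∀ A : Matrix ι ι ℚ, A * A = A → A.trace = ρ → ∀ q,
    Path (sigS ι) q ρ (q * Rf A) := by
  induction ρ with
  | zero =>
    intro A hA ht q
    have h1 : IsIdempotentElem (Matrix.toLin' A) := by
      show Matrix.toLin' A ∘ₗ Matrix.toLin' A = _
      rw [← Matrix.toLin'_mul, hA]
    have h2 : Matrix.toLin' A = 0 :=
      (LinearMap.IsIdempotentElem.trace_eq_zero_iff h1).1 (by simpa using ht)
    have h3 : A = 0 := by simpa using h2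
    simpa [h3, Rf] using Path.refl (σ := sigS ι) (q := q) 0
  | succ ρ ih =>
    intro A hA ht q
    have hne : ∃ i j, A i j ≠ 0 := by
      by_contra hc
      push Not at hc
      have : A = 0 := by ext i j; exact hc i j
      rw [this, trace_zero] at ht
      exact (Nat.cast_add_one_ne_zero (R := ℚ) ρ) (by exact_mod_cast ht.symm)
    obtain ⟨i, j, hij⟩ := hne
    set a : ι → ℚ := fun x => A x j with ha
    set b : ι → ℚ := (A i j)⁻¹ • fun y => A i y with hb
    have hAa : A *ᵥ a = a := by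
      funext x
      exact congrFun (congrFun hA x) j
    have hbA : b ᵥ* A = b := by
      rw [hb, smul_vecMul]
      congr 1
      funext y
      exact congrFun (congrFun hA i) y
    have hba : b ⬝ᵥ a = 1 := by
      have : (fun y => A i y) ⬝ᵥ a = A i j := congrFun (congrFun hA i) j
      rw [hb, smul_dotProduct, this, smul_eq_mul, inv_mul_cancel₀ hij]
    have h1 : A * vecMulVec a b = vecMulVec a b := by rw [mul_vecMulVec, hAa]
    have h2 : vecMulVec a b * A = vecMulVec a b := by rw [vecMulVec_mul, hbA]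
    have h3 : vecMulVec a b * vecMulVec a b = vecMulVec a b := by
      rw [vecMulVec_mul_vecMulVec, hba, one_smul]
    have h4 := ih (A - vecMulVec a b)
      (by
        rw [Matrix.sub_mul, Matrix.mul_sub, Matrix.mul_sub, hA, h1, h2, h3]
        abel)
      (by
        rw [trace_sub, ht, trace_vecMulVec, dotProduct_comm, hba]
        push_cast
        ring) q
    have h5 := h4.step (σ := sigS ι) ⟨(a, b), hba⟩
    have e : (sigS ι).act ⟨(a, b), hba⟩ (q * Rf (A - vecMulVec a b)) = q * Rf A := by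
      show q * Rf (A - vecMulVec a b) * Rf (vecMulVec a b) = _
      rw [Matrix.mul_assoc, Rf_mul (by rw [Matrix.sub_mul, h1, h3, sub_self]), sub_add_cancel]
    rwa [e] at h5

theorem path_to {ρ : ℕ} {q q' : Matrix ι ι ℚ} (A : Matrix ι ι ℚ) (hA : A * A = A)
    (ht : A.trace = ρ) (h : q * Rf A = q') : Path (sigS ι) q ρ q' :=
  h ▸ path_idem ρ A hA ht q

theorem idem_one_sub {A : Matrix ι ι ℚ} (h : A * A = A) : (1 - A) * (1 - A) = 1 - A := by
  rw [Matrix.sub_mul, Matrix.one_mul, Matrix.mul_sub, Matrix.mul_one, h, sub_self, sub_zero]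

theorem mul_one_sub {A : Matrix ι ι ℚ} (h : A * A = A) : A * (1 - A) = 0 := by
  rw [Matrix.mul_sub, Matrix.mul_one, h, sub_self]

theorem one_sub_mul {A : Matrix ι ι ℚ} (h : A * A = A) : (1 - A) * A = 0 := by
  rw [Matrix.sub_mul, Matrix.one_mul, h, sub_self]

end Generic

/-- Triples. -/
abbrev Tr : Type := {S : Finset (Fin 18) // S.card = 3}

/-- Pairs of triples with exactly one common point. -/
abbrev Op : Type := {p : Tr × Tr // (p.1.1 ∩ p.2.1).card = 1}

/-- The splitting of the identity over the field with two elements. -/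
def des : Design (ZMod 2) 1 Tr (Fin 18) Op where
  src p := p.1.1
  dst p := p.1.2
  inc j S := decide (j ∈ S.1)
  mu j T := if j ∈ T.1 then 1 else 0
  be _ := 1
  mu_mem j t := by
    split_ifs
    · exact one_mem _
    · exact zero_mem _
  be_mem _ := one_mem _
  split S T := by
    have h1 : ∑ j : Fin 18, (if decide (j ∈ S.1) = true then
        (if j ∈ T.1 then (1 : ZMod 2) else 0) else 0) = ((S.1 ∩ T.1).card : ZMod 2) := by
      simp [← ite_and, ← Finset.mem_inter]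
    have h2 : ∑ p : Op, (if p.1.1 = S ∧ p.1.2 = T then (1 : ZMod 2) else 0) =
        if (S.1 ∩ T.1).card = 1 then 1 else 0 := by
      split_ifs with h
      · rw [Finset.sum_eq_single (⟨(S, T), h⟩ : Op)]
        · simp
        · intro p _ hp
          rw [if_neg]
          rintro ⟨h1, h2⟩
          exact hp (Subtype.ext (Prod.ext h1 h2))
        · simp
      · refine Finset.sum_eq_zero fun p _ => if_neg ?_
        rintro ⟨h1, h2⟩
        exact h (h1 ▸ h2 ▸ p.2)
    rw [h1, h2]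
    by_cases hST : S = T
    · subst hST
      rw [Finset.inter_self, S.2, if_pos rfl]
      decide
    · have hlt : (S.1 ∩ T.1).card < 3 := by
        by_contra hc
        have e1 : S.1 ∩ T.1 = S.1 :=
          Finset.eq_of_subset_of_card_le Finset.inter_subset_left (by rw [S.2]; omega)
        have e2 : S.1 ∩ T.1 = T.1 :=
          Finset.eq_of_subset_of_card_le Finset.inter_subset_right (by rw [T.2]; omega)
        exact hST (Subtype.ext (e1.symm.trans e2))
      rw [if_neg hST]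
      generalize (S.1 ∩ T.1).card = k at hlt
      interval_cases k <;> decide

/-- The indicator vector of a triple. -/
def ind (T : Tr) : Fin 18 → ℚ := fun j => if j ∈ T.1 then 1 else 0

/-- The rank one idempotent of a triple. -/
def PT (T : Tr) : Matrix (Fin 18) (Fin 18) ℚ :=
  vecMulVec (ind T) ((1 / 2 : ℚ) • ind T - fun _ => 1 / 6)

theorem co_ind (S T : Tr) : ((1 / 2 : ℚ) • ind S - fun _ => 1 / 6) ⬝ᵥ ind T =
    (((S.1 ∩ T.1).card : ℚ) - 1) / 2 := by
  have h1 : ind S ⬝ᵥ ind T = ((S.1 ∩ T.1).card : ℚ) := by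
    simp [dotProduct, ind, ← ite_and, ← Finset.mem_inter, Finset.inter_comm]
  have h2 : (fun _ => (1 / 6 : ℚ)) ⬝ᵥ ind T = 1 / 2 := by
    simp [dotProduct, ind, T.2]
    norm_num
  rw [sub_dotProduct, smul_dotProduct, h1, h2, smul_eq_mul]
  ring

theorem co_self (T : Tr) : ((1 / 2 : ℚ) • ind T - fun _ => 1 / 6) ⬝ᵥ ind T = 1 := by
  rw [co_ind, Finset.inter_self, T.2]
  norm_num

theorem PT_sq (T : Tr) : PT T * PT T = PT T := by
  rw [PT, vecMulVec_mul_vecMulVec, co_self, one_smul]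

theorem PT_trace (T : Tr) : (PT T).trace = 1 := by
  rw [PT, trace_vecMulVec, dotProduct_comm, co_self]

theorem PT_co (T : Tr) : (1 - PT T).trace = 17 := by
  rw [trace_sub, PT_trace, trace_one]
  norm_num

theorem PT_orth {S T : Tr} (h : (S.1 ∩ T.1).card = 1) : PT S * PT T = 0 := by
  rw [PT, PT, vecMulVec_mul_vecMulVec, co_ind, h]
  simp

theorem glab {ι : Type} [Fintype ι] [DecidableEq ι]
    (φ : Matrix (Fin 18) (Fin 18) ℚ →+ Matrix ι ι ℚ) (hm : ∀ A B, φ A * φ B = φ (A * B))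
    (ht : ∀ A, (φ A).trace = A.trace) (lo : Matrix ι ι ℚ) :
    GLab (sigS ι) des 18 lo (lo * Rf (φ 1)) (fun t => lo * Rf (φ (PT t)))
      (fun t => lo * Rf (φ (1 - PT t))) where
  lo_up t := path_to (φ (PT t)) (by rw [hm, PT_sq]) (by rw [ht, PT_trace]; norm_num) rfl
  up_dn p := by
    have h1 : PT p.1.1 * PT p.1.2 = 0 := PT_orth p.2
    have h2 : PT p.1.2 * PT p.1.1 = 0 := PT_orth (by rw [Finset.inter_comm]; exact p.2)
    refine path_to (φ (1 - PT p.1.2 - PT p.1.1)) ?_ ?_ ?_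
    · rw [hm]
      congr 1
      simp only [Matrix.sub_mul, Matrix.mul_sub, Matrix.one_mul, Matrix.mul_one, PT_sq, h1, h2]
      abel
    · rw [ht, trace_sub, PT_co, PT_trace]
      norm_num
    · show lo * Rf (φ (PT p.1.1)) * _ = lo * Rf (φ (1 - PT p.1.2))
      rw [Matrix.mul_assoc, Rf_mul, ← map_add, add_sub_cancel]
      rw [hm, Matrix.mul_sub, Matrix.mul_sub, Matrix.mul_one, h1, PT_sq, sub_zero, sub_self,
        map_zero]
  up_hi t := by
    refine path_to (φ (1 - PT t)) (by rw [hm, idem_one_sub (PT_sq t)])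
      (by rw [ht, PT_co]; norm_num) ?_
    rw [Matrix.mul_assoc, Rf_mul, ← map_add, add_sub_cancel]
    rw [hm, mul_one_sub (PT_sq t), map_zero]
  hi_lo := by
    refine path_to (φ 1) (by rw [hm, Matrix.one_mul]) (by rw [ht, trace_one]; norm_num) ?_
    rw [Matrix.mul_assoc, Rf_sq (by rw [hm, Matrix.one_mul]), Matrix.mul_one]
  lo_dn t := path_to (φ (1 - PT t)) (by rw [hm, idem_one_sub (PT_sq t)])
    (by rw [ht, PT_co]; norm_num) rfl
  dn_hi t := by
    refine path_to (φ (PT t)) (by rw [hm, PT_sq]) (by rw [ht, PT_trace]; norm_num) ?_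
    rw [Matrix.mul_assoc, Rf_mul, ← map_add, sub_add_cancel]
    rw [hm, one_sub_mul (PT_sq t), map_zero]

/-- Tensoring with a fixed right factor. -/
def kl (B : Matrix (Fin 18) (Fin 18) ℚ) :
    Matrix (Fin 18) (Fin 18) ℚ →+ Matrix (Fin 18 × Fin 18) (Fin 18 × Fin 18) ℚ where
  toFun A := A ⊗ₖ B
  map_zero' := zero_kronecker B
  map_add' A A' := add_kronecker A A' B

/-- Tensoring with a fixed left factor. -/
def kr (A : Matrix (Fin 18) (Fin 18) ℚ) :
    Matrix (Fin 18) (Fin 18) ℚ →+ Matrix (Fin 18 × Fin 18) (Fin 18 × Fin 18) ℚ where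
  toFun B := A ⊗ₖ B
  map_zero' := kronecker_zero A
  map_add' B B' := kronecker_add A B B'

theorem sub_kron (A A' B : Matrix (Fin 18) (Fin 18) ℚ) : (A - A') ⊗ₖ B = A ⊗ₖ B - A' ⊗ₖ B :=
  map_sub (kl B) A A'

theorem kron_sub (A B B' : Matrix (Fin 18) (Fin 18) ℚ) : A ⊗ₖ (B - B') = A ⊗ₖ B - A ⊗ₖ B' :=
  map_sub (kr A) B B'

theorem kron_idem {A B : Matrix (Fin 18) (Fin 18) ℚ} (hA : A * A = A) (hB : B * B = B) :
    A ⊗ₖ B * A ⊗ₖ B = A ⊗ₖ B := by rw [← mul_kronecker_mul, hA, hB]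

theorem lo_up_eq (S : Tr) (B : Matrix (Fin 18) (Fin 18) ℚ) :
    Rf ((1 - PT S) ⊗ₖ (1 : Matrix (Fin 18) (Fin 18) ℚ)) * Rf (kr (PT S) B) =
      Rf ((1 - PT S) ⊗ₖ (1 : Matrix (Fin 18) (Fin 18) ℚ) + PT S ⊗ₖ B) :=
  Rf_mul (by
    show _ * PT S ⊗ₖ B = 0
    rw [← mul_kronecker_mul, one_sub_mul (PT_sq S), zero_kronecker])

/-- The labels of the network. -/
def nlab : NLab (sigS (Fin 18 × Fin 18)) des 18 where
  o := 1
  top := -1
  hi1 t2 := 1 * Rf (kl (PT t2) 1)
  up1 t2 t1 := 1 * Rf (kl (PT t2) (PT t1))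
  dn1 t2 t1 := 1 * Rf (kl (PT t2) (1 - PT t1))
  lo2 t1 := Rf ((1 - PT t1) ⊗ₖ 1)
  hi2 t1 := Rf ((1 - PT t1) ⊗ₖ 1) * Rf (kr (PT t1) 1)
  up2 t1 t2 := Rf ((1 - PT t1) ⊗ₖ 1) * Rf (kr (PT t1) (PT t2))
  dn2 t1 t2 := Rf ((1 - PT t1) ⊗ₖ 1) * Rf (kr (PT t1) (1 - PT t2))
  fin t1 t2 := -(1 * Rf (kl (PT t2) (PT t1)))
  g1 t2 := glab (kl (PT t2))
    (fun A B => by
      show A ⊗ₖ PT t2 * B ⊗ₖ PT t2 = (A * B) ⊗ₖ PT t2
      rw [← mul_kronecker_mul, PT_sq])
    (fun A => by
      show (A ⊗ₖ PT t2).trace = _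
      rw [trace_kronecker, PT_trace, mul_one]) 1
  g2 t1 := glab (kr (PT t1))
    (fun A B => by
      show PT t1 ⊗ₖ A * PT t1 ⊗ₖ B = PT t1 ⊗ₖ (A * B)
      rw [← mul_kronecker_mul, PT_sq])
    (fun A => by
      show (PT t1 ⊗ₖ A).trace = _
      rw [trace_kronecker, PT_trace, one_mul]) _
  hi1_up2 t1 t2 := by
    refine path_to ((1 - PT t1) ⊗ₖ (1 - PT t2))
      (kron_idem (idem_one_sub (PT_sq t1)) (idem_one_sub (PT_sq t2)))
      (by rw [trace_kronecker, PT_co, PT_co]; norm_num) ?_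
    show 1 * Rf ((1 : Matrix (Fin 18) (Fin 18) ℚ) ⊗ₖ PT t2) * _ = _
    rw [lo_up_eq, Matrix.one_mul, Rf_mul]
    · congr 1
      simp only [sub_kron, kron_sub]
      abel
    · rw [← mul_kronecker_mul, mul_one_sub (PT_sq t2), kronecker_zero]
  dn1_lo2 t1 t2 := by
    refine path_to ((1 - PT t1) ⊗ₖ (1 - PT t2))
      (kron_idem (idem_one_sub (PT_sq t1)) (idem_one_sub (PT_sq t2)))
      (by rw [trace_kronecker, PT_co, PT_co]; norm_num) ?_
    show 1 * Rf ((1 - PT t1) ⊗ₖ PT t2) * _ = _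
    rw [Matrix.one_mul, Rf_mul, ← kronecker_add, add_sub_cancel]
    rw [← mul_kronecker_mul, mul_one_sub (PT_sq t2), kronecker_zero]
  hi1_top t2 := by
    refine path_to ((1 : Matrix (Fin 18) (Fin 18) ℚ) ⊗ₖ (1 - PT t2))
      (kron_idem (Matrix.one_mul _) (idem_one_sub (PT_sq t2)))
      (by rw [trace_kronecker, PT_co, trace_one]; norm_num) ?_
    show 1 * Rf ((1 : Matrix (Fin 18) (Fin 18) ℚ) ⊗ₖ PT t2) * _ = _
    rw [Matrix.one_mul, Rf_mul, ← kronecker_add, add_sub_cancel, one_kronecker_one, Rf_one]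
    rw [← mul_kronecker_mul, mul_one_sub (PT_sq t2), kronecker_zero]
  o_lo2 t1 := path_to ((1 - PT t1) ⊗ₖ (1 : Matrix (Fin 18) (Fin 18) ℚ))
    (kron_idem (idem_one_sub (PT_sq t1)) (Matrix.one_mul _))
    (by rw [trace_kronecker, PT_co, trace_one]; norm_num) (Matrix.one_mul _)
  dn2_fin t1 t2 := by
    have e : Rf ((1 - PT t1) ⊗ₖ (1 : Matrix (Fin 18) (Fin 18) ℚ)) * Rf (kr (PT t1) (1 - PT t2)) =
        -(1 * Rf (kl (PT t2) (PT t1))) := by
      show _ = -(1 * Rf (PT t1 ⊗ₖ PT t2))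
      rw [lo_up_eq, Matrix.one_mul, ← Rf_one_sub]
      congr 1
      simp only [sub_kron, kron_sub, one_kronecker_one]
      abel
    rw [e]
    exact Path.refl 0
  hi2_top t1 := by
    rw [lo_up_eq, ← add_kronecker, sub_add_cancel, one_kronecker_one, Rf_one]
    exact Path.refl 0
  o_top := path_to 1 (Matrix.one_mul _) (by rw [trace_one]; norm_num)
    (by rw [Matrix.one_mul, Rf_one])

end NetSAux

open NetSAux in
theorem netS : ∃ (w0 r : ℕ) (lab0 : Fin (2 ^ w0) → Matrix (Fin 18 × Fin 18) (Fin 18 × Fin 18) ℚ),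
    0 < w0 ∧ r < 2 ^ w0 * 324 ∧ (∀ w, lab0 w * lab0 w = 1) ∧
    ∀ (E : Type) [AddCommGroup E] [Module (ZMod 2) E] (d : Fin (2 ^ w0) → E),
      Net (sigS (Fin 18 × Fin 18)) (Set.range fun w => (lab0 w, d w)) r
        (Set.range fun w => (-lab0 w, d w)) := by
  obtain ⟨w0, r, lab0, lab1, h0, hr, hl, hN⟩ := network (by norm_num) nlab
    (by
      rw [Fintype.card_finset_len, Fintype.card_fin]
      decide)
  have e : ∀ w, lab1 w = -lab0 w := by
    intro w
    rcases hl w with ⟨h1, h2⟩ | ⟨t1, t2, h1, h2⟩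
    · rw [h1, h2]; rfl
    · rw [h1, h2]; rfl
  refine ⟨w0, r, lab0, h0, hr, fun w => ?_, fun E _ _ d => ?_⟩
  · rcases hl w with ⟨h1, -⟩ | ⟨t1, t2, h1, -⟩
    · rw [h1]
      exact Matrix.one_mul _
    · rw [h1]
      show 1 * Rf _ * (1 * Rf _) = 1
      rw [Matrix.one_mul]
      exact Rf_sq (kron_idem (PT_sq t1) (PT_sq t2))
  · simpa only [e] using hN E d

end Vale.Agent.P338
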