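import Vale.Agent.P338.Cmd
import Vale.Agent.P337.TCx
import Mathlib.Data.ENat.Lattice

/-! Stack programs acting on stacks of trees, with step counts. -/

namespace Vale.Agent.P338

open Function Vale.Agent.Common.TreeTM Enc

/-- The stacks: working stack, three scratch stacks, three list registers. -/
inductive Rk : Type
  | D | A | B | C | R1 | R2 | R3
  deriving DecidableEq

instance : Fintype Rk := ⟨{.D, .A, .B, .C, .R1, .R2, .R3}, fun x => by cases x <;> simp⟩

def st (d a b c r1 r2 r3 : List Bool) : Rk → List Bool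
  | .D => d
  | .A => a
  | .B => b
  | .C => c
  | .R1 => r1
  | .R2 => r2
  | .R3 => r3

/-- `P` replaces the tree `x` on top of the working stack by `y` within `t` steps. -/
def Impl (E P : Cmd Rk) (x y : Tr) (t : ℕ∞) : Prop :=
  ∀ d r1 r2 r3 : List Bool, ∃ t' : ℕ, (t' : ℕ∞) ≤ t ∧
    Ex E P (st (x.enc ++ d) [] [] [] r1 r2 r3) (st (y.enc ++ d) [] [] [] r1 r2 r3) t'

namespace PrimAux

open Vale.Agent.Common.LoopTM (isT)

theorem ex_cast {E P : Cmd Rk} {s s' s'' t t'} (h : Ex E P s s' t) (h1 : s' = s'') (h2 : t = t') :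
    Ex E P s s'' t' := h1 ▸ h2 ▸ h

def mvBody (r : Rk) (P : Bool → Cmd Rk) : Cmd Rk :=
  .cond r isT (.seq (.pop r) (.seq (P true) (.push .C true)))
    (.seq (.pop r) (.seq (P false) (.pop .C)))

/-- Pops one tree from `r`, running `P` on each of its bits. -/
def mv (r : Rk) (P : Bool → Cmd Rk) : Cmd Rk := .seq (.push .C true) (.loop .C isT (mvBody r P))

theorem ex_mv {E : Cmd Rk} {r : Rk} {P : Bool → Cmd Rk}
    (F : List Bool → List Bool → List Bool → Rk → List Bool) (p : ℕ)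
    (h1 : ∀ d m c, F d m c r = d) (h2 : ∀ d m c, F d m c .C = c)
    (h3 : ∀ d m c x, update (F d m c) r x = F x m c)
    (h4 : ∀ d m c x, update (F d m c) .C x = F d m x)
    (hP : ∀ x d m c, Ex E (P x) (F d m c) (F d (x :: m) c) p) (t : Tr) (d : List Bool) :
    Ex E (mv r P) (F (t.enc ++ d) [] []) (F d t.enc.reverse []) ((p + 9) * t.sz + 4) := by
  have key : ∀ (t : Tr) d m c s n,
      Ex E (.loop .C isT (mvBody r P)) (F d (t.enc.reverse ++ m) c) s n →
      Ex E (.loop .C isT (mvBody r P)) (F (t.enc ++ d) m (true :: c)) s ((p + 9) * t.sz + n) := by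
    intro t
    induction t with
    | nil =>
      intro d m c s n h
      refine ex_cast (Ex.loopT (by rw [h2]; rfl) (Ex.condF (by rw [h1]; rfl)
        (Ex.seq (Ex.pop _ _ _) (Ex.seq (t := F d (false :: m) (true :: c)) (a := p) ?_
          (ex_cast (Ex.pop _ _ _) ?_ rfl)))) h) rfl (by simp only [sz_nil]; ring)
      · rw [h1, h3]; exact hP _ _ _ _
      · rw [h2, h4]; rfl
    | cons a b iha ihb =>
      intro d m c s n h
      have h' := iha (b.enc ++ d) (true :: m) (true :: c) s _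
        (ihb d _ c s n (by simpa [Tr.enc] using h))
      refine ex_cast (Ex.loopT (by rw [h2]; rfl) (Ex.condT (by rw [h1]; rfl)
        (Ex.seq (Ex.pop _ _ _) (Ex.seq (t := F (a.enc ++ (b.enc ++ d)) (true :: m) (true :: c))
          (a := p) ?_ (ex_cast (Ex.push _ _ _ _) ?_ rfl)))) h') rfl (by rw [sz_cons]; ring)
      · rw [h1, h3]; simpa [Tr.enc] using hP _ _ _ _
      · rw [h2, h4]
  refine ex_cast (Ex.seq (ex_cast (Ex.push _ _ _ _) ?_ rfl)
    (key t d [] [] _ _ (Ex.loopF (by rw [h2]; rfl)))) (by simp) (by ring)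
  rw [h2, h4]

def flush (r r' : Rk) : Cmd Rk := .loop r Option.isSome
  (.cond r isT (.seq (.pop r) (.push r' true)) (.seq (.pop r) (.push r' false)))

theorem ex_flush {E : Cmd Rk} {r r' : Rk} (F : List Bool → List Bool → Rk → List Bool)
    (h1 : ∀ l d, F l d r = l) (h2 : ∀ l d, F l d r' = d)
    (h3 : ∀ l d x, update (F l d) r x = F x d) (h4 : ∀ l d x, update (F l d) r' x = F l x)
    (l d : List Bool) : Ex E (flush r r') (F l d) (F [] (l.reverse ++ d)) (7 * l.length + 1) := by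
  induction l generalizing d with
  | nil => exact Ex.loopF (by rw [h1]; rfl)
  | cons x l ih =>
    refine ex_cast (Ex.loopT (a := 5) (by rw [h1]; rfl) ?_ (ih (x :: d))) (by simp)
      (by rw [List.length_cons]; ring)
    have h : Ex E (.seq (.pop r) (.push r' x)) (F (x :: l) d) (F l (x :: d)) 4 :=
      ex_cast (Ex.seq (Ex.pop _ _ _) (Ex.push _ _ _ _)) (by rw [h1, h3, h2, h4]; rfl) rfl
    cases x
    · exact Ex.condF (by rw [h1]; rfl) h
    · exact Ex.condT (by rw [h1]; rfl) h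

/-- The stacks that hold trees. -/
inductive Q : Type
  | D | R1 | R2 | R3
  deriving DecidableEq

def Q.rk : Q → Rk
  | .D => .D
  | .R1 => .R1
  | .R2 => .R2
  | .R3 => .R3

def bs (w : Q → List Bool) (a b c : List Bool) : Rk → List Bool :=
  st (w .D) a b c (w .R1) (w .R2) (w .R3)

variable (w : Q → List Bool) (a b c x : List Bool) (q : Q)

@[simp] theorem bs_rk : bs w a b c q.rk = w q := by cases q <;> rfl
@[simp] theorem bs_A : bs w a b c .A = a := rfl
@[simp] theorem bs_B : bs w a b c .B = b := rfl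
@[simp] theorem bs_C : bs w a b c .C = c := rfl
@[simp] theorem up_rk : update (bs w a b c) q.rk x = bs (update w q x) a b c := by
  funext r; cases q <;> cases r <;> rfl
@[simp] theorem up_A : update (bs w a b c) .A x = bs w x b c := by funext r; cases r <;> rfl
@[simp] theorem up_B : update (bs w a b c) .B x = bs w a x c := by funext r; cases r <;> rfl
@[simp] theorem up_C : update (bs w a b c) .C x = bs w a b x := by funext r; cases r <;> rfl

def drop (q : Q) : Cmd Rk := mv q.rk fun _ => .skip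
def move (q q' : Q) : Cmd Rk := .seq (mv q.rk fun x => .push .A x) (flush .A q'.rk)
def dup (q : Q) : Cmd Rk := .seq (mv q.rk fun x => .seq (.push .A x) (.push .B x))
  (.seq (flush .A q.rk) (flush .B q.rk))

variable {E : Cmd Rk} {w q}

theorem ex_drop {t : Tr} {d} (h : w q = t.enc ++ d) :
    Ex E (drop q) (bs w [] [] []) (bs (update w q d) [] [] []) (10 * t.sz + 4) := by
  have := ex_mv (E := E) (r := q.rk) (P := fun _ => .skip) (fun d _ c => bs (update w q d) [] [] c)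
    1 (by simp) (by simp) (by simp) (by simp) (fun _ _ _ _ => Ex.skip _ _) t d
  rwa [← h, update_eq_self] at this

theorem ex_flA (q : Q) (w : Q → List Bool) (l b : List Bool) : Ex E (flush .A q.rk) (bs w l b [])
    (bs (update w q (l.reverse ++ w q)) [] b []) (7 * l.length + 1) := by
  have := ex_flush (E := E) (r := .A) (r' := q.rk) (fun l d => bs (update w q d) l b [])
    (by simp) (by simp) (by simp) (by simp) l (w q)
  rwa [update_eq_self] at this

theorem ex_move {t : Tr} {d} (h : w q = t.enc ++ d) (q' : Q) :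
    Ex E (move q q') (bs w [] [] [])
      (bs (update (update w q d) q' (t.enc ++ update w q d q')) [] [] []) (17 * t.sz + 7) := by
  have := ex_mv (E := E) (r := q.rk) (P := fun x => .push .A x)
    (fun d m c => bs (update w q d) m [] c) 1 (by simp) (by simp) (by simp) (by simp)
    (fun _ _ _ _ => ex_cast (Ex.push _ _ _ _) (by simp) rfl) t d
  rw [← h, update_eq_self] at this
  exact ex_cast (Ex.seq this (ex_flA q' _ _ _)) (by simp) (by simp [Tr.sz]; ring)

theorem ex_dup {t : Tr} {d} (h : w q = t.enc ++ d) :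
    Ex E (dup q) (bs w [] [] []) (bs (update w q (t.enc ++ w q)) [] [] []) (27 * t.sz + 10) := by
  have := ex_mv (E := E) (r := q.rk) (P := fun x => .seq (.push .A x) (.push .B x))
    (fun d m c => bs (update w q d) m m c) 4 (by simp) (by simp) (by simp) (by simp)
    (fun _ _ _ _ => ex_cast (Ex.seq (Ex.push _ _ _ _) (Ex.push _ _ _ _)) (by simp) rfl) t d
  rw [← h, update_eq_self] at this
  have h2 := ex_flush (E := E) (r := .B) (r' := q.rk) (fun l d => bs (update w q d) [] l [])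
    (by simp) (by simp) (by simp) (by simp) t.enc.reverse (w q)
  exact ex_cast (Ex.seq this (Ex.seq (ex_cast (ex_flA q _ _ _) (by simp [h]) rfl) h2)) (by simp)
    (by simp [Tr.sz]; ring)

/-- Stacks of trees. -/
structure TS : Type where
  d : List Tr
  r1 : List Tr
  r2 : List Tr
  r3 : List Tr

def TS.get (σ : TS) : Q → List Tr
  | .D => σ.d
  | .R1 => σ.r1
  | .R2 => σ.r2
  | .R3 => σ.r3

def TS.set (σ : TS) : Q → List Tr → TS
  | .D, l => ⟨l, σ.r1, σ.r2, σ.r3⟩
  | .R1, l => ⟨σ.d, l, σ.r2, σ.r3⟩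
  | .R2, l => ⟨σ.d, σ.r1, l, σ.r3⟩
  | .R3, l => ⟨σ.d, σ.r1, σ.r2, l⟩

def fl (l : List Tr) (b : List Bool) : List Bool := l.foldr (fun t r => t.enc ++ r) b

def cw (b : Q → List Bool) (σ : TS) (q : Q) : List Bool := fl (σ.get q) (b q)

theorem cw_set (b : Q → List Bool) (σ : TS) (q : Q) (l : List Tr) :
    cw b (σ.set q l) = update (cw b σ) q (fl l (b q)) := by
  funext r; cases q <;> cases r <;> rfl

theorem cw_cons (b : Q → List Bool) {σ : TS} {q : Q} {t l} (h : σ.get q = t :: l) :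
    cw b σ q = t.enc ++ fl l (b q) := by rw [cw, h]; rfl

/-- `P` leads from `σ` to `σ'` within `n + u` steps, whatever lies below. -/
def TL (E P : Cmd Rk) (σ σ' : TS) (n : ℕ) (u : ℕ∞) : Prop :=
  u ≠ ⊤ → ∀ b : Q → List Bool, ∃ t : ℕ, (t : ℕ∞) ≤ n + u ∧
    Ex E P (bs (cw b σ) [] [] []) (bs (cw b σ') [] [] []) t

variable {P P' : Cmd Rk} {σ σ' σ'' σ₀ : TS} {n n' n'' : ℕ} {u u' u'' : ℕ∞} {t t' : Tr} {l : List Tr}

theorem TL.of_ex (h : ∀ b, Ex E P (bs (cw b σ) [] [] []) (bs (cw b σ') [] [] []) n) :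
    TL E P σ σ' n 0 := fun _ b => ⟨n, by simp, h b⟩

theorem TL.mono (h : TL E P σ σ' n u) (hn : n ≤ n') (hu : u ≤ u') : TL E P σ σ' n' u' := by
  intro h0 b
  obtain ⟨t, h1, h2⟩ := h (ne_top_of_le_ne_top h0 hu) b
  exact ⟨t, h1.trans (add_le_add (by exact_mod_cast hn) hu), h2⟩

theorem le_add2 {a b k n n' : ℕ} {u u' : ℕ∞} (h : (a : ℕ∞) ≤ n + u) (h' : (b : ℕ∞) ≤ n' + u') :
    ((a + b + k : ℕ) : ℕ∞) ≤ (n + n' + k : ℕ) + (u + u') := by
  push_cast
  calc (a : ℕ∞) + b + k ≤ (n + u) + (n' + u') + k := by gcongr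
    _ = _ := by ring

theorem ne_l {u u' : ℕ∞} (h : u + u' ≠ ⊤) : u ≠ ⊤ := ne_top_of_le_ne_top h le_self_add
theorem ne_r {u u' : ℕ∞} (h : u + u' ≠ ⊤) : u' ≠ ⊤ := ne_top_of_le_ne_top h le_add_self

theorem TL.seq (h : TL E P σ σ' n u) (h' : TL E P' σ' σ'' n' u') :
    TL E (.seq P P') σ σ'' (n + n' + 2) (u + u') := by
  intro h0 b
  obtain ⟨t, h1, h2⟩ := h (ne_l h0) b
  obtain ⟨t', h1', h2'⟩ := h' (ne_r h0) b
  exact ⟨_, le_add2 h1 h1', h2.seq h2'⟩

theorem TL.skip : TL E .skip σ σ 1 0 := .of_ex fun _ => Ex.skip _ _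

theorem TL.drop (q : Q) (h : σ.get q = t :: l) :
    TL E (drop q) σ (σ.set q l) (10 * t.sz + 4) 0 :=
  .of_ex fun b => by rw [cw_set]; exact ex_drop (cw_cons b h)

theorem TL.move (q q' : Q) (h : σ.get q = t :: l) :
    TL E (move q q') σ ((σ.set q l).set q' (t :: (σ.set q l).get q')) (17 * t.sz + 7) 0 :=
  .of_ex fun b => ex_cast (ex_move (cw_cons b h) q') (by rw [cw_set, ← cw_set b σ]; rfl) rfl

theorem TL.dup (q : Q) (h : σ.get q = t :: l) :
    TL E (dup q) σ (σ.set q (t :: σ.get q)) (27 * t.sz + 10) 0 :=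
  .of_ex fun b => by rw [cw_set]; exact ex_dup (cw_cons b h)

theorem TL.unc (q : Q) (h : σ.get q = .cons t t' :: l) :
    TL E (.pop q.rk) σ (σ.set q (t :: t' :: l)) 1 0 :=
  .of_ex fun b => ex_cast (Ex.pop _ _ _) (by simp [cw_set, cw_cons b h, fl, Tr.enc]) rfl

theorem TL.mkc (q : Q) (h : σ.get q = t :: t' :: l) :
    TL E (.push q.rk true) σ (σ.set q (.cons t t' :: l)) 1 0 :=
  .of_ex fun b => ex_cast (Ex.push _ _ _ _) (by simp [cw_set, cw_cons b h, fl, Tr.enc]) rfl

theorem TL.nil (q : Q) : TL E (.push q.rk false) σ (σ.set q (.nil :: σ.get q)) 1 0 :=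
  .of_ex fun b => ex_cast (Ex.push _ _ _ _) (by simp [cw_set, cw, fl, Tr.enc]) rfl

theorem hdT (b : Q → List Bool) (h : σ.get q = .cons t t' :: l) :
    isT (bs (cw b σ) [] [] [] q.rk).head? = true := by rw [bs_rk, cw_cons b h]; rfl

theorem hdF (b : Q → List Bool) (h : σ.get q = .nil :: l) :
    isT (bs (cw b σ) [] [] [] q.rk).head? = false := by rw [bs_rk, cw_cons b h]; rfl

theorem le_add1 {a n : ℕ} {u : ℕ∞} (h : (a : ℕ∞) ≤ n + u) :
    ((a + 1 : ℕ) : ℕ∞) ≤ (n + 1 : ℕ) + u := by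
  simpa using le_add2 (k := 1) (b := 0) (n' := 0) (u' := 0) h (by simp)

theorem TL.condT (q : Q) (h : σ.get q = .cons t t' :: l) (h' : TL E P σ σ' n u) :
    TL E (.cond q.rk isT P P') σ σ' (n + 1) u := by
  intro h0 b
  obtain ⟨t, h1, h2⟩ := h' h0 b
  exact ⟨_, le_add1 h1, Ex.condT (hdT b h) h2⟩

theorem TL.condF (q : Q) (h : σ.get q = .nil :: l) (h' : TL E P' σ σ' n u) :
    TL E (.cond q.rk isT P P') σ σ' (n + 1) u := by
  intro h0 b
  obtain ⟨t, h1, h2⟩ := h' h0 b
  exact ⟨_, le_add1 h1, Ex.condF (hdF b h) h2⟩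

theorem TL.loopT (q : Q) (h : σ.get q = .cons t t' :: l) (h1 : TL E P σ σ' n u)
    (h2 : TL E (.loop q.rk isT P) σ' σ'' n' u') :
    TL E (.loop q.rk isT P) σ σ'' (n + n' + 2) (u + u') := by
  intro h0 b
  obtain ⟨t, a1, a2⟩ := h1 (ne_l h0) b
  obtain ⟨t', b1, b2⟩ := h2 (ne_r h0) b
  exact ⟨_, le_add2 a1 b1, Ex.loopT (hdT b h) a2 b2⟩

theorem TL.loopF (q : Q) (h : σ.get q = .nil :: l) : TL E (.loop q.rk isT P) σ σ 1 0 :=
  .of_ex fun b => Ex.loopF (hdF b h)

/-- A loop whose test is recomputed at the end of each round. -/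
def wh (q : Q) (P P' : Cmd Rk) : Cmd Rk := .seq P (.loop q.rk isT (.seq P' P))

theorem TL.whT (q : Q) (h0 : TL E P σ₀ σ n u) (h : σ.get q = .cons t t' :: l)
    (h1 : TL E P' σ σ' n' u') (h2 : TL E (wh q P P') σ' σ'' n'' u'') :
    TL E (wh q P P') σ₀ σ'' (n + n' + n'' + 6) (u + u' + u'') := by
  intro h3 b
  obtain ⟨t0, a1, a2⟩ := h0 (ne_l (ne_l h3)) b
  obtain ⟨t1, b1, b2⟩ := h1 (ne_r (ne_l h3)) b
  obtain ⟨t2, c1, c2⟩ := h2 (ne_r h3) b
  cases c2 with
  | seq c2 c3 =>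
    have := le_add2 (k := 6) (le_add2 (k := 0) a1 b1) c1
    refine ⟨_, le_trans ?_ this, a2.seq (Ex.loopT (hdT b h) (b2.seq c2) c3)⟩
    exact_mod_cast (by omega)

theorem TL.of_impl {x y : Tr} (h : u ≠ ⊤ → Impl E P x y (n + u)) (hs : σ.get .D = x :: l) :
    TL E P σ (σ.set .D (y :: l)) n u := by
  intro h0 b
  obtain ⟨t, h1, h2⟩ := h h0 (fl l (b .D)) (cw b σ .R1) (cw b σ .R2) (cw b σ .R3)
  refine ⟨t, h1, ?_⟩
  rw [← cw_cons b hs] at h2
  exact h2

theorem TL.impl {x y : Tr} (h : TL E P ⟨[x], [], [], []⟩ ⟨[y], [], [], []⟩ n u) (hu : u ≠ ⊤) :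
    Impl E P x y (n + u) := fun d r1 r2 r3 =>
  h hu fun q => st d [] [] [] r1 r2 r3 q.rk

end PrimAux

end Vale.Agent.P338
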