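import Mathlib.LinearAlgebra.Matrix.Transvection
import Mathlib.LinearAlgebra.Matrix.Block
import Mathlib.Data.ZMod.Basic
import Mathlib.Data.Nat.ModEq
import Mathlib.Data.Rat.Lemmas
import Mathlib.Tactic.FieldSimp
import Mathlib.Tactic.Linarith
import Mathlib.Tactic.Module

/-! A reflection is a product of triangular operations and one exchange; reduction of rational
matrices modulo `K`. -/

namespace Vale.Agent.P338

open Matrix Function

variable {J : Type} [Fintype J] [DecidableEq J]

/-- The permutation matrix exchanging two coordinates. -/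
def swM (R : Type) [Zero R] [One R] (i j : J) : Matrix J J R :=
  Matrix.of fun x y => if y = Equiv.swap i j x then 1 else 0

/-- Products of elementary operations with `s` exchanges; a coordinate may only be added to a
coordinate of lower rank. -/
inductive Gen (rk : J → ℕ) : ℕ → Matrix J J ℚ → Prop
  | one : Gen rk 0 1
  | add {s A} (i j : J) : rk i < rk j → Gen rk s A → Gen rk s (A * transvection i j 1)
  | mul {s A} (i : J) (n : ℕ) : 0 < n → Gen rk s A →
      Gen rk s (A * diagonal (update 1 i (n : ℚ)))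
  | div {s A} (i : J) (n : ℕ) : 0 < n → Gen rk s A →
      Gen rk s (A * diagonal (update 1 i (n : ℚ)⁻¹))
  | neg {s A} (i : J) : Gen rk s A → Gen rk s (A * diagonal (update 1 i (-1)))
  | swap {s A} (i j : J) : rk j < rk i → Gen rk s A → Gen rk (s + 1) (A * swM ℚ i j)

/-- The action of `σ` on pairs `(x, y)`: the sum is fixed and `σ` acts on the difference. -/
def GG {ι : Type} [DecidableEq ι] (σ : Matrix ι ι ℚ) : Matrix (ι ⊕ ι) (ι ⊕ ι) ℚ :=
  fromBlocks ((1 / 2 : ℚ) • (1 + σ)) ((1 / 2 : ℚ) • (1 - σ)) ((1 / 2 : ℚ) • (1 - σ))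
    ((1 / 2 : ℚ) • (1 + σ))

namespace ReflAux

variable {rk : J → ℕ}

theorem gen_mul {s s' : ℕ} {A B : Matrix J J ℚ} (hA : Gen rk s A) (hB : Gen rk s' B) :
    Gen rk (s + s') (A * B) := by
  induction hB with
  | one => simpa using hA
  | add i j h _ ih => rw [← Matrix.mul_assoc]; exact ih.add i j h
  | mul i n h _ ih => rw [← Matrix.mul_assoc]; exact ih.mul i n h
  | div i n h _ ih => rw [← Matrix.mul_assoc]; exact ih.div i n h
  | neg i _ ih => rw [← Matrix.mul_assoc]; exact ih.neg i
  | swap i j h _ ih => rw [← Matrix.mul_assoc, ← Nat.add_assoc]; exact ih.swap i j h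

theorem diag_mul (i : J) (c c' : ℚ) :
    diagonal (update (1 : J → ℚ) i c) * diagonal (update 1 i c') =
      diagonal (update 1 i (c * c')) := by
  rw [diagonal_mul_diagonal]
  congr 1
  funext x
  by_cases h : x = i
  · subst h; simp
  · simp [h]

theorem gen_diag (i : J) {c : ℚ} (hc : c ≠ 0) : Gen rk 0 (diagonal (update 1 i c)) := by
  have pos : ∀ c : ℚ, 0 < c → Gen rk 0 (diagonal (update 1 i c)) := by
    intro c hc
    have hn : 0 < c.num.natAbs := Int.natAbs_pos.2 (Rat.num_pos.2 hc).ne'
    have h := (Gen.one.mul (rk := rk) i _ hn).div i c.den c.den_pos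
    rw [Matrix.one_mul, diag_mul] at h
    have e : ((c.num.natAbs : ℕ) : ℚ) * (c.den : ℚ)⁻¹ = c := by
      have h1 : ((c.num.natAbs : ℕ) : ℚ) = (c.num : ℚ) := by
        rw [← Int.cast_natCast, Int.natAbs_of_nonneg (Rat.num_pos.2 hc).le]
      rw [h1, ← div_eq_mul_inv, Rat.num_div_den]
    rwa [e] at h
  rcases lt_or_gt_of_ne hc with h | h
  · have := (pos (-c) (by linarith)).neg i
    rw [diag_mul] at this
    simpa using this
  · exact pos c h

theorem gen_transv {i j : J} (h : rk i < rk j) {c : ℚ} (hc : c ≠ 0) :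
    Gen rk 0 (transvection i j c) := by
  have hij : i ≠ j := fun e => by simp [e] at h
  have h1 := gen_mul ((gen_diag (rk := rk) i hc).add i j h) (gen_diag i (inv_ne_zero hc))
  have e : diagonal (update (1 : J → ℚ) i c) * transvection i j 1 * diagonal (update 1 i c⁻¹) =
      transvection i j c := by
    ext x y
    rw [mul_diagonal, diagonal_mul]
    simp only [transvection, Matrix.add_apply, Matrix.one_apply, Matrix.single_apply]
    by_cases hx : x = i
    · subst hx
      by_cases hy : y = x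
      · subst hy
        simp [hij.symm, hc]
      · by_cases hy' : j = y
        · simp [hy, hy', Ne.symm hy]
        · simp [hy, hy', Ne.symm hy]
    · by_cases hy : y = i
      · subst hy
        simp [hx, Ne.symm hx]
      · simp [hx, hy, Ne.symm hx]
  rwa [e] at h1

theorem gen_unip {p q : J → ℚ} (h : ∀ x y, p x ≠ 0 → q y ≠ 0 → rk x < rk y) :
    Gen rk 0 (1 + vecMulVec p q) := by
  have key : ∀ S : Finset (J × J),
      Gen rk 0 (1 + ∑ z ∈ S, single z.1 z.2 (p z.1 * q z.2)) := by
    intro S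
    induction S using Finset.induction_on with
    | empty => simpa using Gen.one
    | insert z S hz ih =>
      rw [Finset.sum_insert hz]
      by_cases hc : p z.1 * q z.2 = 0
      · simpa [hc] using ih
      · have hp : p z.1 ≠ 0 := left_ne_zero_of_mul hc
        have hq : q z.2 ≠ 0 := right_ne_zero_of_mul hc
        have h1 := gen_mul ih (gen_transv (h _ _ hp hq) hc)
        have e : (∑ w ∈ S, single w.1 w.2 (p w.1 * q w.2)) * single z.1 z.2 (p z.1 * q z.2) = 0 := by
          rw [Finset.sum_mul]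
          refine Finset.sum_eq_zero fun w _ => ?_
          by_cases hw : w.2 = z.1
          · have : q w.2 = 0 := by
              by_contra h0
              have := h _ _ hp h0
              rw [hw] at this
              exact lt_irrefl _ this
            simp [this]
          · exact single_mul_single_of_ne _ _ _ _ hw _
        rw [transvection, Matrix.mul_add, Matrix.mul_one, Matrix.add_mul, Matrix.one_mul, e] at h1
        convert h1 using 1
        abel
  have := key Finset.univ
  rw [Fintype.sum_prod_type] at this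
  convert this using 2
  exact matrix_eq_sum_single _

/-- A matrix that differs from the identity in one row with admissible support. -/
theorem gen_row {j : J} {ρ : J → ℚ} (h0 : ρ j ≠ 0) (h : ∀ x, x ≠ j → ρ x ≠ 0 → rk j < rk x) :
    Gen rk 0 (updateRow 1 j ρ) := by
  have h1 : Gen rk 0 (1 + vecMulVec (Pi.single j 1) (update (fun x => ρ x / ρ j) j 0)) := by
    refine gen_unip fun x y hx hy => ?_
    have hxj : x = j := by
      by_contra hne
      simp [hne] at hx
    have hyj : y ≠ j := by
      rintro rfl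
      simp at hy
    rw [hxj]
    refine h y hyj fun h0' => hy ?_
    simp [hyj, h0']
  have h2 := gen_mul (gen_diag (rk := rk) j h0) h1
  convert h2 using 1
  ext x y
  rw [diagonal_mul]
  by_cases hx : x = j
  · subst hx
    by_cases hy : y = x
    · subst hy
      simp [vecMulVec_apply]
    · simp [vecMulVec_apply, hy, one_apply, Ne.symm hy]
      field_simp
  · simp [vecMulVec_apply, hx]

theorem swM_mulVec (i j : J) (X : J → ℚ) : swM ℚ i j *ᵥ X = X ∘ Equiv.swap i j := by
  funext x
  simp [swM, mulVec, dotProduct]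

/-- The row matrix with a sign change is generated with one exchange. -/
theorem gen_row_swap {i j : J} (hij : rk j < rk i) {ρ : J → ℚ} (hi : ρ i ≠ 0) (hj : ρ j ≠ 0)
    (h : ∀ x, x ≠ j → ρ x ≠ 0 → rk j < rk x) : Gen rk 1 (updateRow 1 i ρ) := by
  have hne : i ≠ j := fun e => by simp [e] at hij
  set τ : J → ℚ := (ρ j)⁻¹ • (Pi.single j (1 + ρ j) - ρ) with hτ
  have hU1 : Gen rk 0 (updateRow 1 j (τ ∘ Equiv.swap i j)) := by
    refine gen_row ?_ fun x hx hx0 => ?_
    · simp [hτ, hne, hi, hj]
    · by_cases hxi : x = i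
      · rw [hxi]; exact hij
      · refine h x hx fun h0 => hx0 ?_
        simp [hτ, Equiv.swap_apply_of_ne_of_ne hxi hx, hx, h0]
  have h1 := gen_mul (hU1.swap i j hij) (gen_row hj h)
  convert h1 using 1
  rw [ext_iff_mulVec]
  intro X
  rw [← mulVec_mulVec, ← mulVec_mulVec, updateRow_mulVec, updateRow_mulVec, updateRow_mulVec,
    swM_mulVec, one_mulVec, one_mulVec]
  have e : (τ ∘ Equiv.swap i j) ⬝ᵥ (update X j (ρ ⬝ᵥ X) ∘ Equiv.swap i j) = X j := by
    rw [comp_equiv_dotProduct_comp_equiv]
    have e1 : update X j (ρ ⬝ᵥ X) = X + Pi.single j (ρ ⬝ᵥ X - X j) := by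
      funext x
      by_cases hx : x = j
      · subst hx; simp
      · simp [hx]
    rw [hτ, smul_dotProduct, sub_dotProduct, single_dotProduct, update_self, e1, dotProduct_add,
      dotProduct_single, smul_eq_mul]
    field_simp
    ring
  rw [e]
  funext x
  by_cases hx : x = j
  · subst hx
    simp [hne.symm]
  · by_cases hxi : x = i
    · subst hxi
      simp [hx]
    · simp [hx, hxi, Equiv.swap_apply_of_ne_of_ne hxi hx]

theorem gen_refl' (hrk : Injective rk) {u v : J → ℚ} (huv : v ⬝ᵥ u = 2) {i j : J}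
    (hij : rk j < rk i) (hi : u i ≠ 0) (hj : v j ≠ 0) (hu : ∀ x, u x ≠ 0 → rk x ≤ rk i)
    (hv : ∀ x, v x ≠ 0 → rk j ≤ rk x) : Gen rk 1 (1 - vecMulVec u v) := by
  have hne : i ≠ j := fun e => by simp [e] at hij
  set p : J → ℚ := (u i)⁻¹ • u - Pi.single i 1 with hp
  have hpi : p i = 0 := by simp [hp, hi]
  have hpx : ∀ x, p x ≠ 0 → rk x < rk i := by
    intro x hx
    have hxi : x ≠ i := fun e => hx (e ▸ hpi)
    have : u x ≠ 0 := fun h0 => hx (by simp [hp, hxi, h0])
    exact lt_of_le_of_ne (hu x this) fun e => hxi (hrk e)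
  have hs : ∀ y, (Pi.single i (1 : ℚ) : J → ℚ) y ≠ 0 → y = i := by
    intro y hy
    by_contra hne
    simp [hne] at hy
  have hA' : Gen rk 0 (1 + vecMulVec p (Pi.single i 1)) :=
    gen_unip fun x y hx hy => by rw [hs y hy]; exact hpx x hx
  have hA : Gen rk 0 (1 + vecMulVec (-p) (Pi.single i 1)) :=
    gen_unip fun x y hx hy => by rw [hs y hy]; exact hpx x (by simpa using hx)
  set ρ : J → ℚ := update (-(u i) • v) i (-1) with hρ
  have hG : Gen rk 1 (updateRow 1 i ρ) := by
    refine gen_row_swap hij (by simp [hρ]) (by simp [hρ, hne.symm, hi, hj]) fun x hx hx0 => ?_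
    by_cases hxi : x = i
    · rw [hxi]; exact hij
    · have : v x ≠ 0 := fun h0 => hx0 (by simp [hρ, hxi, h0])
      exact lt_of_le_of_ne (hv x this) fun e => hx (hrk e).symm
  have h1 := gen_mul (gen_mul hA' hG) hA
  convert h1 using 1
  rw [ext_iff_mulVec]
  intro X
  rw [← mulVec_mulVec, ← mulVec_mulVec, updateRow_mulVec, one_mulVec, add_mulVec, add_mulVec,
    sub_mulVec, one_mulVec, one_mulVec, vecMulVec_mulVec, vecMulVec_mulVec, vecMulVec_mulVec]
  simp only [single_dotProduct, one_mul, update_self, op_smul_eq_smul]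
  have e1 : ρ = -(u i) • v + Pi.single i (u i * v i - 1) := by
    funext x
    by_cases hx : x = i
    · subst hx
      simp only [hρ, update_self, Pi.add_apply, Pi.smul_apply, Pi.single_eq_same, smul_eq_mul]
      ring
    · simp [hρ, hx]
  have e2 : v ⬝ᵥ p = (u i)⁻¹ * 2 - v i := by
    rw [hp, dotProduct_sub, dotProduct_smul, huv, dotProduct_single, smul_eq_mul, mul_one]
  have e : ρ ⬝ᵥ (X + X i • -p) = X i - u i * (v ⬝ᵥ X) := by
    rw [e1, add_dotProduct, single_dotProduct, smul_dotProduct, dotProduct_add, dotProduct_smul,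
      dotProduct_neg, e2]
    simp only [Pi.add_apply, Pi.smul_apply, Pi.neg_apply, hpi, smul_eq_mul]
    field_simp
    ring
  rw [e]
  funext x
  by_cases hx : x = i
  · subst hx
    simp [hpi, mul_comm]
  · simp only [Pi.add_apply, Pi.sub_apply, Pi.smul_apply, Pi.neg_apply, smul_eq_mul,
      update_of_ne hx, hp, Pi.single_eq_of_ne hx]
    field_simp
    ring

end ReflAux

section GG
variable {ι : Type} [Fintype ι] [DecidableEq ι]

theorem GG_mul (σ ρ : Matrix ι ι ℚ) : GG (σ * ρ) = GG σ * GG ρ := by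
  simp only [GG, fromBlocks_multiply, Matrix.smul_mul, Matrix.mul_smul, Matrix.add_mul,
    Matrix.mul_add, Matrix.sub_mul, Matrix.mul_sub, Matrix.one_mul, Matrix.mul_one]
  congr 1 <;> module

theorem GG_one : GG (1 : Matrix ι ι ℚ) = 1 := by
  have e : (1 / 2 : ℚ) • ((1 : Matrix ι ι ℚ) + 1) = 1 := by module
  simp only [GG, e, sub_self, smul_zero, fromBlocks_one]

theorem GG_neg_one :
    GG (-1 : Matrix ι ι ℚ) = Matrix.of fun x y => if y = x.swap then 1 else 0 := by
  have e : (1 / 2 : ℚ) • ((1 : Matrix ι ι ℚ) - -1) = 1 := by module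
  simp only [GG, e, add_neg_cancel, smul_zero]
  ext x y
  rcases x with x | x <;> rcases y with y | y <;> simp [one_apply, eq_comm]

theorem gen_refl {rk : ι ⊕ ι → ℕ} (hrk : Injective rk)
    (hlt : ∀ i j, rk (Sum.inr i) < rk (Sum.inl j)) {a b : ι → ℚ} (h : b ⬝ᵥ a = 1) :
    Gen rk 1 (GG (1 - (2 : ℚ) • vecMulVec a b)) := by
  have e : GG (1 - (2 : ℚ) • vecMulVec a b) =
      1 - vecMulVec (Sum.elim a (-a)) (Sum.elim b (-b)) := by
    ext x y
    rcases x with x | x <;> rcases y with y | y <;>
      simp [GG, one_apply, vecMulVec_apply] <;> split_ifs <;> ring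
  rw [e]
  have hab : ∃ x, a x ≠ 0 ∧ b x ≠ 0 := by
    by_contra hc
    push Not at hc
    have : b ⬝ᵥ a = 0 := Finset.sum_eq_zero fun x _ => by
      by_cases h0 : a x = 0
      · simp [h0]
      · simp [hc x h0]
    rw [this] at h
    exact zero_ne_one h
  obtain ⟨x0, ha0, hb0⟩ := hab
  obtain ⟨i, hi, himax⟩ := Finset.exists_max_image (Finset.univ.filter fun x => a x ≠ 0)
    (fun x => rk (Sum.inl x)) ⟨x0, by simpa using ha0⟩
  obtain ⟨j, hj, hjmin⟩ := Finset.exists_min_image (Finset.univ.filter fun x => b x ≠ 0)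
    (fun x => rk (Sum.inr x)) ⟨x0, by simpa using hb0⟩
  refine ReflAux.gen_refl' hrk ?_ (hlt j i) (by simpa using hi) (by simpa using hj) ?_ ?_
  · rw [sumElim_dotProduct_sumElim, neg_dotProduct_neg, h]
    norm_num
  · rintro (x | x) hx
    · exact himax x (by simpa using hx)
    · exact (hlt x i).le
  · rintro (x | x) hx
    · exact (hlt j x).le
    · exact hjmin x (by simpa using hx)

end GG

/-- Reduction of a rational number modulo `K`. -/
def rd (K : ℕ) (x : ℚ) : ZMod K := (x.num : ZMod K) * (x.den : ZMod K)⁻¹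

/-- The property holds for all `K` that are congruent to one modulo a suitable number. -/
def EvK (P : ℕ → Prop) : Prop := ∃ M, 0 < M ∧ ∀ K, K ≡ 1 [MOD M] → P K

theorem EvK.and {P Q : ℕ → Prop} (h : EvK P) (h' : EvK Q) : EvK fun K => P K ∧ Q K := by
  obtain ⟨M, hM, h⟩ := h
  obtain ⟨M', hM', h'⟩ := h'
  exact ⟨M * M', Nat.mul_pos hM hM', fun K hK =>
    ⟨h K (hK.of_mul_right _), h' K (hK.of_mul_left _)⟩⟩

theorem EvK.mono {P Q : ℕ → Prop} (h : EvK P) (h' : ∀ K, P K → Q K) : EvK Q :=
  h.imp fun _ h => ⟨h.1, fun K hK => h' K (h.2 K hK)⟩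

theorem EvK.forall {I : Type} [Finite I] {P : I → ℕ → Prop} (h : ∀ i, EvK (P i)) :
    EvK fun K => ∀ i, P i K := by
  have := Fintype.ofFinite I
  choose M hM h using h
  exact ⟨∏ i, M i, Finset.prod_pos fun i _ => hM i, fun K hK i =>
    h i K (hK.of_dvd (Finset.dvd_prod_of_mem _ (Finset.mem_univ i)))⟩

namespace ReflAux

theorem rd_int (K : ℕ) (n : ℤ) : rd K n = n := by
  have := ZMod.coe_mul_inv_eq_one (n := K) 1 (Nat.coprime_one_left K)
  simp only [Nat.cast_one, one_mul] at this
  simp [rd, this]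

theorem rd_zero (K : ℕ) : rd K 0 = 0 := by simpa using rd_int K 0

theorem rd_one (K : ℕ) : rd K 1 = 1 := by simpa using rd_int K 1

theorem rd_mul_of {K : ℕ} {x : ℚ} (hx : x.den.Coprime K) {n m : ℤ} (h : x * n = m) :
    rd K x * n = m := by
  have h1 : x.num * n = m * x.den := by
    have : (x.num : ℚ) * n = m * x.den := by
      rw [← h, ← Rat.mul_den_eq_num]
      ring
    exact_mod_cast this
  have h2 : (x.num : ZMod K) * n = m * (x.den : ℕ) := by
    have := congrArg (Int.cast : ℤ → ZMod K) h1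
    simpa using this
  have h3 := ZMod.coe_mul_inv_eq_one x.den hx
  calc rd K x * n = (x.num * n) * (x.den : ZMod K)⁻¹ := by rw [rd]; ring
    _ = m * ((x.den : ZMod K) * (x.den : ZMod K)⁻¹) := by rw [h2]; ring
    _ = m := by rw [h3, mul_one]

theorem rd_den {K : ℕ} {x : ℚ} (hx : x.den.Coprime K) : rd K x * (x.den : ℕ) = x.num := by
  have := rd_mul_of hx (n := x.den) (m := x.num) (by simp)
  simpa using this

theorem cancel {K n : ℕ} (hn : n.Coprime K) {a b : ZMod K} (h : a * n = b * n) : a = b := by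
  have h3 := ZMod.coe_mul_inv_eq_one n hn
  rw [← mul_one a, ← mul_one b, ← h3, ← mul_assoc, ← mul_assoc, h]

theorem cop_add {K : ℕ} {x y : ℚ} (hx : x.den.Coprime K) (hy : y.den.Coprime K) :
    (x + y).den.Coprime K := (hx.mul_left hy).of_dvd_left (Rat.add_den_dvd x y)

theorem cop_mul {K : ℕ} {x y : ℚ} (hx : x.den.Coprime K) (hy : y.den.Coprime K) :
    (x * y).den.Coprime K := (hx.mul_left hy).of_dvd_left (Rat.mul_den_dvd x y)

theorem rd_add {K : ℕ} {x y : ℚ} (hx : x.den.Coprime K) (hy : y.den.Coprime K) :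
    rd K (x + y) = rd K x + rd K y := by
  refine cancel (hx.mul_left hy) ?_
  have h := rd_mul_of (cop_add hx hy) (n := x.den * y.den) (m := x.num * y.den + y.num * x.den)
    (by
      push_cast
      rw [← Rat.mul_den_eq_num x, ← Rat.mul_den_eq_num y]
      ring)
  push_cast at h ⊢
  rw [h, ← rd_den hx, ← rd_den hy]
  ring

theorem rd_mul {K : ℕ} {x y : ℚ} (hx : x.den.Coprime K) (hy : y.den.Coprime K) :
    rd K (x * y) = rd K x * rd K y := by
  refine cancel (hx.mul_left hy) ?_
  have h := rd_mul_of (cop_mul hx hy) (n := x.den * y.den) (m := x.num * y.num)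
    (by
      push_cast
      rw [← Rat.mul_den_eq_num x, ← Rat.mul_den_eq_num y]
      ring)
  push_cast at h ⊢
  rw [h, ← rd_den hx, ← rd_den hy]
  ring

theorem rd_sum {K : ℕ} {I : Type} (s : Finset I) {f : I → ℚ} (hf : ∀ i, (f i).den.Coprime K) :
    (∑ i ∈ s, f i).den.Coprime K ∧ rd K (∑ i ∈ s, f i) = ∑ i ∈ s, rd K (f i) := by
  classical
  induction s using Finset.induction_on with
  | empty => simp [rd_zero]
  | insert a s ha ih =>
    rw [Finset.sum_insert ha, Finset.sum_insert ha, rd_add (hf a) ih.1, ih.2]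
    exact ⟨cop_add (hf a) ih.1, rfl⟩

theorem ev_cop (x : ℚ) : EvK fun K => x.den.Coprime K :=
  ⟨x.den, x.den_pos, fun K hK => by
    have := hK.gcd_eq
    show Nat.gcd _ _ = 1
    rw [Nat.gcd_comm, this, Nat.gcd_one_left]⟩

end ReflAux

open ReflAux

theorem ev_map_mul (A B : Matrix J J ℚ) :
    EvK fun K => (A * B).map (rd K) = A.map (rd K) * B.map (rd K) := by
  have hA : EvK fun K => ∀ z : J × J, (A z.1 z.2).den.Coprime K := EvK.forall fun _ => ev_cop _
  have hB : EvK fun K => ∀ z : J × J, (B z.1 z.2).den.Coprime K := EvK.forall fun _ => ev_cop _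
  refine (hA.and hB).mono fun K hK => ?_
  ext x y
  rw [map_apply, mul_apply, mul_apply,
    (rd_sum _ fun z => cop_mul (hK.1 (x, z)) (hK.2 (z, y))).2]
  exact Finset.sum_congr rfl fun z _ => rd_mul (hK.1 (x, z)) (hK.2 (z, y))

omit [Fintype J] in
theorem map_rd_one (K : ℕ) : (1 : Matrix J J ℚ).map (rd K) = 1 :=
  Matrix.map_one _ (rd_zero K) (rd_one K)

theorem rd_perm (K : ℕ) (φ : J → J) (X : J → ZMod K) :
    (Matrix.of fun x y => if y = φ x then (1 : ℚ) else 0).map (rd K) *ᵥ X = X ∘ φ := by
  funext x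
  simp [mulVec, dotProduct, apply_ite (rd K), rd_zero, rd_one]

theorem rd_transvection (K : ℕ) {i j : J} (h : i ≠ j) (X : J → ZMod K) :
    (transvection i j (1 : ℚ)).map (rd K) *ᵥ X = update X i (X i + X j) := by
  have e : (transvection i j (1 : ℚ)).map (rd K) = transvection i j 1 := by
    ext x y
    simp only [transvection, Matrix.map_apply, Matrix.add_apply, Matrix.one_apply,
      Matrix.single_apply]
    by_cases h1 : x = y
    · subst h1
      have : ¬ (i = x ∧ j = x) := fun h' => h (h'.1.trans h'.2.symm)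
      simp [this, rd_one]
    · by_cases h2 : i = x ∧ j = y
      · simp [h1, h2, rd_one]
      · simp [h1, h2, rd_zero]
  rw [e, transvection, add_mulVec, one_mulVec, single_mulVec]
  funext x
  by_cases hx : x = i
  · subst hx; simp
  · simp [hx]

theorem rd_diagonal (K : ℕ) (i : J) (c : ℚ) (X : J → ZMod K) :
    (diagonal (update 1 i c)).map (rd K) *ᵥ X = update X i (rd K c * X i) := by
  rw [diagonal_map (rd_zero K)]
  funext x
  rw [mulVec_diagonal]
  by_cases hx : x = i
  · subst hx; simp
  · simp [hx, rd_one]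

theorem rd_nat (K n : ℕ) : rd K n = n := by
  simpa using rd_int K n

theorem rd_neg_one (K : ℕ) : rd K (-1) = -1 := by
  simpa using rd_int K (-1)

/-- Division by `n` modulo `K` as an explicit function of the residue. -/
theorem rd_inv_mul {K n : ℕ} [NeZero K] (hn : 0 < n) (hK : K ≡ 1 [MOD n]) (x : ZMod K) :
    (rd K (n : ℚ)⁻¹ * x).val = (x.val + (n - x.val % n) % n * K) / n := by
  have hcop : n.Coprime K := by
    rw [Nat.Coprime, Nat.gcd_comm, hK.gcd_eq, Nat.gcd_one_left]
  have hden : ((n : ℚ)⁻¹).den = n := Rat.inv_natCast_den_of_pos hn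
  have h1 : rd K (n : ℚ)⁻¹ * n = 1 := by
    have := rd_mul_of (K := K) (x := (n : ℚ)⁻¹) (by rw [hden]; exact hcop) (n := n) (m := 1)
      (by
        have : (n : ℚ) ≠ 0 := by exact_mod_cast hn.ne'
        simp [this])
    simpa using this
  set t := (n - x.val % n) % n with ht
  have htn : t < n := Nat.mod_lt _ hn
  have hdvd : n ∣ x.val + t * K := by
    rw [← Nat.modEq_zero_iff_dvd]
    have h2 : x.val + t * K ≡ x.val % n + (n - x.val % n) * 1 [MOD n] :=
      (Nat.mod_modEq _ _).symm.add ((Nat.mod_modEq _ _).mul hK)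
    have h3 : x.val % n + (n - x.val % n) * 1 = n := by
      have := Nat.mod_lt x.val hn
      omega
    rw [h3] at h2
    exact h2.trans (Nat.modEq_zero_iff_dvd.2 dvd_rfl)
  obtain ⟨y, hy⟩ := hdvd
  have hyK : y < K := by
    have hx := ZMod.val_lt x
    have h4 : (t + 1) * K ≤ n * K := Nat.mul_le_mul_right K htn
    have h5 : n * y < n * K := by nlinarith
    exact lt_of_mul_lt_mul_left h5 (Nat.zero_le n)
  have hxy : x = (n : ZMod K) * y := by
    have := congrArg (Nat.cast : ℕ → ZMod K) hy
    simpa using this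
  rw [hy, Nat.mul_div_cancel_left _ hn, hxy, ← mul_assoc, h1, one_mul, ZMod.val_natCast,
    Nat.mod_eq_of_lt hyK]

end Vale.Agent.P338
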