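import Vale.Agent.P338.Cmd

/-! Simulation of the stack language by a multitape machine. -/

namespace Vale.Agent.P338

open Function

namespace SimAux

section Stack

variable {S : Type}

/-- A stack on the cells `1, 2, ...`; the cell `0` is blank. -/
def Stk (f : ℕ → Option S) : List (Option S) → Prop
  | [] => f 0 = none
  | a :: l => f (l.length + 1) = a ∧ Stk f l

theorem Stk.up {f : ℕ → Option S} {a : Option S} {j : ℕ} :
    ∀ {l}, Stk f l → l.length < j → Stk (update f j a) l
  | [], h, hj => by
    show update f j a 0 = none
    rw [update_of_ne (by simp at hj; omega)]; exact h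
  | b :: l, h, hj => by
    rw [List.length_cons] at hj
    exact ⟨by rw [update_of_ne (by omega)]; exact h.1, Stk.up h.2 (by omega)⟩

theorem Stk.top {f : ℕ → Option S} : ∀ {l}, Stk f l → f l.length = l.headD none
  | [], h => h
  | _ :: _, h => h.1

theorem Stk.tail {f : ℕ → Option S} : ∀ {l}, Stk f l → Stk f l.tail
  | [], h => h
  | _ :: _, h => h.2

/-- The tape with the pending symbol written. -/
def eff (f : ℕ → Option S) (h : ℕ) : Option (Option S) → ℕ → Option S
  | none => f
  | some a => update f h a

theorem eff_eq (f : ℕ → Option S) (h : ℕ) (p : Option (Option S)) :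
    update f h (p.getD (f h)) = eff f h p := by cases p <;> simp [eff]

theorem eff_at (f : ℕ → Option S) (h : ℕ) (p : Option (Option S)) :
    eff f h p h = p.getD (f h) := by cases p <;> simp [eff]

/-- Stack actions: keep, pop, push. -/
abbrev Act (S : Type) := Option (Option (Option S))

def app : Act S → List (Option S) → List (Option S)
  | none, l => l
  | some none, l => l.tail
  | some (some a), l => a :: l

def dir : Act S → Dir
  | none => .stay
  | some none => .left
  | some (some _) => .right

def TR (f : ℕ → Option S) (h : ℕ) (p : Option (Option S)) (l : List (Option S)) : Prop :=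
  h = l.length ∧ Stk (eff f h p) l

theorem TR.rd {f : ℕ → Option S} {h p l} (H : TR f h p l) : p.getD (f h) = l.headD none := by
  rw [← eff_at, ← H.2.top, ← H.1]

theorem TR.step {f : ℕ → Option S} {h p l} (H : TR f h p l) (a : Act S) :
    TR (update f h (p.getD (f h))) ((dir a).move h) a.join (app a l) := by
  rw [eff_eq]
  obtain ⟨h1, h2⟩ := H
  rcases a with _ | _ | a
  · exact ⟨h1, h2⟩
  · exact ⟨by simp [dir, Dir.move, app, h1], h2.tail⟩
  · refine ⟨by simp [dir, Dir.move, app, h1], ?_, h2.up (by simp [dir, Dir.move, h1])⟩
    simp [dir, Dir.move, eff, h1]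

end Stack

section Gen

variable {I M N : Type}

abbrev Sy (N : Type) := Option (Bool ⊕ Option N)

def bit (b : Bool) : Sy N := some (.inl b)

/-- Transition tables of machines with an input, an output and several stacks. -/
abbrev Tab (I M N : Type) :=
  M → Sy N → (I → Sy N) → Option (M × Bool × Option Bool × (I → Act (Bool ⊕ Option N)))

abbrev HC (I M N : Type) := M × List (Sy N) × List Bool × (I → List (Sy N))

def hstep (τ : Tab I M N) (H : HC I M N) : Option (HC I M N) :=
  (τ H.1 (H.2.1.headD none) fun i => (H.2.2.2 i).headD none).map fun r =>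
    (r.1, if r.2.1 then H.2.1.tail else H.2.1, H.2.2.1 ++ r.2.2.1.toList,
      fun i => app (r.2.2.2 i) (H.2.2.2 i))

def wrt (q : I → Option (Sy N)) (sc : Bool ⊕ I → Sy N)
    (r : Bool × Option Bool × (I → Act (Bool ⊕ Option N))) : Bool ⊕ I → Sy N × Dir
  | .inl false => (sc (.inl false), if r.1 then .right else .stay)
  | .inl true => ((r.2.1.map bit).getD (sc (.inl true)), if r.2.1.isSome then .right else .stay)
  | .inr i => ((q i).getD (sc (.inr i)), dir (r.2.2 i))

abbrev mach [Finite I] [Finite M] [Finite N] (τ : Tab I M N) (m₀ : M) : MTM where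
  Tape := Bool ⊕ I
  State := M × (I → Option (Sy N))
  Sym := Sy N
  finTape := inferInstance
  finState := inferInstance
  finSym := inferInstance
  inp := .inl false
  out := .inl true
  start := (m₀, fun _ => none)
  blank := none
  zero := bit false
  one := bit true
  sep := some (.inr none)
  distinct := by simp [bit]
  δ q sc := (τ q.1 (sc (.inl false)) fun i => (q.2 i).getD (sc (.inr i))).map fun r =>
    ((r.1, fun i => (r.2.2.2 i).join), wrt q.2 sc r.2)

variable [Finite I] [Finite M] [Finite N] {τ : Tab I M N} {m₀ : M}

structure Rel (c : (mach τ m₀).Cfg) (H : HC I M N) : Prop where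
  st : c.state.1 = H.1
  inp : ∀ j, c.tape (.inl false) (c.head (.inl false) + j) = H.2.1.getD j none
  out : ∀ j, c.tape (.inl true) j = (H.2.2.1.map bit).getD j none
  hd : c.head (.inl true) = H.2.2.1.length
  stk : ∀ i, TR (c.tape (.inr i)) (c.head (.inr i)) (c.state.2 i) (H.2.2.2 i)

theorem Rel.delta {c : (mach τ m₀).Cfg} {H : HC I M N} (h : Rel c H) :
    (mach τ m₀).step c = (τ H.1 (H.2.1.headD none) fun i => (H.2.2.2 i).headD none).map fun r =>
      ⟨(r.1, fun i => (r.2.2.2 i).join),
        fun i => update (c.tape i) (c.head i) (wrt c.state.2 (fun i => c.tape i (c.head i)) r.2 i).1,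
        fun i => (wrt c.state.2 (fun i => c.tape i (c.head i)) r.2 i).2.move (c.head i)⟩ := by
  have h1 : c.tape (.inl false) (c.head (.inl false)) = H.2.1.headD none := by
    have := h.inp 0
    rw [add_zero] at this
    rw [this]; cases H.2.1 <;> rfl
  have h2 : (fun i => (c.state.2 i).getD (c.tape (.inr i) (c.head (.inr i)))) =
      fun i => (H.2.2.2 i).headD none := funext fun i => (h.stk i).rd
  rw [← h.st, ← h1, ← h2]
  exact Option.map_map _ _ _

theorem Rel.halt {c : (mach τ m₀).Cfg} {H : HC I M N} (h : Rel c H) (h' : hstep τ H = none) :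
    (mach τ m₀).step c = none := by
  rw [h.delta, Option.map_eq_none_iff.1 h']; rfl

theorem Rel.step {c : (mach τ m₀).Cfg} {H H' : HC I M N} (h : Rel c H) (h' : hstep τ H = some H') :
    ∃ c', (mach τ m₀).step c = some c' ∧ Rel c' H' := by
  obtain ⟨r, h1, rfl⟩ := Option.map_eq_some_iff.1 h'
  rw [h.delta, h1]
  refine ⟨_, rfl, rfl, fun j => ?_, fun j => ?_, ?_, fun i => (h.stk i).step _⟩
  · simp only [wrt, update_eq_self]
    cases r.2.1
    · exact h.inp j
    · have := h.inp (j + 1)
      simp only [if_true, Dir.move]
      rw [show c.head (.inl false) + 1 + j = c.head (.inl false) + (j + 1) by omega, this]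
      cases H.2.1 <;> simp
  · simp only [wrt]
    cases r.2.2.1 with
    | none => simpa using h.out j
    | some b =>
      simp only [Option.map_some, Option.getD_some, Option.toList_some, List.map_append, h.hd]
      rcases lt_trichotomy j H.2.2.1.length with hj | rfl | hj
      · rw [update_of_ne hj.ne, h.out]
        simp [List.getElem?_append_left, hj]
      · simp
      · rw [update_of_ne hj.ne', h.out, List.getD_eq_getElem?_getD, List.getD_eq_getElem?_getD,
          List.getElem?_eq_none (by simpa using hj.le), List.getElem?_eq_none (by simp; omega)]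
  · simp only [wrt]
    cases r.2.2.1 <;> simp [Dir.move, h.hd]

/-- `n` steps. -/
inductive Reach (τ : Tab I M N) : ℕ → HC I M N → HC I M N → Prop
  | refl (H) : Reach τ 0 H H
  | step {n H H' H''} : hstep τ H = some H' → Reach τ n H' H'' → Reach τ (n + 1) H H''

omit [Finite I] [Finite M] [Finite N] in
theorem Reach.trans {n k : ℕ} {H H' H'' : HC I M N} (h : Reach τ n H H') (h' : Reach τ k H' H'') :
    Reach τ (n + k) H H'' := by
  induction h with
  | refl => simpa using h'
  | step h1 _ ih => exact Nat.add_right_comm _ _ _ ▸ Reach.step h1 (ih h')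

theorem Reach.sim {n : ℕ} {H H' : HC I M N} (h : Reach τ n H H') : ∀ (c₀ c : (mach τ m₀).Cfg) t,
    (mach τ m₀).run c₀ t = some c → Rel c H →
      ∃ c', (mach τ m₀).run c₀ (t + n) = some c' ∧ Rel c' H' := by
  induction h with
  | refl => exact fun _ c _ h1 h2 => ⟨c, h1, h2⟩
  | @step n _ _ _ h1 _ ih =>
    intro c₀ c t h2 h3
    obtain ⟨c', h4, h5⟩ := h3.step h1
    have := ih c₀ c' (t + 1) (by rw [MTM.run, h2]; exact h4) h5
    rwa [show t + 1 + n = t + (n + 1) by omega] at this

theorem word_eq (x : List Bool) : (mach τ m₀).word x = x.map bit :=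
  List.map_congr_left fun b _ => by cases b <;> rfl

theorem Reach.halts {n : ℕ} {w : List (Sy N)} {H : HC I M N}
    (h : Reach τ n (m₀, w, [], fun _ => []) H) (h' : hstep τ H = none) :
    ∃ c, (mach τ m₀).HaltsIn w n c ∧
      c.tape (mach τ m₀).out = (mach τ m₀).written ((mach τ m₀).word H.2.2.1) := by
  have h0 : Rel ((mach τ m₀).init w) (m₀, w, [], fun _ => []) := by
    refine ⟨rfl, fun j => ?_, fun j => ?_, rfl, fun i => ⟨rfl, ?_⟩⟩
    · simp only [MTM.init, zero_add]
      rfl
    · exact congrFun (if_neg (by simp [mach])) j
    · exact congrFun (if_neg (by simp [mach])) 0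
  obtain ⟨c, h1, h2⟩ := h.sim _ _ 0 rfl h0
  refine ⟨c, ⟨by rwa [zero_add] at h1, h2.halt h'⟩, funext fun j => ?_⟩
  rw [word_eq]
  exact h2.out j

end Gen

section Run

variable {K : Type} [DecidableEq K] (r₁ r₂ r₃ : K) (P : Cmd K)

abbrev Nd (P : Cmd K) := {p : Node K // InN P p}

omit [DecidableEq K] in
theorem fin_nd : Finite (Nd P) :=
  ((P.sub.finite_toSet.prod P.sub.finite_toSet).subset fun _ h => h).to_subtype

def toBit {N : Type} : Sy N → Option Bool
  | some (.inl b) => some b
  | _ => none

def toNd {N : Type} : Sy N → Option N
  | some (.inr o) => o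
  | _ => none

def nd {N : Type} (n : N) : Sy N := some (.inr (some n))

def lift (o : Option (Node K)) (h : ∀ q, o = some q → InN P q) : Option (Nd P) :=
  o.pmap (fun q hq => ⟨q, hq⟩) h

omit [DecidableEq K] in
theorem lift_val (o : Option (Node K)) (h) : (lift P o h).map Subtype.val = o := by
  cases o <;> rfl

def one {N : Type} (r : K) (a : Option (Sy N)) : Option K → Act (Bool ⊕ Option N) :=
  fun i => if i = some r then some a else none

def acts {N : Type} (n : Option N) (po : Option K) (pu : Option (K × Bool)) :
    Option K → Act (Bool ⊕ Option N)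
  | none => n.map fun x => some (nd x)
  | some k => match pu with
    | some r => if k = r.1 then some (some (bit r.2)) else none
    | none => if po = some k then some none else none

def tab : Tab (Option K) (Option Bool ⊕ Option (Nd P)) (Nd P)
  | .inl (some false), a, _ => match toBit a with
    | some b => some (.inl (some false), true, none, acts none none (some (r₁, b)))
    | none => some (.inl (some true), true, none, acts none none none)
  | .inl (some true), a, _ => match toBit a with
    | some b => some (.inl (some true), true, none, acts none none (some (r₂, b)))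
    | none => some (.inr (some ⟨(P, P), P.self_sub, P.self_sub⟩), false, none, acts none none none)
  | .inl none, _, rd => (toBit (rd (some r₃))).map fun b =>
      (.inl none, false, some b, acts none (some r₃) none)
  | .inr (some p), _, rd =>
    some (.inr (lift P _ (nxt_in p.2 fun k => toBit (rd (some k))).1), false, none,
      acts (lift P _ (nxt_in p.2 fun k => toBit (rd (some k))).2)
        (nxt p.1 fun k => toBit (rd (some k))).2.2.1 (nxt p.1 fun k => toBit (rd (some k))).2.2.2)
  | .inr none, _, rd => match toNd (rd none) with
    | some p => some (.inr (some p), false, none, fun i => if i = none then some none else none)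
    | none => some (.inl none, false, none, acts none none none)

def stks {N : Type} (κ : List N) (s : K → List Bool) : Option K → List (Sy N)
  | none => κ.map nd
  | some k => (s k).map bit

theorem app_acts {N : Type} (κ : List N) (s : K → List Bool) (n po pu)
    (h : po = none ∨ pu = none) : (fun i => app (acts n po pu i) (stks κ s i)) =
      stks (n.toList ++ κ) (dpush (dpop s po) pu) := by
  funext i
  cases i with
  | none => cases n <;> rfl
  | some k =>
    cases pu with
    | some r =>
      obtain rfl : po = none := by simpa using h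
      by_cases hk : k = r.1
      · subst hk; simp [acts, stks, dpush, dpop, app]
      · simp [acts, stks, dpush, dpop, app, hk]
    | none =>
      cases po with
      | none => simp [acts, stks, dpush, dpop, app]
      | some r =>
        by_cases hk : r = k
        · subst hk; simp [acts, stks, dpush, dpop, app]
        · simp [acts, stks, dpush, dpop, app, hk, Ne.symm hk]

omit [DecidableEq K] in
theorem nxt_excl (p : Node K) (top) : (nxt p top).2.2.1 = none ∨ (nxt p top).2.2.2 = none := by
  obtain ⟨p, E⟩ := p
  cases p <;> simp only [nxt] <;> (try split_ifs) <;> simp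

omit [DecidableEq K] in
theorem top_stks {N : Type} (κ : List N) (s : K → List Bool) (k : K) :
    toBit ((stks κ s (some k)).headD none) = (s k).head? := by
  simp only [stks]; cases s k <;> rfl

variable {r₁ r₂ r₃ P}

theorem load1 (x : List Bool) (w o) : ∀ s : K → List Bool,
    Reach (tab r₁ r₂ r₃ P) (x.length + 1)
      (.inl (some false), x.map bit ++ some (.inr none) :: w, o, stks [] s)
      (.inl (some true), w, o, stks [] (update s r₁ (x.reverse ++ s r₁))) := by
  induction x with
  | nil =>
    intro s
    refine Reach.step ?_ (Reach.refl _)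
    have := app_acts ([] : List (Nd P)) s none none none (Or.inl rfl)
    simp [hstep, tab, toBit, this, dpush, dpop]
  | cons b x ih =>
    intro s
    have := app_acts ([] : List (Nd P)) s none none (some (r₁, b)) (Or.inl rfl)
    have h2 := ih (update s r₁ (b :: s r₁))
    simp only [update_idem, update_self] at h2
    rw [List.reverse_cons, List.append_assoc]
    refine Reach.step ?_ h2
    simp [hstep, tab, toBit, bit, this, dpush, dpop]

theorem load2 (x : List Bool) (o) : ∀ s : K → List Bool,
    Reach (tab r₁ r₂ r₃ P) (x.length + 1) (.inl (some true), x.map bit, o, stks [] s)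
      (.inr (some ⟨(P, P), P.self_sub, P.self_sub⟩), [], o,
        stks [] (update s r₂ (x.reverse ++ s r₂))) := by
  induction x with
  | nil =>
    intro s
    refine Reach.step ?_ (Reach.refl _)
    have := app_acts ([] : List (Nd P)) s none none none (Or.inl rfl)
    simp [hstep, tab, toBit, this, dpush, dpop]
  | cons b x ih =>
    intro s
    have := app_acts ([] : List (Nd P)) s none none (some (r₂, b)) (Or.inl rfl)
    have h2 := ih (update s r₂ (b :: s r₂))
    simp only [update_idem, update_self] at h2
    rw [List.reverse_cons, List.append_assoc]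
    refine Reach.step ?_ h2
    simp [hstep, tab, toBit, bit, this, dpush, dpop]

theorem dump (w) (l : List Bool) : ∀ (o : List Bool) (s : K → List Bool), s r₃ = l →
    Reach (tab r₁ r₂ r₃ P) l.length (.inl none, w, o, stks [] s)
      (.inl none, w, o ++ l, stks [] (update s r₃ [])) := by
  induction l with
  | nil => intro o s h; rw [← h, update_eq_self, h, List.append_nil]; exact Reach.refl _
  | cons b l ih =>
    intro o s h
    have := app_acts ([] : List (Nd P)) s none (some r₃) none (Or.inr rfl)
    have h2 := ih (o ++ [b]) (update s r₃ l) (by simp)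
    rw [update_idem, List.append_assoc] at h2
    refine Reach.step ?_ h2
    simp only [hstep, tab, top_stks, h, List.head?_cons, Option.map_some, this]
    simp [dpush, dpop, h]

theorem exec (w o) (s' : K → List Bool) : ∀ (t : ℕ) (n : Option (Nd P)) (κ : List (Nd P))
    (s : K → List Bool), astep^[t] (n.map Subtype.val, κ.map Subtype.val, s) = (none, [], s') →
    ∃ t' ≤ t, Reach (tab r₁ r₂ r₃ P) t' (.inr n, w, o, stks κ s) (.inr none, w, o, stks [] s') := by
  have h0 : ∀ t (s : K → List Bool), astep^[t] ((none, [], s) : ACfg K) = (none, [], s') →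
      ∃ t' ≤ t, Reach (tab r₁ r₂ r₃ P) t' (.inr none, w, o, stks [] s)
        (.inr none, w, o, stks [] s') := fun t s h => by
    rw [iterate_fixed (f := astep) rfl] at h
    obtain rfl : s = s' := congrArg (·.2.2) h
    exact ⟨0, Nat.zero_le _, Reach.refl _⟩
  intro t
  induction t with
  | zero =>
    intro n κ s h
    obtain rfl : n = none := by simpa using congrArg (·.1) h
    obtain rfl : κ = [] := by simpa using congrArg (·.2.1) h
    exact h0 0 s h
  | succ t ih =>
    intro n κ s h
    cases n with
    | none =>
      cases κ with
      | nil => exact h0 _ s h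
      | cons p κ =>
        obtain ⟨t', h1, h2⟩ := ih (some p) κ s h
        refine ⟨t' + 1, by omega, Reach.step ?_ h2⟩
        have : (fun i => app (if i = none then some none else none) (stks (p :: κ) s i)) =
            stks κ s := by
          funext i; cases i <;> simp [app, stks]
        simp only [hstep, tab]
        rw [show toNd ((stks (p :: κ) s none).headD none) = some p from rfl]
        simp [this]
    | some p =>
      obtain ⟨t', h1, h2⟩ := ih (lift P _ (nxt_in p.2 fun k => (s k).head?).1)
        ((lift P _ (nxt_in p.2 fun k => (s k).head?).2).toList ++ κ)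
        (dpush (dpop s (nxt p.1 fun k => (s k).head?).2.2.1) (nxt p.1 fun k => (s k).head?).2.2.2)
        (by rw [List.map_append, ← Option.toList_map, lift_val, lift_val]; exact h)
      refine ⟨t' + 1, by omega, Reach.step ?_ h2⟩
      simp only [hstep, tab, top_stks, Option.map_some, app_acts _ _ _ _ _ (nxt_excl _ _)]
      simp

end Run

end SimAux

open SimAux in
/-- The machine reads `x` onto the stack `r₁` and `y` onto the stack `r₂` (so that the last bit
read is on top), runs `P`, and copies the stack `r₃` (top first) to the output tape. -/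
theorem exists_MTM {K : Type} [DecidableEq K] [Finite K] (r₁ r₂ r₃ : K) (h12 : r₁ ≠ r₂)
    (P : Cmd K) : ∃ A : MTM, A.out ≠ A.inp ∧ ∀ (x y : List Bool) (s' : K → List Bool) (t : ℕ),
      Ex P P (update (update (fun _ => []) r₁ x.reverse) r₂ y.reverse) s' t →
      ∃ t' ≤ 2 * (t + x.length + y.length + (s' r₃).length + 5), ∃ c : A.Cfg,
        A.HaltsIn (A.input x y) t' c ∧ c.tape A.out = A.written (A.word (s' r₃)) := by
  haveI := fin_nd P
  refine ⟨mach (tab r₁ r₂ r₃ P) (.inl (some false)), by simp [mach], fun x y s' t h => ?_⟩
  have a1 := load1 (r₁ := r₁) (r₂ := r₂) (r₃ := r₃) (P := P) x (y.map bit) [] fun _ => []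
  have a2 := load2 (r₁ := r₁) (r₂ := r₂) (r₃ := r₃) (P := P) y []
    (update (fun _ => []) r₁ x.reverse)
  rw [List.append_nil] at a1
  rw [update_of_ne h12.symm, List.append_nil] at a2
  obtain ⟨t', h1, a3⟩ := exec (r₁ := r₁) (r₂ := r₂) (r₃ := r₃) [] [] s' t
    (some ⟨(P, P), P.self_sub, P.self_sub⟩) [] _ (h.small [])
  have a4 : Reach (tab r₁ r₂ r₃ P) 1 (.inr none, [], [], stks [] s')
      (.inl none, [], [], stks [] s') := by
    refine Reach.step ?_ (Reach.refl _)
    have := app_acts ([] : List (Nd P)) s' none none none (Or.inl rfl)
    simp only [hstep, tab]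
    rw [show toNd ((stks ([] : List (Nd P)) s' none).headD none) = none from rfl]
    simp [this, dpush, dpop]
  have a5 := dump (r₁ := r₁) (r₂ := r₂) (r₃ := r₃) (P := P) [] _ [] s' rfl
  have a := (((a1.trans a2).trans a3).trans a4).trans a5
  rw [show stks [] (fun _ : K => []) = fun _ => ([] : List (Sy (Nd P))) from
    funext fun i => by cases i <;> rfl] at a
  obtain ⟨c, h2, h3⟩ := a.halts (by simp only [hstep, tab, top_stks]; simp)
  refine ⟨x.length + 1 + (y.length + 1) + t' + 1 + (s' r₃).length, by omega, c, ?_, h3⟩
  rw [MTM.input, word_eq, word_eq]; exact h2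

end Vale.Agent.P338
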