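import Vale.Agent.P338.Arr
import Vale.Agent.P338.Tau

/-! Index lemmas, resizing of digits and integer roots for the exchange of two digits. -/

namespace Vale.Agent.P338.SwapAux

open Vale.Agent.Common.TreeTM Enc ArrAux Filter Topology

variable {α γ δ π : Type} [Enc α] [Enc γ] [Enc δ] [Enc π]
  {g : γ → δ} {𝒜 : Amb α} {u : (γ → ℕ∞) → α → ℕ∞}

@[fun_prop] theorem tc_powc {e : ℕ} {f : α → ℕ} (hf : TC e f) (c : ℕ) :
    TC e fun a => f a ^ c := by
  induction c with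
  | zero => exact TC.const 1
  | succ c ih => exact TC.mul ih hf

theorem digits5 {H K B K' C o : ℕ} (ho : o < H * K * B * K' * C) : ∃ h x b y c, h < H ∧ x < K ∧
    b < B ∧ y < K' ∧ c < C ∧ o = (((h * K + x) * B + b) * K' + y) * C + c := by
  obtain ⟨h1, h2, h3⟩ := parts_lt ho
  obtain ⟨h4, h5, h6⟩ := parts_lt h1
  exact ⟨_, _, _, _, _, h4, h5, h6, h2, h3, by rw [← ix_eq B K, ← ix_eq]⟩

theorem lt5 {H K B K' C h x b y c : ℕ} (hh : h < H) (hx : x < K) (hb : b < B) (hy : y < K')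
    (hc : c < C) : (((h * K + x) * B + b) * K' + y) * C + c < H * K * B * K' * C :=
  ix_lt (ix_lt hh hx hb) hy hc

theorem eq5 {K B C N : ℕ} (h : K * B * K * C ∣ N) : N = N / (K * B * K * C) * K * B * K * C := by
  conv_lhs => rw [← Nat.div_mul_cancel h]
  ring

theorem swapIx_lt {K B C N o : ℕ} (h : K * B * K * C ∣ N) (ho : o < N) : swapIx K B C o < N := by
  rw [eq5 h] at ho ⊢
  obtain ⟨h, x, b, y, c, a1, a2, a3, a4, a5, rfl⟩ := digits5 ho
  rw [swapIx_mk a2 a3 a4 a5]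
  exact lt5 a1 a4 a3 a2 a5

theorem swapIx_mul (K B C W i : ℕ) :
    swapIx K B (C * W) i = swapIx K B C (i / W) * W + i % W := by
  have h : ∀ X, i / (C * W * X) = i / W / (C * X) := fun X => by
    rw [Nat.div_div_eq_div_mul]; congr 1; ring
  have h1 := h 1
  have h2 := h (K * B)
  have h3 := h (K * B * K)
  simp only [mul_one, ← mul_assoc] at h1 h2 h3
  rw [swapIx, swapIx, h1, h2, h3, h, mul_comm C W, Nat.mod_mul]
  ring

theorem digIx_congr {w X : ℕ} {φ φ' : ℕ → ℕ → ℕ} {i : ℕ}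
    (h : φ (i / (w * X)) (i / w % X) = φ' (i / (w * X)) (i / w % X)) :
    digIx w X X φ i = digIx w X X φ' i := by rw [digIx, digIx, h]

theorem oc_dig1 {l : α → Arr} {p : α → π} {n w X : π → ℕ} {φ κ : π → ℕ → ℕ} (c : ℕ)
    (hl : Oc g 𝒜 u l) (hp : Sm g 𝒜 p) (hn : TC 0 n) (hw : TC 0 w) (hX : TC 0 X)
    (hφ : TC 0 fun q : π × ℕ => φ q.1 q.2) (hκ : TC 0 fun q : π × ℕ => κ q.1 q.2) {N P : α → ℕ}
    (hF : Fit 𝒜 N P) (h : ∀ a, 𝒜.D a → Wf (P a) (l a) ∧ l a ≠ [] ∧ (l a).length ≤ N a ∧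
      (l a).length = n (p a) ∧ w (p a) * X (p a) ∣ n (p a) ∧
      (∀ x < X (p a), κ (p a) x < c ∧ φ (p a) x < X (p a)) ∧
        ∀ x x', x < x' → x' < X (p a) → κ (p a) x = κ (p a) x' → φ (p a) x < φ (p a) x') :
    Oc g 𝒜 u fun a => pull (n (p a))
      (digIx (w (p a)) (X (p a)) (X (p a)) fun _ x => φ (p a) x) (l a) := by
  have e : ∀ a, 𝒜.D a → n (p a) / (w (p a) * X (p a)) * X (p a) * w (p a) = n (p a) :=
    fun a ha => by rw [mul_assoc, mul_comm (X _), Nat.div_mul_cancel (h a ha).2.2.2.2.1]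
  refine (oc_dig (H := fun s => n s / (w s * X s)) (w := w) (X := X) (X' := X)
    (φ := fun s _ x => φ s x) (κ := fun s _ x => κ s x) c hl hp (by fun_prop) hw hX hX
    (TC.comp (g := fun q : π × ℕ × ℕ => (q.1, q.2.2)) hφ (by fun_prop))
    (TC.comp (g := fun q : π × ℕ × ℕ => (q.1, q.2.2)) hκ (by fun_prop)) hF fun a ha => ?_).congr
    fun a ha => ?_
  · obtain ⟨h1, h2, h3, h4, -, h6, h7⟩ := h a ha
    rw [e a ha]
    exact ⟨h1, h2, h3, h4, h4 ▸ h3, fun _ _ => ⟨fun x hx _ => (h6 x hx).2,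
      fun x x' a1 a2 a3 _ => h7 x x' a1 a2 a3⟩⟩
  · rw [e a ha]
    refine pull_congr fun o ho => Or.inl (if_pos ((h a ha).2.2.2.2.2.1 _ ?_).1).symm
    rw [← e a ha] at ho
    exact (parts_lt ho).2.1

/-- Change of the size of a digit from `X'` to `X`. -/
def rsz (H w X X' : ℕ) (l : Arr) : Arr := pull (H * X * w)
  (fun i => if i / w % X < X' then digIx w X X' (fun _ x => x) i else l.length) l

theorem oc_rsz {l : α → Arr} {p : α → π} {H w X X' : π → ℕ} (hl : Oc g 𝒜 u l) (hp : Sm g 𝒜 p)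
    (hH : TC 0 H) (hw : TC 0 w) (hX : TC 0 X) (hX' : TC 0 X') {N P : α → ℕ} (hF : Fit 𝒜 N P)
    (h : ∀ a, 𝒜.D a → Wf (P a) (l a) ∧ l a ≠ [] ∧ (l a).length ≤ N a ∧
      (l a).length = H (p a) * X' (p a) * w (p a) ∧ H (p a) * X (p a) * w (p a) ≤ N a) :
    Oc g 𝒜 u fun a => rsz (H (p a)) (w (p a)) (X (p a)) (X' (p a)) (l a) := by
  have hκ : TC 0 fun q : π × ℕ × ℕ => bif nlt q.2.2 (X' q.1) then 0 else 1 := by fun_prop
  refine (oc_dig (φ := fun _ _ x => x) (κ := fun s _ x => if x < X' s then 0 else 1) 1 hl hp hH hw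
    hX hX' (by fun_prop) (hκ.of_eq fun q => by simp only [nlt, Bool.cond_decide]) hF
    fun a ha => ?_).congr fun a _ => pull_congr fun o _ => Or.inl ?_
  · obtain ⟨h1, h2, h3, h4, h5⟩ := h a ha
    refine ⟨h1, h2, h3, h4, h5, fun _ _ => ⟨fun x _ hx => ?_, fun _ _ h _ _ _ => h⟩⟩
    split_ifs at hx with h <;> omega
  · by_cases h : o / w (p a) % X (p a) < X' (p a) <;> simp [h]

theorem length_rsz (H w X X' : ℕ) (l : Arr) : (rsz H w X X' l).length = H * X * w :=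
  length_pull _ _ _

theorem getD_pull {n i : ℕ} {ψ : ℕ → ℕ} {l : Arr} (hi : i < n) (h : ψ i < l.length) (d) :
    (pull n ψ l).getD i d = l.getD (ψ i) d := by
  rw [pull, getD_arr _ _ hi, List.getD_eq_getElem _ _ h, List.getD_eq_getElem _ _ h]

theorem getD_rsz {H w X X' h x c : ℕ} {l : Arr} (hl : l.length = H * X' * w) (hh : h < H)
    (hx : x < X) (hx' : x < X') (hc : c < w) (d) :
    (rsz H w X X' l).getD ((h * X + x) * w + c) d = l.getD ((h * X' + x) * w + c) d := by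
  have e : (if ((h * X + x) * w + c) / w % X < X' then digIx w X X' (fun _ x => x)
      ((h * X + x) * w + c) else l.length) = (h * X' + x) * w + c := by
    rw [(ix_parts hx hc).2.1, if_pos hx', digIx_mk _ hx hc]
  rw [rsz, getD_pull (ix_lt hh hx hc) (by rw [e, hl]; exact ix_lt hh hx' hc), e]

theorem pad_swap {H K B C X : ℕ} {l : Arr} (hK : K ≤ X) (hl : l.length = H * K * B * K * C) :
    rsz (H * K * B) C K X (rsz H (B * X * C) K X (pull (H * X * (B * X * C)) (swapIx X B C)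
      (rsz H (B * X * C) X K (rsz (H * K * B) C X K l)))) = pull l.length (swapIx K B C) l := by
  rw [eq_arr (rsz _ _ _ _ _) [], eq_arr (pull l.length _ _) [], length_rsz, length_pull, hl]
  refine arr_congr fun o ho => ?_
  obtain ⟨h, x, b, y, c, a1, a2, a3, a4, a5, rfl⟩ := digits5 ho
  have e : ∀ K x y, (((h * K + x) * B + b) * X + y) * C + c =
      (h * K + x) * (B * X * C) + ((b * X + y) * C + c) := fun _ _ _ => by ring
  have b2 := a2.trans_le hK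
  have b4 := a4.trans_le hK
  have s1 := swapIx_mk (a := h) b2 a3 b4 a5
  have s2 := swapIx_mk (a := h) a2 a3 a4 a5
  rw [getD_rsz (by rw [length_rsz]; ring) (ix_lt a1 a2 a3) a4 b4 a5, e,
    getD_rsz (length_pull _ _ _) a1 a2 b2 (ix_lt a3 b4 a5), ← e,
    getD_pull (by rw [e]; exact ix_lt a1 b2 (ix_lt a3 b4 a5))
      (by rw [s1, e, length_rsz]; exact ix_lt a1 b4 (ix_lt a3 b2 a5)), s1, e,
    getD_rsz (by rw [length_rsz]; ring) a1 b4 a4 (ix_lt a3 b2 a5), ← e,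
    getD_rsz hl (ix_lt a1 a4 a3) b2 a2 a5,
    getD_pull ho (by rw [s2, hl]; exact lt5 a1 a4 a3 a2 a5), s2]

theorem fit_dom {N P N' P' : α → ℕ} (hF : Fit 𝒜 N P)
    (h : ∀ a, 𝒜.D a → N' a ≤ N a ∧ P' a ≤ P a) :
    Dom 𝒜 fun K a => wt K (N' a * (P' a + 1)) (N' a) (N' a).size := by
  obtain ⟨c, hc⟩ := id hF
  exact Dom.of (hF.bnd.mono fun a ha => Nat.mul_le_mul ((h a ha).1.trans (Nat.le_succ _))
    (Nat.succ_le_succ (h a ha).2)) c fun a ha =>
    ⟨((h a ha).1.trans (Nat.le_succ _)).trans (hc a ha).2.1,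
      Nat.size_le.2 ((h a ha).1.trans_lt (hc a ha).2.2)⟩

theorem fit_self {N P : α → ℕ} (h : ∀ a, 𝒜.D a → 0 < N a ∧ 𝒜.z a = N a * (P a + 1) ∧
    𝒜.n a = N a ∧ 𝒜.l a = (N a).size) : Fit 𝒜 N P := by
  refine ⟨2, fun a ha => ?_⟩
  obtain ⟨h0, h1, h2, h3⟩ := h a ha
  rw [h1, h2, h3]
  exact ⟨by nlinarith, by omega, (Nat.lt_size_self _).trans_le
    (Nat.pow_le_pow_right (by omega) (by nlinarith))⟩

theorem exists_root {r : ℕ} (hr : 0 < r) :
    ∃ f : ℕ → ℕ, TC 0 f ∧ ∀ K, f K ^ r ≤ K ∧ K < (f K + 1) ^ r := by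
  let F : ℕ → ℕ × ℕ → Bool → ℕ × ℕ := fun K s _ =>
    (bif nlt K ((s.1 + s.2 / 2) ^ r) then s.1 else s.1 + s.2 / 2, s.2 / 2)
  let I : ℕ → ℕ → ℕ × ℕ → Prop := fun K k s =>
    s.1 ^ r ≤ K ∧ (k ≤ K.size → s.2 = 2 ^ (K.size - k) ∧ K < (s.1 + s.2) ^ r)
  have h0 : ∀ K, I K 0 (0, pw K 2 K.size) := fun K => by
    refine ⟨by simp [hr.ne'], fun _ => ?_⟩
    rw [pw_eq le_rfl]
    exact ⟨rfl, (Nat.lt_size_self K).trans_le (by simpa using Nat.le_self_pow hr.ne' _)⟩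
  have hs : ∀ K k s x, x ∈ K.bits → I K k s → I K (k + 1) (F K s x) := by
    rintro K k s x - ⟨h1, h2⟩
    by_cases h : K < (s.1 + s.2 / 2) ^ r <;> simp only [I, F, nlt, Bool.cond_decide, h, if_true,
      if_false, and_true]
    · refine ⟨h1, fun hk => ?_⟩
      rw [(h2 (by omega)).1, show K.size - k = K.size - (k + 1) + 1 by omega, pow_succ]
      omega
    · refine ⟨not_lt.1 h, fun hk => ?_⟩
      obtain ⟨h3, h4⟩ := h2 (by omega)
      rw [show K.size - k = K.size - (k + 1) + 1 by omega, pow_succ] at h3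
      exact ⟨by omega, by rwa [show s.1 + s.2 / 2 + s.2 / 2 = s.1 + s.2 by omega]⟩
  refine ⟨fun K => (K.bits.foldl (F K) (0, pw K 2 K.size)).1, TC.fst (TC.foldl_inv (f := F)
    (by fun_prop) (by fun_prop) (by fun_prop) (S := fun K => 8 * sz K + 7)
    (((Bd.const _ _).mul (Bd.sz 0)).add (Bd.const _ _)) I h0 hs fun K k s hk h => ?_),
    fun K => ?_⟩
  · rw [Nat.size_eq_bits_len] at hk
    have h1 := sz_nat_mono ((Nat.le_self_pow hr.ne' _).trans h.1)
    have h2 := sz_nat_le (n := s.2) (k := K.size + 1) (by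
      rw [(h.2 hk).1]; exact Nat.pow_lt_pow_right (by omega) (by omega))
    have h3 : K.size ≤ sz K := Nat.size_le.2 (lt_two_pow_sz K)
    rw [sz_prod]
    omega
  · have : ∀ (l : List Bool) k s, (∀ x ∈ l, x ∈ K.bits) → I K k s →
        I K (k + l.length) (l.foldl (F K) s) := by
      intro l
      induction l with
      | nil => exact fun _ _ _ h => h
      | cons x l ih =>
        intro k s hl h
        rw [List.length_cons, ← add_assoc, add_right_comm]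
        exact ih _ _ (fun y hy => hl y (by simp [hy])) (hs K k s x (hl x (by simp)) h)
    obtain ⟨h1, h2⟩ := this _ _ _ (fun _ h => h) (h0 K)
    rw [zero_add, Nat.size_eq_bits_len] at h2
    obtain ⟨h3, h4⟩ := h2 le_rfl
    rw [h3, Nat.sub_self] at h4
    exact ⟨h1, h4⟩

theorem ev_pow (E c s : ℕ) :
    ∃ ρ₀ : ℕ, ∀ ρ ≥ ρ₀, E * (ρ + c) ^ s ≤ (E + 1) * ρ ^ s := by
  have h1 : Tendsto (fun ρ : ℕ => (E : ℝ) * (1 + (c : ℝ) / ρ) ^ s) atTop (𝓝 (E * (1 + 0) ^ s)) :=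
    ((tendsto_const_nhds.add (tendsto_const_div_atTop_nhds_zero_nat _)).pow s).const_mul _
  obtain ⟨ρ₀, h⟩ := eventually_atTop.1 ((h1.eventually_le_const (show _ < (E : ℝ) + 1 by simp)).and
    (eventually_gt_atTop 0))
  refine ⟨ρ₀, fun ρ hρ => ?_⟩
  obtain ⟨h2, h3⟩ := h ρ hρ
  have h4 : (0 : ℝ) < ρ := by exact_mod_cast h3
  have h5 := mul_le_mul_of_nonneg_right h2 (pow_pos h4 s).le
  rw [mul_assoc, ← mul_pow, add_mul, one_mul, div_mul_cancel₀ _ h4.ne'] at h5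
  exact_mod_cast h5

theorem exists_kp {r M : ℕ} (hr : 4 ≤ r) (hM : 0 < M) (E e₀ : ℕ) :
    ∃ (f : ℕ → ℕ) (K₀ : ℕ), TC 0 f ∧ ∀ K, K₀ ≤ K → f K ≡ 1 [MOD M] ∧ 0 < f K ∧ K ≤ f K ^ r ∧
      E * (f K ^ r * f K ^ r) ≤ (E + 1) * (K * K) ∧ e₀ ≤ K.size ∧
      (f K).size ≤ K.size / r + 2 ∧ (f K).size.size < K.size.size ∧ f K < K := by
  obtain ⟨t, ht, h⟩ := exists_root (show 0 < r by omega)
  obtain ⟨ρ₀, h₀⟩ := ev_pow E (M + 1) (r + r)
  refine ⟨fun K => (t K / M + 1) * M + 1, (ρ₀ + M + 1) ^ r + 2 ^ (e₀ + 8), by fun_prop,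
    fun K hK => ?_⟩
  obtain ⟨h1, h2⟩ := h K
  have h3 : ρ₀ + M + 1 < t K + 1 :=
    lt_of_pow_lt_pow_left₀ r (Nat.zero_le _) ((le_self_add.trans hK).trans_lt h2)
  have h4 : e₀ + 8 < K.size := Nat.lt_size.2 (le_add_self.trans hK)
  have h5 := Nat.div_add_mod' (t K) M
  have h6 := Nat.mod_lt (t K) hM
  have h7 : t K < 2 ^ (K.size / r + 1) := lt_of_pow_lt_pow_left₀ r (Nat.zero_le _)
    (h1.trans_lt ((Nat.lt_size_self K).trans_le (by
      rw [← pow_mul]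
      refine Nat.pow_le_pow_right (by omega) ?_
      have := Nat.div_add_mod' K.size r
      have := Nat.mod_lt K.size (show 0 < r by omega)
      rw [add_mul]
      omega)))
  simp only [add_mul _ _ M, one_mul]
  have h8 : (t K / M * M + M + 1).size ≤ K.size / r + 2 :=
    Nat.size_le.2 (by rw [pow_succ]; omega)
  have h9 : K.size / r ≤ K.size / 4 := Nat.div_le_div_left hr (by omega)
  refine ⟨?_, by omega, h2.le.trans (Nat.pow_le_pow_left (by omega) _), ?_, by omega, h8, ?_,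
    lt_of_not_ge fun h => ?_⟩
  · rw [← Nat.succ_mul]
    exact (Nat.modEq_zero_iff_dvd.2 (dvd_mul_left _ _)).add_right 1
  · rw [← pow_add]
    refine (Nat.mul_le_mul_left _ (Nat.pow_le_pow_left (by omega) _)).trans
      ((h₀ (t K) (by omega)).trans ?_)
    rw [pow_add]
    exact Nat.mul_le_mul_left _ (Nat.mul_le_mul h1 h1)
  · have a1 := Nat.lt_size_self K.size
    have a2 : 0 < K.size.size := Nat.size_pos.2 (by omega)
    obtain ⟨k, hk⟩ : ∃ k, K.size.size = k + 1 := ⟨_, (Nat.succ_pred_eq_of_pos a2).symm⟩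
    rw [hk, pow_succ] at a1
    rw [hk, Nat.lt_succ_iff, Nat.size_le]
    omega
  · have := Nat.size_le_size h
    omega

end Vale.Agent.P338.SwapAux
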