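import Vale.Agent.P338.Bits
import Vale.Agent.P338.Lay
import Vale.Agent.P338.NetS
import Vale.Agent.P338.Refl
import Vale.Agent.P338.Sound
import Vale.Agent.P338.SwapA

/-! The network for the exchange of two fields, run on arrays. -/

namespace Vale.Agent.P338.SwapAux

open Vale.Agent.Common.TreeTM Enc Matrix Function

abbrev In : Type := (ℕ × ℕ × ℕ) × Arr

def sw (a : In) : Arr := pull a.2.length (swapIx a.1.1 a.1.2.1 a.1.2.2) a.2

def SD (w0 : ℕ) (a : In) : Prop := Wf (zer a.2).length a.2 ∧ a.2 ≠ [] ∧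
  a.1.1 * a.1.2.1 * a.1.1 * a.1.2.2 ∣ a.2.length ∧ 2 ^ (w0 * a.1.1.size.size) ∣ a.1.2.2

noncomputable def UU (w0 : ℕ) (T : In → ℕ∞) (K N P : ℕ) : ℕ∞ :=
  ⨆ x : {x : In // SD w0 x ∧ x.1.1 = K ∧ x.2.length = N ∧ (zer x.2).length = P}, T x.1

theorem le_UU {w0 K N P : ℕ} (T : In → ℕ∞) (x : In) (h : SD w0 x) (h1 : x.1.1 = K)
    (h2 : x.2.length = N) (h3 : (zer x.2).length = P) : T x ≤ UU w0 T K N P :=
  le_iSup_of_le ⟨x, h, h1, h2, h3⟩ le_rfl

abbrev Q4 : Type := ℕ × ℕ × ℕ × ℕ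

def enc2 (N P : ℕ) (v : ℕ → ℕ → ZMod 2) : Arr := arr N fun i => arr P fun b => decide (v i b = 1)

theorem wf_enc2 (N P v) : Wf P (enc2 N P v) := wf_arr fun _ _ => length_arr _ _

theorem exists_enc2 {P : ℕ} {l : Arr} (h : Wf P l) : ∃ v, l = enc2 l.length P v := by
  refine ⟨fun i b => if (l.getD i []).getD b false then 1 else 0, (eq_arr l []).trans
    (arr_congr fun i hi => (eq_arr _ false).trans ?_)⟩
  rw [h _ (by rw [List.getD_eq_getElem _ _ hi]; exact List.getElem_mem _)]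
  refine arr_congr fun b _ => ?_
  exact (by decide : ∀ x : Bool, x = decide ((if x then 1 else 0 : ZMod 2) = 1)) _

theorem len_zer {P : ℕ} {l : Arr} (h : Wf P l) (hl : l ≠ []) : (zer l).length = P := by
  rw [h.zer_eq hl, List.length_replicate]

def Gd (w0 r : ℕ) (s : Q4) : Prop := 0 < s.1 ∧ 0 < s.2.2.2 ∧
  s.1 ^ r * s.2.1 * s.1 ^ r * s.2.2.1 ∣ s.2.2.2 ∧ 2 ^ (w0 * s.1.size.size) ∣ s.2.2.1

theorem le4 {X B C N : ℕ} (hN : 0 < N) (h : X * B * X * C ∣ N) :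
    (0 < B ∧ 0 < C) ∧ X ≤ N ∧ B ≤ N ∧ C ≤ N :=
  ⟨⟨Nat.pos_of_dvd_of_pos (.trans ⟨X * X * C, by ring⟩ h) hN,
    Nat.pos_of_dvd_of_pos (.trans ⟨X * B * X, by ring⟩ h) hN⟩,
    Nat.le_of_dvd hN (.trans ⟨B * X * C, by ring⟩ h),
    Nat.le_of_dvd hN (.trans ⟨X * X * C, by ring⟩ h),
    Nat.le_of_dvd hN (.trans ⟨X * B * X, by ring⟩ h)⟩

def RS (w0 : ℕ) {r : ℕ} (hr : 0 < r) : RSys (ZMod 2) (Q4 × ℕ) Arr (ℕ → ℕ → ZMod 2) 1 where
  good M p := p.1.1 ≡ 1 [MOD M] ∧ Gd w0 r p.1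
  good_dvd h h' := ⟨h'.1.of_dvd h, h'.2⟩
  z p := p.1.2.2.2 * (p.2 + 1)
  n p := p.1.2.2.2
  l p := p.1.2.2.2.size
  Rep p _ v x := x = enc2 p.1.2.2.2 p.2 v
  Rep_mono h := h
  szp := ⟨20, fun p h => le_add_right (by
    obtain ⟨-, -, h1, h2, -⟩ := h
    obtain ⟨-, h3, h4, h5⟩ := le4 h1 h2
    have := Nat.le_self_pow hr.ne' p.1.1
    have := sz_nat_self p.1.1
    have := sz_nat_self p.1.2.1
    have := sz_nat_self p.1.2.2.1
    have := sz_nat_self p.1.2.2.2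
    have := sz_nat_self p.2
    have := Nat.le_mul_of_pos_left p.2 h1
    simp only [sz_prod, mul_add]
    omega)⟩
  szx := ⟨4, fun p j v x _ h => le_add_right (by
    have := (wf_enc2 p.1.2.2.2 p.2 v).sz_le
    rw [← h, show x.length = p.1.2.2.2 by rw [h]; exact length_arr _ _] at this
    nlinarith)⟩
  add q := xorA q.1 q.2
  neg x := x
  half x := x
  rep_add := by
    rintro p j v v' _ _ - rfl rfl
    simp only [xorA, xorB, enc2, zip_arr, map_arr]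
    refine arr_congr fun i _ => arr_congr fun b _ => ?_
    exact (by decide : ∀ x y : ZMod 2, (decide (x = 1) ^^ decide (y = 1)) = decide (x + y = 1)) _ _
  rep_neg := by
    rintro p j v _ - rfl
    simp only [enc2, Pi.neg_apply, ZMod.neg_eq_self_mod_two]
  rep_half := by
    rintro p j v _ - rfl
    rw [one_smul]

variable {ι : Type} [Fintype ι] [DecidableEq ι] {r : ℕ} (e : ι ≃ Fin r)

def wg (s : Q4) : ι ⊕ ι → ℕ :=
  Sum.elim (fun i => s.2.2.1 * s.1 ^ r * s.2.1 * s.1 ^ (e i : ℕ)) fun i => s.2.2.1 * s.1 ^ (e i : ℕ)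

def rk : ι ⊕ ι → ℕ := Sum.elim (fun i => r + e i) fun i => e i

def pl (s : Q4) (A : Matrix (ι ⊕ ι) (ι ⊕ ι) ℚ) (i : ℕ) : ℕ :=
  upd (wg e s) i (A.map (rd s.1) *ᵥ dX s.1 (wg e s) i)

omit [Fintype ι] [DecidableEq ι] in
theorem tc_wg (j : ι ⊕ ι) : TC 0 fun s => wg e s j := by
  cases j <;> simp only [wg, Sum.elim_inl, Sum.elim_inr] <;> fun_prop

omit [Fintype ι] [DecidableEq ι] in
theorem wg_lt (s : Q4) {i j : ι ⊕ ι} (h : rk e i < rk e j) : wg e s i * s.1 ∣ wg e s j := by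
  rcases i with i | i <;> rcases j with j | j <;>
    simp only [wg, rk, Sum.elim_inl, Sum.elim_inr, mul_assoc, ← pow_succ] at h ⊢
  · exact mul_dvd_mul_left _ (mul_dvd_mul_left _ (mul_dvd_mul_left _ (pow_dvd_pow _ (by omega))))
  · have := (e j).2; omega
  · exact mul_dvd_mul_left _ ((pow_dvd_pow _ (e i).2).mul_right _)
  · exact mul_dvd_mul_left _ (pow_dvd_pow _ h)

variable {w0 : ℕ} {s : Q4}

omit [Fintype ι] [DecidableEq ι] in
theorem wg_dvd (h : Gd w0 r s) (j : ι ⊕ ι) : wg e s j * s.1 ∣ s.2.2.2 ∧ s.2.2.1 ∣ wg e s j := by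
  have h1 : ∀ i, s.1 ^ (e i : ℕ) * s.1 ∣ s.1 ^ r := fun i => by
    rw [← pow_succ]; exact pow_dvd_pow _ (e i).2
  rcases j with j | j <;> simp only [wg, Sum.elim_inl, Sum.elim_inr, mul_assoc] <;>
    refine ⟨.trans ?_ h.2.2.1, dvd_mul_right _ _⟩ <;> obtain ⟨c, hc⟩ := h1 j
  · exact ⟨c, by rw [hc]; ring⟩
  · exact ⟨c * s.2.1 * s.1 ^ r, by rw [hc]; ring⟩

theorem wg_sep (h : Gd w0 r s) : haveI : NeZero s.1 := ⟨h.1.ne'⟩; Sep s.1 (wg e s) :=
  haveI : NeZero s.1 := ⟨h.1.ne'⟩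
  (upd_fields e (le4 h.2.1 h.2.2.1).1.1 (le4 h.2.1 h.2.2.1).1.2 0).1

theorem pl_lt (h : Gd w0 r s) (A) {i : ℕ} (hi : i < s.2.2.2) : pl e s A i < s.2.2.2 :=
  haveI : NeZero s.1 := ⟨h.1.ne'⟩
  upd_lt (wg_sep e h) (fun j => (wg_dvd e h j).1) hi _

theorem pl_mul (w0 : ℕ) (A B : Matrix (ι ⊕ ι) (ι ⊕ ι) ℚ) : EvK fun K => ∀ s : Q4, s.1 = K →
    Gd w0 r s → ∀ i, pl e s (A * B) i = pl e s A (pl e s B i) :=
  (ev_map_mul A B).mono fun K hK s hs h i => by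
    subst hs
    have : NeZero s.1 := ⟨h.1.ne'⟩
    rw [pl, pl, pl, dX_upd (wg_sep e h), upd_upd (wg_sep e h), mulVec_mulVec, hK]

theorem pl_one (s : Q4) (i : ℕ) : pl e s 1 i = i := by
  rw [pl, map_rd_one, one_mulVec, upd_dX]

variable (hr : 0 < r) {M : ℕ}

theorem fit1 : Fit ((RS w0 hr).amb1 M) (fun a => a.1.1.2.2.2) fun a => a.1.2 :=
  fit_self fun _ h => ⟨h.1.2.2.1, rfl, rfl, rfl⟩

theorem sm1 : Sm sw ((RS w0 hr).amb1 M) fun a => a.1.1 := by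
  have h : ∀ a, ((RS w0 hr).amb1 M).D a → _ := fun a h => (le4 h.1.2.2.1 h.1.2.2.2.1).2
  exact (Sm.of_fit (fit1 hr) (by fun_prop) fun a ha =>
    (Nat.le_self_pow hr.ne' _).trans (h a ha).1).pair ((Sm.of_fit (fit1 hr) (by fun_prop)
    fun a ha => (h a ha).2.1).pair ((Sm.of_fit (fit1 hr) (by fun_prop)
    fun a ha => (h a ha).2.2).pair (Sm.of_fit (fit1 hr) (by fun_prop) fun a _ => le_rfl)))

variable (w0) in
def Ok (c : ℕ) (A : Matrix (ι ⊕ ι) (ι ⊕ ι) ℚ) : Prop := ∃ M, 0 < M ∧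
  Oc sw ((RS w0 hr).amb1 M) (fun T a => c * UU w0 T a.1.1.1 a.1.1.2.2.2 a.1.2)
    fun a => pull a.1.1.2.2.2 (pl e a.1.1 A) a.2

theorem ok_step {c c' : ℕ} {A B} (h : Ok e w0 hr c A) {M₁ : ℕ} (h₁ : 0 < M₁)
    {ψ : Q4 → ℕ → ℕ} (hψ : ∀ s, s.1 ≡ 1 [MOD M₁] → Gd w0 r s → ∀ i, pl e s B i = ψ s i)
    (hB : ∀ M l u, M₁ ∣ M → Oc sw ((RS w0 hr).amb1 M) u l → (∀ a, ((RS w0 hr).amb1 M).D a →
      Wf a.1.2 (l a) ∧ l a ≠ [] ∧ (l a).length ≤ a.1.1.2.2.2 ∧ (l a).length = a.1.1.2.2.2) →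
      Oc sw ((RS w0 hr).amb1 M) (fun T a => u T a + c' * UU w0 T a.1.1.1 a.1.1.2.2.2 a.1.2)
        fun a => pull a.1.1.2.2.2 (ψ a.1.1) (l a)) : Ok e w0 hr (c + c') (A * B) := by
  obtain ⟨M, h0, h⟩ := h
  obtain ⟨M', h0', h'⟩ := pl_mul e w0 A B
  have hD : ∀ a, ((RS w0 hr).amb1 (M * M' * M₁)).D a → ((RS w0 hr).amb1 M).D a := fun a ha =>
    ⟨⟨ha.1.1.of_dvd ⟨M' * M₁, by ring⟩, ha.1.2⟩, ha.2⟩
  refine ⟨M * M' * M₁, by positivity, ((hB _ _ _ (dvd_mul_left _ _) (h.change hD bnd_wt)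
    fun a ha => ?_).congr fun a ha => ?_).mono fun T a _ => by rw [Nat.cast_add, add_mul]⟩
  · obtain ⟨⟨-, -, h1, -⟩, v, hv⟩ := ha
    have h2 : a.2 ≠ [] := fun h => by
      have := congrArg List.length (h.symm.trans hv)
      rw [enc2, length_arr] at this
      exact h1.ne this
    refine ⟨wf_pull (by rw [show a.2 = _ from hv]; exact wf_enc2 _ _ _) h2 _ _, fun h => ?_,
      (length_pull _ _ _).le, length_pull _ _ _⟩
    exact h1.ne' ((length_pull _ _ _).symm.trans (congrArg List.length h))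
  · have h2 := hψ _ (ha.1.1.of_dvd (dvd_mul_left _ _)) ha.1.2
    rw [pull_pull _ fun o ho => h2 o ▸ pl_lt e ha.1.2 B ho]
    exact pull_congr fun o _ => Or.inl (by
      rw [h' _ (ha.1.1.of_dvd ⟨M * M₁, by ring⟩) _ rfl ha.1.2, h2])

theorem ok_one : Ok e w0 hr 0 1 := by
  refine ⟨1, one_pos, (Oc.congr (Cl.snd Cl.id) fun a ha => ?_).mono fun _ _ _ => by simp⟩
  obtain ⟨-, v, hv⟩ := ha
  have : a.2.length = a.1.1.2.2.2 := by rw [show a.2 = _ from hv]; exact length_arr _ _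
  rw [← this]
  exact (pull_congr fun o _ => Or.inl (pl_one e _ o)).trans (pull_id _)

theorem ok_add {c A} (i j : ι ⊕ ι) (hij : rk e i < rk e j) (ih : Ok e w0 hr c A) :
    Ok e w0 hr c (A * transvection i j 1) := by
  have := tc_wg e i
  have := tc_wg e j
  refine ok_step (c' := 0) e hr ih one_pos (ψ := fun s => rotIx (wg e s i) s.1
    fun h => h / (wg e s j / (wg e s i * s.1))) (fun s _ hs p => ?_) fun M l u _ hl h =>
    ((oc_rot (w := fun s => wg e s i) (X := fun s => s.1)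
      (r := fun s h => h / (wg e s j / (wg e s i * s.1))) hl (sm1 hr) (by fun_prop) (by fun_prop)
      (by fun_prop) (fit1 hr) fun a ha => ⟨(h a ha).1, (h a ha).2.1, (h a ha).2.2.1,
        (h a ha).2.2.2 ▸ (wg_dvd e ha.1.2 i).1⟩).congr fun a ha => by rw [(h a ha).2.2.2]).mono
    fun _ _ _ => by simp
  have : NeZero s.1 := ⟨hs.1.ne'⟩
  rw [pl, rd_transvection _ (fun h => by simp [h] at hij), upd_single (wg_sep e hs), rotIx]
  refine digIx_congr ?_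
  rw [ZMod.val_add, dX_val, dX_val, Nat.div_div_eq_div_mul, Nat.mul_div_cancel' (wg_lt e s hij),
    Nat.add_mod_mod]

theorem ok_mul {c A} (i : ι ⊕ ι) (n : ℕ) (hn : 0 < n) (ih : Ok e w0 hr c A) :
    Ok e w0 hr c (A * diagonal (update 1 i (n : ℚ))) := by
  have := tc_wg e i
  refine ok_step (c' := 0) e hr ih one_pos (ψ := fun s => digIx (wg e s i) s.1 s.1
    fun _ x => n * x % s.1) (fun s _ hs p => ?_) fun M l u _ hl h =>
    (oc_dig1 (n := fun s => s.2.2.2) (w := fun s => wg e s i) (X := fun s => s.1)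
      (φ := fun s x => n * x % s.1) (κ := fun s x => n * x / s.1) n hl (sm1 hr) (by fun_prop)
      (by fun_prop) (by fun_prop) (by fun_prop) (by fun_prop) (fit1 hr) fun a ha =>
        ⟨(h a ha).1, (h a ha).2.1, (h a ha).2.2.1, (h a ha).2.2.2, (wg_dvd e ha.1.2 i).1,
        fun x hx => ⟨Nat.div_lt_of_lt_mul (by nlinarith), Nat.mod_lt _ ha.1.2.1⟩,
        fun x x' h1 _ h2 => ?_⟩).mono fun _ _ _ => by simp
  · have : NeZero s.1 := ⟨hs.1.ne'⟩
    rw [pl, rd_diagonal, upd_single (wg_sep e hs), rd_nat]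
    refine digIx_congr ?_
    rw [ZMod.val_mul, dX_val, ZMod.val_natCast, Nat.mod_mul_mod]
  · have a1 := Nat.div_add_mod (n * x) a.1.1.1
    have a2 := Nat.div_add_mod (n * x') a.1.1.1
    have a3 := Nat.mul_lt_mul_of_pos_left h1 hn
    rw [h2] at a1
    omega

theorem ok_div {c A} (i : ι ⊕ ι) (n : ℕ) (hn : 0 < n) (ih : Ok e w0 hr c A) :
    Ok e w0 hr c (A * diagonal (update 1 i (n : ℚ)⁻¹)) := by
  have h0 : TC 0 fun q : Q4 × ℕ => q.2 % n := by fun_prop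
  have h1 : TC 0 fun q : Q4 × ℕ => (q.2 + (n - q.2 % n) % n * q.1.1) / n :=
    TC.div (TC.add TC.snd' (TC.mul (P337.tc_mod (TC.sub (TC.const n) h0) (TC.const n))
      (TC.fst TC.fst'))) (TC.const n)
  refine ok_step (c' := 0) e hr ih hn (ψ := fun s => digIx (wg e s i) s.1 s.1
    fun _ x => (x + (n - x % n) % n * s.1) / n) (fun s h1 hs p => ?_) fun M l u _ hl h =>
    (oc_dig1 (n := fun s => s.2.2.2) (w := fun s => wg e s i) (X := fun s => s.1)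
      (φ := fun s x => (x + (n - x % n) % n * s.1) / n) (κ := fun _ x => x % n) n hl (sm1 hr)
      (TC.snd (TC.snd TC.snd')) (tc_wg e i) TC.fst' h1 h0 (fit1 hr) fun a ha =>
        ⟨(h a ha).1, (h a ha).2.1, (h a ha).2.2.1, (h a ha).2.2.2, (wg_dvd e ha.1.2 i).1,
        fun x hx => ⟨Nat.mod_lt _ hn, Nat.div_lt_of_lt_mul ?_⟩,
        fun x x' h1 _ h2 => ?_⟩).mono fun _ _ _ => by simp
  · have : NeZero s.1 := ⟨hs.1.ne'⟩
    rw [pl, rd_diagonal, upd_single (wg_sep e hs)]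
    refine digIx_congr ?_
    rw [rd_inv_mul hn h1, dX_val]
  · have := Nat.mul_le_mul_right a.1.1.1 (Nat.succ_le_of_lt (Nat.mod_lt (n - x % n) hn))
    rw [Nat.succ_mul] at this
    omega
  · obtain ⟨k, hk⟩ := (Nat.modEq_iff_dvd' h1.le).1 h2
    obtain ⟨k, rfl⟩ : ∃ k', k = k' + 1 := ⟨k - 1, by
      rcases k with _ | k
      · omega
      · rfl⟩
    rw [← h2, show x' = x + n * (k + 1) by omega, add_right_comm, Nat.add_mul_div_left _ _ hn]
    omega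

theorem ok_neg {c A} (i : ι ⊕ ι) (ih : Ok e w0 hr c A) :
    Ok e w0 hr c (A * diagonal (update 1 i (-1))) := by
  refine ok_step (c' := 0) e hr ih one_pos (ψ := fun s => reflIx (wg e s i) s.1 0)
    (fun s _ hs p => ?_) fun M l u _ hl h =>
    ((oc_refl hl ((sm1 hr).tc (tc_wg e i)) ((sm1 hr).tc TC.fst') ((sm1 hr).tc (TC.const 0))
      (fit1 hr) fun a ha => ⟨(h a ha).1, (h a ha).2.1, (h a ha).2.2.1,
        (h a ha).2.2.2 ▸ (wg_dvd e ha.1.2 i).1⟩).congr fun a ha => by rw [(h a ha).2.2.2]).mono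
    fun _ _ _ => by simp
  have : NeZero s.1 := ⟨hs.1.ne'⟩
  rw [pl, rd_diagonal, upd_single (wg_sep e hs), rd_neg_one, reflIx]
  refine digIx_congr ?_
  rw [neg_one_mul, ZMod.neg_val', dX_val, zero_add]

theorem ok_swap {c A} (i j : ι ⊕ ι) (hij : rk e j < rk e i) (ih : Ok e w0 hr c A) :
    Ok e w0 hr (c + 1) (A * swM ℚ i j) := by
  have := tc_wg e i
  have := tc_wg e j
  have hw : ∀ s : Q4, wg e s i = wg e s j * s.1 * (wg e s i / (wg e s j * s.1)) := fun s =>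
    (Nat.mul_div_cancel' (wg_lt e s hij)).symm
  refine ok_step (c' := 1) e hr ih one_pos (ψ := fun s => swapIx s.1
    (wg e s i / (wg e s j * s.1)) (wg e s j)) (fun s _ hs p => ?_) fun M l u _ hl h =>
    ((Oc.call (Oc.pair ((sm1 hr).tc (F := fun s : Q4 => (s.1, wg e s i / (wg e s j * s.1), wg e s j))
      (by fun_prop)).1 hl) ?_).congr fun a ha => by rw [sw, (h a ha).2.2.2]).mono
    fun T a ha => ?_
  · have : NeZero s.1 := ⟨hs.1.ne'⟩
    rw [pl, swM, rd_perm, upd_swap (wg_sep e hs) _ (hw s)]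
  · refine (Bnd.mul 4 (fit1 hr).bnd).mono fun a ha => ?_
    refine (wf_pull (h a ha).1 (h a ha).2.1 _ _).sz_le.trans ?_
    rw [length_pull, (h a ha).2.2.2]
    nlinarith
  · obtain ⟨h1, h2, -, h3⟩ := h a ha
    have h4 := len_zer h1 h2
    simp only [u0_apply, zero_add, Nat.cast_one, one_mul]
    refine add_le_add le_rfl (le_UU T _ ⟨h4.symm ▸ h1, h2, ?_,
      ha.1.2.2.2.2.trans (wg_dvd e ha.1.2 j).2⟩ rfl h3 h4)
    refine .trans (dvd_of_eq ?_) (h3 ▸ (wg_dvd e ha.1.2 i).1)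
    conv_rhs => rw [hw]
    ring

theorem ok_gen {c : ℕ} {A} (h : Gen (rk e) c A) : Ok e w0 hr c A := by
  induction h with
  | one => exact ok_one e hr
  | add i j hij _ ih => exact ok_add e hr i j hij ih
  | mul i n hn _ ih => exact ok_mul e hr i n hn ih
  | div i n hn _ ih => exact ok_div e hr i n hn ih
  | neg i _ ih => exact ok_neg e hr i ih
  | swap i j hij _ ih => exact ok_swap e hr i j hij ih

end Vale.Agent.P338.SwapAux
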