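import Vale.Agent.P338.SwapD

/-! Digitwise maps and the arithmetic of the exchange network for bit flips. -/

namespace Vale.Agent.P338.XorAux

open Vale.Agent.Common.TreeTM Vale.Agent.P337 Finset

/-- The number with `k` digits `d j` in base `B` and top part `t`. -/
def nm (B : ℕ) : ℕ → (ℕ → ℕ) → ℕ → ℕ
  | 0, _, t => t
  | k + 1, d, t => d 0 + B * nm B k (fun j => d (j + 1)) t

theorem nm_eq (B k : ℕ) (d : ℕ → ℕ) (t : ℕ) :
    nm B k d t = ∑ j ∈ range k, d j * B ^ j + t * B ^ k := by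
  induction k generalizing d with
  | zero => simp [nm]
  | succ k ih =>
    rw [nm, ih, sum_range_succ', mul_add, mul_sum,
      sum_congr rfl fun j _ => show B * (d (j + 1) * B ^ j) = d (j + 1) * B ^ (j + 1) by ring]
    ring

theorem nm_congr {B k : ℕ} {d d' : ℕ → ℕ} (t : ℕ) (h : ∀ j < k, d j = d' j) :
    nm B k d t = nm B k d' t := by
  rw [nm_eq, nm_eq, sum_congr rfl fun j hj => by rw [h j (mem_range.1 hj)]]

theorem dg_succ (B y j : ℕ) : dg B y (j + 1) = dg B (y / B) j := by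
  rw [dg, dg, Nat.div_div_eq_div_mul, pow_succ']

theorem dg_zero (B y : ℕ) : dg B y 0 = y % B := by simp [dg]

theorem nm_dig {B k : ℕ} {d : ℕ → ℕ} (t : ℕ) (hd : ∀ j < k, d j < B) :
    (∀ j < k, dg B (nm B k d t) j = d j) ∧ nm B k d t / B ^ k = t := by
  induction k generalizing d with
  | zero => simp [nm]
  | succ k ih =>
    have h0 := hd 0 (by omega)
    obtain ⟨h1, h2⟩ := ih (d := fun j => d (j + 1)) fun j hj => hd _ (by omega)
    have h3 : nm B (k + 1) d t / B = nm B k (fun j => d (j + 1)) t := by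
      rw [nm, Nat.add_mul_div_left _ _ (by omega), Nat.div_eq_of_lt h0, zero_add]
    refine ⟨fun j hj => ?_, by rw [pow_succ', ← Nat.div_div_eq_div_mul, h3, h2]⟩
    cases j with
    | zero => rw [dg_zero, nm, Nat.add_mul_mod_self_left, Nat.mod_eq_of_lt h0]
    | succ j => rw [dg_succ, h3, h1 j (by omega)]

theorem nm_self (B k y : ℕ) : nm B k (dg B y) (y / B ^ k) = y := by
  induction k generalizing y with
  | zero => simp [nm]
  | succ k ih =>
    rw [nm, dg_zero, pow_succ', ← Nat.div_div_eq_div_mul]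
    simp only [dg_succ]
    rw [ih, Nat.mod_add_div]

theorem nm_add (B k : ℕ) (d d' : ℕ → ℕ) (t t' : ℕ) :
    nm B k d t + nm B k d' t' = nm B k (fun j => d j + d' j) (t + t') := by
  simp only [nm_eq, add_mul, sum_add_distrib]
  ring

theorem nm_lt {B k : ℕ} {d : ℕ → ℕ} (hd : ∀ j < k, d j < B) : nm B k d 0 < B ^ k := by
  induction k generalizing d with
  | zero => simp [nm]
  | succ k ih =>
    have h0 := hd 0 (by omega)
    have h1 := Nat.mul_le_mul_left B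
      (Nat.succ_le_of_lt (ih (d := fun j => d (j + 1)) fun j hj => hd _ (by omega)))
    rw [nm, pow_succ']
    rw [Nat.mul_succ] at h1
    omega

theorem nm_mono {B B' k : ℕ} {f : ℕ → ℕ → ℕ} {ok : ℕ → ℕ → Prop} (hB : 0 < B)
    (h1 : ∀ j x, x < B → ok j x → f j x < B')
    (h2 : ∀ j x x', x < x' → ok j x → ok j x' → f j x < f j x') {y y' : ℕ} (hy : y < y')
    (ho : ∀ j < k, ok j (dg B y j)) (ho' : ∀ j < k, ok j (dg B y' j)) :
    nm B' k (fun j => f j (dg B y j)) (y / B ^ k) <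
      nm B' k (fun j => f j (dg B y' j)) (y' / B ^ k) := by
  induction k generalizing f ok y y' with
  | zero => simpa [nm] using hy
  | succ k ih =>
    have e0 := ho 0 (by omega)
    have e0' := ho' 0 (by omega)
    simp only [nm, pow_succ', ← Nat.div_div_eq_div_mul, dg_succ, dg_zero] at e0 e0' ⊢
    rcases (Nat.div_le_div_right (c := B) hy.le).lt_or_eq with h | h
    · have e1 := h1 0 _ (Nat.mod_lt y hB) e0
      have e2 := Nat.mul_le_mul_left B' (Nat.succ_le_of_lt (ih (f := fun j => f (j + 1))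
        (ok := fun j => ok (j + 1)) (fun j => h1 _) (fun j => h2 _) h
        (fun j hj => dg_succ B y j ▸ ho _ (by omega)) fun j hj => dg_succ B y' j ▸ ho' _ (by omega)))
      rw [Nat.mul_succ] at e2
      omega
    · have e1 := Nat.div_add_mod y B
      have e2 := Nat.div_add_mod y' B
      rw [h] at e1 ⊢
      exact Nat.add_lt_add_right (h2 0 _ _ (by omega) e0 e0') _

theorem nm_scale {D L k : ℕ} {d z : ℕ → ℕ} (t : ℕ) (h : ∀ j < k, L * d j ≤ (L + 1) * z j) :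
    L ^ k * nm (D * (L + 1)) k d t ≤ (L + 1) ^ k * nm (D * L) k z t := by
  induction k generalizing d z with
  | zero => simp [nm]
  | succ k ih =>
    have h1 := Nat.mul_le_mul_left (D * L * (L + 1))
      (ih (d := fun j => d (j + 1)) (z := fun j => z (j + 1)) fun j hj => h _ (by omega))
    have h2 := Nat.mul_le_mul (Nat.pow_le_pow_left (Nat.le_succ L) k) (h 0 (by omega))
    rw [nm, nm, pow_succ, pow_succ]
    nlinarith

theorem pow_bound {L k : ℕ} (h : k ≤ L) : (L + 1) ^ k ≤ 3 * L ^ k := by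
  have key : ∀ k r, k + r = 2 * L → (L + 1) ^ k * r ≤ L ^ k * (2 * L + k) := by
    intro k
    induction k with
    | zero => intro r h; simp; omega
    | succ k ih =>
      intro r h
      have h1 := Nat.mul_le_mul_left ((L + 1) * r) (ih (r + 1) (by omega))
      have h2 : (L + 1) * r * (2 * L + k) ≤ L * (r + 1) * (2 * L + (k + 1)) := by
        have h3 : (L : ℤ) * 2 = k + 1 + r := by omega
        zify
        nlinarith [sq_nonneg ((r : ℤ) + 1 - (2 * L + k))]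
      have h4 := Nat.mul_le_mul_left (L ^ k) h2
      refine Nat.le_of_mul_le_mul_right ?_ (Nat.succ_pos r)
      rw [pow_succ, pow_succ]
      nlinarith
  rcases Nat.eq_zero_or_pos L with rfl | hL
  · simp [Nat.le_zero.1 h]
  have h1 := key k (2 * L - k) (by omega)
  have h2 := Nat.mul_le_mul_left ((L + 1) ^ k) (show L ≤ 2 * L - k by omega)
  have h3 := Nat.mul_le_mul_left (L ^ k) (show 2 * L + k ≤ 3 * L by omega)
  refine Nat.le_of_mul_le_mul_right ?_ hL
  nlinarith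

theorem geo_le {B k Y : ℕ} (hB : 2 ≤ B) (hY : ∀ j < k, 2 * B ^ j ≤ Y) :
    nm B k (fun _ => 2) 0 ≤ 2 * Y := by
  have key : ∀ k, nm B (k + 1) (fun _ => 2) 0 + 2 ≤ 4 * B ^ k + 0 + 2 * 0 + 0 := by
    intro k
    induction k with
    | zero => simp [nm]
    | succ k ih =>
      have := Nat.mul_le_mul_left B ih
      rw [nm, pow_succ]
      nlinarith
  cases k with
  | zero => simp [nm]
  | succ k =>
    have := key k
    have := hY k (by omega)
    omega

/-- The control value. -/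
def gam (fl : Bool) (h : ℕ) : ℕ := bif fl then h % 2 else 1

theorem gam_le (fl : Bool) (h : ℕ) : gam fl h ≤ 1 := by
  cases fl <;> simp only [gam, Bool.cond_true, Bool.cond_false] <;> omega

/-- The new low part of a digit. -/
def lowd (fl : Bool) (L sp sm x : ℕ) : ℕ := x % L + gam fl (x / L) * sp - gam fl (x / L) * sm

def okd (fl : Bool) (L L' sp sm x : ℕ) : Bool :=
  nlt (gam fl (x / L) * sm) (x % L + gam fl (x / L) * sp + 1) && nlt (lowd fl L sp sm x) L'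

def spv (i : ℕ × ℕ × ℕ) (U h j : ℕ) : ℕ := i.1 * (dg U h j % 2) + i.2.1 * (1 - dg U h j % 2)

def smv (i : ℕ × ℕ × ℕ) (U h j : ℕ) : ℕ := i.2.2 * (dg U h j % 2)

def phi (fl : Bool) (i : ℕ × ℕ × ℕ) (k D L L' U h y : ℕ) : ℕ :=
  nm (D * L') k (fun j => dg (D * L) y j / L * L' +
    lowd fl L (spv i U h j) (smv i U h j) (dg (D * L) y j)) (y / (D * L) ^ k)

def kap (fl : Bool) (i : ℕ × ℕ × ℕ) (k D L L' U X' h y : ℕ) : ℕ :=
  bif ((List.range k).all fun j => okd fl L L' (spv i U h j) (smv i U h j) (dg (D * L) y j)) &&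
    nlt (phi fl i k D L L' U h y) X' then 0 else 1

/-- A digitwise pass. -/
def px (fl : Bool) (i : ℕ × ℕ × ℕ) (k D L L' U H w X X' o : ℕ) : ℕ :=
  if kap fl i k D L L' U X' (o / (w * X)) (o / w % X) < 1 then
    digIx w X X' (phi fl i k D L L' U) o else H * X' * w

theorem kap_lt {fl : Bool} {i : ℕ × ℕ × ℕ} {k D L L' U X' h y : ℕ} :
    kap fl i k D L L' U X' h y < 1 ↔
      (∀ j < k, okd fl L L' (spv i U h j) (smv i U h j) (dg (D * L) y j) = true) ∧
        phi fl i k D L L' U h y < X' := by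
  rw [kap, Bool.cond_eq_ite]
  split_ifs with hc <;> simpa [nlt] using hc

theorem phi_mono {fl : Bool} {i : ℕ × ℕ × ℕ} {k D L L' U X' h y y' : ℕ} (hB : 0 < D * L)
    (hy : y < y') (h1 : kap fl i k D L L' U X' h y < 1) (h2 : kap fl i k D L L' U X' h y' < 1) :
    phi fl i k D L L' U h y < phi fl i k D L L' U h y' := by
  refine nm_mono (f := fun j x => x / L * L' + lowd fl L (spv i U h j) (smv i U h j) x)
    (ok := fun j x => okd fl L L' (spv i U h j) (smv i U h j) x = true) hB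
    (fun j x hx ho => ?_) (fun j x x' hx ho ho' => ?_) hy (kap_lt.1 h1).1 (kap_lt.1 h2).1
  · simp only [okd, nlt, Bool.and_eq_true, decide_eq_true_eq] at ho
    have := Nat.mul_le_mul_right L'
      (Nat.succ_le_of_lt (Nat.div_lt_of_lt_mul (mul_comm D L ▸ hx)))
    rw [Nat.succ_mul] at this
    omega
  · simp only [okd, nlt, Bool.and_eq_true, decide_eq_true_eq] at ho ho'
    rcases (Nat.div_le_div_right (c := L) hx.le).lt_or_eq with h | h
    · have := Nat.mul_le_mul_right L' (Nat.succ_le_of_lt h)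
      rw [Nat.succ_mul] at this
      omega
    · have e1 := Nat.div_add_mod x L
      have e2 := Nat.div_add_mod x' L
      simp only [lowd] at ho ho' ⊢
      rw [h] at e1 ho ⊢
      omega

/-- Digits with a high and a low part. -/
def nn (D L k : ℕ) (hi v : ℕ → ℕ) (t : ℕ) : ℕ := nm (D * L) k (fun j => hi j * L + v j) t

theorem nn_one (L k : ℕ) (v : ℕ → ℕ) (t : ℕ) : nn 1 L k (fun _ => 0) v t = nm L k v t := by
  simp [nn]

theorem nn_dig {D L k : ℕ} {hi v : ℕ → ℕ} (t : ℕ) (h : ∀ j < k, hi j < D ∧ v j < L) :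
    (∀ j < k, dg (D * L) (nn D L k hi v t) j / L = hi j ∧
      dg (D * L) (nn D L k hi v t) j % L = v j) ∧ nn D L k hi v t / (D * L) ^ k = t := by
  have h1 := nm_dig (B := D * L) (k := k) (d := fun j => hi j * L + v j) t fun j hj => by
    have := Nat.mul_le_mul_right L (Nat.succ_le_of_lt (h j hj).1)
    have := (h j hj).2
    rw [Nat.succ_mul] at *
    omega
  refine ⟨fun j hj => ?_, h1.2⟩
  have := (h j hj).2
  rw [nn, h1.1 j hj, mul_comm, Nat.mul_add_div (by omega), Nat.div_eq_of_lt this, Nat.mul_add_mod,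
    Nat.mod_eq_of_lt this]
  exact ⟨rfl, rfl⟩

theorem px_mk {fl : Bool} {i : ℕ × ℕ × ℕ} {k D L L' U H w X X' h c t : ℕ} {hi v : ℕ → ℕ}
    (v' : ℕ → ℕ) (hc : c < w) (hX : nn D L k hi v t < X) (hX' : nn D L' k hi v' t < X')
    (hv : ∀ j < k, hi j < D ∧ v j < L) (hv' : ∀ j < k, v' j < L' ∧
      v j + gam fl (hi j) * spv i U h j = v' j + gam fl (hi j) * smv i U h j) :
    px fl i k D L L' U H w X X' ((h * X + nn D L k hi v t) * w + c) =
      (h * X' + nn D L' k hi v' t) * w + c := by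
  obtain ⟨h1, h2⟩ := nn_dig t hv
  have h3 : ∀ j < k, lowd fl L (spv i U h j) (smv i U h j) (dg (D * L) (nn D L k hi v t) j) =
      v' j := fun j hj => by
    rw [lowd, (h1 j hj).1, (h1 j hj).2, (hv' j hj).2, Nat.add_sub_cancel]
  have h4 : phi fl i k D L L' U h (nn D L k hi v t) = nn D L' k hi v' t := by
    rw [phi, h2]
    exact nm_congr _ fun j hj => by rw [h3 j hj, (h1 j hj).1]
  obtain ⟨e1, e2, -⟩ := ix_parts (h := h) hX hc
  rw [px, e1, e2, if_pos (kap_lt.2 ⟨fun j hj => ?_, h4 ▸ hX'⟩), digIx_mk _ hX hc, h4]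
  have := hv' j hj
  simp only [okd, nlt, h3 j hj, (h1 j hj).1, (h1 j hj).2, Bool.and_eq_true, decide_eq_true_eq]
  omega

/-- The shift of the slot. -/
def sh (fl : Bool) (i k D L U Y h : ℕ) : ℕ :=
  nm U k (fun j => gam fl (dg (D * L) (h % Y) j / L) * ((dg (D * L) (h % Y) j % L + i) % 2)) 0

theorem sh_mk {fl : Bool} {i k D L U Y w t : ℕ} {hi v : ℕ → ℕ} (hY : nn D L k hi v t < Y)
    (hv : ∀ j < k, hi j < D ∧ v j < L) : sh fl i k D L U Y (w * Y + nn D L k hi v t) =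
      nm U k (fun j => gam fl (hi j) * ((v j + i) % 2)) 0 := by
  rw [sh, mul_comm w, Nat.mul_add_mod, Nat.mod_eq_of_lt hY]
  exact nm_congr _ fun j hj => by rw [((nn_dig t hv).1 j hj).1, ((nn_dig t hv).1 j hj).2]

/-- The flipped low part. -/
def flv (fl : Bool) (hi v : ℕ) : ℕ := v + gam fl hi * (1 - v % 2) - gam fl hi * (v % 2)

/-- The number with flipped bits. -/
def flp (fl : Bool) (k D L y : ℕ) : ℕ :=
  nn D L k (fun j => dg (D * L) y j / L)
    (fun j => flv fl (dg (D * L) y j / L) (dg (D * L) y j % L)) (y / (D * L) ^ k)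

theorem flv_half (fl : Bool) (hi v : ℕ) : flv fl hi v / 2 = v / 2 := by
  have := gam_le fl hi
  rw [flv]
  rcases Nat.mod_two_eq_zero_or_one v with h | h <;> rw [h] <;> omega

theorem flp_lt {fl : Bool} {k D L Y y : ℕ} (hD : 0 < D) (hL : 0 < L) (hL2 : 2 ∣ L)
    (hY : ∀ j < k, 2 * (D * L) ^ j ∣ Y) (hy : y < Y) : flp fl k D L y < Y := by
  induction k generalizing y Y with
  | zero => simpa [flp, nn, nm] using hy
  | succ k ih =>
    have e : flp fl (k + 1) D L y = y % (D * L) / L * L + flv fl (y % (D * L) / L) (y % (D * L) % L)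
        + D * L * flp fl k D L (y / (D * L)) := by
      simp only [flp, nn, nm, dg_succ, dg_zero, pow_succ', Nat.div_div_eq_div_mul]
    have e1 := flv_half fl (y % (D * L) / L) (y % (D * L) % L)
    have e2 := Nat.div_add_mod' (y % (D * L)) L
    have e3 := Nat.div_add_mod y (D * L)
    have e4 := Nat.mod_lt (y % (D * L)) hL
    have e5 : 2 ∣ y % (D * L) / L * L := hL2.mul_left _
    have e6 : 2 ∣ D * L := hL2.mul_left _
    have e7 := Nat.mod_lt y (Nat.mul_pos hD hL)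
    rw [e]
    cases k with
    | zero =>
      have e8 := hY 0 (by omega)
      have e9 : 2 ∣ D * L * (y / (D * L)) := e6.mul_right _
      simp only [flp, nn, nm, pow_zero, Nat.div_one, mul_one] at e8 ⊢
      omega
    | succ k =>
      obtain ⟨Y', rfl⟩ : D * L ∣ Y :=
        ((dvd_pow_self _ one_ne_zero).mul_left 2).trans (hY 1 (by omega))
      have e8 := Nat.mul_le_mul_left (D * L) (Nat.succ_le_of_lt (ih (Y := Y') (y := y / (D * L))
        (fun j hj => by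
          have := hY (j + 1) (by omega)
          rw [pow_succ', mul_left_comm] at this
          exact Nat.dvd_of_mul_dvd_mul_left (Nat.mul_pos hD hL) this)
        (Nat.div_lt_of_lt_mul hy)))
      rw [Nat.mul_succ] at e8
      omega

theorem bit_hi {a Y : ℕ} (u y : ℕ) (ha : 0 < a) (h : 2 * a ∣ Y) :
    (u * Y + y) / a % 2 = y / a % 2 := by
  obtain ⟨t, rfl⟩ := h
  rw [show u * (2 * a * t) + y = y + a * (2 * (u * t)) by ring, Nat.add_mul_div_left _ _ ha,
    Nat.add_mul_mod_self_left]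

theorem xorIx_eq {fl : Bool} {q s k c Y r : ℕ} (u y : ℕ) (hc : 0 < c) (hs : c < s)
    (hY : ∀ j < k, 2 * ((2 ^ s) ^ j * if fl then 2 ^ c else 1) ∣ Y) (hr : r < 2 ^ q) :
    xorIx q s k fl (q + c) ((u * Y + y) * 2 ^ q + r) =
      (u * Y + flp fl k (2 ^ (s - c)) (2 ^ c) y) * 2 ^ q + r := by
  have hB : 2 ^ (s - c) * 2 ^ c = 2 ^ s := by rw [← pow_add, Nat.sub_add_cancel hs.le]
  have hL : 2 ∣ 2 ^ c := dvd_pow_self _ hc.ne'
  have h0 : ((u * Y + y) * 2 ^ q + r) / 2 ^ q = u * Y + y := by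
    rw [mul_comm, Nat.mul_add_div (by positivity), Nat.div_eq_of_lt hr, add_zero]
  have h1 : ∀ j < k, ((u * Y + y) * 2 ^ q + r) / 2 ^ (q + s * j) % 2 =
      dg (2 ^ s) y j % 2 ^ c % 2 := fun j hj => by
    rw [pow_add, ← Nat.div_div_eq_div_mul, h0, pow_mul, bit_hi u y (by positivity)
      ((Nat.mul_dvd_mul_left 2 (dvd_mul_right _ _)).trans (hY j hj)), Nat.mod_mod_of_dvd _ hL, dg,
      Nat.mod_mod_of_dvd _ (dvd_pow_self _ (by omega))]
  have h2 : ∀ j < k, (if fl then ((((u * Y + y) * 2 ^ q + r) / 2 ^ (q + c + s * j) % 2 : ℕ) : ℤ)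
      else 1) = (gam fl (dg (2 ^ s) y j / 2 ^ c) : ℕ) := fun j hj => by
    have := hY j hj
    cases fl
    · rfl
    · rw [if_pos rfl] at this ⊢
      rw [add_assoc, pow_add, ← Nat.div_div_eq_div_mul, h0, add_comm c, pow_add, pow_mul,
        bit_hi u y (by positivity) this, gam, Bool.cond_true, dg]
      conv_rhs => rw [← hB, mul_comm (2 ^ (s - c)), Nat.mod_mul_right_div_self,
        Nat.mod_mod_of_dvd _ (dvd_pow_self _ (by omega)), mul_comm, hB, Nat.div_div_eq_div_mul]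
  have h3 : ∀ hi v : ℕ, (flv fl hi v : ℤ) = v + gam fl hi * (1 - 2 * (v % 2 : ℕ)) := by
    intro hi v
    have := gam_le fl hi
    rw [flv]
    rcases Nat.mod_two_eq_zero_or_one v with h | h <;> rw [h]
    · simp
    · rw [Nat.sub_self, mul_zero, mul_one, add_zero, Nat.cast_sub (by omega)]
      push_cast
      ring
  have h4 : (flp fl k (2 ^ (s - c)) (2 ^ c) y : ℤ) = y + ∑ j ∈ range k,
      (gam fl (dg (2 ^ s) y j / 2 ^ c) : ℤ) * (1 - 2 * (dg (2 ^ s) y j % 2 ^ c % 2 : ℕ)) *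
        (2 ^ s) ^ j := by
    rw [flp, nn, hB, nm_eq]
    conv_rhs => lhs; rw [← nm_self (2 ^ s) k y, nm_eq]
    rw [Nat.cast_add, Nat.cast_add, Nat.cast_sum, Nat.cast_sum, add_right_comm, ← sum_add_distrib]
    congr 1
    refine sum_congr rfl fun j _ => ?_
    conv_rhs => lhs; rw [← Nat.div_add_mod' (dg (2 ^ s) y j) (2 ^ c)]
    rw [Nat.cast_mul, Nat.cast_mul, Nat.cast_add, Nat.cast_add, h3]
    push_cast
    ring
  rw [xorIx, sum_congr rfl fun j hj => by rw [h1 j (mem_range.1 hj), h2 j (mem_range.1 hj)]]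
  refine Eq.trans (congrArg Int.toNat ?_) (Int.toNat_natCast _)
  push_cast at h4 ⊢
  rw [h4, ← add_assoc, add_mul _ (∑ j ∈ range k, _), sum_mul, add_right_comm]
  congr 2
  exact sum_congr rfl fun j _ => by ring

theorem swap_mk {K B C x b y c : ℕ} (hx : x < K) (hb : b < B) (hy : y < K) (hc : c < C) :
    swapIx K B C (((x * B + b) * K + y) * C + c) = ((y * B + b) * K + x) * C + c := by
  simpa using swapIx_mk (a := 0) hx hb hy hc

theorem pos_lt {A B K C x b y c : ℕ} (hx : x < A) (hb : b < B) (hy : y < K) (hc : c < C) :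
    ((x * B + b) * K + y) * C + c < A * B * K * C :=
  ix_lt (by simpa using ix_lt (w := B) (X := A) (H := 1) Nat.one_pos hx hb) hy hc

theorem decomp {A B K C o : ℕ} (ho : o < A * B * K * C) :
    ∃ x b y c, x < A ∧ b < B ∧ y < K ∧ c < C ∧ o = ((x * B + b) * K + y) * C + c := by
  obtain ⟨h1, h2, h3⟩ := ArrAux.parts_lt ho
  refine ⟨_, _, _, _, Nat.div_lt_of_lt_mul (mul_comm A B ▸ h1),
    Nat.mod_lt (o / (C * K)) (Nat.pos_of_mul_pos_left (Nat.zero_lt_of_lt h1)), h2, h3, ?_⟩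
  rw [Nat.div_add_mod']
  exact ix_eq C K o

/-- The numerical parameters. -/
structure Pm where
  fl : Bool
  k : ℕ
  D : ℕ
  L : ℕ
  E : ℕ
  Y : ℕ
  K : ℕ
  C : ℕ

namespace Pm

variable (q : Pm)

def n0 : ℕ := q.E ^ q.k * q.Y * q.K * q.C
def n1 : ℕ := q.K * q.Y * q.K * q.C
def n2 : ℕ := q.K * (16 * q.Y) * q.K * q.C
def s1 : ℕ → ℕ :=
  px q.fl (0, 0, 0) q.k 1 q.E (q.E + 1) (q.E + 1) 1 (q.Y * q.K * q.C) (q.E ^ q.k) q.K
def s2 : ℕ → ℕ :=
  px q.fl (1, 0, 0) q.k q.D q.L (q.L + 1) (q.E + 1) q.K (q.K * q.C) q.Y (16 * q.Y)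
def sw : ℕ → ℕ := swapIx q.K (16 * q.Y) q.C
def s3 : ℕ → ℕ := rotIx q.C q.K (sh q.fl 0 q.k q.D (q.L + 1) (q.E + 1) (16 * q.Y))
def s4 : ℕ → ℕ :=
  px q.fl (0, 1, 1) q.k q.D (q.L + 1) (q.L + 1) (q.E + 1) q.K (q.K * q.C) (16 * q.Y) (16 * q.Y)
def s5 : ℕ → ℕ :=
  rotIx q.C q.K fun h => q.K - sh q.fl 1 q.k q.D (q.L + 1) (q.E + 1) (16 * q.Y) h
def s6 : ℕ → ℕ :=
  px q.fl (0, 0, 1) q.k q.D (q.L + 1) q.L (q.E + 1) q.K (q.K * q.C) (16 * q.Y) q.Y
def s7 : ℕ → ℕ :=
  px q.fl (0, 0, 0) q.k 1 (q.E + 1) q.E (q.E + 1) 1 (q.Y * q.K * q.C) q.K (q.E ^ q.k)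

def Ok : Prop := 0 < q.D ∧ 0 < q.L ∧ 2 ∣ q.L ∧ q.k ≤ q.L ∧ 0 < q.E ∧ (q.E + 1) ^ q.k ≤ q.K ∧
  ∀ j < q.k, 2 * (q.D * q.L) ^ j ∣ q.Y

theorem chain (hq : q.Ok) {u y w c : ℕ} (hu : u < q.E ^ q.k) (hy : y < q.Y) (hw : w < q.K)
    (hc : c < q.C) : ∃ p1 p2 p3 p4 p5 p6 p7 p8 p9 p10,
      (q.s1 (((u * q.Y + y) * q.K + w) * q.C + c) = p1 ∧ q.s2 p1 = p2 ∧ q.sw p2 = p3 ∧
      q.s3 p3 = p4 ∧ q.sw p4 = p5 ∧ q.s4 p5 = p6 ∧ q.sw p6 = p7 ∧ q.s5 p7 = p8 ∧ q.sw p8 = p9 ∧
      q.s6 p9 = p10 ∧ q.s7 p10 = ((u * q.Y + flp q.fl q.k q.D q.L y) * q.K + w) * q.C + c) ∧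
      p1 < q.n1 ∧ p2 < q.n2 ∧ p3 < q.n2 ∧ p4 < q.n2 ∧ p5 < q.n2 ∧ p6 < q.n2 ∧ p7 < q.n2 ∧
      p8 < q.n2 ∧ p9 < q.n2 ∧ p10 < q.n1 := by
  obtain ⟨fl, k, D, L, E, Y, K, C⟩ := q
  obtain ⟨hD, hL, hL2, hkL, hE, hK, hY⟩ := hq
  dsimp only [n1, n2, s1, s2, sw, s3, s4, s5, s6, s7] at *
  have hf := flp_lt (fl := fl) hD hL hL2 hY hy
  rw [flp] at hf ⊢
  set hi := fun j => dg (D * L) y j / L
  set v := fun j => dg (D * L) y j % L
  set t := y / (D * L) ^ k
  set a := dg E u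
  have hγ := fun j => gam_le fl (hi j)
  have hv : ∀ j, hi j < D ∧ v j < L := fun j =>
    ⟨Nat.div_lt_of_lt_mul (mul_comm D L ▸ Nat.mod_lt _ (Nat.mul_pos hD hL)), Nat.mod_lt _ hL⟩
  have ha : ∀ j, a j < E := fun j => Nat.mod_lt _ hE
  have ey : y = nn D L k hi v t := by
    conv_lhs => rw [← nm_self (D * L) k y]
    exact nm_congr _ fun j _ => (Nat.div_add_mod' _ _).symm
  have eu : u = nn 1 E k (fun _ => 0) a 0 := by
    rw [nn_one, ← Nat.div_eq_of_lt hu, nm_self]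
  have hb : ∀ v' : ℕ → ℕ, (∀ j, v' j ≤ v j + 2) → nn D (L + 1) k hi v' t < 16 * Y := by
    intro v' h
    have h1 := nm_scale (D := D) (L := L) (k := k) (d := fun j => hi j * (L + 1) + v' j)
      (z := fun j => hi j * L + v j + 2) (t + 0) fun j _ => by nlinarith [h j]
    have h2 := geo_le (B := D * L) (k := k) (Y := Y)
      ((Nat.le_of_dvd hL hL2).trans (Nat.le_mul_of_pos_left _ hD))
      fun j hj => Nat.le_of_dvd (by omega) (hY j hj)
    rw [← nm_add (D * L), add_zero] at h1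
    have h3 := Nat.mul_le_mul (pow_bound hkL)
      (show nm (D * L) k (fun j => hi j * L + v j) t + nm (D * L) k (fun _ => 2) 0 ≤ 3 * Y by
        rw [nn] at ey; omega)
    have h4 : L ^ k * nn D (L + 1) k hi v' t ≤ L ^ k * (9 * Y) :=
      (h1.trans h3).trans_eq (by ring)
    have := Nat.le_of_mul_le_mul_left h4 (by positivity)
    omega
  have hU : ∀ a' : ℕ → ℕ, (∀ j, a' j ≤ a j + 1) → nm (E + 1) k a' 0 < K ∧
      ∀ j < k, dg (E + 1) (nm (E + 1) k a' 0) j = a' j := fun a' h =>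
    have h1 : ∀ j < k, a' j < E + 1 := fun j _ => by have := h j; have := ha j; omega
    ⟨(nm_lt h1).trans_le hK, (nm_dig 0 h1).1⟩
  have hcs : ∀ j, (gam fl (hi j) = 0 ∨ gam fl (hi j) = 1) ∧ (a j % 2 = 0 ∨ a j % 2 = 1) ∧
      (v j % 2 = 0 ∨ v j % 2 = 1) := fun j =>
    ⟨by have := hγ j; omega, by omega, by omega⟩
  set v1 := fun j => v j + gam fl (hi j) * (a j % 2) with hv1
  set a1 := fun j => a j + gam fl (hi j) * ((v1 j + 0) % 2) with ha1
  set v3 := fun j => flv fl (hi j) (v j) with hv3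
  set v2 := fun j => v3 j + gam fl (hi j) * (a j % 2) with hv2
  have b3 : ∀ j, v3 j < L ∧ v3 j ≤ v j + 1 := fun j => by
    have := flv_half fl (hi j) (v j)
    have := (hv j).2
    simp only [hv3]
    omega
  have b1 : ∀ j, v1 j ≤ v j + 1 := fun j => by
    rcases hcs j with ⟨h | h, h' | h', -⟩ <;> simp only [hv1, h, h'] <;> omega
  have b2 : ∀ j, v2 j ≤ v3 j + 1 := fun j => by
    rcases hcs j with ⟨h | h, h' | h', -⟩ <;> simp only [hv2, h, h'] <;> omega
  have b4 : ∀ j, a1 j ≤ a j + 1 := fun j => by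
    rcases hcs j with ⟨h | h, -⟩ <;> simp only [ha1, h] <;> omega
  obtain ⟨U0, dU0⟩ := hU a fun j => Nat.le_succ _
  obtain ⟨U1, dU1⟩ := hU a1 b4
  have Y1 := hb v1 fun j => (b1 j).trans (by omega)
  have Y2 := hb v2 fun j => by have := b2 j; have := b3 j; omega
  have w1 : ∀ j < k, hi j < D ∧ v1 j < L + 1 := fun j _ =>
    ⟨(hv j).1, by have := b1 j; have := (hv j).2; omega⟩
  have w2 : ∀ j < k, hi j < D ∧ v2 j < L + 1 := fun j _ =>
    ⟨(hv j).1, by have := b2 j; have := (b3 j).1; omega⟩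
  have hr : w * C + c < K * C := by simpa using ix_lt (H := 1) Nat.one_pos hw hc
  have hR : ∀ y < Y, (y * K + w) * C + c < Y * K * C := fun y hy => ix_lt hy hw hc
  have r1 : ∀ x Y y : ℕ, ((x * Y + y) * K + w) * C + c = (x * Y + y) * (K * C) + (w * C + c) :=
    fun _ _ _ => by ring
  have r2 : ∀ X x y : ℕ, ((x * Y + y) * K + w) * C + c =
      (0 * X + x) * (Y * K * C) + ((y * K + w) * C + c) := fun _ _ _ => by ring
  refine ⟨_, _, _, _, _, _, _, _, _, _, ⟨?_, ?_, swap_mk U0 Y1 hw hc, ?_, swap_mk hw Y1 U1 hc, ?_,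
    swap_mk U1 Y2 hw hc, ?_, swap_mk hw Y2 U0 hc, ?_, ?_⟩, pos_lt U0 hy hw hc, pos_lt U0 Y1 hw hc,
    pos_lt hw Y1 U0 hc, pos_lt hw Y1 U1 hc, pos_lt U1 Y1 hw hc, pos_lt U1 Y2 hw hc,
    pos_lt hw Y2 U1 hc, pos_lt hw Y2 U0 hc, pos_lt U0 Y2 hw hc, pos_lt U0 hf hw hc⟩
  · rw [r2 (E ^ k), r2 K, ← nn_one]
    conv_lhs => rw [eu]
    exact px_mk _ (hR y hy) (eu ▸ hu) (by rwa [nn_one]) (fun j _ => ⟨one_pos, ha j⟩)
      fun j _ => ⟨Nat.lt_succ_of_lt (ha j), by simp [spv, smv]⟩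
  · rw [r1, r1]
    conv_lhs => rw [ey]
    exact px_mk _ hr (ey ▸ hy) Y1 (fun j _ => hv j) fun j hj =>
      ⟨(w1 j hj).2, by simp [spv, smv, dU0 j hj, hv1]⟩
  · rw [rotIx, digIx_mk _ U0 hc, sh_mk Y1 w1, nm_add, Nat.mod_eq_of_lt U1]
  · rw [r1, r1]
    refine px_mk _ hr Y1 Y2 w1 fun j hj => ⟨(w2 j hj).2, ?_⟩
    rw [spv, smv, dU1 j hj]
    simp only [hv1, hv2, hv3, ha1, flv]
    rcases hcs j with ⟨h | h, h' | h', h'' | h''⟩ <;> simp only [h, h', h''] <;> omega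
  · have e : nm (E + 1) k a1 0 = nm (E + 1) k a 0 +
        nm (E + 1) k (fun j => gam fl (hi j) * ((v2 j + 1) % 2)) 0 := by
      rw [nm_add]
      refine nm_congr _ fun j _ => ?_
      simp only [hv1, hv2, hv3, ha1, flv]
      rcases hcs j with ⟨h | h, h' | h', h'' | h''⟩ <;> simp only [h, h', h''] <;> omega
    rw [rotIx, digIx_mk _ U1 hc, sh_mk Y2 w2, e, add_assoc, Nat.add_sub_cancel' (by omega),
      Nat.add_mod_right, Nat.mod_eq_of_lt U0]
  · rw [r1, r1]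
    exact px_mk _ hr Y2 hf w2 fun j hj => ⟨(b3 j).1, by simp [spv, smv, dU0 j hj, hv2, hv3]⟩
  · rw [r2 K, r2 (E ^ k), ← nn_one]
    conv_rhs => rw [eu]
    exact px_mk _ (hR _ hf) (by rwa [nn_one]) (eu ▸ hu)
      (fun j _ => ⟨one_pos, Nat.lt_succ_of_lt (ha j)⟩) fun j _ => ⟨ha j, by simp [spv, smv]⟩

end Pm

end Vale.Agent.P338.XorAux
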